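import Vale.Agent.P162.MathlibUsed
import Vale.Agent.P162.Law

set_option linter.all false

section

section

section

open Equiv Finset

namespace Vale.Agent.P162

variable {C : Type*} [Fintype C] [DecidableEq C]

/-- Unnormalized generator of the interchange process on the complete graph on `B`,
acting by right multiplication. -/
noncomputable def lapB (B : Finset C) (f : Perm C → ℝ) (g : Perm C) : ℝ :=
  (1 / 2) * ∑ a ∈ B, ∑ b ∈ B, (f g - f (g * swap a b))

/-- All partial sums of `f` over the cylinder sets fixing fewer than `k` values vanish. -/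
def LevelOrth (k : ℕ) (f : Perm C → ℝ) : Prop :=
  ∀ S : Finset C, S.card < k → ∀ g : Perm C,
    ∑ h : Perm C, (if ∀ c ∈ S, h c = g c then f h else 0) = 0

/-- Sum over the right coset of the pointwise stabilizer of `D`. -/
noncomputable def avg (D : Finset C) (f : Perm C → ℝ) (g : Perm C) : ℝ :=
  ∑ σ : Perm C, (if ∀ c ∈ D, σ c = c then f (g * σ) else 0)

/-- Orthogonality to functions of fewer than `k` cards of `B` and all the cards outside `B`. -/
def OrthB (B : Finset C) (k : ℕ) (f : Perm C → ℝ) : Prop :=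
  ∀ S ⊆ B, S.card < k → ∀ g : Perm C, avg (S ∪ Bᶜ) f g = 0

lemma avg_eq_sum (D : Finset C) (f : Perm C → ℝ) (g : Perm C) :
    avg D f g = ∑ h : Perm C, (if ∀ c ∈ D, h c = g c then f h else 0) := by
  unfold avg
  rw [← Equiv.sum_comp (Equiv.mulLeft g)
    (fun h : Perm C => (if ∀ c ∈ D, h c = g c then f h else 0))]
  refine Finset.sum_congr rfl fun σ _ => ?_
  simp only [Equiv.coe_mulLeft, Perm.coe_mul, Function.comp_apply, EmbeddingLike.apply_eq_iff_eq]

lemma levelOrth_iff (k : ℕ) (f : Perm C → ℝ) : LevelOrth k f ↔ OrthB univ k f := by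
  unfold LevelOrth OrthB
  constructor
  · intro h S _ hS g
    rw [avg_eq_sum]
    simpa only [compl_univ, union_empty] using h S hS g
  · intro h S hS g
    have := h S (subset_univ S) hS g
    rw [avg_eq_sum] at this
    simpa only [compl_univ, union_empty] using this

lemma avg_add (D : Finset C) (f₁ f₂ : Perm C → ℝ) (g : Perm C) :
    avg D (f₁ + f₂) g = avg D f₁ g + avg D f₂ g := by
  unfold avg
  rw [← Finset.sum_add_distrib]
  refine Finset.sum_congr rfl fun σ _ => ?_
  split_ifs <;> simp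

lemma avg_smul (D : Finset C) (r : ℝ) (f : Perm C → ℝ) (g : Perm C) :
    avg D (r • f) g = r * avg D f g := by
  unfold avg
  rw [Finset.mul_sum]
  refine Finset.sum_congr rfl fun σ _ => ?_
  split_ifs <;> simp

lemma lapB_add (B : Finset C) (f₁ f₂ : Perm C → ℝ) (g : Perm C) :
    lapB B (f₁ + f₂) g = lapB B f₁ g + lapB B f₂ g := by
  unfold lapB
  rw [← mul_add, ← Finset.sum_add_distrib]
  congr 1
  refine Finset.sum_congr rfl fun a _ => ?_
  rw [← Finset.sum_add_distrib]
  refine Finset.sum_congr rfl fun b _ => ?_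
  simp only [Pi.add_apply]
  ring

lemma lapB_smul (B : Finset C) (r : ℝ) (f : Perm C → ℝ) (g : Perm C) :
    lapB B (r • f) g = r * lapB B f g := by
  unfold lapB
  simp only [Pi.smul_apply, smul_eq_mul, ← mul_sub, ← Finset.mul_sum]
  ring

/-- The generator as a linear map. -/
noncomputable def lapLin (B : Finset C) : (Perm C → ℝ) →ₗ[ℝ] (Perm C → ℝ) where
  toFun f := lapB B f
  map_add' f₁ f₂ := by funext g; exact lapB_add B f₁ f₂ g
  map_smul' r f := by funext g; exact lapB_smul B r f g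

/-- the averaging commutes with the generator -/
lemma avg_lapB (B S : Finset C) (f : Perm C → ℝ) (g : Perm C) :
    avg (S ∪ Bᶜ) (lapB B f) g = lapB B (avg (S ∪ Bᶜ) f) g := by
  have h1 : ∀ σ : Perm C, (∀ c ∈ S ∪ Bᶜ, σ c = c) → lapB B f (g * σ) =
      (1 / 2) * ∑ a ∈ B, ∑ b ∈ B, (f (g * σ) - f (g * swap a b * σ)) := by
    intro σ hσ
    have hB : ∀ a, a ∈ B ↔ σ a ∈ B := by
      intro a
      by_cases ha : a ∈ B
      · refine ⟨fun _ => ?_, fun _ => ha⟩
        by_contra hc
        have h2 : σ (σ a) = σ a := hσ _ (mem_union_right _ (mem_compl.2 hc))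
        exact hc (by rw [σ.injective h2]; exact ha)
      · have h2 : σ a = a := hσ _ (mem_union_right _ (mem_compl.2 ha))
        rw [h2]
    unfold lapB
    congr 1
    rw [← Finset.sum_equiv σ (s := B) (t := B) (f := fun a => ∑ b ∈ B,
      (f (g * σ) - f (g * swap (σ a) b * σ))) (g := fun a => ∑ b ∈ B,
      (f (g * σ) - f (g * swap a b * σ))) hB (fun _ _ => rfl)]
    refine Finset.sum_congr rfl fun a _ => ?_
    rw [← Finset.sum_equiv σ (s := B) (t := B) (f := fun b =>
      (f (g * σ) - f (g * swap (σ a) (σ b) * σ))) (g := fun b =>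
      (f (g * σ) - f (g * swap (σ a) b * σ))) hB (fun _ _ => rfl)]
    refine Finset.sum_congr rfl fun b _ => ?_
    have h3 : g * σ * swap a b = g * swap (σ a) (σ b) * σ := by
      rw [mul_assoc, mul_assoc, Equiv.swap_apply_apply]
      simp only [mul_assoc, inv_mul_cancel, mul_one]
    rw [h3]
  have h4 : avg (S ∪ Bᶜ) (lapB B f) g = ∑ σ : Perm C, (if ∀ c ∈ S ∪ Bᶜ, σ c = c then
      (1 / 2) * ∑ a ∈ B, ∑ b ∈ B, (f (g * σ) - f (g * swap a b * σ)) else 0) := by
    unfold avg
    refine Finset.sum_congr rfl fun σ _ => ?_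
    by_cases hσ : ∀ c ∈ S ∪ Bᶜ, σ c = c
    · rw [if_pos hσ, if_pos hσ, h1 σ hσ]
    · rw [if_neg hσ, if_neg hσ]
  rw [h4]
  unfold lapB avg
  have h5 : ∀ σ : Perm C, (if ∀ c ∈ S ∪ Bᶜ, σ c = c then
      (1 / 2) * ∑ a ∈ B, ∑ b ∈ B, (f (g * σ) - f (g * swap a b * σ)) else 0) =
      (1 / 2) * ∑ a ∈ B, ∑ b ∈ B, (if ∀ c ∈ S ∪ Bᶜ, σ c = c then
        (f (g * σ) - f (g * swap a b * σ)) else 0) := by
    intro σ
    split_ifs
    · rfl
    · simp
  simp_rw [h5]
  rw [← Finset.mul_sum, Finset.sum_comm]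
  congr 1
  refine Finset.sum_congr rfl fun a _ => ?_
  rw [Finset.sum_comm]
  refine Finset.sum_congr rfl fun b _ => ?_
  rw [← Finset.sum_sub_distrib]
  refine Finset.sum_congr rfl fun σ _ => ?_
  split_ifs
  · rfl
  · simp

/-- invariance of the average under the stabilizer -/
lemma avg_mul (D : Finset C) (f : Perm C → ℝ) (g τ : Perm C) (hτ : ∀ c ∈ D, τ c = c) :
    avg D f (g * τ) = avg D f g := by
  unfold avg
  rw [← Equiv.sum_comp (Equiv.mulLeft τ)
    (fun σ : Perm C => (if ∀ c ∈ D, σ c = c then f (g * σ) else 0))]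
  refine Finset.sum_congr rfl fun σ _ => ?_
  simp only [Equiv.coe_mulLeft, Perm.coe_mul, Function.comp_apply, mul_assoc]
  have : (∀ c ∈ D, τ (σ c) = c) ↔ ∀ c ∈ D, σ c = c := by
    refine forall₂_congr fun c hc => ?_
    constructor
    · intro h
      apply τ.injective
      rw [h, hτ c hc]
    · intro h
      rw [h, hτ c hc]
  simp only [this]

/-- coset decomposition -/
lemma sum_avg_swap (D : Finset C) {c : C} (hc : c ∉ D) (f : Perm C → ℝ) (g : Perm C) :
    ∑ c' ∈ Dᶜ, avg (insert c D) f (g * swap c c') = avg D f g := by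
  have h1 : ∀ ρ : Perm C, (if ∀ d ∈ D, ρ d = d then f (g * ρ) else 0) =
      ∑ c' ∈ Dᶜ, (if (∀ d ∈ D, ρ d = d) ∧ ρ c = c' then f (g * ρ) else 0) := by
    intro ρ
    by_cases hρ : ∀ d ∈ D, ρ d = d
    · rw [if_pos hρ, Finset.sum_eq_single (ρ c)]
      · rw [if_pos ⟨hρ, rfl⟩]
      · intro b _ hb
        rw [if_neg fun h => hb h.2.symm]
      · intro h
        exfalso
        rw [mem_compl, not_not] at h
        have h2 := hρ _ h
        exact hc (by rw [← ρ.injective h2]; exact h)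
    · rw [if_neg hρ]
      exact (Finset.sum_eq_zero fun c' _ => if_neg fun h => hρ h.1).symm
  unfold avg
  simp_rw [h1]
  symm
  rw [Finset.sum_comm]
  refine Finset.sum_congr rfl fun c' hc' => ?_
  symm
  rw [← Equiv.sum_comp (Equiv.mulLeft (swap c c'))
    (fun ρ : Perm C => (if (∀ d ∈ D, ρ d = d) ∧ ρ c = c' then f (g * ρ) else 0))]
  refine Finset.sum_congr rfl fun σ _ => ?_
  rw [mul_assoc]
  have hc'D : c' ∉ D := mem_compl.1 hc'
  have h3 : (∀ d ∈ insert c D, σ d = d) ↔
      ((∀ d ∈ D, swap c c' (σ d) = d) ∧ swap c c' (σ c) = c') := by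
    rw [Finset.forall_mem_insert, and_comm]
    refine and_congr ?_ ?_
    · refine forall₂_congr fun d hd => ?_
      have hd1 : d ≠ c := fun h => hc (h ▸ hd)
      have hd2 : d ≠ c' := fun h => hc'D (h ▸ hd)
      rw [Equiv.swap_apply_eq_iff, Equiv.swap_apply_of_ne_of_ne hd1 hd2]
    · rw [Equiv.swap_apply_eq_iff, Equiv.swap_apply_right]
  by_cases h4 : ∀ d ∈ insert c D, σ d = d
  · rw [if_pos h4]
    exact (if_pos (h3.1 h4)).symm
  · rw [if_neg h4]
    exact (if_neg (fun h => h4 (h3.2 h))).symm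

lemma symm_rt (f : Perm C → ℝ) (a b : C) :
    ∑ g, f g * f (g * swap a b) ≤ ∑ g, f g ^ 2 := by
  have h1 : ∑ g, f (g * swap a b) ^ 2 = ∑ g, f g ^ 2 :=
    Equiv.sum_comp (Equiv.mulRight (swap a b)) (fun g : Perm C => f g ^ 2)
  have h2 : ∑ g, (2 * (f g * f (g * swap a b))) ≤ ∑ g, (f g ^ 2 + f (g * swap a b) ^ 2) := by
    refine Finset.sum_le_sum fun g _ => ?_
    nlinarith only [sq_nonneg (f g - f (g * swap a b))]
  rw [Finset.sum_add_distrib, h1, ← Finset.mul_sum] at h2
  linarith only [h2]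

/-- The key computation: on a function of the cards in `S` (and outside `B`) all of whose
one-variable sums vanish the generator is at least `l (n - l + 1)`. -/
lemma sum_mul_lapB_ge {B S : Finset C} (hS : S ⊆ B) (z : Perm C → ℝ)
    (hz : ∀ g τ : Perm C, (∀ c ∈ S ∪ Bᶜ, τ c = c) → z (g * τ) = z g)
    (hz0 : ∀ c ∈ S, ∀ g, ∑ c' ∈ B \ (S.erase c), z (g * swap c c') = 0) :
    (S.card * (B.card - S.card + 1) : ℝ) * ∑ g, z g ^ 2 ≤ ∑ g, z g * lapB B z g := by
  have hcard : ((B \ S).card : ℝ) = B.card - S.card := by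
    rw [Finset.card_sdiff_of_subset hS, Nat.cast_sub (Finset.card_le_card hS)]
  -- mixed terms
  have hmix : ∀ a ∈ S, ∀ g, ∑ b ∈ B \ S, (z g - z (g * swap a b)) =
      (B.card - S.card + 1 : ℝ) * z g := by
    intro a ha g
    have h1 := hz0 a ha g
    have h2 : B \ (S.erase a) = insert a (B \ S) := by
      ext x
      simp only [mem_sdiff, mem_erase, mem_insert, not_and]
      constructor
      · rintro ⟨hx, h⟩
        by_cases hxa : x = a
        · exact Or.inl hxa
        · exact Or.inr ⟨hx, h hxa⟩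
      · rintro (rfl | ⟨hx, h⟩)
        · exact ⟨hS ha, fun h => absurd rfl h⟩
        · exact ⟨hx, fun _ => h⟩
    rw [h2, Finset.sum_insert (by simp [ha]), swap_self] at h1
    have h3 : z (g * Equiv.refl C) = z g := rfl
    rw [h3] at h1
    rw [Finset.sum_sub_distrib, Finset.sum_const, nsmul_eq_mul, hcard]
    linarith only [h1]
  have hform : ∀ g, lapB B z g = (S.card * (B.card - S.card + 1) : ℝ) * z g +
      (1 / 2) * ∑ a ∈ S, ∑ b ∈ S, (z g - z (g * swap a b)) := by
    intro g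
    unfold lapB
    have hsplit : ∀ F : C → ℝ, ∑ a ∈ B, F a = ∑ a ∈ B \ S, F a + ∑ a ∈ S, F a := fun F =>
      (Finset.sum_sdiff hS).symm
    rw [hsplit]
    have e1 : ∑ a ∈ B \ S, ∑ b ∈ B, (z g - z (g * swap a b)) =
        ∑ a ∈ B \ S, ∑ b ∈ S, (z g - z (g * swap a b)) := by
      refine Finset.sum_congr rfl fun a ha => ?_
      rw [hsplit]
      rw [Finset.sum_eq_zero (s := B \ S), zero_add]
      intro b hb
      rw [hz, sub_self]
      intro c hc
      rw [mem_sdiff] at ha hb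
      rw [mem_union, mem_compl] at hc
      refine Equiv.swap_apply_of_ne_of_ne ?_ ?_
      · rintro rfl
        rcases hc with h | h
        · exact ha.2 h
        · exact h ha.1
      · rintro rfl
        rcases hc with h | h
        · exact hb.2 h
        · exact h hb.1
    have e2 : ∑ a ∈ B \ S, ∑ b ∈ S, (z g - z (g * swap a b)) =
        (S.card * (B.card - S.card + 1) : ℝ) * z g := by
      rw [Finset.sum_comm]
      have : ∀ a ∈ S, ∑ b ∈ B \ S, (z g - z (g * swap b a)) =
          (B.card - S.card + 1 : ℝ) * z g := by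
        intro a ha
        rw [← hmix a ha g]
        refine Finset.sum_congr rfl fun b _ => ?_
        rw [swap_comm]
      rw [Finset.sum_congr rfl this, Finset.sum_const, nsmul_eq_mul]
      ring
    have e3 : ∑ a ∈ S, ∑ b ∈ B, (z g - z (g * swap a b)) =
        (S.card * (B.card - S.card + 1) : ℝ) * z g +
          ∑ a ∈ S, ∑ b ∈ S, (z g - z (g * swap a b)) := by
      have : ∀ a ∈ S, ∑ b ∈ B, (z g - z (g * swap a b)) =
          (B.card - S.card + 1 : ℝ) * z g + ∑ b ∈ S, (z g - z (g * swap a b)) := by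
        intro a ha
        rw [hsplit, hmix a ha g]
      rw [Finset.sum_congr rfl this, Finset.sum_add_distrib, Finset.sum_const, nsmul_eq_mul]
      ring
    rw [e1, e2, e3]
    ring
  have hpos : 0 ≤ ∑ g, z g * ∑ a ∈ S, ∑ b ∈ S, (z g - z (g * swap a b)) := by
    have e4 : ∑ g, z g * ∑ a ∈ S, ∑ b ∈ S, (z g - z (g * swap a b)) =
        ∑ a ∈ S, ∑ b ∈ S, (∑ g, z g ^ 2 - ∑ g, z g * z (g * swap a b)) := by
      simp_rw [Finset.mul_sum]
      rw [Finset.sum_comm]
      refine Finset.sum_congr rfl fun a _ => ?_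
      rw [Finset.sum_comm]
      refine Finset.sum_congr rfl fun b _ => ?_
      rw [← Finset.sum_sub_distrib]
      refine Finset.sum_congr rfl fun g _ => ?_
      ring
    rw [e4]
    exact Finset.sum_nonneg fun a _ => Finset.sum_nonneg fun b _ =>
      sub_nonneg.2 (symm_rt z a b)
  have e5 : ∑ g, z g * lapB B z g = (S.card * (B.card - S.card + 1) : ℝ) * ∑ g, z g ^ 2 +
      (1 / 2) * ∑ g, z g * ∑ a ∈ S, ∑ b ∈ S, (z g - z (g * swap a b)) := by
    rw [Finset.mul_sum, Finset.mul_sum, ← Finset.sum_add_distrib]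
    refine Finset.sum_congr rfl fun g _ => ?_
    rw [hform]
    ring
  rw [e5]
  linarith only [hpos]

/-- The generators of the subsets of `B` with one point removed sum to a multiple of the
generator of `B`. -/
lemma sum_lapB_erase (B : Finset C) (f : Perm C → ℝ) (g : Perm C) :
    ∑ c ∈ B, lapB (B.erase c) f g = (B.card - 2 : ℝ) * lapB B f g := by
  have h1 : ∀ c ∈ B, lapB (B.erase c) f g = (1 / 2) * ∑ a ∈ B, ∑ b ∈ B,
      (if a ≠ c ∧ b ≠ c then (f g - f (g * swap a b)) else 0) := by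
    intro c hc
    unfold lapB
    congr 1
    rw [← Finset.filter_ne' B c, Finset.sum_filter]
    refine Finset.sum_congr rfl fun a _ => ?_
    rw [Finset.sum_filter]
    split_ifs with ha
    · refine Finset.sum_congr rfl fun b _ => ?_
      by_cases hb : b = c
      · simp [hb]
      · simp [hb, ha]
    · simp [ha]
  rw [Finset.sum_congr rfl h1, ← Finset.mul_sum, Finset.sum_comm]
  have h0 : (B.card - 2 : ℝ) * lapB B f g =
      (1 / 2) * ((B.card - 2 : ℝ) * ∑ a ∈ B, ∑ b ∈ B, (f g - f (g * swap a b))) := by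
    unfold lapB
    ring
  rw [h0]
  congr 1
  rw [Finset.mul_sum]
  refine Finset.sum_congr rfl fun a ha => ?_
  rw [Finset.sum_comm, Finset.mul_sum]
  refine Finset.sum_congr rfl fun b hb => ?_
  by_cases hab : a = b
  · subst hab
    have h2 : f g - f (g * swap a a) = 0 := by
      rw [swap_self]; exact sub_self _
    rw [h2]
    simp
  · rw [← Finset.sum_filter, Finset.sum_const, nsmul_eq_mul]
    congr 1
    have h3 : {c ∈ B | a ≠ c ∧ b ≠ c} = (B.erase a).erase b := by
      ext x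
      simp only [mem_filter, mem_erase]
      constructor
      · rintro ⟨h, h1, h2⟩
        exact ⟨Ne.symm h2, Ne.symm h1, h⟩
      · rintro ⟨h2, h1, h⟩
        exact ⟨h, Ne.symm h1, Ne.symm h2⟩
    have hb' : b ∈ B.erase a := mem_erase.2 ⟨Ne.symm hab, hb⟩
    rw [h3, card_erase_of_mem hb', card_erase_of_mem ha]
    have h4 : 2 ≤ B.card := by
      have : 1 < B.card := Finset.one_lt_card.2 ⟨a, ha, b, hb, hab⟩
      omega
    have h5 : B.card - 1 - 1 = B.card - 2 := by omega
    rw [h5, Nat.cast_sub h4]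
    norm_num

lemma OrthB.erase {B : Finset C} {k : ℕ} {f : Perm C → ℝ} (hf : OrthB B (k + 1) f) {c : C}
    (hc : c ∈ B) : OrthB (B.erase c) k f := by
  intro S hS hSk g
  have hcS : c ∉ S := fun h => (mem_erase.1 (hS h)).1 rfl
  have h1 : insert c S ⊆ B := by
    intro x hx
    rcases mem_insert.1 hx with rfl | h
    · exact hc
    · exact (mem_erase.1 (hS h)).2
  have h2 := hf (insert c S) h1 (by rw [card_insert_of_notMem hcS]; omega) g
  have h3 : insert c S ∪ Bᶜ = S ∪ (B.erase c)ᶜ := by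
    ext x
    simp only [mem_union, mem_insert, mem_compl, mem_erase, not_and, ne_eq]
    by_cases hx : x = c
    · simp [hx]
    · simp [hx]
  rwa [h3] at h2

/-- large levels -/
lemma large_level {n : ℕ} (hn : 2 ≤ n) (ih : ∀ B : Finset C, B.card = n → ∀ k, ∀ f : Perm C → ℝ,
      OrthB B k f → (n * min ((k : ℝ) / 2) (((n : ℝ) - 1) / 4) : ℝ) * ∑ g, f g ^ 2 ≤
        ∑ g, f g * lapB B f g)
    {B : Finset C} (hB : B.card = n + 1) {k : ℕ} (hk : n + 1 ≤ 2 * k) {f : Perm C → ℝ}
    (hf : OrthB B k f) : ((n + 1) * (n / 4) : ℝ) * ∑ g, f g ^ 2 ≤ ∑ g, f g * lapB B f g := by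
  obtain ⟨k, rfl⟩ : ∃ j, k = j + 1 := ⟨k - 1, by omega⟩
  have h1 : ∀ c ∈ B, (n * ((n - 1) / 4) : ℝ) * ∑ g, f g ^ 2 ≤
      ∑ g, f g * lapB (B.erase c) f g := by
    intro c hc
    have h2 := ih (B.erase c) (by rw [card_erase_of_mem hc, hB]; rfl) k f (hf.erase hc)
    have h3 : min ((k : ℝ) / 2) ((n - 1) / 4) = (n - 1) / 4 := by
      apply min_eq_right
      have : (n : ℝ) + 1 ≤ 2 * (k + 1) := by exact_mod_cast hk
      linarith only [this]
    rwa [h3] at h2
  have h4 := Finset.sum_le_sum h1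
  rw [Finset.sum_const, nsmul_eq_mul, Finset.sum_comm] at h4
  have h5 : ∀ g, ∑ c ∈ B, f g * lapB (B.erase c) f g =
      (B.card - 2 : ℝ) * (f g * lapB B f g) := by
    intro g
    rw [← Finset.mul_sum, sum_lapB_erase]
    ring
  simp_rw [h5] at h4
  rw [← Finset.mul_sum, hB] at h4
  push_cast at h4
  have h6 : (0 : ℝ) < n - 1 := by
    have : (2 : ℝ) ≤ n := by exact_mod_cast hn
    linarith only [this]
  have h7 : (n - 1 : ℝ) * (((n + 1) * (n / 4) : ℝ) * ∑ g, f g ^ 2) ≤
      (n - 1 : ℝ) * ∑ g, f g * lapB B f g := by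
    have e1 : (n - 1 : ℝ) * (((n + 1) * (n / 4) : ℝ) * ∑ g, f g ^ 2) =
      (n + 1) * (n * ((n - 1) / 4) * ∑ g, f g ^ 2) := by ring
    have e2 : (n + 1 - 2 : ℝ) = n - 1 := by ring
    rw [e2] at h4
    rw [e1]
    exact h4
  exact le_of_mul_le_mul_left h7 h6

/-- eigenfunctions orthogonal to the low levels have large eigenvalue, unless they are orthogonal
to many levels -/
lemma eigen_bound {B : Finset C} {k : ℕ} {e : Perm C → ℝ} (he : e ≠ 0) {μ : ℝ}
    (hμ : lapB B e = μ • e) (hk : OrthB B k e) :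
    ∃ l, k ≤ l ∧ l ≤ B.card ∧ OrthB B l e ∧ (l * (B.card - l + 1) : ℝ) ≤ μ := by
  classical
  let P : ℕ → Prop := fun j => ∃ S ⊆ B, S.card = j ∧ ∃ g, avg (S ∪ Bᶜ) e g ≠ 0
  have hPB : P B.card := by
    obtain ⟨g, hg⟩ : ∃ g, e g ≠ 0 := by
      by_contra h
      push Not at h
      exact he (funext h)
    refine ⟨B, Subset.refl B, rfl, g, ?_⟩
    have : avg (B ∪ Bᶜ) e g = e g := by
      unfold avg
      rw [Finset.sum_eq_single 1]
      · simp only [union_compl, mem_univ, Perm.coe_one, id_eq, imp_self, implies_true, ↓reduceIte, mul_one]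
      · intro σ _ hσ
        rw [if_neg]
        intro h
        apply hσ
        ext x
        exact h x (by rw [union_compl]; exact mem_univ x)
      · intro h
        exact absurd (mem_univ _) h
    rw [this]
    exact hg
  have hex : ∃ j, P j := ⟨_, hPB⟩
  let l := Nat.find hex
  obtain ⟨S, hSB, hSl, g0, hg0⟩ : P l := Nat.find_spec hex
  have hmin : OrthB B l e := by
    intro T hT hTl g
    by_contra h
    exact Nat.find_min hex hTl ⟨T, hT, rfl, g, h⟩
  have hkl : k ≤ l := by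
    by_contra h
    push Not at h
    exact hg0 (hk S hSB (by omega) g0)
  refine ⟨l, hkl, Nat.find_min' hex hPB, hmin, ?_⟩
  set z : Perm C → ℝ := avg (S ∪ Bᶜ) e with hz
  have h1 := sum_mul_lapB_ge hSB z (fun g τ hτ => avg_mul _ e g τ hτ) (by
    intro c hc g
    have h2 := sum_avg_swap (S.erase c ∪ Bᶜ) (c := c) (by simp [hSB hc]) e g
    have h3 : insert c (S.erase c ∪ Bᶜ) = S ∪ Bᶜ := by
      rw [← Finset.insert_union, Finset.insert_erase hc]
    have h4 : (S.erase c ∪ Bᶜ)ᶜ = B \ S.erase c := by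
      ext x
      simp only [mem_compl, mem_union, not_or, not_not, mem_sdiff]
      (clear * - hPB hex hSl hmin hkl; tauto)
    rw [h3, h4] at h2
    rw [h2]
    refine hmin _ ((erase_subset _ _).trans hSB) ?_ g
    rw [card_erase_of_mem hc]
    have : 0 < S.card := card_pos.2 ⟨c, hc⟩
    omega)
  have h5 : lapB B z = μ • z := by
    funext g
    have h6 := avg_lapB B S e g
    rw [hμ, avg_smul] at h6
    rw [← h6]
    rfl
  have h7 : ∑ g, z g * lapB B z g = μ * ∑ g, z g ^ 2 := by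
    rw [h5, Finset.mul_sum]
    refine Finset.sum_congr rfl fun g _ => ?_
    simp only [Pi.smul_apply, smul_eq_mul]
    ring
  have h8 : 0 < ∑ g, z g ^ 2 :=
    Finset.sum_pos' (fun g _ => sq_nonneg _) ⟨g0, mem_univ _, by (clear * - hg0; positivity)⟩
  rw [h7, hSl] at h1
  exact le_of_mul_le_mul_right h1 h8

lemma lapB_symm (B : Finset C) (u v : Perm C → ℝ) :
    ∑ g, u g * lapB B v g = ∑ g, lapB B u g * v g := by
  have h1 : ∀ u v : Perm C → ℝ, ∑ g, u g * lapB B v g =
      (1 / 2) * ∑ a ∈ B, ∑ b ∈ B, (∑ g, u g * v g - ∑ g, u g * v (g * swap a b)) := by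
    intro u v
    have h2 : ∀ g, u g * lapB B v g = (1 / 2) * ∑ a ∈ B, ∑ b ∈ B,
        (u g * v g - u g * v (g * swap a b)) := by
      intro g
      unfold lapB
      simp only [Finset.mul_sum]
      refine Finset.sum_congr rfl fun a _ => Finset.sum_congr rfl fun b _ => ?_
      ring
    simp_rw [h2]
    rw [← Finset.mul_sum, Finset.sum_comm]
    congr 1
    refine Finset.sum_congr rfl fun a _ => ?_
    rw [Finset.sum_comm]
    refine Finset.sum_congr rfl fun b _ => ?_
    rw [Finset.sum_sub_distrib]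
  have h3 : ∑ g, lapB B u g * v g = ∑ g, v g * lapB B u g :=
    Finset.sum_congr rfl fun g _ => mul_comm _ _
  rw [h3, h1, h1]
  congr 1
  refine Finset.sum_congr rfl fun a _ => Finset.sum_congr rfl fun b _ => ?_
  congr 1
  · exact Finset.sum_congr rfl fun g _ => mul_comm _ _
  · rw [← Equiv.sum_comp (Equiv.mulRight (swap a b)) (fun g : Perm C => v g * u (g * swap a b))]
    refine Finset.sum_congr rfl fun g _ => ?_
    simp only [Equiv.coe_mulRight, mul_assoc, Equiv.swap_mul_self, mul_one]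
    exact mul_comm _ _

/-- minimization of the Rayleigh quotient on an invariant subspace -/
lemma exists_eigen_min {ι : Type*} [Fintype ι] (T : (ι → ℝ) →ₗ[ℝ] (ι → ℝ))
    (hT : ∀ u v : ι → ℝ, ∑ i, u i * T v i = ∑ i, T u i * v i) (M : Submodule ℝ (ι → ℝ))
    (hM : ∀ v ∈ M, T v ∈ M) {f : ι → ℝ} (hfM : f ∈ M) (hf : f ≠ 0) :
    ∃ e ∈ M, e ≠ 0 ∧ ∃ μ : ℝ, T e = μ • e ∧ μ * ∑ i, f i ^ 2 ≤ ∑ i, f i * T f i := by
  classical
  let W : (ι → ℝ) ≃ₗ[ℝ] EuclideanSpace ℝ ι := (WithLp.linearEquiv 2 ℝ (ι → ℝ)).symm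
  let M' : Submodule ℝ (EuclideanSpace ℝ ι) := M.map W.toLinearMap
  have hinner : ∀ u v : ι → ℝ, inner ℝ (W u) (W v) = ∑ i, u i * v i := by
    intro u v
    rw [PiLp.inner_apply]
    refine Finset.sum_congr rfl fun i _ => ?_
    exact mul_comm _ _
  let T1 : EuclideanSpace ℝ ι →ₗ[ℝ] EuclideanSpace ℝ ι :=
    W.toLinearMap.comp (T.comp W.symm.toLinearMap)
  have hT1 : ∀ u, T1 (W u) = W (T u) := fun u => by
    change W (T (W.symm (W u))) = W (T u)
    rw [W.symm_apply_apply]
  have hinv : ∀ v ∈ M', T1 v ∈ M' := by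
    rintro _ ⟨v, hv, rfl⟩
    exact ⟨T v, hM v hv, (hT1 v).symm⟩
  let T2 : M' →ₗ[ℝ] M' := T1.restrict hinv
  have hsym : T2.IsSymmetric := by
    rintro ⟨_, u, hu, rfl⟩ ⟨_, v, hv, rfl⟩
    change inner ℝ (T1 (W u)) (W v) = inner ℝ (W u) (T1 (W v))
    rw [hT1, hT1, hinner, hinner, hT]
  let f' : M' := ⟨W f, f, hfM, rfl⟩
  have hf' : f' ≠ 0 := by
    intro h
    have h1 : W f = 0 := congrArg Subtype.val h
    exact hf (W.map_eq_zero_iff.1 h1)
  have : Nontrivial M' := ⟨f', 0, hf'⟩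
  have hev := hsym.hasEigenvalue_iInf_of_finiteDimensional
  set μ : ℝ := ⨅ x : {x : M' // x ≠ 0}, RCLike.re (inner ℝ (T2 x) (x : M')) / ‖(x : M')‖ ^ 2
    with hμ
  obtain ⟨e', he'⟩ := hev.exists_hasEigenvector
  obtain ⟨⟨_, e, heM, rfl⟩, he'⟩ : ∃ e'', Module.End.HasEigenvector T2 μ e'' := ⟨e', he'⟩
  have hTe : T2 ⟨W e, e, heM, rfl⟩ = μ • ⟨W e, e, heM, rfl⟩ := he'.apply_eq_smul
  refine ⟨e, heM, ?_, μ, ?_, ?_⟩
  · rintro rfl
    apply he'.2
    apply Subtype.ext
    exact map_zero W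
  · have h1 : T1 (W e) = μ • W e := congrArg Subtype.val hTe
    rw [hT1, ← map_smul] at h1
    exact W.injective h1
  · have hbdd : BddBelow (Set.range fun x : {x : M' // x ≠ 0} =>
        RCLike.re (inner ℝ (T2 x) (x : M')) / ‖(x : M')‖ ^ 2) := by
      refine ⟨-‖LinearMap.toContinuousLinearMap T2‖, ?_⟩
      rintro _ ⟨x, rfl⟩
      have hx : 0 < ‖(x : M')‖ := norm_pos_iff.2 x.2
      have h2 : ‖T2 x‖ ≤ ‖LinearMap.toContinuousLinearMap T2‖ * ‖(x : M')‖ :=
        (LinearMap.toContinuousLinearMap T2).le_opNorm x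
      have h3 := abs_real_inner_le_norm (T2 x) (x : M')
      have h4 : -(‖LinearMap.toContinuousLinearMap T2‖ * ‖(x : M')‖ * ‖(x : M')‖) ≤
          inner ℝ (T2 x) (x : M') := by
        have h5 := (abs_le.1 h3).1
        have h6 : ‖T2 x‖ * ‖(x : M')‖ ≤
          ‖LinearMap.toContinuousLinearMap T2‖ * ‖(x : M')‖ * ‖(x : M')‖ := by (clear * - h2 hx; gcongr)
        linarith only [h5, h6]
      change -‖LinearMap.toContinuousLinearMap T2‖ ≤ inner ℝ (T2 x) (x : M') / ‖(x : M')‖ ^ 2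
      rw [le_div_iff₀ (by (clear * - hx; (clear * - hx; positivity)))]
      linarith only [h4]
    have h7 : μ ≤ inner ℝ (T2 f') f' / ‖f'‖ ^ 2 := ciInf_le hbdd ⟨f', hf'⟩
    have h8 : inner ℝ (T2 f') f' = ∑ i, f i * T f i := by
      change inner ℝ (T1 (W f)) (W f) = _
      rw [hT1, hinner]
      exact Finset.sum_congr rfl fun i _ => mul_comm _ _
    have h9 : ‖f'‖ ^ 2 = ∑ i, f i ^ 2 := by
      change ‖W f‖ ^ 2 = _
      rw [← real_inner_self_eq_norm_sq, hinner]
      exact Finset.sum_congr rfl fun i _ => (sq _).symm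
    have h10 : 0 < ‖f'‖ ^ 2 := pow_pos (norm_pos_iff.2 hf') 2
    rw [h8, h9] at h7
    rw [h9] at h10
    rwa [le_div_iff₀ h10] at h7

/-- Orthogonality to the low levels is a subspace. -/
def orthSub (B : Finset C) (k : ℕ) : Submodule ℝ (Perm C → ℝ) where
  carrier := {f | OrthB B k f}
  add_mem' := by
    intro f₁ f₂ h₁ h₂ S hS hk g
    rw [avg_add, h₁ S hS hk g, h₂ S hS hk g, add_zero]
  zero_mem' := by
    intro S hS hk g
    unfold avg
    simp
  smul_mem' := by
    intro r f h S hS hk g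
    rw [avg_smul, h S hS hk g, mul_zero]

lemma lapB_mem_orthSub (B : Finset C) (k : ℕ) {f : Perm C → ℝ} (hf : f ∈ orthSub B k) :
    lapLin B f ∈ orthSub B k := by
  intro S hS hk g
  change avg (S ∪ Bᶜ) (lapB B f) g = 0
  rw [avg_lapB]
  have : avg (S ∪ Bᶜ) f = 0 := by
    funext g
    exact hf S hS hk g
  rw [this]
  unfold lapB
  simp

theorem levelsB (n : ℕ) : ∀ B : Finset C, B.card = n → ∀ k, ∀ f : Perm C → ℝ,
    OrthB B k f → (n * min ((k : ℝ) / 2) (((n : ℝ) - 1) / 4) : ℝ) * ∑ g, f g ^ 2 ≤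
      ∑ g, f g * lapB B f g := by
  induction n with
  | zero =>
    intro B hB k f _
    have hB' : B = ∅ := card_eq_zero.1 hB
    subst hB'
    unfold lapB
    simp
  | succ n ih =>
    intro B hB k f hf
    by_cases hf0 : f = 0
    · subst hf0
      unfold lapB
      simp only [Nat.cast_add, Nat.cast_one, add_sub_cancel_right, Pi.zero_apply, ne_eq, OfNat.ofNat_ne_zero, not_false_eq_true, zero_pow, sum_const_zero, mul_zero, one_div, sub_self, Std.le_refl]
    obtain ⟨e, heM, he0, μ, hμ, hfμ⟩ := exists_eigen_min (lapLin B) (lapB_symm B)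
      (orthSub B k) (fun v hv => lapB_mem_orthSub B k hv) (f := f) hf hf0
    refine le_trans ?_ hfμ
    refine mul_le_mul_of_nonneg_right ?_ (Finset.sum_nonneg fun _ _ => sq_nonneg _)
    obtain ⟨l, hkl, hlB, hle, hlμ⟩ := eigen_bound he0 hμ heM
    rw [hB] at hlB hlμ
    have hkl' : (k : ℝ) ≤ l := by exact_mod_cast hkl
    have hl0 : (0 : ℝ) ≤ l := Nat.cast_nonneg l
    have hn0 : (0 : ℝ) ≤ n := Nat.cast_nonneg n
    push_cast at hlμ ⊢
    by_cases h2l : 2 * l ≤ n + 3
    · have h2l' : 2 * (l : ℝ) ≤ n + 3 := by exact_mod_cast h2l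
      refine le_trans ?_ hlμ
      refine le_trans (mul_le_mul_of_nonneg_left (min_le_left _ _) (by (clear * -; (clear * -; positivity)))) ?_
      have h3 : (n + 1 : ℝ) * (k / 2) ≤ (n + 1) * (l / 2) := by (clear * - hkl'; gcongr)
      have h4 : (n + 1 : ℝ) * (l / 2) = l * ((n + 1) / 2) := by ring
      rw [h4] at h3
      refine h3.trans ?_
      refine mul_le_mul_of_nonneg_left ?_ hl0
      linarith only [h2l']
    · push Not at h2l
      have hn2 : 2 ≤ n := by omega
      have h5 := large_level hn2 ih hB (k := l) (by (clear * - h2l; omega)) hle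
      have h6 : ∑ g, e g * lapB B e g = μ * ∑ g, e g ^ 2 := by
        have : lapB B e = μ • e := hμ
        rw [this, Finset.mul_sum]
        refine Finset.sum_congr rfl fun g _ => ?_
        simp only [Pi.smul_apply, smul_eq_mul]
        ring
      have h7 : 0 < ∑ g, e g ^ 2 := by
        obtain ⟨g, hg⟩ : ∃ g, e g ≠ 0 := by
          by_contra h
          push Not at h
          exact he0 (funext h)
        exact Finset.sum_pos' (fun g _ => sq_nonneg _) ⟨g, mem_univ _, by (clear * - hg; positivity)⟩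
      rw [h6] at h5
      have h8 := le_of_mul_le_mul_right h5 h7
      refine le_trans ?_ h8
      refine mul_le_mul_of_nonneg_left ?_ (by (clear * - hn2; positivity))
      refine (min_le_right _ _).trans ?_
      linarith only []

/-- **Levels theorem.** -/
theorem levels (k : ℕ) (f : Perm C → ℝ) (hf : LevelOrth k f) :
    (Fintype.card C * min ((k : ℝ) / 2) (((Fintype.card C : ℝ) - 1) / 4) : ℝ) *
      ∑ g, f g ^ 2 ≤ ∑ g, f g * lapB univ f g :=
  levelsB (Fintype.card C) univ card_univ k f ((levelOrth_iff k f).1 hf)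

/-- On the whole set left and right multiplication give the same generator. -/
theorem lapB_univ_comm (f : Perm C → ℝ) (g : Perm C) :
    lapB univ f g = (1 / 2) * ∑ a, ∑ b, (f g - f (swap a b * g)) := by
  unfold lapB
  congr 1
  rw [← Equiv.sum_comp g (fun a => ∑ b, (f g - f (swap a b * g)))]
  refine Finset.sum_congr rfl fun a _ => ?_
  rw [← Equiv.sum_comp g (fun b => (f g - f (swap (g a) b * g)))]
  refine Finset.sum_congr rfl fun b _ => ?_
  have h3 : g * swap a b = swap (g a) (g b) * g := by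
    rw [Equiv.swap_apply_apply]
    simp only [mul_assoc, inv_mul_cancel, mul_one]
  rw [h3]

end Vale.Agent.P162
end
end
end

section

section

section

namespace Vale.Agent.P162

open scoped InnerProductSpace

section Core
set_option linter.unusedSectionVars false

variable {V : Type*} [NormedAddCommGroup V] [InnerProductSpace ℝ V] [FiniteDimensional ℝ V]

theorem pow_mem_of_mem (S : V →ₗ[ℝ] V) (W : Submodule ℝ V) (h : ∀ v ∈ W, S v ∈ W) (m : ℕ) :
    ∀ v ∈ W, (S ^ m) v ∈ W := by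
  induction m with
  | zero => intro v hv; simpa only [pow_zero, Module.End.one_apply] using hv
  | succ m ih =>
    intro v hv
    rw [pow_succ']
    exact h _ (ih v hv)

theorem norm_pow_le (S : V →ₗ[ℝ] V) (W : Submodule ℝ V) (h : ∀ v ∈ W, S v ∈ W) (b : ℝ)
    (hb0 : 0 ≤ b) (hb : ∀ v ∈ W, ‖S v‖ ^ 2 ≤ b * ‖v‖ ^ 2) (m : ℕ) :
    ∀ v ∈ W, ‖(S ^ m) v‖ ^ 2 ≤ b ^ m * ‖v‖ ^ 2 := by
  induction m with
  | zero => intro v hv; simp only [pow_zero, Module.End.one_apply, one_mul, Std.le_refl]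
  | succ m ih =>
    intro v hv
    have e : (S ^ (m + 1)) v = S ((S ^ m) v) := by rw [pow_succ']; rfl
    rw [e]
    calc ‖S ((S ^ m) v)‖ ^ 2
        ≤ b * ‖(S ^ m) v‖ ^ 2 := hb _ (pow_mem_of_mem S W h m v hv)
      _ ≤ b * (b ^ m * ‖v‖ ^ 2) := mul_le_mul_of_nonneg_left (ih v hv) hb0
      _ = b ^ (m + 1) * ‖v‖ ^ 2 := by ring

theorem core_step (S : V →ₗ[ℝ] V) (F G : Submodule ℝ V) (hGF : G ≤ F)
    (hSF : ∀ v ∈ F, S v ∈ F) (hSG : ∀ v ∈ G, S v ∈ G) (hSG' : ∀ v ∈ Gᗮ, S v ∈ Gᗮ)
    (b : ℝ) (hb0 : 0 ≤ b) (hb : ∀ v ∈ F, ‖S v‖ ^ 2 ≤ b * ‖v‖ ^ 2) (m : ℕ) (x : V) :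
    ‖(S ^ m) (F.starProjection x)‖ ^ 2 ≤
      b ^ m * ‖x - G.starProjection x‖ ^ 2 + ‖(S ^ m) (G.starProjection x)‖ ^ 2 := by
  set u := G.starProjection x with hu
  set w := F.starProjection (x - u) with hw
  have huG : u ∈ G := Submodule.starProjection_apply_mem G x
  have huF : u ∈ F := hGF huG
  have h1 : F.starProjection x = w + u := by
    rw [hw, map_sub, (Submodule.starProjection_eq_self_iff (K := F)).2 huF]
    abel
  have hwF : w ∈ F := Submodule.starProjection_apply_mem F _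
  have hwG : w ∈ Gᗮ := by
    rw [Submodule.mem_orthogonal]
    intro z hz
    rw [hw, ← Submodule.inner_starProjection_left_eq_right,
      (Submodule.starProjection_eq_self_iff (K := F)).2 (hGF hz)]
    exact (Submodule.mem_orthogonal G _).1 (Submodule.sub_starProjection_mem_orthogonal x) z hz
  have hwn : ‖w‖ ^ 2 ≤ ‖x - u‖ ^ 2 := by
    have := Submodule.norm_starProjection_apply_le F (x - u)
    (clear * - this; gcongr)
  have h2 : ⟪(S ^ m) w, (S ^ m) u⟫_ℝ = 0 := by
    rw [real_inner_comm]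
    exact (Submodule.mem_orthogonal G _).1 (pow_mem_of_mem S Gᗮ hSG' m w hwG) _
      (pow_mem_of_mem S G hSG m u huG)
  rw [h1, map_add, norm_add_sq_real, h2]
  have h3 := norm_pow_le S F hSF b hb0 hb m w hwF
  have h4 : b ^ m * ‖w‖ ^ 2 ≤ b ^ m * ‖x - u‖ ^ 2 :=
    mul_le_mul_of_nonneg_left hwn (pow_nonneg hb0 m)
  linarith only [h3, h4]

theorem core (S : V →ₗ[ℝ] V) (F : ℕ → Submodule ℝ V) (hF : ∀ k, F (k + 1) ≤ F k)
    (hS : ∀ k, ∀ v ∈ F k, S v ∈ F k) (hS' : ∀ k, ∀ v ∈ (F k)ᗮ, S v ∈ (F k)ᗮ)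
    (β : ℕ → ℝ) (hβ : ∀ k, 0 ≤ β k)
    (hb : ∀ k, ∀ v ∈ F k, ‖S v‖ ^ 2 ≤ β k * ‖v‖ ^ 2) (m : ℕ) (x : V) (j : ℕ) :
    ‖(S ^ m) ((F 0).starProjection x)‖ ^ 2 ≤
      ∑ i ∈ Finset.range j, β i ^ m * ‖x - (F (i + 1)).starProjection x‖ ^ 2
        + ‖(S ^ m) ((F j).starProjection x)‖ ^ 2 := by
  induction j with
  | zero => simp only [Finset.range_zero, Finset.sum_empty, zero_add, Std.le_refl]
  | succ j ih =>
    have := core_step S (F j) (F (j + 1)) (hF j) (hS j) (hS (j + 1)) (hS' (j + 1)) (β j) (hβ j)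
      (hb j) m x
    rw [Finset.sum_range_succ]
    linarith only [ih, this]

theorem exp_mem (A : V →L[ℝ] V) (W : Submodule ℝ V) (hW : ∀ x ∈ W, A x ∈ W) (x : V)
    (hx : x ∈ W) : NormedSpace.exp A x ∈ W := by
  have hpow : ∀ n : ℕ, (A ^ n) x ∈ W := by
    intro n
    induction n with
    | zero => simpa only [pow_zero, one_apply_eq_self] using hx
    | succ n ih => rw [pow_succ']; exact hW _ ih
  have hs : HasSum (fun n : ℕ => ((n.factorial : ℝ)⁻¹) • (A ^ n)) (NormedSpace.exp A) :=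
    NormedSpace.exp_series_hasSum_exp' (𝕂 := ℝ) A
  have hs2 : HasSum (fun n : ℕ => ((n.factorial : ℝ)⁻¹) • ((A ^ n) x)) (NormedSpace.exp A x) := by
    have := hs.mapL (ContinuousLinearMap.apply ℝ V x)
    simpa only [pow_apply_eq_iterate, map_smul, ContinuousLinearMap.apply_apply] using this
  have hcl : IsClosed (W : Set V) := W.closed_of_finiteDimensional
  exact hcl.mem_of_tendsto hs2 (Filter.Eventually.of_forall fun s =>
    W.sum_mem fun i _ => W.smul_mem _ (hpow i))

theorem exp_symm (A : V →L[ℝ] V) (hA : ∀ x y, ⟪A x, y⟫_ℝ = ⟪x, A y⟫_ℝ) (y z : V) :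
    ⟪NormedSpace.exp A y, z⟫_ℝ = ⟪y, NormedSpace.exp A z⟫_ℝ := by
  have hpow : ∀ n : ℕ, ∀ y z : V, ⟪(A ^ n) y, z⟫_ℝ = ⟪y, (A ^ n) z⟫_ℝ := by
    intro n
    induction n with
    | zero => intro y z; simp only [pow_zero, one_apply_eq_self]
    | succ n ih =>
      intro y z
      rw [pow_succ', ContinuousLinearMap.mul_apply, hA, ih, ← ContinuousLinearMap.mul_apply,
        ← pow_succ, ← pow_succ', pow_succ']
  have hs : HasSum (fun n : ℕ => ((n.factorial : ℝ)⁻¹) • (A ^ n)) (NormedSpace.exp A) :=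
    NormedSpace.exp_series_hasSum_exp' (𝕂 := ℝ) A
  have key : ∀ w : V, HasSum (fun n : ℕ => ((n.factorial : ℝ)⁻¹) • ((A ^ n) w))
      (NormedSpace.exp A w) := by
    intro w
    have := hs.mapL (ContinuousLinearMap.apply ℝ V w)
    simpa only [pow_apply_eq_iterate, map_smul, ContinuousLinearMap.apply_apply] using this
  have h1 := (key y).mapL (innerSL ℝ z)
  have h2 := (key z).mapL (innerSL ℝ y)
  have h3 : (fun n : ℕ => (innerSL ℝ z) (((n.factorial : ℝ)⁻¹) • ((A ^ n) y)))
      = (fun n : ℕ => (innerSL ℝ y) (((n.factorial : ℝ)⁻¹) • ((A ^ n) z))) := by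
    funext n
    simp only [map_smul, innerSL_apply_apply]
    rw [real_inner_comm, hpow]
  rw [h3] at h1
  have h4 := h1.unique h2
  simp only [innerSL_apply_apply] at h4
  rw [real_inner_comm]
  exact h4

theorem exp_form_le (L : V →L[ℝ] V) (hL : ∀ x y, ⟪L x, y⟫_ℝ = ⟪x, L y⟫_ℝ) (W : Submodule ℝ V)
    (hW : ∀ x ∈ W, L x ∈ W) (c : ℝ) (hc : ∀ x ∈ W, c * ‖x‖ ^ 2 ≤ ⟪x, L x⟫_ℝ) (t : ℝ)
    (ht : 0 ≤ t) (x : V) (hx : x ∈ W) :
    ⟪x, NormedSpace.exp ((-t) • L) x⟫_ℝ ≤ Real.exp (-t * c) * ‖x‖ ^ 2 := by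
  letI : NormedAlgebra ℚ (V →L[ℝ] V) := NormedAlgebra.restrictScalars ℚ ℝ (V →L[ℝ] V)
  set N : V →L[ℝ] V := -L with hN
  have hsym : ∀ s : ℝ, ∀ y z : V, ⟪NormedSpace.exp (s • N) y, z⟫_ℝ
      = ⟪y, NormedSpace.exp (s • N) z⟫_ℝ := by
    intro s
    apply exp_symm
    intro y z
    simp only [hN, ContinuousLinearMap.smul_apply, ContinuousLinearMap.neg_apply,
      inner_smul_left, inner_smul_right, inner_neg_left, inner_neg_right, hL]
    simp
  have hhalf : ∀ s : ℝ, NormedSpace.exp (s • N)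
      = NormedSpace.exp ((s / 2) • N) * NormedSpace.exp ((s / 2) • N) := by
    intro s
    rw [← NormedSpace.exp_add_of_commute (Commute.refl _), ← add_smul, add_halves]
  have hcomm : ∀ s : ℝ, NormedSpace.exp (s • N) * N = N * NormedSpace.exp (s • N) := by
    intro s
    have : Commute (s • N) N := (Commute.refl N).smul_left s
    exact (this.exp_left).eq
  let φ : ℝ → ℝ := fun s => ⟪x, NormedSpace.exp (s • N) x⟫_ℝ
  have hφ : ∀ s, HasDerivAt φ (⟪x, (NormedSpace.exp (s • N) * N) x⟫_ℝ) s := by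
    intro s
    have h1 : HasDerivAt (fun u : ℝ => NormedSpace.exp (u • N)) (NormedSpace.exp (s • N) * N) s :=
      hasDerivAt_exp_smul_const N s
    have h2 : HasDerivAt (fun u : ℝ => NormedSpace.exp (u • N) x)
        ((NormedSpace.exp (s • N) * N) x) s :=
      (ContinuousLinearMap.apply ℝ V x).hasFDerivAt.comp_hasDerivAt s h1
    have h3 := (hasDerivAt_const s x).inner ℝ h2
    simpa only [mul_apply_eq_comp, inner_zero_left, add_zero] using h3
  have hφ1 : ∀ s, φ s = ‖NormedSpace.exp ((s / 2) • N) x‖ ^ 2 := by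
    intro s
    simp only [φ]
    rw [hhalf s, ContinuousLinearMap.mul_apply, ← hsym, real_inner_self_eq_norm_sq]
  have hφ2 : ∀ s, ⟪x, (NormedSpace.exp (s • N) * N) x⟫_ℝ ≤ -c * φ s := by
    intro s
    have hm : NormedSpace.exp ((s / 2) • N) x ∈ W := by
      apply exp_mem _ W _ x hx
      intro y hy
      simp only [hN, ContinuousLinearMap.smul_apply, ContinuousLinearMap.neg_apply]
      exact W.smul_mem _ (W.neg_mem (hW y hy))
    have e1 : ⟪x, (NormedSpace.exp (s • N) * N) x⟫_ℝ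
        = -⟪NormedSpace.exp ((s / 2) • N) x, L (NormedSpace.exp ((s / 2) • N) x)⟫_ℝ := by
      rw [hhalf s, mul_assoc, hcomm, ContinuousLinearMap.mul_apply, ← hsym,
        ContinuousLinearMap.mul_apply, hN, ContinuousLinearMap.neg_apply, inner_neg_right]
    rw [e1, hφ1]
    have := hc _ hm
    linarith only [this]
  let ψ : ℝ → ℝ := fun s => Real.exp (c * s) * φ s
  have hψ : ∀ s, HasDerivAt ψ (Real.exp (c * s) * c * φ s
      + Real.exp (c * s) * ⟪x, (NormedSpace.exp (s • N) * N) x⟫_ℝ) s := by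
    intro s
    have h1 : HasDerivAt (fun s : ℝ => Real.exp (c * s)) (Real.exp (c * s) * c) s := by
      have := ((hasDerivAt_id s).const_mul c).exp
      simpa using this
    exact h1.mul (hφ s)
  have hanti : Antitone ψ := by
    apply antitone_of_deriv_nonpos (fun s => (hψ s).differentiableAt)
    intro s
    rw [(hψ s).deriv]
    have h1 := hφ2 s
    have h2 : 0 < Real.exp (c * s) := Real.exp_pos _
    nlinarith only [h1, h2]
  have h0 : ψ t ≤ ψ 0 := hanti ht
  have hψ0 : ψ 0 = ‖x‖ ^ 2 := by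
    simp only [mul_zero, Real.exp_zero, zero_smul, NormedSpace.exp_zero, one_apply_eq_self, inner_self_eq_norm_sq_to_K, Real.ringHom_apply, one_mul, ψ, φ]
  have hgoal : ⟪x, NormedSpace.exp ((-t) • L) x⟫_ℝ = φ t := by
    simp only [φ, hN]
    rw [smul_neg, neg_smul]
  rw [hgoal]
  rw [hψ0] at h0
  have h5 : φ t = Real.exp (-t * c) * ψ t := by
    simp only [ψ]
    rw [← mul_assoc, ← Real.exp_add]
    ring_nf
    simp
  rw [h5]
  exact mul_le_mul_of_nonneg_left h0 (Real.exp_pos _).le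

end Core

end Vale.Agent.P162
end
end
end

section

section

section

namespace Vale.Agent.P162

open Matrix

variable {n : Type*} [Fintype n] [DecidableEq n]

omit [DecidableEq n] in
lemma trace_mul_le (P Q : Matrix n n ℝ) :
    trace (P * Q) ≤ (trace (P * Pᵀ) + trace (Qᵀ * Q)) / 2 := by
  have h1 : trace (P * Q) = ∑ i, ∑ j, P i j * Q j i := by
    simp only [trace, diag_apply, mul_apply]
  have h2 : trace (P * Pᵀ) = ∑ i, ∑ j, P i j ^ 2 := by
    simp only [trace, diag_apply, mul_apply, transpose_apply, sq]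
  have h3 : trace (Qᵀ * Q) = ∑ i, ∑ j, Q j i ^ 2 := by
    simp only [trace, diag_apply, mul_apply, transpose_apply, sq]
  rw [h1, h2, h3, ← Finset.sum_add_distrib, Finset.sum_div]
  refine Finset.sum_le_sum fun i _ => ?_
  rw [← Finset.sum_add_distrib, Finset.sum_div]
  refine Finset.sum_le_sum fun j _ => ?_
  nlinarith only [sq_nonneg (P i j - Q j i)]

omit [DecidableEq n] in
lemma trace_sq_le (W : Matrix n n ℝ) : trace (W * W) ≤ trace (W * Wᵀ) := by
  have := trace_mul_le W W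
  rw [trace_mul_comm Wᵀ W] at this
  linarith

lemma trace_mul_pow_comm (A B : Matrix n n ℝ) (m : ℕ) :
    trace ((A * B) ^ m) = trace ((B * A) ^ m) := by
  cases m with
  | zero => simp only [pow_zero, trace_one]
  | succ m =>
    have : ∀ m : ℕ, (A * B) ^ (m + 1) = A * ((B * A) ^ m * B) := by
      intro m
      induction m with
      | zero => simp
      | succ m ih =>
        rw [pow_succ, ih, pow_succ (B * A) m]
        simp only [Matrix.mul_assoc]
    rw [this, trace_mul_comm, Matrix.mul_assoc, ← pow_succ]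

/-- Joint induction for the trace inequalities
`tr (A^m (A^m)ᵀ) ≤ tr ((A Aᵀ)^m)` and `tr ((X Y)^m) ≤ tr (X^m Y^m)` for `m = 2^i`. -/
lemma trace_chain_aux (i : ℕ) :
    (∀ A : Matrix n n ℝ, trace (A ^ 2 ^ i * (A ^ 2 ^ i)ᵀ) ≤ trace ((A * Aᵀ) ^ 2 ^ i)) ∧
    (∀ X Y : Matrix n n ℝ, Xᵀ = X → Yᵀ = Y →
      trace ((X * Y) ^ 2 ^ i) ≤ trace (X ^ 2 ^ i * Y ^ 2 ^ i)) := by
  induction i with
  | zero =>
    constructor
    · intro A; simp only [pow_zero, pow_one, Std.le_refl]
    · intro X Y _ _; simp only [pow_zero, pow_one, Std.le_refl]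
  | succ i ih =>
    obtain ⟨hH, hA⟩ := ih
    constructor
    · intro A
      have e0 : A ^ 2 ^ (i + 1) = (A ^ 2) ^ 2 ^ i := by rw [← pow_mul, pow_succ']
      rw [e0]
      refine (hH (A ^ 2)).trans ?_
      have e1 : A ^ 2 * (A ^ 2)ᵀ = A * (A * Aᵀ * Aᵀ) := by
        rw [sq, transpose_mul]
        simp only [Matrix.mul_assoc]
      have e2 : A * Aᵀ * Aᵀ * A = (A * Aᵀ) * (Aᵀ * A) := by
        simp only [Matrix.mul_assoc]
      rw [e1, trace_mul_pow_comm, e2]
      have hs1 : (A * Aᵀ)ᵀ = A * Aᵀ := by rw [transpose_mul, transpose_transpose]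
      have hs2 : (Aᵀ * A)ᵀ = Aᵀ * A := by rw [transpose_mul, transpose_transpose]
      refine (hA _ _ hs1 hs2).trans ?_
      refine (trace_mul_le _ _).trans ?_
      rw [transpose_pow, transpose_pow, hs1, hs2, ← pow_add, ← pow_add]
      have e3 : trace ((Aᵀ * A) ^ (2 ^ i + 2 ^ i)) = trace ((A * Aᵀ) ^ (2 ^ i + 2 ^ i)) :=
        trace_mul_pow_comm _ _ _
      rw [e3, show 2 ^ (i + 1) = 2 ^ i + 2 ^ i by ring]
      linarith only []
    · intro X Y hX hY
      set Z := X * Y with hZ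
      have e0 : Z ^ 2 ^ (i + 1) = Z ^ 2 ^ i * Z ^ 2 ^ i := by
        rw [← pow_add]; congr 1; ring
      rw [e0]
      refine (trace_sq_le _).trans ((hH Z).trans ?_)
      have e1 : Z * Zᵀ = X * (Y ^ 2 * X) := by
        rw [hZ, transpose_mul, hX, hY, sq]
        simp only [Matrix.mul_assoc]
      have e2 : Y ^ 2 * X * X = Y ^ 2 * X ^ 2 := by
        rw [sq X, Matrix.mul_assoc]
      rw [e1, trace_mul_pow_comm, e2, trace_mul_pow_comm]
      have hX2 : (X ^ 2)ᵀ = X ^ 2 := by rw [transpose_pow, hX]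
      have hY2 : (Y ^ 2)ᵀ = Y ^ 2 := by rw [transpose_pow, hY]
      have := hA (X ^ 2) (Y ^ 2) hX2 hY2
      rwa [← pow_mul, ← pow_mul, ← pow_succ'] at this

/-- `‖A^m‖_HS² ≤ tr ((A Aᵀ)^m)` for `m = 2^i`. -/
theorem trace_pow_mul_transpose_le (A : Matrix n n ℝ) (i : ℕ) :
    trace (A ^ 2 ^ i * (A ^ 2 ^ i)ᵀ) ≤ trace ((A * Aᵀ) ^ 2 ^ i) :=
  (trace_chain_aux i).1 A

/-- `tr ((A Aᵀ)^(2m))` as a sum of squares of the entries of `(A Aᵀ)^m`. -/
theorem trace_sym_pow (B : Matrix n n ℝ) (hB : Bᵀ = B) (m : ℕ) :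
    trace (B ^ (2 * m)) = ∑ x, ∑ y, (B ^ m) x y ^ 2 := by
  have e : B ^ (2 * m) = B ^ m * (B ^ m)ᵀ := by
    rw [transpose_pow, hB, ← pow_add]; congr 1; ring
  rw [e]
  simp only [trace, diag_apply, mul_apply, transpose_apply, sq]

end Vale.Agent.P162
end
end
end

section

section

section

namespace Vale.Agent.P162

open Finset

variable {X : Type*} [Fintype X] [DecidableEq X]

/-- Data of a symmetric Markov kernel. -/
structure SymKernel (K : Matrix X X ℝ) : Prop where
  nonneg : ∀ x y, 0 ≤ K x y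
  symm : ∀ x y, K x y = K y x
  row : ∀ x, ∑ y, K x y = 1

/-- normalised moment of order `s` of the density `N f` -/
noncomputable def nmom (f : X → ℝ) (s : ℝ) : ℝ :=
  (∑ y, ((Fintype.card X : ℝ) * f y) ^ s) / Fintype.card X

omit [DecidableEq X] in
lemma nmom_nonneg (f : X → ℝ) (hf : ∀ y, 0 ≤ f y) (s : ℝ) : 0 ≤ nmom f s :=
  div_nonneg (sum_nonneg fun y _ => Real.rpow_nonneg (mul_nonneg (Nat.cast_nonneg _) (hf y)) _)
    (Nat.cast_nonneg _)

omit [DecidableEq X] in
/-- One smoothing step: the moment of order `p q` after one step of the kernel is controlled by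
the moment of order `q` before. -/
lemma nmom_step [Nonempty X] (K : Matrix X X ℝ) (hK : SymKernel K) (p q M : ℝ) (hp : 1 < p)
    (hq : 1 ≤ q) (hM : ∀ x, ∑ y, K x y * ((Fintype.card X : ℝ) * K x y) ^ (p - 1) ≤ M)
    (f : X → ℝ) (hf : ∀ y, 0 ≤ f y) :
    nmom (fun x => ∑ y, K x y * f y) (q * p) ≤ M * nmom f q ^ p := by
  set N : ℝ := (Fintype.card X : ℝ) with hN
  have hN0 : 0 < N := by
    rw [hN]; exact_mod_cast Fintype.card_pos
  -- pass to densities
  set g : X → ℝ := fun y => (N * f y) ^ q with hg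
  have hg0 : ∀ y, 0 ≤ g y := fun y => Real.rpow_nonneg (mul_nonneg hN0.le (hf y)) _
  set G : ℝ := (∑ y, g y) / N with hG
  have hG0 : 0 ≤ G := div_nonneg (sum_nonneg fun y _ => hg0 y) hN0.le
  have hGm : nmom f q = G := rfl
  -- first Jensen
  have h1 : ∀ x, (N * ∑ y, K x y * f y) ^ q ≤ ∑ y, K x y * g y := by
    intro x
    have e : N * ∑ y, K x y * f y = ∑ y, K x y * (N * f y) := by
      rw [mul_sum]; exact sum_congr rfl fun y _ => by ring
    rw [e]
    exact Real.rpow_arith_mean_le_arith_mean_rpow univ (fun y => K x y) (fun y => N * f y)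
      (fun y _ => hK.nonneg x y) (hK.row x) (fun y _ => mul_nonneg hN0.le (hf y)) hq
  have hKg0 : ∀ x, 0 ≤ ∑ y, K x y * g y := fun x =>
    sum_nonneg fun y _ => mul_nonneg (hK.nonneg x y) (hg0 y)
  have hKf0 : ∀ x, 0 ≤ N * ∑ y, K x y * f y := fun x =>
    mul_nonneg hN0.le (sum_nonneg fun y _ => mul_nonneg (hK.nonneg x y) (hf y))
  have h2 : ∀ x, (N * ∑ y, K x y * f y) ^ (q * p) ≤ (∑ y, K x y * g y) ^ p := by
    intro x
    rw [Real.rpow_mul (hKf0 x)]
    exact Real.rpow_le_rpow (Real.rpow_nonneg (hKf0 x) _) (h1 x) (by linarith only [hp])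
  -- second Jensen
  have h3 : ∑ x, (∑ y, K x y * g y) ^ p ≤ N * (M * G ^ p) := by
    rcases hG0.eq_or_lt with hGz | hGpos
    · have hz : ∀ y, g y = 0 := by
        have h0 : ∑ y, g y = 0 := by
          have := hGz.symm
          rw [hG, div_eq_zero_iff] at this
          rcases this with h | h
          · exact h
          · exact absurd h hN0.ne'
        intro y
        exact (sum_eq_zero_iff_of_nonneg (fun y _ => hg0 y)).1 h0 y (mem_univ y)
      have : ∀ x, (∑ y, K x y * g y) ^ p = 0 := by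
        intro x
        simp only [hz, mul_zero, sum_const_zero]
        exact Real.zero_rpow (by linarith only [hp])
      simp only [this, sum_const_zero]
      rw [← hGz, Real.zero_rpow (by linarith only [hp])]
      simp
    · have hGN : ∑ y, g y = G * N := by rw [hG, div_mul_cancel₀ _ hN0.ne']
      have h4 : ∀ x, (∑ y, K x y * g y) ^ p
          ≤ G ^ p * ∑ y, (g y / (G * N)) * (N * K x y) ^ p := by
        intro x
        have e : ∑ y, K x y * g y = G * ∑ y, (g y / (G * N)) * (N * K x y) := by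
          rw [mul_sum]
          refine sum_congr rfl fun y _ => ?_
          (clear * - hGpos hN0; field_simp)
        rw [e, Real.mul_rpow hG0 (sum_nonneg fun y _ => mul_nonneg (div_nonneg (hg0 y)
          (mul_nonneg hG0 hN0.le)) (mul_nonneg hN0.le (hK.nonneg x y)))]
        refine mul_le_mul_of_nonneg_left ?_ (Real.rpow_nonneg hG0 _)
        refine Real.rpow_arith_mean_le_arith_mean_rpow univ (fun y => g y / (G * N))
          (fun y => N * K x y) (fun y _ => div_nonneg (hg0 y) (mul_nonneg hG0 hN0.le)) ?_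
          (fun y _ => mul_nonneg hN0.le (hK.nonneg x y)) hp.le
        rw [← sum_div, hGN, div_self (mul_pos hGpos hN0).ne']
      have h5 : ∀ y, ∑ x, (N * K x y) ^ p ≤ N * M := by
        intro y
        have e : ∀ x, (N * K x y) ^ p = N * (K y x * (N * K y x) ^ (p - 1)) := by
          intro x
          rw [hK.symm x y]
          have h0 : 0 ≤ N * K y x := mul_nonneg hN0.le (hK.nonneg y x)
          rcases h0.eq_or_lt with hz | hpos
          · have hKz : K y x = 0 := by
              rcases mul_eq_zero.1 hz.symm with h | h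
              · exact absurd h hN0.ne'
              · exact h
            rw [hKz]
            simp only [mul_zero, Real.zero_rpow (show p ≠ 0 by linarith only [hp]), zero_mul]
          · have : (N * K y x) ^ p = (N * K y x) * (N * K y x) ^ (p - 1) := by
              rw [← Real.rpow_one_add' h0 (by linarith only [hp])]
              congr 1
              ring
            rw [this]
            ring
        simp only [e]
        rw [← mul_sum]
        exact mul_le_mul_of_nonneg_left (hM y) hN0.le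
      calc ∑ x, (∑ y, K x y * g y) ^ p
          ≤ ∑ x, G ^ p * ∑ y, (g y / (G * N)) * (N * K x y) ^ p := sum_le_sum fun x _ => h4 x
        _ = G ^ p * ∑ y, (g y / (G * N)) * ∑ x, (N * K x y) ^ p := by
            rw [← mul_sum, sum_comm]
            congr 1
            refine sum_congr rfl fun y _ => ?_
            rw [mul_sum]
        _ ≤ G ^ p * ∑ y, (g y / (G * N)) * (N * M) := by
            refine mul_le_mul_of_nonneg_left ?_ (Real.rpow_nonneg hG0 _)
            exact sum_le_sum fun y _ => mul_le_mul_of_nonneg_left (h5 y)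
              (div_nonneg (hg0 y) (mul_nonneg hG0 hN0.le))
        _ = N * (M * G ^ p) := by
            rw [← sum_mul, ← sum_div, hGN, div_self (mul_pos hGpos hN0).ne']
            ring
  unfold nmom
  rw [← hN, div_le_iff₀ hN0]
  calc ∑ x, (N * ∑ y, K x y * f y) ^ (q * p) ≤ ∑ x, (∑ y, K x y * g y) ^ p :=
        sum_le_sum fun x _ => h2 x
    _ ≤ N * (M * G ^ p) := h3
    _ = M * G ^ p * N := by ring

/-- Moments of the rows of the powers of a symmetric Markov kernel. -/
lemma nmom_pow [Nonempty X] (K : Matrix X X ℝ) (hK : SymKernel K) (p M : ℝ) (hp : 1 < p)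
    (hM1 : 1 ≤ M)
    (hM : ∀ x, ∑ y, K x y * ((Fintype.card X : ℝ) * K x y) ^ (p - 1) ≤ M) (x : X) (m : ℕ) :
    (∀ y, 0 ≤ (K ^ m) y x) ∧
      nmom (fun y => (K ^ m) y x) (p ^ m) ≤ M ^ ((p ^ m - 1) / (p - 1)) := by
  have hN0 : (0 : ℝ) < Fintype.card X := by exact_mod_cast Fintype.card_pos
  induction m with
  | zero =>
    constructor
    · intro y
      simp only [pow_zero, Matrix.one_apply]
      split_ifs <;> norm_num
    · simp only [pow_zero, sub_self, zero_div, Real.rpow_zero]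
      unfold nmom
      have : ∀ y, ((Fintype.card X : ℝ) * (1 : Matrix X X ℝ) y x) ^ (1 : ℝ)
          = if y = x then (Fintype.card X : ℝ) else 0 := by
        intro y
        rw [Real.rpow_one, Matrix.one_apply]
        split_ifs <;> simp
      simp only [this, sum_ite_eq', mem_univ, if_true]
      rw [div_self hN0.ne']
  | succ m ih =>
    obtain ⟨h0, h1⟩ := ih
    have e : ∀ y, (K ^ (m + 1)) y x = ∑ z, K y z * (K ^ m) z x := by
      intro y
      rw [pow_succ', Matrix.mul_apply]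
    constructor
    · intro y
      rw [e]
      exact sum_nonneg fun z _ => mul_nonneg (hK.nonneg y z) (h0 z)
    · simp only [e]
      have h2 := nmom_step K hK p (p ^ m) M hp (one_le_pow₀ hp.le) hM (fun z => (K ^ m) z x) h0
      rw [pow_succ]
      refine h2.trans ?_
      have hM0 : 0 < M := by linarith only [hM1]
      have h3 : nmom (fun z => (K ^ m) z x) (p ^ m) ^ p
          ≤ (M ^ ((p ^ m - 1) / (p - 1))) ^ p :=
        Real.rpow_le_rpow (nmom_nonneg _ h0 _) h1 (by linarith only [hp])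
      refine (mul_le_mul_of_nonneg_left h3 hM0.le).trans (le_of_eq ?_)
      rw [← Real.rpow_mul hM0.le]
      nth_rewrite 1 [← Real.rpow_one M]
      rw [← Real.rpow_add hM0]
      congr 1
      have hp1 : p - 1 ≠ 0 := by linarith only [hp]
      field_simp
      ring

/-- `L²` bound for the rows of a power. -/
theorem row_sq_le [Nonempty X] (K : Matrix X X ℝ) (hK : SymKernel K) (p M : ℝ) (hp : 1 < p)
    (hM1 : 1 ≤ M)
    (hM : ∀ x, ∑ y, K x y * ((Fintype.card X : ℝ) * K x y) ^ (p - 1) ≤ M) (x : X) (m : ℕ)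
    (hm : 2 ≤ p ^ m) :
    (Fintype.card X : ℝ) * ∑ y, (K ^ m) y x ^ 2 ≤ M ^ (2 / (p - 1)) := by
  have hN0 : (0 : ℝ) < Fintype.card X := by exact_mod_cast Fintype.card_pos
  obtain ⟨h0, h1⟩ := nmom_pow K hK p M hp hM1 hM x m
  set N : ℝ := (Fintype.card X : ℝ) with hN
  set s : ℝ := p ^ m with hs
  have hM0 : 0 < M := by linarith only [hM1]
  -- power mean
  have h2 : (∑ y, (1 / N) * (N * (K ^ m) y x) ^ (2 : ℝ)) ^ (s / 2)
      ≤ ∑ y, (1 / N) * ((N * (K ^ m) y x) ^ (2 : ℝ)) ^ (s / 2) := by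
    refine Real.rpow_arith_mean_le_arith_mean_rpow univ (fun _ => 1 / N)
      (fun y => (N * (K ^ m) y x) ^ (2 : ℝ)) (fun y _ => by (clear K hK p M hp hM1 x m h0 hM hN0 hN s hm h1 hs hM0; positivity)) ?_
      (fun y _ => Real.rpow_nonneg (mul_nonneg hN0.le (h0 y)) _) (by linarith only [hm])
    rw [sum_const, card_univ, nsmul_eq_mul, ← hN]
    (clear * - hN0; field_simp)
  have h3 : ∑ y, (1 / N) * ((N * (K ^ m) y x) ^ (2 : ℝ)) ^ (s / 2)
      = nmom (fun y => (K ^ m) y x) s := by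
    unfold nmom
    rw [← hN, ← mul_sum, one_div, inv_mul_eq_div]
    congr 1
    refine sum_congr rfl fun y _ => ?_
    rw [← Real.rpow_mul (mul_nonneg hN0.le (h0 y))]
    congr 1
    ring
  have h4 : ∑ y, (1 / N) * (N * (K ^ m) y x) ^ (2 : ℝ) = N * ∑ y, (K ^ m) y x ^ 2 := by
    rw [mul_sum]
    refine sum_congr rfl fun y _ => ?_
    rw [Real.rpow_two]
    (clear * - hN0; field_simp)
  rw [h3, h4] at h2
  have h5 := h2.trans h1
  have hL0 : 0 ≤ N * ∑ y, (K ^ m) y x ^ 2 :=
    mul_nonneg hN0.le (sum_nonneg fun y _ => sq_nonneg _)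
  have hs0 : 0 < s := by linarith only [hm]
  have h6 : ((N * ∑ y, (K ^ m) y x ^ 2) ^ (s / 2)) ^ (2 / s)
      ≤ (M ^ ((s - 1) / (p - 1))) ^ (2 / s) :=
    Real.rpow_le_rpow (Real.rpow_nonneg hL0 _) h5 (by positivity)
  rw [← Real.rpow_mul hL0, ← Real.rpow_mul hM0.le,
    show s / 2 * (2 / s) = 1 by (clear * - hm; field_simp), Real.rpow_one] at h6
  refine h6.trans (Real.rpow_le_rpow_of_exponent_le hM1 ?_)
  have hp1 : 0 < p - 1 := by linarith only [hp]
  rw [div_mul_div_comm, div_le_div_iff₀ (by (clear * - hp; positivity)) hp1]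
  nlinarith only [hp]

/-- Trace bound: `tr (K^(2m)) ≤ M^(2/(p-1))`. -/
theorem sum_row_sq_le [Nonempty X] (K : Matrix X X ℝ) (hK : SymKernel K) (p M : ℝ) (hp : 1 < p)
    (hM1 : 1 ≤ M)
    (hM : ∀ x, ∑ y, K x y * ((Fintype.card X : ℝ) * K x y) ^ (p - 1) ≤ M) (m : ℕ)
    (hm : 2 ≤ p ^ m) :
    ∑ x, ∑ y, (K ^ m) x y ^ 2 ≤ M ^ (2 / (p - 1)) := by
  have hN0 : (0 : ℝ) < Fintype.card X := by exact_mod_cast Fintype.card_pos
  rw [sum_comm]
  have h := fun x => row_sq_le K hK p M hp hM1 hM x m hm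
  have h2 : ∑ x : X, (Fintype.card X : ℝ) * ∑ y, (K ^ m) y x ^ 2
      ≤ ∑ _x : X, M ^ (2 / (p - 1)) := sum_le_sum fun x _ => h x
  rw [← mul_sum, sum_const, card_univ, nsmul_eq_mul] at h2
  exact le_of_mul_le_mul_left h2 hN0

end Vale.Agent.P162
end
end
end

section

section

section

namespace Vale.Agent.P162

open Finset

variable {X : Type*} [Fintype X] [DecidableEq X]

end Vale.Agent.P162
end
end
end

section

section

section

/-!
Butterfly networks on an abstract set of wires: paths, the closing path is determined by its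
input and output, and the own-number lemma.
-/

namespace Vale.Agent.P162.Bfly

/-- Wires `Q` with `w` commuting directions: `e i` flips coordinate `co i`, the coordinates
`co k`, `k ≠ i` are not changed by `e i`; `c i q` is a name of the pair `{q, e i q}`. -/
structure Wires (Q : Type*) (w : ℕ) where
  e : ℕ → Q → Q
  co : ℕ → Q → Bool
  c : ℕ → Q → Q
  e_e : ∀ i, i < w → ∀ q, e i (e i q) = q
  co_e : ∀ i, i < w → ∀ q, co i (e i q) = !co i q
  co_ne : ∀ i, i < w → ∀ k, k < w → k ≠ i → ∀ q, co k (e i q) = co k q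
  c_e : ∀ i, i < w → ∀ q, c i (e i q) = c i q
  c_eq : ∀ i, i < w → ∀ q q', c i q = c i q' → q' = q ∨ q' = e i q

variable {Q : Type*} {w : ℕ} (B : Wires Q w)

/-- One layer with switches `f`: the switch of the pair of `q` is `f (c i q)`. -/
def step (i : ℕ) (f : Q → Bool) (q : Q) : Q := if f (B.c i q) then B.e i q else q

/-- The position after `i` layers of the path with input `x`. -/
def pos (ω : ℕ → Q → Bool) (x : Q) : ℕ → Q
  | 0 => x
  | i + 1 => step B i (ω i) (pos ω x i)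

end Vale.Agent.P162.Bfly
end
end
end

section

section

section

/-!
The encoding argument: for given starting points and cycle lengths, the cubes of switch settings
spanned by the free switches of the closing paths are disjoint.
-/

open Classical

namespace Vale.Agent.P162.Bfly

variable {Q : Type*} [Fintype Q] {w : ℕ} (B : Wires Q w) (π : Equiv.Perm Q)

/-- The cycle of `y` has length `l`. -/
def IsLen (σ : Equiv.Perm Q) (y : Q) (l : ℕ) : Prop :=
  0 < l ∧ (σ ^ l) y = y ∧ ∀ k, 0 < k → k < l → (σ ^ k) y ≠ y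

end Vale.Agent.P162.Bfly
end
end
end

section

section

section

/-!
# Layered Benes network on `Fin d → Bool` (O(log n) upgrade of P162)
-/

namespace Vale.Agent.P162.Lin

open Equiv

/-- Average over a finite type. -/
noncomputable def Ex {Ω : Type*} [Fintype Ω] (f : Ω → ℝ) : ℝ :=
  (∑ ω, f ω) / Fintype.card Ω

/-- Number of orbits of the group `H` contained in `D`. -/
noncomputable def nOrb {P : Type*} (H : Subgroup (Perm P)) (D : Set P) : ℕ :=
  {O : Set P | (∃ p, O = MulAction.orbit H p) ∧ O ⊆ D}.ncard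

/-- Trace of the law `ν` on functions of injective `k`-tuples. -/
noncomputable def trk {P : Type*} [Fintype P] [DecidableEq P] (ν : Perm P → ℝ) (k : ℕ) : ℝ :=
  ∑ g : Perm P, ν g * (((Finset.univ.filter (fun p => g p = p)).card.descFactorial k : ℕ) : ℝ)

/-- Law of `g₁ g₂⁻¹`, `g₁, g₂` independent with law `μ`. -/
noncomputable def symLaw {G : Type*} [Group G] [Fintype G] (μ : G → ℝ) (g : G) : ℝ :=
  ∑ h : G, μ (g * h) * μ h

end Vale.Agent.P162.Lin
end
end
end

section

section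

section

namespace Vale.Agent.P162

open Equiv

section Rep

variable {ι : Type*} [Fintype ι] [DecidableEq ι]
variable {V : Type*} [NormedAddCommGroup V] [InnerProductSpace ℝ V] [FiniteDimensional ℝ V]

/-- The interchange generator `(1/n) ∑_{a<b} (1 - (a b))` in a representation. -/
noncomputable def gen (ρ : Perm ι →* (V →L[ℝ] V)) : V →L[ℝ] V :=
  (1 / (2 * (Fintype.card ι : ℝ))) • ∑ a : ι, ∑ b : ι, (1 - ρ (swap a b))

variable {β : Type*} [Fintype β] [DecidableEq β]

/-- Extend a permutation of `β` to `Bool × β`, acting on the half `b`. -/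
def extHom (b : Bool) : Perm β →* Perm (Bool × β) where
  toFun g :=
    { toFun := fun p => (p.1, if p.1 = b then g p.2 else p.2)
      invFun := fun p => (p.1, if p.1 = b then g⁻¹ p.2 else p.2)
      left_inv := by rintro ⟨c, x⟩; by_cases h : c = b <;> simp [h]
      right_inv := by rintro ⟨c, x⟩; by_cases h : c = b <;> simp [h] }
  map_one' := by ext ⟨c, x⟩ <;> simp
  map_mul' g g' := by
    ext ⟨c, x⟩ <;> by_cases h : c = b <;> simp [h]

/-- Swap the two halves in the columns `x` with `ω x = true`. -/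
def colSwap (ω : β → Bool) : Perm (Bool × β) where
  toFun p := (xor (ω p.2) p.1, p.2)
  invFun p := (xor (ω p.2) p.1, p.2)
  left_inv p := by simp
  right_inv p := by simp

/-- Average over all column swaps. -/
noncomputable def avgCol (ρ : Perm (Bool × β) →* (V →L[ℝ] V)) : V →L[ℝ] V :=
  ((1 : ℝ) / 2 ^ Fintype.card β) • ∑ ω : β → Bool, ρ (colSwap ω)

end Rep

/-- The cube, one `Bool` for each direction; the outermost `Bool` is the LAST direction used
in a pass (least significant bit of the position). -/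
def Cube : ℕ → Type
  | 0 => Unit
  | d + 1 => Bool × Cube d

instance Cube.fintype : (d : ℕ) → Fintype (Cube d)
  | 0 => inferInstanceAs (Fintype Unit)
  | d + 1 => letI := Cube.fintype d; inferInstanceAs (Fintype (Bool × Cube d))

instance Cube.decEq : (d : ℕ) → DecidableEq (Cube d)
  | 0 => inferInstanceAs (DecidableEq Unit)
  | d + 1 => letI := Cube.decEq d; inferInstanceAs (DecidableEq (Bool × Cube d))

/-- Adjoint of a pass (d shuffles with the rotation undone). -/
noncomputable def passAdj {V : Type*} [NormedAddCommGroup V] [InnerProductSpace ℝ V] :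
    (d : ℕ) → (Perm (Cube d) →* (V →L[ℝ] V)) → (V →L[ℝ] V)
  | 0, _ => 1
  | d + 1, ρ => passAdj d (ρ.comp (extHom (β := Cube d) true)) *
      passAdj d (ρ.comp (extHom (β := Cube d) false)) * avgCol (β := Cube d) ρ

end Vale.Agent.P162
end
end
end

section

section

section

namespace Vale.Agent.P162

variable {V : Type*} [NormedAddCommGroup V] [InnerProductSpace ℝ V] [FiniteDimensional ℝ V]

/-- adjoint of the operator of a law `q` -/
noncomputable def adjOp {G : Type*} [Group G] [Fintype G] (q : G → ℝ) (ρ : G →* (V →L[ℝ] V)) :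
    V →L[ℝ] V := ∑ g : G, q g • ρ g⁻¹

/-- left regular representation -/
noncomputable def regRep (G : Type*) [Group G] [Fintype G] :
    G →* (EuclideanSpace ℝ G →L[ℝ] EuclideanSpace ℝ G) where
  toFun g := LinearMap.toContinuousLinearMap
    { toFun := fun f => WithLp.toLp 2 (fun σ => f (g⁻¹ * σ))
      map_add' := by intro f f'; ext σ; simp
      map_smul' := by intro c f; ext σ; simp }
  map_one' := by ext f σ; simp
  map_mul' g g' := by ext f σ; simp [mul_assoc]

end Vale.Agent.P162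
end
end
end

section

section

section

namespace Vale.Agent.P162

open Equiv

section Av

variable {ι κ : Type*} [Fintype ι] [DecidableEq ι] [Fintype κ] [DecidableEq κ]
variable {V : Type*} [NormedAddCommGroup V] [InnerProductSpace ℝ V]

/-- The permutations moving each point `x` to `x` or `f x`. -/
def flipSet (f : ι → ι) : Finset (Perm ι) :=
  Finset.univ.filter (fun g => ∀ x, g x = x ∨ g x = f x)

/-- The average over `flipSet f`. -/
noncomputable def av (f : ι → ι) (ρ : Perm ι →* (V →L[ℝ] V)) : V →L[ℝ] V :=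
  ((flipSet f).card : ℝ)⁻¹ • ∑ g ∈ flipSet f, ρ g

lemma av_of_bij {Ω : Type*} [Fintype Ω] (s : Ω → Perm ι) (hs : Function.Injective s)
    (f : ι → ι) (himg : ∀ g : Perm ι, (∀ x, g x = x ∨ g x = f x) ↔ ∃ ω, s ω = g)
    (ρ : Perm ι →* (V →L[ℝ] V)) :
    av f ρ = (Fintype.card Ω : ℝ)⁻¹ • ∑ ω, ρ (s ω) := by
  classical
  have h1 : flipSet f = Finset.univ.map ⟨s, hs⟩ := by
    ext g; simp only [flipSet, himg, Finset.univ_filter_exists, Finset.mem_image, Finset.mem_univ, true_and, Finset.mem_map, Function.Embedding.coeFn_mk]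
  unfold av
  rw [h1, Finset.sum_map, Finset.card_map]
  rfl

lemma av_conj (e : ι ≃ κ) (f : ι → ι) (f' : κ → κ) (hf : ∀ x, e (f x) = f' (e x))
    (ρ : Perm κ →* (V →L[ℝ] V)) :
    av f' ρ = av f (ρ.comp e.permCongrHom.toMonoidHom) := by
  classical
  have h := av_of_bij (Ω := {g // g ∈ flipSet f}) (fun g => e.permCongr g.1)
    (by
      intro g g' h
      apply Subtype.ext
      exact e.permCongr.injective h) f'
    (by
      intro g
      constructor
      · intro h
        refine ⟨⟨e.permCongr.symm g, ?_⟩, ?_⟩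
        · simp only [flipSet, Finset.mem_filter, Finset.mem_univ, true_and]
          intro x
          rcases h (e x) with h1 | h1
          · left
            simp [h1]
          · right
            simp only [Equiv.permCongr_symm_apply, h1]
            rw [← hf]
            simp
        · ext x
          simp
      · rintro ⟨⟨g', hg'⟩, rfl⟩ x
        simp only [flipSet, Finset.mem_filter, Finset.mem_univ, true_and] at hg'
        rcases hg' (e.symm x) with h1 | h1
        · left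
          simp [h1]
        · right
          simp only [Equiv.permCongr_apply, h1]
          rw [hf]
          simp) ρ
  rw [h]
  unfold av
  rw [Fintype.card_coe, ← Finset.sum_coe_sort (flipSet f)]
  rfl

lemma av_avgCol {β : Type*} [Fintype β] [DecidableEq β] (ρ : Perm (Bool × β) →* (V →L[ℝ] V)) :
    avgCol ρ = av (fun p : Bool × β => (!p.1, p.2)) ρ := by
  classical
  rw [av_of_bij (colSwap (β := β))]
  · simp only [avgCol, one_div, Fintype.card_pi, Fintype.card_bool, Finset.prod_const, Finset.card_univ, Nat.cast_pow, Nat.cast_ofNat]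
  · intro ω ω' h
    funext x
    have := congrArg (fun g : Perm (Bool × β) => (g (false, x)).1) h
    simpa [colSwap] using this
  · intro g
    constructor
    · intro h
      refine ⟨fun x => (g (false, x)).1, ?_⟩
      ext1 ⟨b, x⟩
      have h0 := h (false, x)
      have h1 := h (true, x)
      have h2 : g (false, x) ≠ g (true, x) := fun h => by simpa using g.injective h
      rcases h0 with h0 | h0 <;> rcases h1 with h1 | h1 <;> cases b <;>
        simp_all [colSwap]
    · rintro ⟨ω, rfl⟩ ⟨b, x⟩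
      cases hω : ω x <;> simp [colSwap, hω]

lemma extHom_apply {β : Type*} [Fintype β] [DecidableEq β] (b : Bool) (g : Perm β) (c : Bool)
    (x : β) : extHom b g (c, x) = (c, if c = b then g x else x) := rfl

lemma extHom_commute {β : Type*} [Fintype β] [DecidableEq β] (g g' : Perm β) :
    extHom true g * extHom false g' = extHom false g' * extHom true g := by
  ext1 ⟨b, x⟩
  cases b <;> simp [extHom_apply]

lemma av_lift {β : Type*} [Fintype β] [DecidableEq β] (f : β → β)
    (ρ : Perm (Bool × β) →* (V →L[ℝ] V)) :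
    av (fun p : Bool × β => (p.1, f p.2)) ρ =
      av f (ρ.comp (extHom true)) * av f (ρ.comp (extHom false)) := by
  classical
  rw [av_of_bij (Ω := {g // g ∈ flipSet f} × {g // g ∈ flipSet f})
    (fun p => extHom true p.1.1 * extHom false p.2.1)]
  · unfold av
    rw [Fintype.card_prod, Fintype.card_coe, smul_mul_smul_comm, Finset.sum_mul_sum,
      Fintype.sum_prod_type]
    congr 1
    · push_cast
      rw [mul_inv]
    · rw [← Finset.sum_coe_sort (flipSet f)]
      apply Finset.sum_congr rfl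
      intro g _
      rw [← Finset.sum_coe_sort (flipSet f)]
      apply Finset.sum_congr rfl
      intro g' _
      simp only [map_mul, MonoidHom.coe_comp, Function.comp_apply]
  · rintro ⟨⟨g1, h1⟩, ⟨g2, h2⟩⟩ ⟨⟨g1', h1'⟩, ⟨g2', h2'⟩⟩ h
    simp only [Prod.mk.injEq, Subtype.mk.injEq]
    constructor
    · ext x
      have := congrArg (fun g : Perm (Bool × β) => (g (true, x)).2) h
      simpa only [Perm.coe_mul, Function.comp_apply, extHom_apply, Bool.true_eq_false, ↓reduceIte] using this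
    · ext x
      have := congrArg (fun g : Perm (Bool × β) => (g (false, x)).2) h
      simpa only [Perm.coe_mul, Function.comp_apply, extHom_apply, ↓reduceIte, Bool.false_eq_true] using this
  · intro g
    constructor
    · intro h
      have key : ∀ b : Bool, ∃ g' : Perm β, ∀ x, g (b, x) = (b, g' x) := by
        intro b
        have hfst : ∀ x, (g (b, x)).1 = b := by
          intro x
          rcases h (b, x) with h1 | h1 <;> rw [h1]
        have hinj : Function.Injective (fun x => (g (b, x)).2) := by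
          intro x y hxy
          have h3 : g (b, x) = g (b, y) := by
            ext1
            · rw [hfst, hfst]
            · exact hxy
          have := g.injective h3
          simpa using this
        refine ⟨Equiv.ofBijective _ (Finite.injective_iff_bijective.1 hinj), ?_⟩
        intro x
        ext1
        · exact hfst x
        · rfl
      obtain ⟨gt, ht⟩ := key true
      obtain ⟨gf, hf⟩ := key false
      refine ⟨⟨⟨gt, ?_⟩, ⟨gf, ?_⟩⟩, ?_⟩
      · simp only [flipSet, Finset.mem_filter, Finset.mem_univ, true_and]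
        intro x
        have := h (true, x)
        rw [ht] at this
        simpa using this
      · simp only [flipSet, Finset.mem_filter, Finset.mem_univ, true_and]
        intro x
        have := h (false, x)
        rw [hf] at this
        simpa using this
      · ext1 ⟨b, x⟩
        cases b
        · simp only [Perm.coe_mul, Function.comp_apply, extHom_apply, ↓reduceIte, Bool.false_eq_true, hf]
        · simp only [Perm.coe_mul, Function.comp_apply, extHom_apply, Bool.true_eq_false, ↓reduceIte, ht]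
    · rintro ⟨⟨⟨g1, h1⟩, ⟨g2, h2⟩⟩, rfl⟩ ⟨b, x⟩
      simp only [flipSet, Finset.mem_filter, Finset.mem_univ, true_and] at h1 h2
      cases b
      · simpa [extHom_apply] using h2 x
      · simpa only [Perm.coe_mul, Function.comp_apply, extHom_apply, Bool.true_eq_false, ↓reduceIte, Prod.mk.injEq,     true_and] using h1 x

lemma av_ext_commute {β : Type*} [Fintype β] [DecidableEq β] (f f' : β → β)
    (ρ : Perm (Bool × β) →* (V →L[ℝ] V)) :
    av f (ρ.comp (extHom true)) * av f' (ρ.comp (extHom false)) =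
      av f' (ρ.comp (extHom false)) * av f (ρ.comp (extHom true)) := by
  unfold av
  rw [smul_mul_smul_comm, smul_mul_smul_comm, mul_comm ((flipSet f).card : ℝ)⁻¹,
    Finset.sum_mul_sum, Finset.sum_mul_sum, Finset.sum_comm]
  congr 1
  apply Finset.sum_congr rfl
  intro g _
  apply Finset.sum_congr rfl
  intro g' _
  simp only [MonoidHom.comp_apply]
  rw [← map_mul, ← map_mul, extHom_commute]

/-- Flip of direction `j` in the cube. -/
def cf : (d : ℕ) → (j : ℕ) → Cube d → Cube d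
  | 0, _ => id
  | _ + 1, 0 => fun p => (!p.1, p.2)
  | d + 1, j + 1 => fun p => (p.1, cf d j p.2)

/-- Product of the averages in directions `k - 1, …, 0`. -/
noncomputable def dprod (d : ℕ) (ρ : Perm (Cube d) →* (V →L[ℝ] V)) : ℕ → (V →L[ℝ] V)
  | 0 => 1
  | k + 1 => av (cf d k) ρ * dprod d ρ k

lemma dprod_commute (d : ℕ) (ρ : Perm (Bool × Cube d) →* (V →L[ℝ] V)) (f : Cube d → Cube d)
    (k : ℕ) : dprod d (ρ.comp (extHom true)) k * av f (ρ.comp (extHom false)) =
      av f (ρ.comp (extHom false)) * dprod d (ρ.comp (extHom true)) k := by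
  induction k with
  | zero => simp only [dprod, one_mul, mul_one]
  | succ k ih =>
    simp only [dprod]
    rw [mul_assoc, ih, ← mul_assoc, ← mul_assoc, av_ext_commute]

lemma dprod_succ (d : ℕ) (ρ : Perm (Cube (d + 1)) →* (V →L[ℝ] V)) (k : ℕ) :
    dprod (d + 1) ρ (k + 1) = dprod d (ρ.comp (extHom (β := Cube d) true)) k *
      dprod d (ρ.comp (extHom (β := Cube d) false)) k * avgCol (β := Cube d) ρ := by
  induction k with
  | zero =>
    simp only [dprod, one_mul, mul_one]
    exact (av_avgCol (β := Cube d) ρ).symm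
  | succ k ih =>
    have h1 : dprod (d + 1) ρ (k + 1 + 1) = av (cf (d + 1) (k + 1)) ρ * dprod (d + 1) ρ (k + 1) :=
      rfl
    have h2 : av (cf (d + 1) (k + 1)) ρ = av (cf d k) (ρ.comp (extHom (β := Cube d) true)) *
        av (cf d k) (ρ.comp (extHom (β := Cube d) false)) :=
      av_lift (β := Cube d) (cf d k) ρ
    have h3 := dprod_commute d ρ (cf d k) k
    rw [h1, ih, h2]
    simp only [dprod]
    rw [mul_assoc, mul_assoc, mul_assoc, mul_assoc]
    congr 1
    rw [← mul_assoc, ← mul_assoc, ← mul_assoc]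
    congr 1
    rw [← mul_assoc]
    congr 1
    exact h3.symm

lemma passAdj_eq_dprod (d : ℕ) (ρ : Perm (Cube d) →* (V →L[ℝ] V)) :
    passAdj d ρ = dprod d ρ d := by
  induction d with
  | zero => rfl
  | succ d ih =>
    rw [dprod_succ, ← ih, ← ih]
    rfl

end Av

section Conj

variable {ι κ : Type*} [Fintype ι] [DecidableEq ι] [Fintype κ] [DecidableEq κ]
variable {V : Type*} [NormedAddCommGroup V] [InnerProductSpace ℝ V]

lemma gen_conj (e : ι ≃ κ) (ρ : Perm κ →* (V →L[ℝ] V)) :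
    gen (ρ.comp e.permCongrHom.toMonoidHom) = gen ρ := by
  unfold gen
  rw [Fintype.card_congr e]
  congr 1
  rw [← Equiv.sum_comp e]
  apply Finset.sum_congr rfl
  intro a _
  rw [← Equiv.sum_comp e]
  apply Finset.sum_congr rfl
  intro b _
  congr 1
  simp only [MonoidHom.comp_apply]
  congr 1
  change e.permCongr (swap a b) = _
  ext x
  simp only [permCongr_apply, swap_apply_def, symm_apply_eq]
  split_ifs <;> simp

/-- Intertwining of averages by a permutation. -/
lemma av_mul_rho (R : Perm ι) (f f' : ι → ι) (h : ∀ x, R (f x) = f' (R x))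
    (ρ : Perm ι →* (V →L[ℝ] V)) : av f' ρ * ρ R = ρ R * av f ρ := by
  rw [av_conj R f f' h ρ]
  unfold av
  rw [smul_mul_assoc, mul_smul_comm, Finset.sum_mul, Finset.mul_sum]
  congr 1
  apply Finset.sum_congr rfl
  intro g _
  rw [← map_mul]
  change ρ (R.permCongr g) * ρ R = _
  rw [← map_mul]
  congr 1
  ext x
  simp only [permCongr_eq_mul, inv_mul_cancel_right, Perm.coe_mul, Function.comp_apply]

lemma adjOp_thorp (m : ℕ) (ρ : Perm (Fin (2 * m)) →* (V →L[ℝ] V)) :
    adjOp (thorpLaw m) ρ = ((1 : ℝ) / 2 ^ m) • ∑ ω : Fin m → Fin 2, ρ (thorpPerm m ω)⁻¹ := by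
  classical
  unfold adjOp
  rw [← Finset.sum_fiberwise Finset.univ (thorpPerm m) (fun ω => ρ (thorpPerm m ω)⁻¹),
    Finset.smul_sum]
  apply Finset.sum_congr rfl
  intro g _
  have h1 : ∑ ω with thorpPerm m ω = g, ρ (thorpPerm m ω)⁻¹ =
      ∑ ω : Fin m → Fin 2 with thorpPerm m ω = g, ρ g⁻¹ := by
    apply Finset.sum_congr rfl
    intro ω hω
    rw [(Finset.mem_filter.1 hω).2]
  rw [h1, Finset.sum_const, ← Fintype.card_subtype]
  unfold thorpLaw
  rw [← Nat.cast_smul_eq_nsmul ℝ, smul_smul]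
  congr 1
  ring

/-- The top bit and the rest. -/
def topEquiv (m : ℕ) : Fin (2 * m) ≃ Bool × Fin m :=
  (finProdFinEquiv (m := 2) (n := m)).symm.trans (finTwoEquiv.prodCongr (Equiv.refl _))

/-- Flip of the top bit. -/
def topFlip (m : ℕ) (x : Fin (2 * m)) : Fin (2 * m) :=
  (topEquiv m).symm (!(topEquiv m x).1, (topEquiv m x).2)

lemma thorpPerm_eq (m : ℕ) (ω : Fin m → Fin 2) :
    thorpPerm m ω = thorpPerm m 0 *
      (topEquiv m).symm.permCongr (colSwap (fun i => finTwoEquiv (ω i))) := by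
  ext1 x
  obtain ⟨⟨b, i⟩, rfl⟩ := (topEquiv m).symm.surjective x
  have hb : ∀ b : Bool, ∀ c : Fin 2, finTwoEquiv.symm (finTwoEquiv c ^^ b) =
      finTwoEquiv.symm b + c := by decide
  simp only [thorpPerm, topEquiv, symm_trans, prodCongr_symm, refl_symm, symm_symm, trans_apply, prodCongr_apply, coe_refl, Prod.map_apply, id_eq, symm_apply_apply, coe_fn_mk, finCongr_apply, Pi.zero_apply, Fin.isValue, add_zero, colSwap, Perm.coe_mul, coe_trans, Function.comp_apply, permCongr_apply, apply_symm_apply, hb]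

lemma adjOp_thorp_eq (m : ℕ) (ρ : Perm (Fin (2 * m)) →* (V →L[ℝ] V)) :
    adjOp (thorpLaw m) ρ = av (topFlip m) ρ * ρ (thorpPerm m 0)⁻¹ := by
  rw [adjOp_thorp]
  have h1 : av (topFlip m) ρ =
      avgCol (ρ.comp (topEquiv m).symm.permCongrHom.toMonoidHom) := by
    rw [av_avgCol]
    apply av_conj
    rintro ⟨b, i⟩
    simp [topFlip]
  rw [h1]
  unfold avgCol
  rw [smul_mul_assoc, Finset.sum_mul, Fintype.card_fin]
  congr 1
  rw [← (Equiv.arrowCongr (Equiv.refl (Fin m)) finTwoEquiv).sum_comp]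
  apply Finset.sum_congr rfl
  intro ω _
  rw [thorpPerm_eq m ω, mul_inv_rev, map_mul]
  rfl

end Conj

section Bits

/-- The cube point with bits `u 0, u 1, …`. -/
def toCube : (d : ℕ) → (ℕ → Bool) → Cube d
  | 0, _ => ()
  | d + 1, u => (u 0, toCube d (fun i => u (i + 1)))

lemma toCube_eq_iff (d : ℕ) (u v : ℕ → Bool) :
    toCube d u = toCube d v ↔ ∀ i < d, u i = v i := by
  induction d generalizing u v with
  | zero => exact ⟨fun _ i hi => absurd hi (by omega), fun _ => rfl⟩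
  | succ d ih =>
    simp only [toCube]
    constructor
    · intro h
      have h1 : u 0 = v 0 := congrArg Prod.fst h
      have h2 : toCube d (fun i => u (i + 1)) = toCube d (fun i => v (i + 1)) :=
        congrArg Prod.snd h
      rw [ih] at h2
      intro i hi
      cases i with
      | zero => exact h1
      | succ i => exact h2 i (by omega)
    · intro h
      have h1 := h 0 (by omega)
      have h2 := (ih (fun i => u (i + 1)) (fun i => v (i + 1))).2
        (fun i hi => h (i + 1) (by omega))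
      exact Prod.ext h1 h2

lemma cf_toCube (d j : ℕ) (u : ℕ → Bool) :
    cf d j (toCube d u) = toCube d (fun i => if i = j then !u i else u i) := by
  induction d generalizing j u with
  | zero => rfl
  | succ d ih =>
    cases j with
    | zero =>
      simp only [cf, toCube]
      exact Prod.ext (by simp) (by simp)
    | succ j =>
      simp only [cf, toCube]
      refine Prod.ext (by simp) ?_
      simp only
      rw [ih]
      rw [toCube_eq_iff]
      intro i _
      simp

lemma card_cube (d : ℕ) : Fintype.card (Cube d) = 2 ^ d := by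
  induction d with
  | zero => rfl
  | succ d ih =>
    have : Fintype.card (Cube (d + 1)) = Fintype.card (Bool × Cube d) := rfl
    rw [this, Fintype.card_prod, ih, Fintype.card_bool, pow_succ]
    ring

/-- Positions to cube points. -/
def bitMap (d : ℕ) (x : Fin (2 * 2 ^ d)) : Cube (d + 1) :=
  toCube (d + 1) (fun i => (x : ℕ).testBit i)

lemma bitMap_injective (d : ℕ) : Function.Injective (bitMap d) := by
  intro x y h
  unfold bitMap at h
  rw [toCube_eq_iff] at h
  apply Fin.ext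
  apply Nat.eq_of_testBit_eq
  intro i
  by_cases hi : i < d + 1
  · exact h i hi
  · have hx : (x : ℕ) < 2 ^ i := by
      calc (x : ℕ) < 2 * 2 ^ d := x.2
        _ = 2 ^ (d + 1) := by ring
        _ ≤ 2 ^ i := Nat.pow_le_pow_right (by norm_num) (by omega)
    have hy : (y : ℕ) < 2 ^ i := by
      calc (y : ℕ) < 2 * 2 ^ d := y.2
        _ = 2 ^ (d + 1) := by ring
        _ ≤ 2 ^ i := Nat.pow_le_pow_right (by norm_num) (by omega)
    rw [Nat.testBit_lt_two_pow hx, Nat.testBit_lt_two_pow hy]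

/-- Positions are cube points. -/
noncomputable def bitEquiv (d : ℕ) : Fin (2 * 2 ^ d) ≃ Cube (d + 1) :=
  Equiv.ofBijective (bitMap d) ((Fintype.bijective_iff_injective_and_card _).2
    ⟨bitMap_injective d, by rw [Fintype.card_fin, card_cube]; ring⟩)

lemma bitEquiv_apply (d : ℕ) (x : Fin (2 * 2 ^ d)) :
    bitEquiv d x = toCube (d + 1) (fun i => (x : ℕ).testBit i) := rfl

/-- Rotation of the bits. -/
def rot (d : ℕ) (u : ℕ → Bool) (i : ℕ) : Bool := if i = 0 then u d else u (i - 1)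

lemma topEquiv_symm_val (m : ℕ) (b : Bool) (i : Fin m) :
    (((topEquiv m).symm (b, i) : Fin (2 * m)) : ℕ) = m * b.toNat + i := by
  have h0 : finTwoEquiv.symm false = 0 := rfl
  have h1 : finTwoEquiv.symm true = 1 := rfl
  cases b <;> simp [topEquiv, h0, h1, finProdFinEquiv, add_comm]

lemma thorp_zero_val (m : ℕ) (b : Bool) (i : Fin m) :
    ((thorpPerm m 0 ((topEquiv m).symm (b, i)) : Fin (2 * m)) : ℕ) = 2 * i + b.toNat := by
  have h0 : finTwoEquiv.symm false = 0 := rfl
  have h1 : finTwoEquiv.symm true = 1 := rfl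
  cases b <;> simp only [thorpPerm, topEquiv, Equiv.trans_apply, Equiv.coe_fn_mk,
    Equiv.symm_trans_apply, Equiv.symm_symm, Equiv.symm_apply_apply, Equiv.prodCongr_symm,
    Equiv.prodCongr_apply, Prod.map, Equiv.refl_symm, Equiv.refl_apply, h0, h1] <;>
    simp [finProdFinEquiv, add_comm]

lemma testBit_topEquiv (d : ℕ) (b : Bool) (i : Fin (2 ^ d)) (j : ℕ) (hj : j < d + 1) :
    (((topEquiv (2 ^ d)).symm (b, i) : Fin (2 * 2 ^ d)) : ℕ).testBit j =
      if j < d then (i : ℕ).testBit j else b := by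
  rw [topEquiv_symm_val, Nat.testBit_two_pow_mul_add _ i.2]
  by_cases h : j < d
  · simp [h]
  · have : j = d := by omega
    subst this
    cases b <;> simp

lemma bitEquiv_topFlip (d : ℕ) (x : Fin (2 * 2 ^ d)) :
    bitEquiv d (topFlip (2 ^ d) x) = cf (d + 1) d (bitEquiv d x) := by
  obtain ⟨⟨b, i⟩, rfl⟩ := (topEquiv (2 ^ d)).symm.surjective x
  rw [bitEquiv_apply, bitEquiv_apply, cf_toCube, toCube_eq_iff]
  intro j hj
  simp only [topFlip, Equiv.apply_symm_apply]
  rw [testBit_topEquiv _ _ _ _ hj, testBit_topEquiv _ _ _ _ hj]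
  by_cases h : j < d
  · simp [h, h.ne]
  · have : j = d := by omega
    simp [this]

lemma bitEquiv_rot (d : ℕ) (x : Fin (2 * 2 ^ d)) (u : ℕ → Bool)
    (h : bitEquiv d x = toCube (d + 1) u) :
    bitEquiv d (thorpPerm (2 ^ d) 0 x) = toCube (d + 1) (rot d u) := by
  obtain ⟨⟨b, i⟩, rfl⟩ := (topEquiv (2 ^ d)).symm.surjective x
  rw [bitEquiv_apply, toCube_eq_iff] at h
  rw [bitEquiv_apply, toCube_eq_iff]
  intro j hj
  rw [thorp_zero_val]
  unfold rot
  cases j with
  | zero =>
    have h1 := h d (by omega)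
    rw [testBit_topEquiv _ _ _ _ (by omega)] at h1
    simp only [lt_irrefl, if_false] at h1
    simp only [if_true]
    rw [← h1, Nat.testBit_zero]
    cases b <;> simp
  | succ j =>
    have h1 := h j (by omega)
    rw [testBit_topEquiv _ _ _ _ (by omega), if_pos (by omega)] at h1
    simp only [Nat.succ_ne_zero, if_false, Nat.add_sub_cancel]
    rw [← h1, Nat.testBit_succ]
    congr 1
    cases b
    · simp
    · simp
      omega

lemma exists_toCube (d : ℕ) (x : Cube d) : ∃ u, x = toCube d u := by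
  induction d with
  | zero => exact ⟨fun _ => false, rfl⟩
  | succ d ih =>
    obtain ⟨u, hu⟩ := ih x.2
    refine ⟨fun i => if i = 0 then x.1 else u (i - 1), ?_⟩
    simp only [toCube]
    refine Prod.ext (by simp) ?_
    simpa only [Nat.add_eq_zero_iff, one_ne_zero, and_false, ↓reduceIte, add_tsub_cancel_right] using hu

/-- The rotation on the cube. -/
noncomputable def rotPerm (d : ℕ) : Perm (Cube (d + 1)) :=
  (bitEquiv d).permCongr (thorpPerm (2 ^ d) 0)

lemma rotPerm_toCube (d : ℕ) (u : ℕ → Bool) :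
    rotPerm d (toCube (d + 1) u) = toCube (d + 1) (rot d u) := by
  unfold rotPerm
  rw [Equiv.permCongr_apply]
  apply bitEquiv_rot
  simp

lemma rotPerm_cf (d j : ℕ) (hj : j < d) (y : Cube (d + 1)) :
    rotPerm d (cf (d + 1) j y) = cf (d + 1) (j + 1) (rotPerm d y) := by
  obtain ⟨u, rfl⟩ := exists_toCube _ y
  rw [cf_toCube, rotPerm_toCube, rotPerm_toCube, cf_toCube, toCube_eq_iff]
  intro i hi
  unfold rot
  cases i with
  | zero => simp [hj.ne']
  | succ i => simp only [Nat.add_eq_zero_iff, one_ne_zero, and_false, ↓reduceIte, add_tsub_cancel_right, Nat.add_right_cancel_iff]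

lemma rotPerm_pow (d k : ℕ) (hk : k ≤ d + 1) (u : ℕ → Bool) :
    (rotPerm d ^ k) (toCube (d + 1) u) =
      toCube (d + 1) (fun i => if i < k then u (d + 1 + i - k) else u (i - k)) := by
  induction k with
  | zero => simp only [pow_zero, Perm.coe_one, id_eq, not_lt_zero, ↓reduceIte, tsub_zero]
  | succ k ih =>
    rw [pow_succ', Perm.mul_apply, ih (by omega), rotPerm_toCube, toCube_eq_iff]
    intro i hi
    unfold rot
    cases i with
    | zero =>
      simp only [if_true]
      rw [if_neg (by omega), if_pos (by omega)]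
      congr 1
      omega
    | succ i =>
      simp only [Nat.succ_ne_zero, if_false, Nat.add_sub_cancel]
      by_cases h : i < k
      · rw [if_pos h, if_pos (by omega)]
        congr 1
        omega
      · rw [if_neg h, if_neg (by omega)]
        congr 1
        omega

lemma rotPerm_pow_eq_one (d : ℕ) : rotPerm d ^ (d + 1) = 1 := by
  ext1 y
  obtain ⟨u, rfl⟩ := exists_toCube _ y
  rw [rotPerm_pow d (d + 1) le_rfl, Perm.one_apply, toCube_eq_iff]
  intro i hi
  rw [if_pos hi]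
  congr 1
  omega

end Bits

section Main

variable {V : Type*} [NormedAddCommGroup V] [InnerProductSpace ℝ V]

lemma av_rho_pow (d k : ℕ) (hk : k ≤ d) (ρ : Perm (Cube (d + 1)) →* (V →L[ℝ] V)) :
    av (cf (d + 1) d) ρ * ρ (rotPerm d) ^ k = ρ (rotPerm d) ^ k * av (cf (d + 1) (d - k)) ρ := by
  induction k with
  | zero => simp
  | succ k ih =>
    rw [pow_succ, ← mul_assoc, ih (by omega), mul_assoc, mul_assoc]
    congr 1
    have h1 : d - k = (d - (k + 1)) + 1 := by omega
    rw [h1]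
    exact av_mul_rho (rotPerm d) _ _ (rotPerm_cf d _ (by omega)) ρ

lemma adj_pow (d : ℕ) (ρ : Perm (Cube (d + 1)) →* (V →L[ℝ] V)) (k : ℕ) (hk : k ≤ d + 1) :
    (av (cf (d + 1) d) ρ * ρ (rotPerm d)⁻¹) ^ k * (ρ (rotPerm d) ^ k *
      dprod (d + 1) ρ (d + 1 - k)) = dprod (d + 1) ρ (d + 1) := by
  induction k with
  | zero => simp only [pow_zero, tsub_zero, one_mul]
  | succ k ih =>
    rw [← ih (by omega)]
    have h1 : d + 1 - k = (d - k) + 1 := by omega
    have h2 : d + 1 - (k + 1) = d - k := by omega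
    have h3 : ρ (rotPerm d)⁻¹ * ρ (rotPerm d) = 1 := by rw [← map_mul]; simp only [inv_mul_cancel, map_one]
    rw [h1, h2]
    simp only [dprod]
    rw [pow_succ (av (cf (d + 1) d) ρ * ρ (rotPerm d)⁻¹) k, mul_assoc]
    congr 1
    rw [pow_succ' (ρ (rotPerm d)) k, mul_assoc, mul_assoc, ← mul_assoc (ρ (rotPerm d)⁻¹), h3,
      one_mul, ← mul_assoc, av_rho_pow d k (by omega), mul_assoc]

/-- `d + 1` Thorp shuffles of `2 ^ (d + 1)` cards are one pass through the cube directions. -/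
theorem adjOp_thorp_pow (d : ℕ) (ρ : Perm (Fin (2 * 2 ^ d)) →* (V →L[ℝ] V)) :
    (adjOp (thorpLaw (2 ^ d)) ρ) ^ (d + 1) =
      passAdj (d + 1) (ρ.comp (bitEquiv d).symm.permCongrHom.toMonoidHom) := by
  set ρ' : Perm (Cube (d + 1)) →* (V →L[ℝ] V) :=
    ρ.comp (bitEquiv d).symm.permCongrHom.toMonoidHom with hρ'
  have h1 : ρ'.comp (bitEquiv d).permCongrHom.toMonoidHom = ρ := by
    ext1 g
    simp only [hρ', MonoidHom.comp_apply]
    congr 1
    change (bitEquiv d).symm.permCongr ((bitEquiv d).permCongr g) = g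
    ext1 x
    simp
  have h2 : av (topFlip (2 ^ d)) ρ = av (cf (d + 1) d) ρ' := by
    rw [av_conj (bitEquiv d) (topFlip (2 ^ d)) (cf (d + 1) d) (bitEquiv_topFlip d) ρ', h1]
  have h3 : ρ (thorpPerm (2 ^ d) 0)⁻¹ = ρ' (rotPerm d)⁻¹ := by
    rw [← h1]
    rfl
  have h4 : adjOp (thorpLaw (2 ^ d)) ρ = av (cf (d + 1) d) ρ' * ρ' (rotPerm d)⁻¹ := by
    rw [adjOp_thorp_eq, h2, h3]
  rw [h4, passAdj_eq_dprod, ← adj_pow d ρ' (d + 1) le_rfl, Nat.sub_self]
  simp only [dprod, mul_one]
  rw [← map_pow ρ' (rotPerm d), rotPerm_pow_eq_one, map_one, mul_one]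

/-- The bound for a pass gives the bound for Thorp shuffles. -/
theorem thorp_pass_bound_of [FiniteDimensional ℝ V] (d : ℕ)
    (hpass : ∀ (ρ : Perm (Cube (d + 1)) →* (V →L[ℝ] V)), (∀ g v, ‖ρ g v‖ = ‖v‖) →
      ∀ v : V, ‖passAdj (d + 1) ρ v‖ ≤ ‖NormedSpace.exp (-(1 / 40 : ℝ) • gen ρ) v‖)
    (ρ : Perm (Fin (2 * 2 ^ d)) →* (V →L[ℝ] V))
    (hρ : ∀ g v, ‖ρ g v‖ = ‖v‖) (v : V) :
    ‖((adjOp (thorpLaw (2 ^ d)) ρ) ^ (d + 1)) v‖ ≤
      ‖NormedSpace.exp (-(1 / 40 : ℝ) • gen ρ) v‖ := by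
  have h := hpass (ρ.comp (bitEquiv d).symm.permCongrHom.toMonoidHom) (fun g v => hρ _ v) v
  rw [gen_conj] at h
  rw [adjOp_thorp_pow]
  exact h

end Main

end Vale.Agent.P162
end
end
end

section

section

section

/-!
# Layered ring network for the Thorp shuffle of `2 m` cards, every `m`
-/

namespace Vale.Agent.P162.Ring

open Equiv
open Vale.Agent.P162.Lin (Ex nOrb)

/-- Coins of `D` layers; layer `0` is the innermost one. -/
abbrev Cn (m D : ℕ) := Fin D → Fin m → Fin 2

/-- Product of the forward layers `0, …, j - 1` (layer `0` acts first). -/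
def Rg {m D : ℕ} (b : Cn m D) : ℕ → Perm (Fin (2 * m))
  | 0 => 1
  | j + 1 => (if h : j < D then thorpPerm m (b ⟨j, h⟩) else 1) * Rg b j

theorem Rg_nil {m D : ℕ} (b : Cn m D) : Rg b 0 = 1 := by rw [Rg]

theorem Rg_step {m D : ℕ} (b : Cn m D) (j : ℕ) :
    Rg b (j + 1) = (if h : j < D then thorpPerm m (b ⟨j, h⟩) else 1) * Rg b j := by rw [Rg]

/-- Network of the levels `0, …, j - 1`: `a` on the left (used first, backwards), `b` on the
right (forwards). -/
def net {m D : ℕ} (a b : Cn m D) (j : ℕ) : Perm (Fin (2 * m)) := Rg b j * (Rg a j)⁻¹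

/-- The partner `l ↔ l + m` on the inner side of a layer. -/
def opp (m : ℕ) : Perm (Fin (2 * m)) :=
  Function.Involutive.toPerm (topFlip m) (fun x => by simp [topFlip])

/-- The out-partner involution of the network at the input side. -/
def kap {m : ℕ} (N : Perm (Fin (2 * m))) : Perm (Fin (2 * m)) := N⁻¹ * opp m * N

/-- Wires occupied at the input of `net a b j` by the cards starting in `S`. -/
def occ {m D : ℕ} (a : Cn m D) (j : ℕ) (S : Finset (Fin (2 * m))) : Finset (Fin (2 * m)) :=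
  S.map (Rg a j * (Rg a D)⁻¹).toEmbedding

/-- Number of closed loops at level `j` among the cards starting in `S`. -/
noncomputable def loops {m D : ℕ} (a b : Cn m D) (S : Finset (Fin (2 * m))) (j : ℕ) : ℕ :=
  nOrb (Subgroup.closure {opp m, kap (net a b j)}) (occ a j S : Set (Fin (2 * m)))

/-- Total number of loops. -/
noncomputable def totLoops {m D : ℕ} (a b : Cn m D) (S : Finset (Fin (2 * m))) : ℕ :=
  ∑ j : Fin D, loops a b S j

end Vale.Agent.P162.Ring
end
end
end

section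

section

section

namespace Vale.Agent.P162

open Equiv
open scoped InnerProductSpace

section Reg

variable {G : Type*} [Group G] [Fintype G]

theorem regRep_apply (g : G) (f : EuclideanSpace ℝ G) (σ : G) :
    regRep G g f σ = f (g⁻¹ * σ) := rfl

theorem regRep_inner (g : G) (v w : EuclideanSpace ℝ G) :
    ⟪regRep G g v, w⟫_ℝ = ⟪v, regRep G g⁻¹ w⟫_ℝ := by
  simp only [PiLp.inner_apply, regRep_apply]
  rw [← Equiv.sum_comp (Equiv.mulLeft g)]
  simp only [coe_mulLeft, inv_mul_cancel_left, RCLike.inner_apply, Real.ringHom_apply, inv_inv]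

theorem regRep_norm (g : G) (v : EuclideanSpace ℝ G) : ‖regRep G g v‖ = ‖v‖ := by
  have h1 : ‖regRep G g v‖ ^ 2 = ‖v‖ ^ 2 := by
    rw [← real_inner_self_eq_norm_sq, ← real_inner_self_eq_norm_sq, regRep_inner]
    have : regRep G g⁻¹ (regRep G g v) = v := by
      ext σ; simp only [regRep_apply, inv_inv, inv_mul_cancel_left]
    rw [this]
  exact (sq_eq_sq₀ (norm_nonneg _) (norm_nonneg _)).1 h1

theorem adjOp_regRep_apply (q : G → ℝ) (f : EuclideanSpace ℝ G) (σ : G) :
    adjOp q (regRep G) f σ = ∑ g : G, q g * f (g * σ) := by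
  simp only [adjOp, sum_apply, smul_apply, WithLp.ofLp_sum, WithLp.ofLp_smul, Finset.sum_apply, Pi.smul_apply, regRep_apply, inv_inv, smul_eq_mul]

theorem adjOp_mem (q : G → ℝ) (W : Submodule ℝ (EuclideanSpace ℝ G))
    (hW : ∀ g : G, ∀ v ∈ W, regRep G g v ∈ W) : ∀ v ∈ W, adjOp q (regRep G) v ∈ W := by
  intro v hv
  simp only [adjOp, ContinuousLinearMap.coe_sum', Finset.sum_apply, ContinuousLinearMap.coe_smul',
    Pi.smul_apply]
  exact W.sum_mem fun g _ => W.smul_mem _ (hW _ _ hv)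

theorem orth_inv (W : Submodule ℝ (EuclideanSpace ℝ G))
    (hW : ∀ g : G, ∀ v ∈ W, regRep G g v ∈ W) : ∀ g : G, ∀ v ∈ Wᗮ, regRep G g v ∈ Wᗮ := by
  intro g v hv
  rw [Submodule.mem_orthogonal] at hv ⊢
  intro u hu
  rw [real_inner_comm, regRep_inner, real_inner_comm]
  exact hv _ (hW _ _ hu)

theorem adjOp_norm_le (q : G → ℝ) (hq : ∀ g, 0 ≤ q g) (hsum : ∑ g, q g = 1)
    (v : EuclideanSpace ℝ G) : ‖adjOp q (regRep G) v‖ ≤ ‖v‖ := by
  simp only [adjOp, ContinuousLinearMap.coe_sum', Finset.sum_apply, ContinuousLinearMap.coe_smul',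
    Pi.smul_apply]
  calc ‖∑ g, q g • regRep G g⁻¹ v‖ ≤ ∑ g, ‖q g • regRep G g⁻¹ v‖ := norm_sum_le _ _
    _ = ∑ g, q g * ‖v‖ := by
        apply Finset.sum_congr rfl
        intro g _
        rw [norm_smul, regRep_norm, Real.norm_of_nonneg (hq g)]
    _ = ‖v‖ := by rw [← Finset.sum_mul, hsum, one_mul]

variable [DecidableEq G]

/-- the delta function at the identity -/
noncomputable def dl (g : G) : EuclideanSpace ℝ G := EuclideanSpace.single g (1 : ℝ)

theorem regRep_dl (g : G) : regRep G g (dl (1 : G)) = dl g := by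
  ext σ
  simp only [regRep_apply, dl, EuclideanSpace.single_apply]
  congr 1
  rw [inv_mul_eq_one]
  exact propext eq_comm

theorem starProjection_comm (K : Submodule ℝ (EuclideanSpace ℝ G))
    (hK : ∀ g : G, ∀ v ∈ K, regRep G g v ∈ K) (g : G) (v : EuclideanSpace ℝ G) :
    K.starProjection (regRep G g v) = regRep G g (K.starProjection v) := by
  apply Submodule.eq_starProjection_of_mem_orthogonal
  · exact hK _ _ (Submodule.starProjection_apply_mem K v)
  · rw [← map_sub]
    exact orth_inv K hK g _ (Submodule.sub_starProjection_mem_orthogonal v)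

theorem norm_starProjection_dl (K : Submodule ℝ (EuclideanSpace ℝ G))
    (hK : ∀ g : G, ∀ v ∈ K, regRep G g v ∈ K) :
    (Fintype.card G : ℝ) * ‖K.starProjection (dl (1 : G))‖ ^ 2 = Module.finrank ℝ K := by
  have h1 : ∀ g : G, ‖K.starProjection (dl g)‖ ^ 2 = ‖K.starProjection (dl (1 : G))‖ ^ 2 := by
    intro g
    rw [← regRep_dl g, starProjection_comm K hK, regRep_norm]
  have h2 : LinearMap.trace ℝ (EuclideanSpace ℝ G) (K.starProjection : EuclideanSpace ℝ G →ₗ[ℝ] _)
      = ∑ g : G, ‖K.starProjection (dl g)‖ ^ 2 := by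
    rw [LinearMap.trace_eq_sum_inner _ (EuclideanSpace.basisFun G ℝ)]
    apply Finset.sum_congr rfl
    intro g _
    rw [EuclideanSpace.basisFun_apply]
    have := Submodule.re_inner_starProjection_eq_normSq (K := K) (dl g)
    simp only [RCLike.re_to_real] at this
    rw [real_inner_comm]
    exact this
  have h3 : LinearMap.trace ℝ (EuclideanSpace ℝ G) (K.starProjection : EuclideanSpace ℝ G →ₗ[ℝ] _)
      = Module.finrank ℝ K := by
    have hp : LinearMap.IsProj K (K.starProjection : EuclideanSpace ℝ G →ₗ[ℝ] _) := by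
      constructor
      · intro x; exact Submodule.starProjection_apply_mem K x
      · intro x hx; exact (Submodule.starProjection_eq_self_iff (K := K)).2 hx
    exact hp.trace
  rw [h3] at h2
  rw [h2, Finset.sum_congr rfl (fun g _ => h1 g)]
  simp only [Finset.sum_const, Finset.card_univ, nsmul_eq_mul]

/-- The function `σ ↦ convPow q t σ⁻¹` is `S^t δ`. -/
theorem convPow_succ' (q : G → ℝ) (t : ℕ) (g : G) :
    convPow q (t + 1) g = ∑ h : G, convPow q t (g * h⁻¹) * q h := by
  induction t generalizing g with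
  | zero =>
    simp only [convPow]
    rw [Finset.sum_eq_single g, Finset.sum_eq_single g]
    · simp
    · intro b _ hb
      have : ¬ (g * b⁻¹ = 1) := by
        intro h; exact hb (by rw [mul_inv_eq_one] at h; exact h.symm)
      simp [this]
    · simp only [Finset.mem_univ, not_true_eq_false, mul_inv_cancel, ↓reduceIte, one_mul, IsEmpty.forall_iff]
    · intro b _ hb
      have : ¬ (b⁻¹ * g = 1) := by
        intro h; exact hb (by rw [inv_mul_eq_one] at h; exact h)
      simp only [this, ↓reduceIte, mul_zero]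
    · simp only [Finset.mem_univ, not_true_eq_false, inv_mul_cancel, ↓reduceIte, mul_one, IsEmpty.forall_iff]
  | succ t ih =>
    calc convPow q (t + 1 + 1) g = ∑ h : G, q h * convPow q (t + 1) (h⁻¹ * g) := rfl
      _ = ∑ h : G, ∑ k : G, q h * (convPow q t (h⁻¹ * g * k⁻¹) * q k) := by
          apply Finset.sum_congr rfl
          intro h _
          rw [ih, Finset.mul_sum]
      _ = ∑ k : G, ∑ h : G, q h * (convPow q t (h⁻¹ * g * k⁻¹) * q k) := Finset.sum_comm
      _ = ∑ k : G, convPow q (t + 1) (g * k⁻¹) * q k := by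
          apply Finset.sum_congr rfl
          intro k _
          have e2 : convPow q (t + 1) (g * k⁻¹)
            = ∑ h : G, q h * convPow q t (h⁻¹ * (g * k⁻¹)) := rfl
          rw [e2, Finset.sum_mul]
          apply Finset.sum_congr rfl
          intro h _
          rw [mul_assoc, mul_assoc]

theorem adjOp_pow_dl (q : G → ℝ) (t : ℕ) (σ : G) :
    (((adjOp q (regRep G)) ^ t) (dl (1 : G))) σ = convPow q t σ⁻¹ := by
  induction t generalizing σ with
  | zero =>
    simp only [pow_zero, convPow, dl, inv_eq_one]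
    simp only [one_apply_eq_self, PiLp.single_apply]
  | succ t ih =>
    have e : ((adjOp q (regRep G)) ^ (t + 1)) (dl (1 : G))
        = adjOp q (regRep G) (((adjOp q (regRep G)) ^ t) (dl (1 : G))) := by
      rw [pow_succ']; rfl
    rw [e, adjOp_regRep_apply, convPow_succ']
    apply Finset.sum_congr rfl
    intro g _
    rw [ih, mul_inv_rev, mul_comm]

/-- the uniform density -/
noncomputable def un (G : Type*) [Fintype G] : EuclideanSpace ℝ G :=
  WithLp.toLp 2 (fun _ => 1 / (Fintype.card G : ℝ))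

theorem adjOp_pow_un (q : G → ℝ) (hsum : ∑ g, q g = 1) (t : ℕ) :
    ((adjOp q (regRep G)) ^ t) (un G) = un G := by
  induction t with
  | zero => simp only [pow_zero, one_apply_eq_self]
  | succ t ih =>
    have e : ((adjOp q (regRep G)) ^ (t + 1)) (un G)
        = ((adjOp q (regRep G)) ^ t) (adjOp q (regRep G) (un G)) := by
      rw [pow_succ]; rfl
    rw [e]
    have : adjOp q (regRep G) (un G) = un G := by
      ext σ
      rw [adjOp_regRep_apply]
      simp only [un, one_div, ← Finset.sum_mul, hsum, one_mul]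
    rw [this, ih]

theorem tv_le (q : G → ℝ) (hsum : ∑ g, q g = 1) (t : ℕ) :
    tvUnif (convPow q t) ≤ (1 / 2) * Real.sqrt ((Fintype.card G : ℝ) *
      ‖((adjOp q (regRep G)) ^ t) (dl (1 : G) - un G)‖ ^ 2) := by
  unfold tvUnif
  have h1 : ∑ g : G, |convPow q t g - 1 / (Fintype.card G : ℝ)|
      = ∑ g : G, |(((adjOp q (regRep G)) ^ t) (dl (1 : G) - un G)) g| := by
    rw [← Equiv.sum_comp (Equiv.inv G)]
    apply Finset.sum_congr rfl
    intro g _
    rw [map_sub, adjOp_pow_un q hsum, PiLp.sub_apply, adjOp_pow_dl]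
    simp only [Equiv.inv_apply, one_div, un]
  rw [h1]
  apply mul_le_mul_of_nonneg_left _ (by norm_num)
  apply Real.le_sqrt_of_sq_le
  have h2 := sq_sum_le_card_mul_sum_sq (s := (Finset.univ : Finset G))
    (f := fun g => |(((adjOp q (regRep G)) ^ t) (dl (1 : G) - un G)) g|)
  simp only [Finset.card_univ, sq_abs] at h2
  rw [EuclideanSpace.real_norm_sq_eq]
  exact h2

end Reg

end Vale.Agent.P162
end
end
end

section

section

section

namespace Vale.Agent.P162.Lin

open Equiv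

namespace Br

section General

lemma exProd {Ω Ω' : Type*} [Fintype Ω] [Fintype Ω'] (f : Ω × Ω' → ℝ) :
    Ex f = Ex (fun a => Ex (fun b => f (a, b))) := by
  unfold Ex
  rw [Fintype.sum_prod_type, Fintype.card_prod, ← Finset.sum_div, div_div]
  push_cast
  ring

lemma ex_sum {Ω ι : Type*} [Fintype Ω] (s : Finset ι) (f : ι → Ω → ℝ) :
    Ex (fun ω => ∑ i ∈ s, f i ω) = ∑ i ∈ s, Ex (f i) := by
  unfold Ex
  rw [Finset.sum_comm, Finset.sum_div]

lemma ex_mul_left {Ω : Type*} [Fintype Ω] (c : ℝ) (f : Ω → ℝ) :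
    Ex (fun ω => c * f ω) = c * Ex f := by
  unfold Ex
  rw [← Finset.mul_sum, mul_div_assoc]

lemma ex_mul_right {Ω : Type*} [Fintype Ω] (c : ℝ) (f : Ω → ℝ) :
    Ex (fun ω => f ω * c) = Ex f * c := by
  unfold Ex
  rw [← Finset.sum_mul]
  ring

lemma ex_const {Ω : Type*} [Fintype Ω] [Nonempty Ω] (c : ℝ) : Ex (fun _ : Ω => c) = c := by
  unfold Ex
  have : (Fintype.card Ω : ℝ) ≠ 0 := by exact_mod_cast Fintype.card_ne_zero
  simp only [Finset.sum_const, Finset.card_univ, nsmul_eq_mul, ne_eq, this, not_false_eq_true, mul_div_cancel_left₀]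

end General

end Br

open Br

namespace Br

section Bridge

variable {V : Type*} [NormedAddCommGroup V] [InnerProductSpace ℝ V]

end Bridge

end Br

end Vale.Agent.P162.Lin
end
end
end

section

section

section

/-!
# P162: conditional Hölder inequality with windows
-/

namespace Vale.Agent.P162.Lin

section basics

variable {Ω : Type*} [Fintype Ω]

theorem Ex_nonneg' {f : Ω → ℝ} (hf : ∀ ω, 0 ≤ f ω) : 0 ≤ Ex f :=
  div_nonneg (Finset.sum_nonneg fun ω _ => hf ω) (Nat.cast_nonneg _)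

theorem Ex_mono' {f g : Ω → ℝ} (h : ∀ ω, f ω ≤ g ω) : Ex f ≤ Ex g :=
  div_le_div_of_nonneg_right (Finset.sum_le_sum fun ω _ => h ω) (Nat.cast_nonneg _)

theorem Ex_const' [Nonempty Ω] (c : ℝ) : Ex (fun _ : Ω => c) = c := by
  unfold Ex
  rw [Finset.sum_const, Finset.card_univ, nsmul_eq_mul]
  have : (Fintype.card Ω : ℝ) ≠ 0 := by exact_mod_cast Fintype.card_ne_zero
  field_simp

theorem Ex_mul_left' (c : ℝ) (f : Ω → ℝ) : Ex (fun ω => c * f ω) = c * Ex f := by
  unfold Ex
  rw [← Finset.mul_sum, mul_div_assoc]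

theorem Ex_add' (f g : Ω → ℝ) : Ex (fun ω => f ω + g ω) = Ex f + Ex g := by
  unfold Ex
  rw [Finset.sum_add_distrib, add_div]

theorem Ex_sum' {ι : Type*} (s : Finset ι) (f : ι → Ω → ℝ) :
    Ex (fun ω => ∑ i ∈ s, f i ω) = ∑ i ∈ s, Ex (f i) := by
  unfold Ex
  rw [Finset.sum_comm, Finset.sum_div]

theorem eq_zero_of_Ex_eq_zero' [Nonempty Ω] {f : Ω → ℝ} (hf : ∀ ω, 0 ≤ f ω) (h : Ex f = 0)
    (ω : Ω) : f ω = 0 := by
  unfold Ex at h
  have h0 : (Fintype.card Ω : ℝ) ≠ 0 := by exact_mod_cast Fintype.card_ne_zero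
  rw [div_eq_zero_iff, or_iff_left h0, Finset.sum_eq_zero_iff_of_nonneg fun ω _ => hf ω] at h
  exact h ω (Finset.mem_univ _)

/-- Weighted AM-GM with weights of sum at most `1`. -/
theorem geom_mean_le_of_sum_le_one {ι : Type*} (s : Finset ι) (w z : ι → ℝ)
    (hw : ∀ i ∈ s, 0 ≤ w i) (hw' : ∑ i ∈ s, w i ≤ 1) (hz : ∀ i ∈ s, 0 ≤ z i) :
    ∏ i ∈ s, z i ^ w i ≤ ∑ i ∈ s, w i * z i + (1 - ∑ i ∈ s, w i) := by
  have h := Real.geom_mean_le_arith_mean_weighted (Finset.insertNone s)
    (fun o => Option.elim o (1 - ∑ i ∈ s, w i) w) (fun o => Option.elim o 1 z)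
    (by
      intro o ho
      rcases o with _ | i
      · simpa only [Option.elim_none, sub_nonneg] using hw'
      · exact hw i (by simpa using ho))
    (by rw [Finset.sum_insertNone]; simp)
    (by
      intro o ho
      rcases o with _ | i
      · simp
      · exact hz i (by simpa using ho))
  rw [Finset.sum_insertNone, Finset.prod_insertNone] at h
  simp only [Option.elim_none, Option.elim_some, Real.one_rpow, one_mul, mul_one] at h
  linarith only [h]

/-- Generalised Hölder inequality, exponents of sum at most `1`. -/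
theorem holder_Ex [Nonempty Ω] {ι : Type*} (s : Finset ι) (α : ι → ℝ) (hα : ∀ i ∈ s, 0 < α i)
    (hsum : ∑ i ∈ s, α i ≤ 1) (f : ι → Ω → ℝ) (hf : ∀ i ∈ s, ∀ ω, 0 ≤ f i ω) :
    Ex (fun ω => ∏ i ∈ s, f i ω) ≤ ∏ i ∈ s, (Ex fun ω => f i ω ^ (1 / α i)) ^ α i := by
  have hF : ∀ i ∈ s, 0 ≤ Ex fun ω => f i ω ^ (1 / α i) := fun i hi =>
    Ex_nonneg' fun ω => Real.rpow_nonneg (hf i hi ω) _
  by_cases h0 : ∃ i ∈ s, (Ex fun ω => f i ω ^ (1 / α i)) = 0
  · obtain ⟨i, hi, h⟩ := h0
    have h1 : ∀ ω, f i ω = 0 := by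
      intro ω
      have h2 := eq_zero_of_Ex_eq_zero' (fun ω => Real.rpow_nonneg (hf i hi ω) _) h ω
      rw [Real.rpow_eq_zero (hf i hi ω) (one_div_ne_zero (hα i hi).ne')] at h2
      exact h2
    have h3 : Ex (fun ω => ∏ i ∈ s, f i ω) = 0 := by
      have : (fun ω => ∏ i ∈ s, f i ω) = fun _ : Ω => (0 : ℝ) := by
        funext ω
        exact Finset.prod_eq_zero hi (h1 ω)
      rw [this, Ex_const']
    rw [h3]
    exact Finset.prod_nonneg fun i hi => Real.rpow_nonneg (hF i hi) _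
  · push Not at h0
    set F : ι → ℝ := fun i => Ex fun ω => f i ω ^ (1 / α i) with hFdef
    have hFpos : ∀ i ∈ s, 0 < F i := fun i hi => lt_of_le_of_ne (hF i hi) (Ne.symm (h0 i hi))
    have key : ∀ ω, ∏ i ∈ s, f i ω ≤ (∏ i ∈ s, F i ^ α i) *
        (∑ i ∈ s, α i * (f i ω ^ (1 / α i) / F i) + (1 - ∑ i ∈ s, α i)) := by
      intro ω
      have h1 := geom_mean_le_of_sum_le_one s α (fun i => f i ω ^ (1 / α i) / F i)
        (fun i hi => (hα i hi).le) hsum
        (fun i hi => div_nonneg (Real.rpow_nonneg (hf i hi ω) _) (hF i hi))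
      have h2 : ∏ i ∈ s, f i ω = (∏ i ∈ s, F i ^ α i) *
          ∏ i ∈ s, (f i ω ^ (1 / α i) / F i) ^ α i := by
        rw [← Finset.prod_mul_distrib]
        refine Finset.prod_congr rfl fun i hi => ?_
        rw [Real.div_rpow (Real.rpow_nonneg (hf i hi ω) _) (hF i hi),
          ← Real.rpow_mul (hf i hi ω), one_div_mul_cancel (hα i hi).ne', Real.rpow_one,
          mul_div_cancel₀]
        exact (Real.rpow_pos_of_pos (hFpos i hi) _).ne'
      rw [h2]
      exact mul_le_mul_of_nonneg_left h1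
        (Finset.prod_nonneg fun i hi => Real.rpow_nonneg (hF i hi) _)
    refine (Ex_mono' key).trans ?_
    rw [Ex_mul_left', Ex_add', Ex_sum', Ex_const']
    have h4 : ∀ i ∈ s, (Ex fun ω => α i * (f i ω ^ (1 / α i) / F i)) = α i := by
      intro i hi
      have e : (fun ω => α i * (f i ω ^ (1 / α i) / F i)) =
          fun ω => (α i / F i) * (f i ω ^ (1 / α i)) := by
        funext ω; ring
      rw [e, Ex_mul_left']
      exact div_mul_cancel₀ _ (hFpos i hi).ne'
    rw [Finset.sum_congr rfl h4]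
    have : ∑ i ∈ s, α i + (1 - ∑ i ∈ s, α i) = 1 := by ring
    rw [this, mul_one]

end basics

/-- Splitting off the last coordinate. -/
theorem Ex_snoc {d : ℕ} {X : Type*} [Fintype X] (F : (Fin (d + 1) → X) → ℝ) :
    Ex F = Ex (fun b : Fin d → X => Ex fun x : X => F (Fin.snoc b x)) := by
  unfold Ex
  rw [← (Fin.snocEquiv fun _ : Fin (d + 1) => X).sum_comp, Fintype.sum_prod_type_right,
    ← Finset.sum_div, div_div, Fintype.card_fun, Fintype.card_fun, Fintype.card_fin,
    Fintype.card_fin, pow_succ]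
  push_cast
  rw [mul_comm ((Fintype.card X : ℝ))]
  rfl

/-- General form of the windowed Hölder inequality. -/
theorem window_holder_aux {X : Type*} [Fintype X] [Nonempty X] : ∀ (d : ℕ) (J : Finset ℕ)
    (lo : ℕ → ℕ) (α : ℕ → ℝ)
    (_ : ∀ j ∈ J, 0 < α j) (g : ℕ → (Fin d → X) → ℝ) (A : ℕ → ℝ) (_ : ∀ j ∈ J, 0 ≤ A j)
    (_ : ∀ j ∈ J, ∀ b, 0 ≤ g j b)
    (_ : ∀ j ∈ J, ∀ b b' : Fin d → X, (∀ i : Fin d, (i : ℕ) < j → b i = b' i) →
      g j b = g j b')
    (_ : ∀ i : ℕ, i < d → ∑ j ∈ J.filter (fun j => lo j ≤ i ∧ i < j), α j ≤ 1)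
    (_ : ∀ j ∈ J, ∀ b : Fin d → X,
      Ex (fun c : Fin d → X => (g j (fun i => if (i : ℕ) < lo j then b i else c i)) ^ (1 / α j))
        ≤ (A j) ^ (1 / α j)),
    Ex (fun b : Fin d → X => ∏ j ∈ J, g j b) ≤ ∏ j ∈ J, A j := by
  intro d
  induction d with
  | zero =>
    intro J lo α hα g A hA hg0 hdep hsum hb
    rw [← Ex_const' (Ω := Fin 0 → X) (∏ j ∈ J, A j)]
    refine Ex_mono' fun b => Finset.prod_le_prod (fun j hj => hg0 j hj b) fun j hj => ?_
    have h := hb j hj b
    have e : (fun c : Fin 0 → X => (g j (fun i => if (i : ℕ) < lo j then b i else c i)) ^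
        (1 / α j)) = fun _ : Fin 0 → X => g j b ^ (1 / α j) := by
      funext c
      congr 2
      exact Subsingleton.elim _ _
    rw [e, Ex_const'] at h
    exact (Real.rpow_le_rpow_iff (hg0 j hj b) (hA j hj) (one_div_pos.mpr (hα j hj))).mp h
  | succ d ih =>
    intro J lo α hα g A hA hg0 hdep hsum hb
    -- the integrated functions
    set g' : ℕ → (Fin d → X) → ℝ := fun j b =>
      if d < lo j then A j else (Ex fun x : X => g j (Fin.snoc b x) ^ (1 / α j)) ^ α j with hg'
    have hFnn : ∀ j ∈ J, ∀ b : Fin d → X, 0 ≤ Ex fun x : X => g j (Fin.snoc b x) ^ (1 / α j) :=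
      fun j hj b => Ex_nonneg' fun x => Real.rpow_nonneg (hg0 j hj _) _
    have hg'0 : ∀ j ∈ J, ∀ b, 0 ≤ g' j b := by
      intro j hj b
      simp only [hg']
      split_ifs with h
      · exact hA j hj
      · exact Real.rpow_nonneg (hFnn j hj b) _
    have step : ∀ b : Fin d → X, Ex (fun x : X => ∏ j ∈ J, g j (Fin.snoc b x)) ≤
        ∏ j ∈ J, g' j b := by
      intro b
      -- functions with window above or below the last coordinate are bounded pointwise
      have hpt : ∀ j ∈ J, ¬(lo j ≤ d ∧ d < j) → ∀ x : X, g j (Fin.snoc b x) ≤ g' j b := by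
        intro j hj hK x
        by_cases h : d < lo j
        · simp only [hg', if_pos h]
          have h1 := hb j hj (Fin.snoc b x)
          have e : (fun c : Fin (d + 1) → X =>
              (g j (fun i => if (i : ℕ) < lo j then (Fin.snoc b x : Fin (d + 1) → X) i else c i)) ^
              (1 / α j)) = fun _ : Fin (d + 1) → X => g j (Fin.snoc b x) ^ (1 / α j) := by
            funext c
            congr 2
            funext i
            rw [if_pos (lt_of_lt_of_le i.isLt h)]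
          rw [e, Ex_const'] at h1
          exact (Real.rpow_le_rpow_iff (hg0 j hj _) (hA j hj)
            (one_div_pos.mpr (hα j hj))).mp h1
        · simp only [hg', if_neg h]
          have hjd : j ≤ d := by
            by_contra hc
            exact hK ⟨not_lt.mp h, not_le.mp hc⟩
          have e : (fun x' : X => g j (Fin.snoc b x') ^ (1 / α j)) =
              fun _ : X => g j (Fin.snoc b x) ^ (1 / α j) := by
            funext x'
            congr 1
            refine hdep j hj _ _ fun i hi => ?_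
            have hi' : (i : ℕ) < d := lt_of_lt_of_le hi hjd
            have ei : i = Fin.castSucc ⟨i, hi'⟩ := by ext; rfl
            rw [ei, Fin.snoc_castSucc, Fin.snoc_castSucc]
          rw [e, Ex_const', ← Real.rpow_mul (hg0 j hj _), one_div_mul_cancel (hα j hj).ne',
            Real.rpow_one]
      set K := J.filter (fun j => lo j ≤ d ∧ d < j) with hK
      set K' := J.filter (fun j => ¬(lo j ≤ d ∧ d < j)) with hK'
      have hsplit : ∀ f : ℕ → ℝ, ∏ j ∈ J, f j = (∏ j ∈ K', f j) * ∏ j ∈ K, f j := by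
        intro f
        rw [mul_comm, Finset.prod_filter_mul_prod_filter_not]
      have h1 : ∀ x : X, ∏ j ∈ J, g j (Fin.snoc b x) ≤
          (∏ j ∈ K', g' j b) * ∏ j ∈ K, g j (Fin.snoc b x) := by
        intro x
        rw [hsplit]
        refine mul_le_mul_of_nonneg_right ?_ ?_
        · refine Finset.prod_le_prod (fun j hj => hg0 j (Finset.mem_filter.mp hj).1 _)
            fun j hj => ?_
          exact hpt j (Finset.mem_filter.mp hj).1 (Finset.mem_filter.mp hj).2 x
        · exact Finset.prod_nonneg fun j hj => hg0 j (Finset.mem_filter.mp hj).1 _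
      refine (Ex_mono' h1).trans ?_
      rw [Ex_mul_left', hsplit]
      refine mul_le_mul_of_nonneg_left ?_
        (Finset.prod_nonneg fun j hj => hg'0 j (Finset.mem_filter.mp hj).1 b)
      have h2 := holder_Ex K α (fun j hj => hα j (Finset.mem_filter.mp hj).1)
        (hsum d (Nat.lt_succ_self d)) (fun j x => g j (Fin.snoc b x))
        (fun j hj x => hg0 j (Finset.mem_filter.mp hj).1 _)
      refine h2.trans (le_of_eq (Finset.prod_congr rfl fun j hj => ?_))
      have h3 : ¬ d < lo j := not_lt.mpr (Finset.mem_filter.mp hj).2.1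
      simp only [hg', if_neg h3]
    rw [Ex_snoc]
    refine (Ex_mono' step).trans ?_
    refine ih J lo α hα g' A hA hg'0 ?_ ?_ ?_
    · -- dependence
      intro j hj b b' hbb
      simp only [hg']
      split_ifs with h
      · rfl
      · congr 2
        funext x
        congr 1
        refine hdep j hj _ _ fun i hi => ?_
        revert hi
        refine Fin.lastCases ?_ (fun i => ?_) i
        · intro _
          rw [Fin.snoc_last, Fin.snoc_last]
        · intro hi
          rw [Fin.snoc_castSucc, Fin.snoc_castSucc]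
          exact hbb i hi
    · intro i hi
      exact hsum i (Nat.lt_succ_of_lt hi)
    · intro j hj b
      by_cases h : d < lo j
      · simp only [hg', if_pos h]
        rw [Ex_const']
      · simp only [hg', if_neg h]
        have h1 : ∀ c : Fin d → X,
            ((Ex fun x : X => g j (Fin.snoc (fun i => if (i : ℕ) < lo j then b i else c i) x) ^
              (1 / α j)) ^ α j) ^ (1 / α j) =
            Ex fun x : X => g j (Fin.snoc (fun i => if (i : ℕ) < lo j then b i else c i) x) ^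
              (1 / α j) := by
          intro c
          rw [← Real.rpow_mul (hFnn j hj _), mul_one_div_cancel (hα j hj).ne', Real.rpow_one]
        simp only [h1]
        obtain ⟨x0⟩ := ‹Nonempty X›
        have h2 := hb j hj (Fin.snoc b x0)
        rw [Ex_snoc] at h2
        refine le_trans (le_of_eq ?_) h2
        congr 1
        funext c
        congr 1
        funext x
        congr 2
        funext i
        refine Fin.lastCases ?_ (fun i => ?_) i
        · rw [Fin.snoc_last, Fin.snoc_last, Fin.snoc_last, if_neg]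
          rw [Fin.val_last]
          exact h
        · rw [Fin.snoc_castSucc, Fin.snoc_castSucc, Fin.snoc_castSucc, Fin.val_castSucc]

/-- N6 (conditional Hölder inequality with windows `[lo j, j)`). -/
theorem window_holder {d : ℕ} {X : Type*} [Fintype X] [Nonempty X] (J : Finset ℕ)
    (_hJ : ∀ j ∈ J, j ≤ d) (lo : ℕ → ℕ) (_hlo : ∀ j ∈ J, lo j ≤ j) (α : ℕ → ℝ)
    (hα : ∀ j ∈ J, 0 < α j) (g : ℕ → (Fin d → X) → ℝ) (A : ℕ → ℝ) (hA : ∀ j ∈ J, 0 ≤ A j)
    (hg0 : ∀ j ∈ J, ∀ b, 0 ≤ g j b)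
    (hdep : ∀ j ∈ J, ∀ b b' : Fin d → X, (∀ i : Fin d, (i : ℕ) < j → b i = b' i) →
      g j b = g j b')
    (hsum : ∀ i : ℕ, i < d → ∑ j ∈ J.filter (fun j => lo j ≤ i ∧ i < j), α j ≤ 1)
    (hb : ∀ j ∈ J, ∀ b : Fin d → X,
      Ex (fun c : Fin d → X => (g j (fun i => if (i : ℕ) < lo j then b i else c i)) ^ (1 / α j))
        ≤ (A j) ^ (1 / α j)) :
    Ex (fun b : Fin d → X => ∏ j ∈ J, g j b) ≤ ∏ j ∈ J, A j :=
  window_holder_aux d J lo α hα g A hA hg0 hdep hsum hb

end Vale.Agent.P162.Lin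
end
end
end

section

section

section

/-!
# N3: Claim B (from Claim A)
-/

namespace Vale.Agent.P162.Lin

open Equiv

theorem Ex_mono {Ω : Type*} [Fintype Ω] {f g : Ω → ℝ} (h : ∀ ω, f ω ≤ g ω) : Ex f ≤ Ex g := by
  unfold Ex
  exact div_le_div_of_nonneg_right (Finset.sum_le_sum fun ω _ => h ω) (Nat.cast_nonneg _)

theorem Ex_nonneg {Ω : Type*} [Fintype Ω] {f : Ω → ℝ} (h : ∀ ω, 0 ≤ f ω) : 0 ≤ Ex f := by
  unfold Ex
  exact div_nonneg (Finset.sum_nonneg fun ω _ => h ω) (Nat.cast_nonneg _)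

theorem Ex_sum {Ω ι : Type*} [Fintype Ω] (s : Finset ι) (f : ι → Ω → ℝ) :
    Ex (fun ω => ∑ i ∈ s, f i ω) = ∑ i ∈ s, Ex (f i) := by
  unfold Ex
  rw [Finset.sum_comm, Finset.sum_div]

end Vale.Agent.P162.Lin
end
end
end

section

section

section

/-!
# N8: trace bound (from Claim A and the main bound)
-/

namespace Vale.Agent.P162.Lin

open Equiv

section Mat

variable {P : Type*} [Fintype P] [DecidableEq P]

/-- Injective `k`-tuples. -/
abbrev Tup (P : Type*) (k : ℕ) := {s : Fin k → P // Function.Injective s}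

/-- Matrix of the law `ν` on injective `k`-tuples. -/
noncomputable def matLaw (k : ℕ) (ν : Perm P → ℝ) : Matrix (Tup P k) (Tup P k) ℝ :=
  fun s z => ∑ g : Perm P, if (∀ i, g (s.1 i) = z.1 i) then ν g else 0

theorem matLaw_one (k : ℕ) : matLaw k (fun g : Perm P => if g = 1 then (1 : ℝ) else 0) = 1 := by
  ext s z
  unfold matLaw
  rw [Finset.sum_eq_single (1 : Perm P)]
  · rw [Matrix.one_apply]
    simp only [Perm.coe_one, id_eq, if_true]
    congr 1
    apply propext
    rw [Subtype.ext_iff, funext_iff]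
  · intro g _ hg
    simp only [hg, ↓reduceIte, ite_self]
  · simp only [Finset.mem_univ, not_true_eq_false, Perm.coe_one, id_eq, ↓reduceIte, ite_eq_right_iff, one_ne_zero, imp_false, not_forall, IsEmpty.forall_iff]

theorem matLaw_conv (k : ℕ) (ν ν' : Perm P → ℝ) :
    matLaw k (fun g => ∑ h : Perm P, ν h * ν' (h⁻¹ * g)) = matLaw k ν' * matLaw k ν := by
  ext s z
  rw [Matrix.mul_apply]
  unfold matLaw
  have h1 : ∀ g : Perm P, (if (∀ i, g (s.1 i) = z.1 i) then ∑ h : Perm P, ν h * ν' (h⁻¹ * g)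
      else 0) = ∑ h : Perm P, (if (∀ i, g (s.1 i) = z.1 i) then ν h * ν' (h⁻¹ * g) else 0) := by
    intro g
    split_ifs <;> simp
  simp only [h1]
  rw [Finset.sum_comm]
  have h2 : ∀ h : Perm P, ∑ g : Perm P,
      (if (∀ i, g (s.1 i) = z.1 i) then ν h * ν' (h⁻¹ * g) else 0) =
      ∑ g : Perm P, (if (∀ i, h (g (s.1 i)) = z.1 i) then ν h * ν' g else 0) := by
    intro h
    rw [← Equiv.sum_comp (Equiv.mulLeft h)]
    simp only [coe_mulLeft, Perm.coe_mul, Function.comp_apply, inv_mul_cancel_left]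
  simp only [h2]
  have h3 : ∀ y : Tup P k, (∑ g : Perm P, if (∀ i, g (s.1 i) = y.1 i) then ν' g else 0) *
      (∑ g : Perm P, if (∀ i, g (y.1 i) = z.1 i) then ν g else 0) =
      ∑ h : Perm P, ∑ g : Perm P, (if (∀ i, g (s.1 i) = y.1 i) ∧ (∀ i, h (y.1 i) = z.1 i) then
        ν h * ν' g else 0) := by
    intro y
    rw [Finset.sum_mul_sum, Finset.sum_comm]
    refine Finset.sum_congr rfl fun h _ => Finset.sum_congr rfl fun g _ => ?_
    by_cases c1 : ∀ i, g (s.1 i) = y.1 i <;> by_cases c2 : ∀ i, h (y.1 i) = z.1 i <;>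
      simp [c1, c2, mul_comm]
  simp only [h3]
  rw [Finset.sum_comm (s := (Finset.univ : Finset (Tup P k)))]
  refine Finset.sum_congr rfl fun h _ => ?_
  rw [Finset.sum_comm (s := (Finset.univ : Finset (Tup P k)))]
  refine Finset.sum_congr rfl fun g _ => ?_
  set y0 : Tup P k := ⟨fun i => g (s.1 i), g.injective.comp s.2⟩ with hy0
  rw [Finset.sum_eq_single y0]
  · simp only [hy0, implies_true, true_and]
  · intro y _ hy
    rw [if_neg]
    rintro ⟨h4, _⟩
    exact hy (Subtype.ext (funext fun i => (h4 i).symm))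
  · simp only [Finset.mem_univ, not_true_eq_false, ite_eq_right_iff, mul_eq_zero, and_imp, IsEmpty.forall_iff]

theorem matLaw_convPow (k : ℕ) (q : Perm P → ℝ) (t : ℕ) :
    matLaw k (convPow q t) = (matLaw k q) ^ t := by
  induction t with
  | zero =>
    rw [pow_zero, ← matLaw_one]
    congr 1
  | succ t ih =>
    rw [pow_succ, ← ih, ← matLaw_conv]
    congr 1

theorem card_fixed_tup (k : ℕ) (g : Perm P) :
    (Finset.univ.filter (fun s : Tup P k => ∀ i, g (s.1 i) = s.1 i)).card =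
      (Finset.univ.filter (fun p => g p = p)).card.descFactorial k := by
  have h1 : (Finset.univ.filter (fun p => g p = p)).card = Fintype.card {p // g p = p} := by
    rw [Fintype.card_subtype]
  rw [h1]
  have h2 := Fintype.card_embedding_eq (α := Fin k) (β := {p // g p = p})
  rw [Fintype.card_fin] at h2
  rw [← h2, ← Fintype.card_subtype]
  refine Fintype.card_congr
    { toFun := fun s => ⟨fun i => ⟨s.1.1 i, s.2 i⟩, fun i j hij => s.1.2 (by simpa only [Subtype.mk.injEq] using hij)⟩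
      invFun := fun f => ⟨⟨fun i => (f i).1, fun i j hij => f.injective (Subtype.ext hij)⟩,
        fun i => (f i).2⟩
      left_inv := fun s => rfl
      right_inv := fun f => rfl }

theorem trace_matLaw (k : ℕ) (ν : Perm P → ℝ) :
    Matrix.trace (matLaw k ν) = trk ν k := by
  have h0 : Matrix.trace (matLaw k ν) = ∑ s : Tup P k, ∑ g : Perm P,
      if (∀ i, g (s.1 i) = s.1 i) then ν g else 0 := rfl
  rw [h0]
  unfold trk
  rw [Finset.sum_comm]
  refine Finset.sum_congr rfl fun g _ => ?_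
  rw [← card_fixed_tup, Finset.sum_ite]
  simp [mul_comm]

end Mat

theorem matLaw_row (k : ℕ) {P : Type*} [Fintype P] [DecidableEq P] (ν : Perm P → ℝ)
    (s : Tup P k) : ∑ z, matLaw k ν s z = ∑ g, ν g := by
  unfold matLaw
  rw [Finset.sum_comm]
  refine Finset.sum_congr rfl fun g _ => ?_
  rw [Finset.sum_eq_single (⟨fun i => g (s.1 i), g.injective.comp s.2⟩ : Tup P k)]
  · simp
  · intro z _ hz
    rw [if_neg]
    intro h
    exact hz (Subtype.ext (funext fun i => (h i).symm))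
  · simp only [Finset.mem_univ, not_true_eq_false, implies_true, ↓reduceIte, IsEmpty.forall_iff]

theorem Ex_const {Ω : Type*} [Fintype Ω] [Nonempty Ω] (c : ℝ) : Ex (fun _ : Ω => c) = c := by
  unfold Ex
  have : (Fintype.card Ω : ℝ) ≠ 0 := by exact_mod_cast Fintype.card_ne_zero
  rw [Finset.sum_const, Finset.card_univ, nsmul_eq_mul, mul_div_cancel_left₀ _ this]

end Vale.Agent.P162.Lin
end
end
end

section

section

section

/-!
# The law of the ring network is the symmetrised law of `D` Thorp shuffles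
-/

namespace Vale.Agent.P162.Ring

open Equiv
open Vale.Agent.P162.Lin (Ex nOrb symLaw matLaw Tup Ex_snoc)
open Vale.Agent.P162.Lin.Br (exProd ex_mul_right ex_sum ex_mul_left ex_const)

theorem Rg_congr {m D : ℕ} (b b' : Cn m D) (j : ℕ) (h : ∀ i : Fin D, (i : ℕ) < j → b i = b' i) :
    Rg b j = Rg b' j := by
  induction j with
  | zero => simp only [Rg]
  | succ j ih =>
    simp only [Rg]
    rw [ih (fun i hi => h i (by omega))]
    congr 1
    split_ifs with hj
    · rw [h ⟨j, hj⟩ (by simp)]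
    · rfl

theorem Rg_snoc {m D : ℕ} (b : Cn m D) (x : Fin m → Fin 2) (j : ℕ) (hj : j ≤ D) :
    Rg (Fin.snoc b x : Cn m (D + 1)) j = Rg b j := by
  induction j with
  | zero => simp only [Rg]
  | succ j ih =>
    simp only [Rg]
    rw [ih (by omega), dif_pos (by omega : j < D + 1), dif_pos (by omega : j < D)]
    congr 2
    have e : (⟨j, by omega⟩ : Fin (D + 1)) = Fin.castSucc ⟨j, by omega⟩ := rfl
    rw [e, Fin.snoc_castSucc]

theorem Rg_snoc_last {m D : ℕ} (b : Cn m D) (x : Fin m → Fin 2) :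
    Rg (Fin.snoc b x : Cn m (D + 1)) (D + 1) = thorpPerm m x * Rg b D := by
  rw [Rg_step, dif_pos (Nat.lt_succ_self D), Rg_snoc b x D le_rfl]
  have e : (⟨D, Nat.lt_succ_self D⟩ : Fin (D + 1)) = Fin.last D := rfl
  rw [e, Fin.snoc_last]

theorem thorpLaw_eq_Ex (m : ℕ) (g : Perm (Fin (2 * m))) :
    thorpLaw m g = Ex (fun x : Fin m → Fin 2 => if thorpPerm m x = g then (1 : ℝ) else 0) := by
  classical
  unfold thorpLaw Ex
  rw [Fintype.card_fun, Fintype.card_fin, Fintype.card_fin, Fintype.card_subtype,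
    Finset.sum_boole]
  push_cast
  rfl

/-- Law of the product of `D` layers. -/
theorem ringPass_eq (m D : ℕ) (g : Perm (Fin (2 * m))) :
    Ex (fun b : Cn m D => if Rg b D = g then (1 : ℝ) else 0) = convPow (thorpLaw m) D g := by
  classical
  induction D generalizing g with
  | zero =>
    rw [convPow_zero_eq]
    have e : (fun b : Cn m 0 => if Rg b 0 = g then (1 : ℝ) else 0) =
        fun _ => if g = 1 then (1 : ℝ) else 0 := by
      funext b
      congr 1
      rw [Rg_nil]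
      exact propext eq_comm
    rw [e, ex_const]
  | succ D ih =>
    rw [convPow_succ_eq, Ex_snoc]
    simp only [Rg_snoc_last]
    have h1 : ∀ h : Perm (Fin (2 * m)), thorpLaw m h * convPow (thorpLaw m) D (h⁻¹ * g) =
        Ex (fun b : Cn m D => Ex (fun x : Fin m → Fin 2 =>
          (if thorpPerm m x = h then (1 : ℝ) else 0) *
            (if Rg b D = h⁻¹ * g then (1 : ℝ) else 0))) := by
      intro h
      rw [← ih, thorpLaw_eq_Ex, ← ex_mul_left]
      congr 1
      funext b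
      rw [← ex_mul_right]
    simp_rw [h1]
    rw [← ex_sum]
    congr 1
    funext b
    rw [← ex_sum]
    congr 1
    funext x
    rw [Finset.sum_eq_single (thorpPerm m x)]
    · simp only [if_true, one_mul]
      congr 1
      apply propext
      rw [eq_inv_mul_iff_mul_eq]
    · intro h _ hh
      rw [if_neg (fun h' : thorpPerm m x = h => hh h'.symm), zero_mul]
    · simp only [Finset.mem_univ, not_true_eq_false, ↓reduceIte, mul_ite, mul_one, mul_zero, ite_eq_right_iff, one_ne_zero, imp_false, IsEmpty.forall_iff]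

/-- Law of the ring network. -/
noncomputable def ringLaw (m D : ℕ) (g : Perm (Fin (2 * m))) : ℝ :=
  Ex (fun ab : Cn m D × Cn m D => if net ab.1 ab.2 D = g then (1 : ℝ) else 0)

theorem ringLaw_eq (m D : ℕ) : ringLaw m D = symLaw (convPow (thorpLaw m) D) := by
  classical
  funext g
  unfold ringLaw symLaw
  rw [exProd]
  have h1 : ∀ h : Perm (Fin (2 * m)), convPow (thorpLaw m) D (g * h) * convPow (thorpLaw m) D h =
      Ex (fun a : Cn m D => Ex (fun b : Cn m D =>
        (if Rg b D = g * h then (1 : ℝ) else 0) * (if Rg a D = h then (1 : ℝ) else 0))) := by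
    intro h
    rw [← ringPass_eq m D (g * h), ← ringPass_eq m D h, mul_comm, ← ex_mul_right]
    congr 1
    funext a
    rw [mul_comm, ← ex_mul_right]
  simp_rw [h1]
  rw [← ex_sum]
  congr 1
  funext a
  rw [← ex_sum]
  congr 1
  funext b
  rw [Finset.sum_eq_single (Rg a D)]
  · simp only [if_true, mul_one]
    unfold net
    congr 1
    apply propext
    rw [mul_inv_eq_iff_eq_mul]
  · intro h _ hh
    rw [if_neg (fun h' : Rg a D = h => hh h'.symm), mul_zero]
  · simp only [Finset.mem_univ, not_true_eq_false, ↓reduceIte, mul_one, ite_eq_right_iff, one_ne_zero, imp_false, IsEmpty.forall_iff]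

/-- The `k`-tuple kernel of the ring network. -/
theorem matLaw_ring (m D k : ℕ) (s z : Tup (Fin (2 * m)) k) :
    matLaw k (symLaw (convPow (thorpLaw m) D)) s z =
      Ex (fun ab : Cn m D × Cn m D => if ∀ i, net ab.1 ab.2 D (s.1 i) = z.1 i
        then (1 : ℝ) else 0) := by
  classical
  rw [← ringLaw_eq]
  unfold matLaw ringLaw
  have h1 : ∀ g : Perm (Fin (2 * m)), (if (∀ i, g (s.1 i) = z.1 i) then
      Ex (fun ab : Cn m D × Cn m D => if net ab.1 ab.2 D = g then (1 : ℝ) else 0) else 0) =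
      Ex (fun ab : Cn m D × Cn m D => if (∀ i, g (s.1 i) = z.1 i) ∧ net ab.1 ab.2 D = g
        then (1 : ℝ) else 0) := by
    intro g
    by_cases c : ∀ i, g (s.1 i) = z.1 i
    · simp only [c, implies_true, ↓reduceIte, true_and]
    · simp only [c, ↓reduceIte, Ex, false_and, Finset.sum_const_zero, Fintype.card_prod, Fintype.card_pi, Fintype.card_fin, Finset.prod_const, Finset.card_univ, Nat.cast_mul, Nat.cast_pow, Nat.cast_ofNat, zero_div]
  simp only [h1]
  rw [← ex_sum]
  congr 1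
  funext ab
  rw [Finset.sum_eq_single (net ab.1 ab.2 D)]
  · simp only [and_true]
  · intro g _ hg
    rw [if_neg]
    rintro ⟨_, h2⟩
    exact hg h2.symm
  · simp only [Finset.mem_univ, not_true_eq_false, and_true, ite_eq_right_iff, one_ne_zero, imp_false, not_forall, IsEmpty.forall_iff]

/-- Hölder's inequality for the average: `(Ex 1_A)^(1+δ) ≤ (Ex 1_A/Y)^δ Ex (1_A Y^δ)`. -/
theorem holder_weight {Ω : Type*} [Fintype Ω] [Nonempty Ω] (E : Ω → Prop) [DecidablePred E]
    (Y : Ω → ℝ) (hY : ∀ ω, 0 < Y ω) (δ : ℝ) (hδ : 0 < δ) :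
    (Ex (fun ω => if E ω then (1 : ℝ) else 0)) ^ (1 + δ) ≤
      (Ex (fun ω => if E ω then (Y ω)⁻¹ else 0)) ^ δ *
        Ex (fun ω => if E ω then (Y ω) ^ δ else 0) := by
  have hN : (0 : ℝ) < Fintype.card Ω := by exact_mod_cast Fintype.card_pos
  have h1δ : 0 < 1 + δ := by linarith only [hδ]
  set u : Ω → ℝ := fun ω => if E ω then (Y ω)⁻¹ else 0 with hu
  set v : Ω → ℝ := fun ω => if E ω then (Y ω) ^ δ else 0 with hv
  have hu0 : ∀ ω, 0 ≤ u ω := by
    intro ω; simp only [hu]; split_ifs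
    · exact (inv_pos.2 (hY ω)).le
    · exact le_rfl
  have hv0 : ∀ ω, 0 ≤ v ω := by
    intro ω; simp only [hv]; split_ifs
    · exact Real.rpow_nonneg (hY ω).le _
    · exact le_rfl
  have hp : (δ / (1 + δ)) ≠ 0 := (div_pos hδ h1δ).ne'
  have hq : (1 / (1 + δ)) ≠ 0 := (div_pos one_pos h1δ).ne'
  have huv : ∀ ω, u ω ^ (δ / (1 + δ)) * v ω ^ (1 / (1 + δ)) = if E ω then (1 : ℝ) else 0 := by
    intro ω
    simp only [hu, hv]
    split_ifs with h
    · rw [← Real.rpow_neg_one, ← Real.rpow_mul (hY ω).le, ← Real.rpow_mul (hY ω).le,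
        ← Real.rpow_add (hY ω)]
      have : -1 * (δ / (1 + δ)) + δ * (1 / (1 + δ)) = 0 := by ring
      rw [this, Real.rpow_zero]
    · rw [Real.zero_rpow hp, zero_mul]
  have hcj : ((1 + δ) / δ).HolderConjugate (1 + δ) := by
    rw [Real.holderConjugate_iff]
    constructor
    · rw [lt_div_iff₀ hδ]; linarith only []
    · rw [inv_div]
      field_simp
      ring
  have h1 := Real.inner_le_Lp_mul_Lq_of_nonneg (s := (Finset.univ : Finset Ω))
    (f := fun ω => u ω ^ (δ / (1 + δ))) (g := fun ω => v ω ^ (1 / (1 + δ))) hcj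
    (fun ω _ => Real.rpow_nonneg (hu0 ω) _) (fun ω _ => Real.rpow_nonneg (hv0 ω) _)
  have e1 : ∀ ω, (u ω ^ (δ / (1 + δ))) ^ ((1 + δ) / δ) = u ω := by
    intro ω
    rw [← Real.rpow_mul (hu0 ω)]
    have : δ / (1 + δ) * ((1 + δ) / δ) = 1 := by (clear * - hδ; field_simp)
    rw [this, Real.rpow_one]
  have e2 : ∀ ω, (v ω ^ (1 / (1 + δ))) ^ (1 + δ) = v ω := by
    intro ω
    rw [← Real.rpow_mul (hv0 ω)]
    have : 1 / (1 + δ) * (1 + δ) = 1 := by field_simp
    rw [this, Real.rpow_one]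
  simp only [e1, e2, huv] at h1
  have hU : 0 ≤ ∑ ω, u ω := Finset.sum_nonneg fun ω _ => hu0 ω
  have hV : 0 ≤ ∑ ω, v ω := Finset.sum_nonneg fun ω _ => hv0 ω
  have hW : 0 ≤ ∑ ω, (if E ω then (1 : ℝ) else 0) := Finset.sum_nonneg fun ω _ => by
    split_ifs <;> norm_num
  unfold Ex
  rw [Real.div_rpow hW hN.le, Real.div_rpow hU hN.le]
  have h2 : (∑ ω, (if E ω then (1 : ℝ) else 0)) ^ (1 + δ) ≤ (∑ ω, u ω) ^ δ * (∑ ω, v ω) := by
    calc (∑ ω, (if E ω then (1 : ℝ) else 0)) ^ (1 + δ)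
        ≤ ((∑ ω, u ω) ^ (1 / ((1 + δ) / δ)) * (∑ ω, v ω) ^ (1 / (1 + δ))) ^ (1 + δ) :=
          Real.rpow_le_rpow hW h1 h1δ.le
      _ = (∑ ω, u ω) ^ δ * (∑ ω, v ω) := by
          rw [Real.mul_rpow (Real.rpow_nonneg hU _) (Real.rpow_nonneg hV _), ← Real.rpow_mul hU,
            ← Real.rpow_mul hV]
          have a1 : 1 / ((1 + δ) / δ) * (1 + δ) = δ := by (clear * - hδ; field_simp)
          have a2 : 1 / (1 + δ) * (1 + δ) = 1 := by field_simp
          rw [a1, a2, Real.rpow_one]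
  have hNN : (Fintype.card Ω : ℝ) ^ (1 + δ) = (Fintype.card Ω : ℝ) ^ δ * Fintype.card Ω := by
    rw [add_comm, Real.rpow_add hN, Real.rpow_one]
  rw [hNN]
  calc (∑ ω, (if E ω then (1 : ℝ) else 0)) ^ (1 + δ) /
        ((Fintype.card Ω : ℝ) ^ δ * Fintype.card Ω)
      ≤ ((∑ ω, u ω) ^ δ * (∑ ω, v ω)) / ((Fintype.card Ω : ℝ) ^ δ * Fintype.card Ω) :=
        div_le_div_of_nonneg_right h2 (by (clear Y hY hδ hN h1δ u hu v hv hu0 hv0 hp hq huv hcj e1 e2 h1 hU hV hW h2 hNN; positivity))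
    _ = _ := by rw [mul_div_mul_comm]

/-- Claim B in general form: from the weighted kernel bound with weight `1 / Y`, the moment of
order `1 + δ` of the kernel is at most `Ex Y^δ`. -/
theorem claimB_gen {P Ω : Type*} [Fintype P] [DecidableEq P] [Fintype Ω] [Nonempty Ω] (k : ℕ)
    (N : Ω → Perm P) (Y : Ω → ℝ) (hY : ∀ ω, 0 < Y ω) (δ : ℝ) (hδ : 0 < δ) (s : Tup P k)
    (L K : ℝ) (hL : 0 ≤ L) (hK : 0 ≤ K)
    (hA : ∀ z : Tup P k, Ex (fun ω => if ∀ i, N ω (s.1 i) = z.1 i then (Y ω)⁻¹ else 0) ≤ K) :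
    ∑ z : Tup P k, Ex (fun ω => if ∀ i, N ω (s.1 i) = z.1 i then (1 : ℝ) else 0) *
      (L * Ex (fun ω => if ∀ i, N ω (s.1 i) = z.1 i then (1 : ℝ) else 0)) ^ δ ≤
      (L * K) ^ δ * Ex (fun ω => (Y ω) ^ δ) := by
  classical
  have key : ∀ z : Tup P k, Ex (fun ω => if ∀ i, N ω (s.1 i) = z.1 i then (1 : ℝ) else 0) *
      (L * Ex (fun ω => if ∀ i, N ω (s.1 i) = z.1 i then (1 : ℝ) else 0)) ^ δ ≤
      (L * K) ^ δ * Ex (fun ω => if ∀ i, N ω (s.1 i) = z.1 i then (Y ω) ^ δ else 0) := by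
    intro z
    set κ := Ex (fun ω => if ∀ i, N ω (s.1 i) = z.1 i then (1 : ℝ) else 0) with hκ
    have hκ0 : 0 ≤ κ := by
      rw [hκ]
      exact Lin.Ex_nonneg fun ω => by split_ifs <;> norm_num
    have hE0 : 0 ≤ Ex (fun ω => if ∀ i, N ω (s.1 i) = z.1 i then (Y ω)⁻¹ else 0) :=
      Lin.Ex_nonneg fun ω => by
        split_ifs
        · exact (inv_pos.2 (hY ω)).le
        · exact le_rfl
    have hV0 : 0 ≤ Ex (fun ω => if ∀ i, N ω (s.1 i) = z.1 i then (Y ω) ^ δ else 0) :=
      Lin.Ex_nonneg fun ω => by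
        split_ifs
        · exact Real.rpow_nonneg (hY ω).le _
        · exact le_rfl
    have h := holder_weight (fun ω => ∀ i, N ω (s.1 i) = z.1 i) Y hY δ hδ
    have e : κ * (L * κ) ^ δ = L ^ δ * κ ^ (1 + δ) := by
      rw [Real.mul_rpow hL hκ0, Real.rpow_add_of_nonneg hκ0 (by norm_num) hδ.le, Real.rpow_one]
      ring
    rw [e, Real.mul_rpow hL hK, mul_assoc]
    refine mul_le_mul_of_nonneg_left ?_ (Real.rpow_nonneg hL _)
    refine h.trans (mul_le_mul_of_nonneg_right ?_ hV0)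
    exact Real.rpow_le_rpow hE0 (hA z) hδ.le
  refine (Finset.sum_le_sum fun z _ => key z).trans ?_
  rw [← Finset.mul_sum]
  refine mul_le_mul_of_nonneg_left ?_ (Real.rpow_nonneg (mul_nonneg hL hK) _)
  rw [← ex_sum]
  refine Lin.Ex_mono fun ω => ?_
  rw [Finset.sum_eq_single (⟨fun i => N ω (s.1 i), (N ω).injective.comp s.2⟩ : Tup P k)]
  · simp
  · intro z _ hz
    rw [if_neg]
    intro h
    exact hz (Subtype.ext (funext fun i => (h i).symm))
  · simp only [Finset.mem_univ, not_true_eq_false, implies_true, ↓reduceIte, IsEmpty.forall_iff]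

end Vale.Agent.P162.Ring
end
end
end

section

section

section

/-!
# N5: small levels (negative dependence)
-/

namespace Vale.Agent.P162.Lin

open Equiv

namespace Small

theorem Ex_prod {Ω Ω' : Type*} [Fintype Ω] [Fintype Ω'] (f : Ω × Ω' → ℝ) :
    Ex f = Ex (fun a => Ex (fun b => f (a, b))) := by
  unfold Ex
  rw [Fintype.sum_prod_type, Fintype.card_prod, ← Finset.sum_div, div_div, Nat.cast_mul]
  congr 1
  ring

variable {d : ℕ}

end Small

end Vale.Agent.P162.Lin
end
end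
end

section

section

section

/-!
N7: the exponential moment of the number of loops.
-/

namespace Vale.Agent.P162.Lin.Main

open Equiv

section ExLemmas

variable {Ω Ω' : Type*} [Fintype Ω] [Fintype Ω']

lemma Ex_mono {f g : Ω → ℝ} (h : ∀ ω, f ω ≤ g ω) : Ex f ≤ Ex g := by
  unfold Ex
  exact div_le_div_of_nonneg_right (Finset.sum_le_sum fun ω _ => h ω) (Nat.cast_nonneg _)

lemma Ex_const [Nonempty Ω] (c : ℝ) : Ex (fun _ : Ω => c) = c := by
  unfold Ex
  rw [Finset.sum_const, Finset.card_univ, nsmul_eq_mul, mul_div_cancel_left₀]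
  exact_mod_cast Fintype.card_ne_zero

lemma Ex_le_of_le [Nonempty Ω] {f : Ω → ℝ} {c : ℝ} (h : ∀ ω, f ω ≤ c) : Ex f ≤ c :=
  (Ex_mono h).trans (Ex_const c).le

lemma Ex_add (f g : Ω → ℝ) : Ex (fun ω => f ω + g ω) = Ex f + Ex g := by
  unfold Ex
  rw [Finset.sum_add_distrib, add_div]

lemma Ex_mul_left (c : ℝ) (f : Ω → ℝ) : Ex (fun ω => c * f ω) = c * Ex f := by
  unfold Ex
  rw [← Finset.mul_sum, mul_div_assoc]

lemma Ex_sum {ι : Type*} (s : Finset ι) (f : ι → Ω → ℝ) :
    Ex (fun ω => ∑ i ∈ s, f i ω) = ∑ i ∈ s, Ex (f i) := by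
  unfold Ex
  rw [Finset.sum_comm, Finset.sum_div]

lemma Ex_prod (f : Ω × Ω' → ℝ) : Ex f = Ex (fun a => Ex (fun b => f (a, b))) := by
  unfold Ex
  rw [Fintype.sum_prod_type, Fintype.card_prod]
  simp only [Finset.sum_div, div_div, Nat.cast_mul, mul_comm (Fintype.card Ω : ℝ)]

end ExLemmas

/-! ### Small levels -/

/-! ### Large levels -/

/-- lower end of the window of level `j` -/
def lo (j : ℕ) : ℕ := j - j / 16

/-- Hölder weight of level `j` -/
noncomputable def al (j : ℕ) : ℝ := 15 / ((j : ℝ) + 1)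

lemma al_pos (j : ℕ) : 0 < al j := by unfold al; (clear * -; positivity)

lemma sum_al_le (J : Finset ℕ) (i : ℕ) :
    ∑ j ∈ J.filter (fun j => lo j ≤ i ∧ i < j), al j ≤ 1 := by
  set F := J.filter (fun j => lo j ≤ i ∧ i < j) with hF
  have h1 : ∀ j ∈ F, al j ≤ 15 / ((i : ℝ) + 2) := by
    intro j hj
    have hj := (Finset.mem_filter.1 hj).2.2
    unfold al
    have : (i : ℝ) + 2 ≤ (j : ℝ) + 1 := by
      have : i + 1 ≤ j := hj
      have h2 : ((i : ℝ) + 1) ≤ j := by exact_mod_cast this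
      linarith only [h2]
    exact div_le_div_of_nonneg_left (by norm_num) (by (clear * -; positivity)) this
  have h2 : F ⊆ Finset.Ioc i (i + i / 15) := by
    intro j hj
    obtain ⟨-, h3, h4⟩ := Finset.mem_filter.1 hj
    unfold lo at h3
    rw [Finset.mem_Ioc]
    exact ⟨h4, by omega⟩
  have h3 := Finset.card_le_card h2
  rw [Nat.card_Ioc] at h3
  have h4 : (F.card : ℝ) * 15 ≤ i := by
    have : F.card * 15 ≤ i := by omega
    exact_mod_cast this
  refine (Finset.sum_le_sum h1).trans ?_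
  rw [Finset.sum_const, nsmul_eq_mul, ← mul_div_assoc, div_le_one (by (clear * -; positivity))]
  linarith only [h4]

/-- rate of one level, window `j/16`, short cycles of length `≤ 2^(j/80)` -/
noncomputable def rt (j : ℕ) : ℝ :=
  ((2 : ℝ) ^ (j / 80))⁻¹ + (2 : ℝ) ^ (j / 80) / (2 : ℝ) ^ ((((j / 16 : ℕ) : ℝ) - (j / 80 : ℕ)) / 2)

lemma rt_nonneg (j : ℕ) : 0 ≤ rt j := by unfold rt; positivity

lemma rate (j : ℕ) : (2 : ℝ) ^ (((j : ℝ) + 1) / 84) * rt j ≤
    8 * (2 : ℝ) ^ (-((j : ℝ) / ((1680 : ℕ) : ℝ))) := by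
  have hj : (0 : ℝ) ≤ j := Nat.cast_nonneg _
  have hl1 : (j : ℝ) ≤ 80 * ((j / 80 : ℕ) : ℝ) + 79 := by
    have : j ≤ 80 * (j / 80) + 79 := by omega
    exact_mod_cast this
  have hl2 : 80 * ((j / 80 : ℕ) : ℝ) ≤ j := by
    have : 80 * (j / 80) ≤ j := by omega
    exact_mod_cast this
  have hw : (j : ℝ) ≤ 16 * ((j / 16 : ℕ) : ℝ) + 15 := by
    have : j ≤ 16 * (j / 16) + 15 := by omega
    exact_mod_cast this
  have h1 : ((2 : ℝ) ^ (j / 80))⁻¹ ≤ (2 : ℝ) ^ (1 - (j : ℝ) / 80) := by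
    rw [← Real.rpow_natCast, ← Real.rpow_neg (by norm_num)]
    apply Real.rpow_le_rpow_of_exponent_le (by norm_num)
    linarith only [hl1]
  have h2 : (2 : ℝ) ^ (j / 80) / (2 : ℝ) ^ ((((j / 16 : ℕ) : ℝ) - (j / 80 : ℕ)) / 2) ≤
      (2 : ℝ) ^ (1 - (j : ℝ) / 80) := by
    rw [← Real.rpow_natCast, ← Real.rpow_sub (by norm_num)]
    apply Real.rpow_le_rpow_of_exponent_le (by norm_num)
    linarith only [hl2, hw]
  have h3 : rt j ≤ 2 * (2 : ℝ) ^ (1 - (j : ℝ) / 80) := by
    unfold rt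
    linarith only [h1, h2]
  calc (2 : ℝ) ^ (((j : ℝ) + 1) / 84) * rt j
      ≤ (2 : ℝ) ^ (((j : ℝ) + 1) / 84) * (2 * (2 : ℝ) ^ (1 - (j : ℝ) / 80)) :=
        mul_le_mul_of_nonneg_left h3 (by positivity)
    _ = (2 : ℝ) ^ ((((j : ℝ) + 1) / 84) + 1 + (1 - (j : ℝ) / 80)) := by
        rw [Real.rpow_add (by norm_num), Real.rpow_add (by norm_num), Real.rpow_one]
        ring
    _ ≤ (2 : ℝ) ^ ((3 : ℝ) + (-((j : ℝ) / ((1680 : ℕ) : ℝ)))) := by
        apply Real.rpow_le_rpow_of_exponent_le (by norm_num)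
        push_cast
        linarith only []
    _ = 8 * (2 : ℝ) ^ (-((j : ℝ) / ((1680 : ℕ) : ℝ))) := by
        rw [Real.rpow_add (by norm_num)]
        norm_num

/-- geometric tail -/
lemma geom_tail (θ : ℝ) (h0 : 0 ≤ θ) (h1 : θ < 1) (d j0 : ℕ) :
    ∑ j ∈ (Finset.range d).filter (fun j => j0 ≤ j), θ ^ j ≤ θ ^ j0 / (1 - θ) := by
  have hsub : (Finset.range d).filter (fun j => j0 ≤ j) ⊆
      (Finset.range d).map (addLeftEmbedding j0) := by
    intro j hj
    obtain ⟨h2, h3⟩ := Finset.mem_filter.1 hj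
    rw [Finset.mem_map]
    refine ⟨j - j0, Finset.mem_range.2 (by have := Finset.mem_range.1 h2; omega), ?_⟩
    simp only [addLeftEmbedding_apply]
    omega
  calc ∑ j ∈ (Finset.range d).filter (fun j => j0 ≤ j), θ ^ j
      ≤ ∑ j ∈ (Finset.range d).map (addLeftEmbedding j0), θ ^ j :=
        Finset.sum_le_sum_of_subset_of_nonneg hsub (fun _ _ _ => by positivity)
    _ = θ ^ j0 * ∑ i ∈ Finset.range d, θ ^ i := by
        rw [Finset.sum_map, Finset.mul_sum]
        refine Finset.sum_congr rfl fun i _ => ?_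
        simp only [addLeftEmbedding_apply, pow_add]
    _ ≤ θ ^ j0 * (1 - θ)⁻¹ := by
        refine mul_le_mul_of_nonneg_left ?_ (by positivity)
        rw [← tsum_geometric_of_lt_one h0 h1]
        exact (summable_geometric_of_lt_one h0 h1).sum_le_tsum _ (fun _ _ => by positivity)
    _ = θ ^ j0 / (1 - θ) := by rw [div_eq_mul_inv]

/-- Hölder with exponents `5` and `5/4` in exponential form. -/
lemma holder5 {Ω : Type*} [Fintype Ω] [Nonempty Ω] (u v : Ω → ℝ) (a b : ℝ)
    (h1 : Ex (fun ω => (2 : ℝ) ^ (5 * u ω)) ≤ Real.exp a)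
    (h2 : Ex (fun ω => (2 : ℝ) ^ (5 / 4 * v ω)) ≤ Real.exp b) :
    Ex (fun ω => (2 : ℝ) ^ (u ω + v ω)) ≤ Real.exp (a / 5 + 4 * b / 5) := by
  have hpt : ∀ ω, (2 : ℝ) ^ (u ω + v ω) ≤
      (Real.exp (a / 5 + 4 * b / 5) * (1 / 5) * Real.exp (-a)) * (2 : ℝ) ^ (5 * u ω) +
      (Real.exp (a / 5 + 4 * b / 5) * (4 / 5) * Real.exp (-b)) * (2 : ℝ) ^ (5 / 4 * v ω) := by
    intro ω
    have hc := convexOn_exp.2 (Set.mem_univ (5 * (Real.log 2 * u ω) - a))
      (Set.mem_univ (5 / 4 * (Real.log 2 * v ω) - b))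
      (show (0 : ℝ) ≤ 1 / 5 by norm_num) (show (0 : ℝ) ≤ 4 / 5 by norm_num) (by norm_num)
    simp only [smul_eq_mul] at hc
    have e0 : (2 : ℝ) ^ (u ω + v ω) = Real.exp (a / 5 + 4 * b / 5) *
        Real.exp (1 / 5 * (5 * (Real.log 2 * u ω) - a) +
          4 / 5 * (5 / 4 * (Real.log 2 * v ω) - b)) := by
      rw [Real.rpow_def_of_pos (by norm_num), ← Real.exp_add]
      congr 1
      ring
    have e1 : Real.exp (5 * (Real.log 2 * u ω) - a) = Real.exp (-a) * (2 : ℝ) ^ (5 * u ω) := by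
      rw [Real.rpow_def_of_pos (by norm_num), ← Real.exp_add]
      congr 1
      ring
    have e2 : Real.exp (5 / 4 * (Real.log 2 * v ω) - b) =
        Real.exp (-b) * (2 : ℝ) ^ (5 / 4 * v ω) := by
      rw [Real.rpow_def_of_pos (by norm_num), ← Real.exp_add]
      congr 1
      ring
    rw [e1, e2] at hc
    rw [e0]
    refine (mul_le_mul_of_nonneg_left hc (Real.exp_pos _).le).trans (le_of_eq ?_)
    ring
  refine (Ex_mono hpt).trans ?_
  rw [Ex_add, Ex_mul_left, Ex_mul_left]
  have h3 : (Real.exp (a / 5 + 4 * b / 5) * (1 / 5) * Real.exp (-a)) *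
      Ex (fun ω => (2 : ℝ) ^ (5 * u ω)) ≤ Real.exp (a / 5 + 4 * b / 5) * (1 / 5) := by
    refine (mul_le_mul_of_nonneg_left h1 (by positivity)).trans (le_of_eq ?_)
    rw [mul_assoc _ (Real.exp (-a)), ← Real.exp_add, neg_add_cancel, Real.exp_zero, mul_one]
  have h4 : (Real.exp (a / 5 + 4 * b / 5) * (4 / 5) * Real.exp (-b)) *
      Ex (fun ω => (2 : ℝ) ^ (5 / 4 * v ω)) ≤ Real.exp (a / 5 + 4 * b / 5) * (4 / 5) := by
    refine (mul_le_mul_of_nonneg_left h2 (by positivity)).trans (le_of_eq ?_)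
    rw [mul_assoc _ (Real.exp (-b)), ← Real.exp_add, neg_add_cancel, Real.exp_zero, mul_one]
  linarith only [h3, h4]

end Vale.Agent.P162.Lin.Main

namespace Vale.Agent.P162.Lin

end Vale.Agent.P162.Lin
end
end
end

section

section

section

/-!
# Windowed Hölder inequality for the ring network
-/

namespace Vale.Agent.P162.Ring

open Equiv
open Vale.Agent.P162.Lin (Ex nOrb window_holder)
open Vale.Agent.P162.Lin.Main (lo al al_pos sum_al_le holder5 geom_tail Ex_mono Ex_const
  Ex_le_of_le Ex_add Ex_mul_left Ex_sum Ex_prod)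

theorem loops_congr {m D : ℕ} (a b b' : Cn m D) (S : Finset (Fin (2 * m))) (j : ℕ)
    (h : ∀ i : Fin D, (i : ℕ) < j → b i = b' i) : loops a b S j = loops a b' S j := by
  unfold loops net
  rw [Rg_congr b b' j h]

/-- Averaging over a set of at most `N` levels: exponential moment of a sum. -/
theorem avg_part {Ω : Type*} [Fintype Ω] [Nonempty Ω] (J : Finset ℕ) (N : ℝ)
    (hN : (J.card : ℝ) ≤ N) (u : ℕ → Ω → ℝ) (hu : ∀ j ∈ J, ∀ ω, 0 ≤ u j ω) (θ : ℝ)
    (hθ : 0 ≤ θ) (B : ℝ) (hB : 0 ≤ B)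
    (h : ∀ j ∈ J, Ex (fun ω => (2 : ℝ) ^ (θ * N * u j ω)) ≤ Real.exp B) :
    Ex (fun ω => (2 : ℝ) ^ (θ * ∑ j ∈ J, u j ω)) ≤ Real.exp B := by
  rcases J.eq_empty_or_nonempty with hemp | hne
  · rw [hemp]
    simp only [Finset.sum_empty, mul_zero, Real.rpow_zero]
    rw [Ex_const]
    exact Real.one_le_exp hB
  have hn : (0 : ℝ) < J.card := by exact_mod_cast Finset.card_pos.2 hne
  have hpt : ∀ ω, (2 : ℝ) ^ (θ * ∑ j ∈ J, u j ω) ≤
      ∑ j ∈ J, (1 / (J.card : ℝ)) * (2 : ℝ) ^ (θ * N * u j ω) := by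
    intro ω
    have h1 : (2 : ℝ) ^ (θ * ∑ j ∈ J, u j ω) ≤
        (2 : ℝ) ^ (∑ j ∈ J, (1 / (J.card : ℝ)) * (θ * N * u j ω)) := by
      apply Real.rpow_le_rpow_of_exponent_le (by norm_num)
      rw [Finset.mul_sum]
      refine Finset.sum_le_sum fun j hj => ?_
      have hl : 0 ≤ u j ω := hu j hj ω
      have h2 : 1 ≤ (1 / (J.card : ℝ)) * N := by
        rw [one_div, inv_mul_eq_div, le_div_iff₀ hn, one_mul]
        exact hN
      calc θ * u j ω = 1 * (θ * u j ω) := by ring
        _ ≤ ((1 / (J.card : ℝ)) * N) * (θ * u j ω) :=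
          mul_le_mul_of_nonneg_right h2 (mul_nonneg hθ hl)
        _ = _ := by ring
    refine h1.trans ?_
    have hconv := convexOn_exp.map_sum_le (t := J) (w := fun _ => 1 / (J.card : ℝ))
      (p := fun j => Real.log 2 * (θ * N * u j ω))
      (fun _ _ => by (clear * - hne; (clear * - hne; positivity))) (by rw [Finset.sum_const, nsmul_eq_mul]; (clear * - hne; field_simp))
      (fun _ _ => Set.mem_univ _)
    simp only [smul_eq_mul] at hconv
    have e1 : (2 : ℝ) ^ (∑ j ∈ J, (1 / (J.card : ℝ)) * (θ * N * u j ω))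
        = Real.exp (∑ j ∈ J, 1 / (J.card : ℝ) * (Real.log 2 * (θ * N * u j ω))) := by
      rw [Real.rpow_def_of_pos (by norm_num), Finset.mul_sum]
      congr 1
      refine Finset.sum_congr rfl fun j _ => ?_
      ring
    rw [e1]
    refine hconv.trans (le_of_eq ?_)
    refine Finset.sum_congr rfl fun j _ => ?_
    rw [Real.rpow_def_of_pos (by norm_num)]
  refine (Ex_mono hpt).trans ?_
  rw [Ex_sum]
  have hlev : ∀ j ∈ J, Ex (fun ω => (1 / (J.card : ℝ)) * (2 : ℝ) ^ (θ * N * u j ω)) ≤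
      (1 / (J.card : ℝ)) * Real.exp B := by
    intro j hj
    rw [Ex_mul_left]
    exact mul_le_mul_of_nonneg_left (h j hj) (by (clear * - hne; positivity))
  refine (Finset.sum_le_sum hlev).trans ?_
  rw [Finset.sum_const, nsmul_eq_mul]
  refine le_of_eq ?_
  (clear * - hne; field_simp)

/-- Window levels for fixed `a`: windows `[j - j / 16, j)`, weights `15 / (j + 1)`. -/
theorem window_part {m D : ℕ} (a : Cn m D) (S : Finset (Fin (2 * m))) (J : Finset ℕ)
    (hJ : ∀ j ∈ J, j ≤ D) (δ : ℝ) (B : ℕ → ℝ)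
    (hlev : ∀ j ∈ J, ∀ b : Cn m D,
      Ex (fun c : Cn m D => (2 : ℝ) ^ ((δ / al j) *
        (loops a (fun i => if (i : ℕ) < lo j then b i else c i) S j : ℝ))) ≤ Real.exp (B j)) :
    Ex (fun b : Cn m D => (2 : ℝ) ^ (δ * ∑ j ∈ J, (loops a b S j : ℝ))) ≤
      Real.exp (∑ j ∈ J, al j * B j) := by
  have key := window_holder (d := D) (X := Fin m → Fin 2) J hJ lo
    (fun j _ => Nat.sub_le _ _) al (fun j _ => al_pos j)
    (fun j b => (2 : ℝ) ^ (δ * (loops a b S j : ℝ)))
    (fun j => Real.exp (al j * B j))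
    (fun j _ => (Real.exp_pos _).le) (fun j _ b => by positivity)
    (by
      intro j hj b b' hbb
      simp only [loops_congr a b b' S j hbb])
    (fun i _ => sum_al_le J i)
    (by
      intro j hj b
      have hal := al_pos j
      have e1 : (Real.exp (al j * B j)) ^ (1 / al j) = Real.exp (B j) := by
        rw [← Real.exp_mul]
        congr 1
        (clear * - hal; field_simp)
      rw [e1]
      refine le_trans (le_of_eq ?_) (hlev j hj b)
      congr 1
      funext c
      rw [← Real.rpow_mul (by norm_num)]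
      congr 1
      ring)
  have e1 : ∀ b : Cn m D, (2 : ℝ) ^ (δ * ∑ j ∈ J, (loops a b S j : ℝ)) =
      ∏ j ∈ J, (2 : ℝ) ^ (δ * (loops a b S j : ℝ)) := by
    intro b
    rw [Finset.mul_sum, Real.rpow_sum_of_pos (by norm_num)]
  simp only [e1]
  refine key.trans (le_of_eq ?_)
  rw [← Real.exp_sum]

end Vale.Agent.P162.Ring
end
end
end

section

section

section

/-!
# The cost of the levels: loops, and touched wires at the exceptional levels
-/

namespace Vale.Agent.P162.Ring

open Equiv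
open Vale.Agent.P162.Lin (Ex nOrb)

/-- Inner wire `l`. -/
def wl {m : ℕ} (l : Fin m) : Fin (2 * m) := (topEquiv m).symm (false, l)

/-- Inner wire `l + m`. -/
def wh {m : ℕ} (l : Fin m) : Fin (2 * m) := (topEquiv m).symm (true, l)

/-- Number of pairs `{l, l + m}` occupied on the input side of the network of level `j`. -/
def prL {m D : ℕ} (a : Cn m D) (S : Finset (Fin (2 * m))) (j : ℕ) : ℕ :=
  (Finset.univ.filter (fun l : Fin m => wl l ∈ occ a j S ∧ wh l ∈ occ a j S)).card

/-- Number of pairs `{l, l + m}` occupied on the output side of the network of level `j`. -/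
def prR {m D : ℕ} (a b : Cn m D) (S : Finset (Fin (2 * m))) (j : ℕ) : ℕ :=
  (Finset.univ.filter (fun l : Fin m => (net a b j)⁻¹ (wl l) ∈ occ a j S ∧
    (net a b j)⁻¹ (wh l) ∈ occ a j S)).card

/-- Number of occupied wires at level `j` with a partner among the occupied wires, on one of the
two sides. -/
def tc {m D : ℕ} (a b : Cn m D) (S : Finset (Fin (2 * m))) (j : ℕ) : ℕ :=
  ((occ a j S).filter (fun p => opp m p ∈ occ a j S ∨ kap (net a b j) p ∈ occ a j S)).card

/-- Total cost: the loops of all levels and the touched wires of the levels in `Xc`. -/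
noncomputable def cost {m D : ℕ} (Xc : Finset ℕ) (a b : Cn m D) (S : Finset (Fin (2 * m))) : ℕ :=
  totLoops a b S + ∑ j ∈ Xc, tc a b S j

theorem opp_wl {m : ℕ} (l : Fin m) : opp m (wl l) = wh l := by
  change topFlip m (wl l) = wh l
  simp [topFlip, wl, wh]

theorem opp_wh {m : ℕ} (l : Fin m) : opp m (wh l) = wl l := by
  change topFlip m (wh l) = wl l
  simp [topFlip, wl, wh]

theorem exists_wire {m : ℕ} (p : Fin (2 * m)) : ∃ l, p = wl l ∨ p = wh l := by
  rcases h : topEquiv m p with ⟨b, l⟩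
  refine ⟨l, ?_⟩
  have h1 : p = (topEquiv m).symm (b, l) := by rw [← h, Equiv.symm_apply_apply]
  cases b
  · exact Or.inl h1
  · exact Or.inr h1

end Vale.Agent.P162.Ring
end
end
end

section

section

section

/-!
The Thorp shuffle of `2 * m` cards, adjoint form with the adjacent switches `{2 l, 2 l + 1}`.
-/

namespace Vale.Agent.P162

open Equiv

variable {V : Type*} [NormedAddCommGroup V] [InnerProductSpace ℝ V]

/-- Position `2 l + b` corresponds to `(b, l)`. -/
def botEquiv (m : ℕ) : Fin (2 * m) ≃ Bool × Fin m :=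
  (thorpPerm m 0).symm.trans (topEquiv m)

theorem botEquiv_symm_val (m : ℕ) (b : Bool) (l : Fin m) :
    (((botEquiv m).symm (b, l) : Fin (2 * m)) : ℕ) = 2 * (l : ℕ) + b.toNat := by
  have h : (finTwoEquiv.symm true : ℕ) = 1 := rfl
  have h' : (finTwoEquiv.symm false : ℕ) = 0 := rfl
  cases b
  · simp [botEquiv, topEquiv, thorpPerm, h']
  · simp only [botEquiv, thorpPerm, Pi.zero_apply, Fin.isValue, add_zero, symm_trans, finCongr_symm, symm_mk, symm_symm, topEquiv, prodCongr_symm, refl_symm, trans_apply, prodCongr_apply, coe_refl, Prod.map_apply, id_eq, symm_apply_apply, coe_fn_mk, finCongr_apply, Fin.val_cast, finProdFinEquiv_apply_val, h, Bool.toNat_true, add_comm, Nat.add_left_cancel_iff]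

/-- The inverse of the deterministic part: `2 l + b ↦ l + b m`. -/
theorem thorpPerm_zero_inv_bot (m : ℕ) (b : Bool) (l : Fin m) :
    (thorpPerm m 0)⁻¹ ((botEquiv m).symm (b, l)) = (topEquiv m).symm (b, l) := by
  simp only [botEquiv, symm_trans, symm_symm, trans_apply, Perm.coe_inv, symm_apply_apply]

/-- Adjoint of one Thorp shuffle: average over the adjacent switches, then `2 l + b ↦ l + b m`. -/
theorem adjOp_thorp_bot (m : ℕ) (ρ : Perm (Fin (2 * m)) →* (V →L[ℝ] V)) :
    adjOp (thorpLaw m) ρ = ρ (thorpPerm m 0)⁻¹ *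
      avgCol (ρ.comp (botEquiv m).symm.permCongrHom.toMonoidHom) := by
  rw [adjOp_thorp]
  unfold avgCol
  rw [mul_smul_comm, Finset.mul_sum, Fintype.card_fin]
  congr 1
  rw [← (Equiv.arrowCongr (Equiv.refl (Fin m)) finTwoEquiv).sum_comp]
  apply Finset.sum_congr rfl
  intro ω _
  rw [thorpPerm_eq m ω, mul_inv_rev, map_mul]
  have h1 : ((topEquiv m).symm.permCongr (colSwap fun i => finTwoEquiv (ω i)))⁻¹ =
      (topEquiv m).symm.permCongr (colSwap fun i => finTwoEquiv (ω i)) := rfl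
  have h2 : (botEquiv m).symm.permCongr (colSwap fun i => finTwoEquiv (ω i)) =
      thorpPerm m 0 * (topEquiv m).symm.permCongr (colSwap fun i => finTwoEquiv (ω i)) *
        (thorpPerm m 0)⁻¹ := by
    ext1 x
    rfl
  have h3 : (ρ.comp (botEquiv m).symm.permCongrHom.toMonoidHom)
      (colSwap ((Equiv.arrowCongr (Equiv.refl (Fin m)) finTwoEquiv) ω)) =
      ρ ((botEquiv m).symm.permCongr (colSwap fun i => finTwoEquiv (ω i))) := rfl
  rw [h3, h2, h1, ← map_mul, ← map_mul, ← mul_assoc, ← mul_assoc, inv_mul_cancel, one_mul]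

end Vale.Agent.P162
end
end
end

section

section

section

/-!
Generating function of the number of short cycles of a random butterfly followed by a fixed
permutation.
-/

open Classical

namespace Vale.Agent.P162.Bfly

variable {Q : Type*} [Fintype Q]

/-- The cycle of `y`, as a finset. -/
noncomputable def orb (σ : Equiv.Perm Q) (y : Q) : Finset Q :=
  Finset.univ.filter fun z => σ.SameCycle y z

lemma mem_orb {σ : Equiv.Perm Q} {y z : Q} : z ∈ orb σ y ↔ σ.SameCycle y z := by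
  simp only [orb, Finset.mem_filter, Finset.mem_univ, true_and]

lemma self_mem_orb (σ : Equiv.Perm Q) (y : Q) : y ∈ orb σ y :=
  mem_orb.2 (Equiv.Perm.SameCycle.refl _ _)

lemma isLen_orb (σ : Equiv.Perm Q) (y : Q) : IsLen σ y (orb σ y).card := by
  have hper : Function.IsPeriodicPt σ (orderOf σ) y := by
    unfold Function.IsPeriodicPt Function.IsFixedPt
    rw [Equiv.Perm.iterate_eq_pow, pow_orderOf_eq_one]
    rfl
  have hpos : 0 < Function.minimalPeriod σ y :=
    Function.IsPeriodicPt.minimalPeriod_pos (orderOf_pos σ) hper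
  have horb : orb σ y = (Finset.range (Function.minimalPeriod σ y)).image
      (fun k => σ^[k] y) := by
    ext z
    rw [mem_orb, Finset.mem_image]
    constructor
    · intro h
      obtain ⟨k, hk⟩ := h.exists_nat_pow_eq
      refine ⟨k % Function.minimalPeriod σ y, Finset.mem_range.2 (Nat.mod_lt _ hpos), ?_⟩
      rw [Function.iterate_mod_minimalPeriod_eq, Equiv.Perm.iterate_eq_pow, hk]
    · rintro ⟨k, -, rfl⟩
      rw [Equiv.Perm.iterate_eq_pow]
      exact (Equiv.Perm.sameCycle_pow_right).2 (Equiv.Perm.SameCycle.refl _ _)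
  have hcard : (orb σ y).card = Function.minimalPeriod σ y := by
    rw [horb, Finset.card_image_of_injOn, Finset.card_range]
    intro a ha b hb hab
    exact Function.iterate_injOn_Iio_minimalPeriod
      (by simpa only [Set.mem_Iio, Finset.coe_range] using ha) (by simpa using hb) hab
  rw [hcard]
  refine ⟨hpos, ?_, ?_⟩
  · rw [← Equiv.Perm.iterate_eq_pow]
    exact Function.isPeriodicPt_minimalPeriod σ y
  · intro k hk0 hk h
    have : Function.IsPeriodicPt σ k y := by
      unfold Function.IsPeriodicPt Function.IsFixedPt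
      rw [Equiv.Perm.iterate_eq_pow]
      exact h
    have := this.minimalPeriod_le hk0
    omega

variable {w : ℕ} (B : Wires Q w) (π : Equiv.Perm Q)

/-- Length functions with values in `[1, L]` on `Y` and `0` outside. -/
noncomputable def lenFns (Y : Finset Q) (L : ℕ) : Finset (Q → ℕ) :=
  Fintype.piFinset fun q => if q ∈ Y then Finset.Icc 1 L else {0}

lemma card_lenFns (Y : Finset Q) (L : ℕ) : (lenFns Y L).card = L ^ Y.card := by
  unfold lenFns
  rw [Fintype.card_piFinset]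
  have : ∀ q, (if q ∈ Y then Finset.Icc 1 L else ({0} : Finset ℕ)).card
      = if q ∈ Y then L else 1 := by
    intro q
    split_ifs <;> simp
  simp only [this]
  rw [Finset.prod_ite, Finset.prod_const, Finset.prod_const_one, mul_one]
  congr 1
  congr 1
  ext q
  simp only [Finset.subset_univ, Finset.filter_mem_eq_of_subset]

end Vale.Agent.P162.Bfly
end
end
end

section

section

section

/-!
# Window lemma for general networks, part 1

A network of `w` layers on the wires `Q`. In every layer the wires `q`, `t q` form a switch with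
name `c q`; after the switches the wires are rearranged by the fixed permutation `U`. The loops
are the orbits of the group generated by a fixed involution `r` of the inputs and `V⁻¹ t V`,
`V` = the permutation of the network. The encoding argument: for given starting points and
lengths, the cubes of switch settings spanned by the free switches of the closing paths are
disjoint.
-/

open Classical

namespace Vale.Agent.P162.Win

/-- One layer of switches `{q, t q}`, followed by the rearrangement `U`. -/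
structure Net (Q P : Type*) where
  U : Equiv.Perm Q
  t : Equiv.Perm Q
  c : Q → P
  tt : ∀ q, t (t q) = q
  t_ne : ∀ q, t q ≠ q
  c_t : ∀ q, c (t q) = c q
  c_eq : ∀ q q', c q = c q' → q' = q ∨ q' = t q

variable {Q P : Type*} (B : Net Q P)

/-- The wire before the rearrangement. -/
def sw (f : P → Bool) (q : Q) : Q := if f (B.c q) then B.t q else q

/-- The position after `i` layers of the path with input `x`. -/
def pos (ω : ℕ → P → Bool) (x : Q) : ℕ → Q
  | 0 => x
  | i + 1 => B.U (sw B (ω i) (pos ω x i))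

@[simp] lemma pos_zero (ω : ℕ → P → Bool) (x : Q) : pos B ω x 0 = x := rfl

lemma pos_succ (ω : ℕ → P → Bool) (x : Q) (i : ℕ) :
    pos B ω x (i + 1) = B.U (sw B (ω i) (pos B ω x i)) := rfl

lemma sw_sw (f : P → Bool) (q : Q) : sw B f (sw B f q) = q := by
  unfold sw
  by_cases h : f (B.c q) = true
  · simp [h, B.c_t, B.tt]
  · simp [h]

lemma c_sw (f : P → Bool) (q : Q) : B.c (sw B f q) = B.c q := by
  unfold sw
  split_ifs
  · exact B.c_t q
  · rfl

lemma sw_injective (f : P → Bool) : Function.Injective (sw B f) :=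
  Function.LeftInverse.injective (g := sw B f) (sw_sw B f)

lemma pos_injective (ω : ℕ → P → Bool) (i : ℕ) :
    Function.Injective fun x => pos B ω x i := by
  induction i with
  | zero => exact fun x y h => h
  | succ i ih =>
    intro x y h
    exact ih (sw_injective B (ω i) (B.U.injective h))

/-- The previous position is determined by the next position and the switch. -/
lemma pos_pred (ω : ℕ → P → Bool) (x : Q) (i : ℕ) :
    pos B ω x i = sw B (ω i) (B.U.symm (pos B ω x (i + 1))) := by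
  rw [pos_succ, Equiv.symm_apply_apply, sw_sw]

lemma c_pos_pred (ω : ℕ → P → Bool) (x : Q) (i : ℕ) :
    B.c (B.U.symm (pos B ω x (i + 1))) = B.c (pos B ω x i) := by
  rw [pos_succ, Equiv.symm_apply_apply, c_sw]

/-- The switch value on a path is determined by the path. -/
lemma switch_eq (ω : ℕ → P → Bool) (x : Q) (i : ℕ) :
    ω i (B.c (pos B ω x i)) = !decide (B.U.symm (pos B ω x (i + 1)) = pos B ω x i) := by
  rw [pos_succ, Equiv.symm_apply_apply]
  unfold sw
  by_cases h : ω i (B.c (pos B ω x i)) = true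
  · simp [h, B.t_ne]
  · simp [h]

lemma switch_same_of {ω ω' : ℕ → P → Bool} {x x' : Q} {i : ℕ}
    (h : pos B ω x i = pos B ω' x' i) (h' : pos B ω x (i + 1) = pos B ω' x' (i + 1)) :
    ω i (B.c (pos B ω x i)) = ω' i (B.c (pos B ω x i)) := by
  rw [switch_eq B ω, h, switch_eq B ω', h']

variable [Fintype Q] (w : ℕ) (r : Equiv.Perm Q)

/-- The permutation of the network. -/
noncomputable def Vp (ω : ℕ → P → Bool) : Equiv.Perm Q :=
  Equiv.ofBijective (fun x => pos B ω x w) (Finite.injective_iff_bijective.1 (pos_injective B ω w))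

lemma Vp_apply (ω : ℕ → P → Bool) (x : Q) : Vp B w ω x = pos B ω x w := rfl

/-- The involution `V⁻¹ t V` of the inputs. -/
noncomputable def kp (ω : ℕ → P → Bool) : Equiv.Perm Q := (Vp B w ω)⁻¹ * B.t * Vp B w ω

/-- The walk `V⁻¹ t V r`. -/
noncomputable def sg (ω : ℕ → P → Bool) : Equiv.Perm Q := kp B w ω * r

lemma kp_kp (ω : ℕ → P → Bool) (q : Q) : kp B w ω (kp B w ω q) = q := by
  simp only [kp, Equiv.Perm.mul_apply, Equiv.Perm.coe_inv, Equiv.apply_symm_apply, B.tt, Equiv.symm_apply_apply]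

lemma kp_ne (ω : ℕ → P → Bool) (q : Q) : kp B w ω q ≠ q := by
  intro h
  have h1 : Vp B w ω (kp B w ω q) = B.t (Vp B w ω q) := by
    simp only [kp, Equiv.Perm.mul_apply, Equiv.Perm.coe_inv, Equiv.apply_symm_apply]
  rw [h] at h1
  exact B.t_ne _ h1.symm

lemma V_kp (ω : ℕ → P → Bool) (q : Q) : pos B ω (kp B w ω q) w = B.t (pos B ω q w) := by
  rw [← Vp_apply, ← Vp_apply]
  simp only [kp, Equiv.Perm.mul_apply, Equiv.Perm.coe_inv, Equiv.apply_symm_apply]

/-- Being in the same loop. -/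
def Lp (ω : ℕ → P → Bool) (u v : Q) : Prop :=
  v ∈ MulAction.orbit (Subgroup.closure {r, kp B w ω}) u

lemma Lp.refl (ω : ℕ → P → Bool) (u : Q) : Lp B w r ω u u := MulAction.mem_orbit_self u

variable {B w r}

lemma Lp.symm {ω : ℕ → P → Bool} {u v : Q} (h : Lp B w r ω u v) : Lp B w r ω v u :=
  MulAction.mem_orbit_symm.1 h

lemma Lp.trans {ω : ℕ → P → Bool} {u v x : Q} (h : Lp B w r ω u v) (h' : Lp B w r ω v x) :
    Lp B w r ω u x := by
  unfold Lp at *
  rwa [← MulAction.orbit_eq_iff.2 h]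

variable (B w r)

lemma Lp_of_mem {ω : ℕ → P → Bool} {g : Equiv.Perm Q}
    (hg : g ∈ Subgroup.closure {r, kp B w ω}) (u : Q) : Lp B w r ω u (g u) :=
  ⟨⟨g, hg⟩, rfl⟩

lemma r_mem (ω : ℕ → P → Bool) : r ∈ Subgroup.closure {r, kp B w ω} :=
  Subgroup.subset_closure (by simp)

lemma kp_mem (ω : ℕ → P → Bool) : kp B w ω ∈ Subgroup.closure {r, kp B w ω} :=
  Subgroup.subset_closure (by simp)

lemma Lp_pow (ω : ℕ → P → Bool) (k : ℕ) (u : Q) : Lp B w r ω u (((sg B w r ω) ^ k) u) :=
  Lp_of_mem B w r (Subgroup.pow_mem _ (Subgroup.mul_mem _ (kp_mem B w r ω) (r_mem B w r ω)) k) u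

lemma Lp_r_pow (ω : ℕ → P → Bool) (k : ℕ) (u : Q) :
    Lp B w r ω u (r (((sg B w r ω) ^ k) u)) :=
  (Lp_pow B w r ω k u).trans (Lp_of_mem B w r (r_mem B w r ω) _)

/-- Reflections have no fixed points. -/
lemma r_pow_ne (hr : ∀ q, r (r q) = q) (hr' : ∀ q, r q ≠ q) (ω : ℕ → P → Bool) (k : ℕ) :
    ∀ u, r (((sg B w r ω) ^ k) u) ≠ u := by
  have hinv : ∀ u, (sg B w r ω) (r (kp B w ω u)) = u := by
    intro u
    rw [sg, Equiv.Perm.mul_apply, hr, kp_kp]
  induction k using Nat.twoStepInduction with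
  | zero => intro u; simpa only [pow_zero, Equiv.Perm.coe_one, id_eq, ne_eq] using hr' u
  | one =>
    intro u h
    rw [pow_one, sg, Equiv.Perm.mul_apply] at h
    have h1 : kp B w ω (r u) = r u := by rw [← hr (kp B w ω (r u)), h]
    exact kp_ne B w ω _ h1
  | more k ih _ =>
    intro u h
    -- `r σ^(k+2) u = u`; put `u = r κ v`
    obtain ⟨v, rfl⟩ : ∃ v, u = r (kp B w ω v) := ⟨kp B w ω (r u), by rw [kp_kp, hr]⟩
    rw [show k + 1 + 1 = 1 + k + 1 by ring, pow_succ, pow_add, pow_one, Equiv.Perm.mul_apply,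
      Equiv.Perm.mul_apply, hinv] at h
    have h2 : sg B w r ω (((sg B w r ω) ^ k) v) = kp B w ω v := r.injective h
    rw [sg, Equiv.Perm.mul_apply] at h2
    exact ih v ((kp B w ω).injective h2)

/-- The closing path (= path with input `u`) meets at layer `i` a path which is neither in the
own loop nor in the loop of a starting point of smaller rank. -/
noncomputable def free (Y : Finset Q) (rk : Q → ℕ) (ω : ℕ → P → Bool) (u : Q) : Finset ℕ :=
  (Finset.range w).filter fun i => ∀ x', pos B ω x' i = B.t (pos B ω u i) →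
    ¬ Lp B w r ω u x' ∧ ∀ u'' ∈ Y, rk u'' < rk u → ¬ Lp B w r ω u'' x'

/-- The free switches. -/
noncomputable def supp (Y : Finset Q) (rk : Q → ℕ) (ω : ℕ → P → Bool) : Finset (ℕ × P) :=
  Y.biUnion fun u => (free B w r Y rk ω u).image fun i => (i, B.c (pos B ω u i))

lemma mem_supp {Y : Finset Q} {rk : Q → ℕ} {ω : ℕ → P → Bool} {i : ℕ} {q : P} :
    (i, q) ∈ supp B w r Y rk ω ↔ ∃ u ∈ Y, i ∈ free B w r Y rk ω u ∧ q = B.c (pos B ω u i) := by
  unfold supp
  simp only [Finset.mem_biUnion, Finset.mem_image, Prod.mk.injEq]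
  constructor
  · rintro ⟨y, hy, j, hj, rfl, rfl⟩
    exact ⟨y, hy, hj, rfl⟩
  · rintro ⟨y, hy, hi, rfl⟩
    exact ⟨y, hy, i, hi, rfl, rfl⟩

lemma lt_of_mem_free {Y : Finset Q} {rk : Q → ℕ} {ω : ℕ → P → Bool} {i : ℕ} {u : Q}
    (h : i ∈ free B w r Y rk ω u) : i < w := Finset.mem_range.1 (Finset.mem_filter.1 h).1

/-- The loops of the points of `Y` are distinct and the walks have the prescribed lengths. -/
structure Good (Y : Finset Q) (l : Q → ℕ) (ω : ℕ → P → Bool) : Prop where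
  len : ∀ u ∈ Y, Bfly.IsLen (sg B w r ω) u (l u)
  disj : ∀ u ∈ Y, ∀ u' ∈ Y, u ≠ u' → ¬ Lp B w r ω u u'

lemma card_supp {Y : Finset Q} {rk : Q → ℕ} (hrk : Set.InjOn rk Y) {ω : ℕ → P → Bool} :
    (supp B w r Y rk ω).card = ∑ u ∈ Y, (free B w r Y rk ω u).card := by
  unfold supp
  rw [Finset.card_biUnion]
  · refine Finset.sum_congr rfl fun y _ => ?_
    rw [Finset.card_image_of_injOn]
    intro i _ j _ h
    exact (Prod.mk.inj h).1
  · intro y hy y' hy' hne
    rw [Function.onFun, Finset.disjoint_left]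
    rintro ⟨i, q⟩ h1 h2
    obtain ⟨j, hj, h1⟩ := Finset.mem_image.1 h1
    obtain ⟨j', hj', h2⟩ := Finset.mem_image.1 h2
    obtain ⟨rfl, hq⟩ := Prod.mk.inj h1
    obtain ⟨rfl, hq'⟩ := Prod.mk.inj h2
    rw [← hq'] at hq
    have hf := (Finset.mem_filter.1 hj).2
    have hf' := (Finset.mem_filter.1 hj').2
    rcases B.c_eq _ _ hq with h | h
    · exact hne (pos_injective B ω j' h).symm
    · have a1 := (hf _ h).2 y' hy'
      have h' : pos B ω y j' = B.t (pos B ω y' j') := by rw [h, B.tt]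
      have a2 := (hf' _ h').2 y hy
      have b1 : ¬ rk y' < rk y := fun hlt => a1 hlt (Lp.refl B w r ω y')
      have b2 : ¬ rk y < rk y' := fun hlt => a2 hlt (Lp.refl B w r ω y)
      exact hne (hrk hy hy' (by omega))

variable {B w r}

/-- A free switch of `ω` used by a non closing path of a loop: its value is known. -/
lemma explore_aux {Y : Finset Q} {rk : Q → ℕ} {l : Q → ℕ} (hrk : Set.InjOn rk Y)
    {ω ω' : ℕ → P → Bool} (hg : Good B w r Y l ω) {u : Q} (hu : u ∈ Y)
    (hout : ∀ u' ∈ Y, rk u' < rk u → ∀ i, i ≤ w → pos B ω u' i = pos B ω' u' i)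
    {x : Q} (hx : Lp B w r ω u x) (hxu : x ≠ u) {i : ℕ} (hi : i < w)
    (hmem : (i, B.c (pos B ω x i)) ∈ supp B w r Y rk ω) :
    ω i (B.c (pos B ω x i)) = ω' i (B.c (pos B ω x i)) := by
  obtain ⟨y', hy', hfree, hq⟩ := (mem_supp B w r).1 hmem
  rcases B.c_eq _ _ hq.symm with h | h
  · exfalso
    have h1 : x = y' := pos_injective B ω i h
    subst h1
    exact hg.disj u hu x hy' (Ne.symm hxu) hx
  · have hf := (Finset.mem_filter.1 hfree).2 x h
    have hne : u ≠ y' := by
      rintro rfl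
      exact hf.1 hx
    have hnlt : ¬ rk u < rk y' := fun hlt => hf.2 u hu hlt hx
    have hlt : rk y' < rk u := by
      have : rk u ≠ rk y' := fun h => hne (hrk hu hy' h)
      omega
    rw [hq]
    exact switch_same_of B (hout y' hy' hlt i hi.le) (hout y' hy' hlt (i + 1) hi)

/-- Same value at every switch used by a common non closing path. -/
lemma explore_sw {Y : Finset Q} {rk : Q → ℕ} {l : Q → ℕ} (hrk : Set.InjOn rk Y)
    {ω ω' : ℕ → P → Bool} (hg : Good B w r Y l ω) (hg' : Good B w r Y l ω')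
    (hag : ∀ i, i < w → ∀ q, (i, q) ∉ supp B w r Y rk ω → (i, q) ∉ supp B w r Y rk ω' →
      ω i q = ω' i q) {u : Q} (hu : u ∈ Y)
    (hout : ∀ u' ∈ Y, rk u' < rk u → ∀ i, i ≤ w → pos B ω u' i = pos B ω' u' i)
    {x x' : Q} (hx : Lp B w r ω u x) (hxu : x ≠ u) (hx' : Lp B w r ω' u x') (hxu' : x' ≠ u)
    {i : ℕ} (hi : i < w) (hc : B.c (pos B ω x i) = B.c (pos B ω' x' i)) :
    ω i (B.c (pos B ω x i)) = ω' i (B.c (pos B ω x i)) := by
  by_cases h1 : (i, B.c (pos B ω x i)) ∈ supp B w r Y rk ω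
  · exact explore_aux hrk hg hu hout hx hxu hi h1
  · by_cases h2 : (i, B.c (pos B ω x i)) ∈ supp B w r Y rk ω'
    · rw [hc] at h2 ⊢
      exact (explore_aux hrk hg' hu (fun y' hy' hlt' k hk => (hout y' hy' hlt' k hk).symm)
        hx' hxu' hi h2).symm
    · exact hag i hi _ h1 h2

/-- The exploration: all loops of `Y` agree. -/
lemma explore (hr : ∀ q, r (r q) = q) (hr' : ∀ q, r q ≠ q)
    (huniq : ∀ ω ω' : ℕ → P → Bool, ∀ x, pos B ω x w = pos B ω' x w →
      ∀ i, i ≤ w → pos B ω x i = pos B ω' x i)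
    {Y : Finset Q} {rk : Q → ℕ} {l : Q → ℕ} (hrk : Set.InjOn rk Y)
    {ω ω' : ℕ → P → Bool} (hg : Good B w r Y l ω) (hg' : Good B w r Y l ω')
    (hag : ∀ i, i < w → ∀ q, (i, q) ∉ supp B w r Y rk ω → (i, q) ∉ supp B w r Y rk ω' →
      ω i q = ω' i q) :
    ∀ R : ℕ, ∀ u ∈ Y, rk u = R → ∀ i, i ≤ w → pos B ω u i = pos B ω' u i := by
  intro R
  induction R using Nat.strong_induction_on with
  | _ R ihR =>
    intro u hu hR
    have hout : ∀ u' ∈ Y, rk u' < rk u → ∀ i, i ≤ w → pos B ω u' i = pos B ω' u' i :=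
      fun y' hy' hlt => ihR (rk y') (hR ▸ hlt) y' hy' rfl
    obtain ⟨hl0, hl1, hl2⟩ := hg.len u hu
    obtain ⟨-, hl1', hl2'⟩ := hg'.len u hu
    -- forward paths
    have fwd : ∀ x, Lp B w r ω u x → Lp B w r ω' u x → x ≠ u → ∀ i, i ≤ w →
        pos B ω x i = pos B ω' x i := by
      intro x hx hx' hxu i
      induction i with
      | zero => intro _; rfl
      | succ i ih =>
        intro hi
        have hp := ih (by omega)
        have hsw := explore_sw hrk hg hg' hag hu hout hx hxu hx' hxu (i := i) (by omega)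
          (by rw [hp])
        rw [pos_succ, pos_succ, ← hp]
        unfold sw
        rw [hsw]
    -- backward paths
    have bwd : ∀ x x', Lp B w r ω u x → Lp B w r ω' u x' → x ≠ u → x' ≠ u →
        pos B ω x w = pos B ω' x' w → ∀ j, j ≤ w → pos B ω x (w - j) = pos B ω' x' (w - j) := by
      intro x x' hx hx' hxu hxu' hend j
      induction j with
      | zero => intro _; exact hend
      | succ j ih =>
        intro hj
        have hp := ih (by omega)
        have e1 : w - j = w - (j + 1) + 1 := by omega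
        rw [e1] at hp
        have hc : B.c (pos B ω x (w - (j + 1))) = B.c (pos B ω' x' (w - (j + 1))) := by
          rw [← c_pos_pred, hp, c_pos_pred]
        have hsw := explore_sw hrk hg hg' hag hu hout hx hxu hx' hxu' (i := w - (j + 1))
          (by omega) hc
        rw [pos_pred B ω, pos_pred B ω', ← hp]
        unfold sw
        rw [c_pos_pred, hsw]
    -- the walk
    have walk : ∀ k, k + 1 ≤ l u → ((sg B w r ω) ^ k) u = ((sg B w r ω') ^ k) u := by
      intro k
      induction k with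
      | zero => intro _; simp only [pow_zero, Equiv.Perm.coe_one, id_eq]
      | succ k ihk =>
        intro hk
        have hprev := ihk (by omega)
        have h1 : pos B ω (r (((sg B w r ω) ^ k) u)) w
            = pos B ω' (r (((sg B w r ω') ^ k) u)) w := by
          rw [← hprev]
          refine fwd _ (Lp_r_pow B w r ω k u) ?_ (r_pow_ne B w r hr hr' ω k u) w le_rfl
          rw [hprev]
          exact Lp_r_pow B w r ω' k u
        have h2 : ∀ ω : ℕ → P → Bool, pos B ω (((sg B w r ω) ^ (k + 1)) u) w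
            = B.t (pos B ω (r (((sg B w r ω) ^ k) u)) w) := by
          intro ω
          rw [pow_succ', Equiv.Perm.mul_apply, sg, Equiv.Perm.mul_apply, V_kp]
        have h3 : pos B ω (((sg B w r ω) ^ (k + 1)) u) w
            = pos B ω' (((sg B w r ω') ^ (k + 1)) u) w := by
          rw [h2 ω, h2 ω', h1]
        have h4 := bwd _ _ (Lp_pow B w r ω (k + 1) u) (Lp_pow B w r ω' (k + 1) u)
          (hl2 (k + 1) (Nat.succ_pos k) (by omega)) (hl2' (k + 1) (Nat.succ_pos k) (by omega))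
          h3 w le_rfl
        rw [Nat.sub_self] at h4
        exact h4
    -- the closing path
    obtain ⟨k, hk⟩ := Nat.exists_eq_succ_of_ne_zero hl0.ne'
    have hwk := walk k (by omega)
    have h1 : pos B ω (r (((sg B w r ω) ^ k) u)) w
        = pos B ω' (r (((sg B w r ω') ^ k) u)) w := by
      rw [← hwk]
      refine fwd _ (Lp_r_pow B w r ω k u) ?_ (r_pow_ne B w r hr hr' ω k u) w le_rfl
      rw [hwk]
      exact Lp_r_pow B w r ω' k u
    have h2 : ∀ ω : ℕ → P → Bool, ((sg B w r ω) ^ (l u)) u = u → pos B ω u w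
        = B.t (pos B ω (r (((sg B w r ω) ^ k) u)) w) := by
      intro ω h
      rw [hk, Nat.succ_eq_add_one, pow_succ', Equiv.Perm.mul_apply, sg,
        Equiv.Perm.mul_apply] at h
      rw [← V_kp]
      congr 1
      exact h.symm
    have h3 : pos B ω u w = pos B ω' u w := by
      rw [h2 ω hl1, h2 ω' hl1', h1]
    exact huniq ω ω' u h3

/-- Two good settings which agree outside their free switches are equal. -/
theorem eq_of_agree (hr : ∀ q, r (r q) = q) (hr' : ∀ q, r q ≠ q)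
    (huniq : ∀ ω ω' : ℕ → P → Bool, ∀ x, pos B ω x w = pos B ω' x w →
      ∀ i, i ≤ w → pos B ω x i = pos B ω' x i)
    {Y : Finset Q} {rk : Q → ℕ} {l : Q → ℕ} (hrk : Set.InjOn rk Y)
    {ω ω' : ℕ → P → Bool} (hg : Good B w r Y l ω) (hg' : Good B w r Y l ω')
    (hag : ∀ i, i < w → ∀ q, (i, q) ∉ supp B w r Y rk ω → (i, q) ∉ supp B w r Y rk ω' →
      ω i q = ω' i q) :
    ∀ i, i < w → ∀ q, ω i q = ω' i q := by
  have hex := explore hr hr' huniq hrk hg hg' hag
  intro i hi q
  by_cases h1 : (i, q) ∈ supp B w r Y rk ω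
  · obtain ⟨y, hy, -, rfl⟩ := (mem_supp B w r).1 h1
    exact switch_same_of B (hex _ y hy rfl i hi.le) (hex _ y hy rfl (i + 1) hi)
  · by_cases h2 : (i, q) ∈ supp B w r Y rk ω'
    · obtain ⟨y, hy, -, rfl⟩ := (mem_supp B w r).1 h2
      exact (switch_same_of B (hex _ y hy rfl i hi.le).symm
        (hex _ y hy rfl (i + 1) hi).symm).symm
    · exact hag i hi q h1 h2

/-- Extension of a finite family of layers by trivial layers. -/
def ext (ω : Fin w → P → Bool) : ℕ → P → Bool :=
  fun i q => if h : i < w then ω ⟨i, h⟩ q else false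

omit [Fintype Q] in
lemma ext_apply (ω : Fin w → P → Bool) (i : Fin w) (q : P) : ext ω i q = ω i q := by
  unfold ext
  simp

/-- Flip the switches of `T`. -/
noncomputable def flipAt (ω : Fin w → P → Bool) (T : Finset (ℕ × P)) : Fin w → P → Bool :=
  fun i q => if ((i : ℕ), q) ∈ T then !ω i q else ω i q

/-- Kraft type inequality for the free switches. -/
theorem sum_pow_supp_le [Fintype P] [DecidableEq P] (hr : ∀ q, r (r q) = q) (hr' : ∀ q, r q ≠ q)
    (huniq : ∀ ω ω' : ℕ → P → Bool, ∀ x, pos B ω x w = pos B ω' x w →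
      ∀ i, i ≤ w → pos B ω x i = pos B ω' x i)
    (Y : Finset Q) (rk : Q → ℕ) (l : Q → ℕ) (hrk : Set.InjOn rk Y) :
    ∑ ω : Fin w → P → Bool, (if Good B w r Y l (ext ω) then
      2 ^ (∑ y ∈ Y, (free B w r Y rk (ext ω) y).card) else 0)
      ≤ Fintype.card (Fin w → P → Bool) := by
  have h1 : ∑ ω : Fin w → P → Bool, (if Good B w r Y l (ext ω) then
      2 ^ (∑ y ∈ Y, (free B w r Y rk (ext ω) y).card) else 0)
      = ((Finset.univ.filter (fun ω : Fin w → P → Bool => Good B w r Y l (ext ω))).sigma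
          (fun ω => (supp B w r Y rk (ext ω)).powerset)).card := by
    rw [Finset.card_sigma, Finset.sum_filter]
    refine Finset.sum_congr rfl fun ω _ => ?_
    rw [Finset.card_powerset, card_supp B w r hrk]
  rw [h1, ← Finset.card_univ]
  refine Finset.card_le_card_of_injOn (fun p => flipAt p.1 p.2) (fun _ _ => Finset.mem_univ _) ?_
  rintro ⟨ω, T⟩ hT ⟨ω', T'⟩ hT' heq
  simp only [Finset.coe_sigma, Set.mem_sigma_iff, Finset.mem_coe, Finset.mem_filter,
    Finset.mem_univ, true_and, Finset.mem_powerset] at hT hT'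
  obtain ⟨hg, hTs⟩ := hT
  obtain ⟨hg', hTs'⟩ := hT'
  have hω : ω = ω' := by
    have key := eq_of_agree hr hr' huniq hrk hg hg' (by
      intro i hi q h1 h2
      have h3 := congrFun (congrFun heq ⟨i, hi⟩) q
      simp only [flipAt] at h3
      rw [if_neg (fun h => h1 (hTs h)), if_neg (fun h => h2 (hTs' h))] at h3
      unfold ext
      simp only [hi, dif_pos]
      exact h3)
    funext i q
    have := key i i.2 q
    rwa [ext_apply, ext_apply] at this
  subst hω
  have hUU : T = T' := by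
    have hlt : ∀ Z : Finset (ℕ × P), Z ⊆ supp B w r Y rk (ext ω) → ∀ i q, (i, q) ∈ Z → i < w := by
      intro Z hZ i q hiq
      obtain ⟨y, -, hf, -⟩ := (mem_supp B w r).1 (hZ hiq)
      exact lt_of_mem_free B w r hf
    ext ⟨i, q⟩
    by_cases hi : i < w
    · have h3 := congrFun (congrFun heq ⟨i, hi⟩) q
      simp only [flipAt] at h3
      by_cases a : (i, q) ∈ T
      · by_cases b : (i, q) ∈ T'
        · exact ⟨fun _ => b, fun _ => a⟩
        · rw [if_pos a, if_neg b] at h3
          simp at h3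
      · by_cases b : (i, q) ∈ T'
        · rw [if_neg a, if_pos b] at h3
          simp at h3
        · exact ⟨fun h => absurd h a, fun h => absurd h b⟩
    · exact ⟨fun h => absurd (hlt T hTs i q h) hi, fun h => absurd (hlt T' hTs' i q h) hi⟩
  subst hUU
  rfl

end Vale.Agent.P162.Win
end
end
end

section

section

section

/-!
# Window lemma for general networks, part 2: the generating function of the short loops
-/

open Classical

namespace Vale.Agent.P162.Win

variable {Q P : Type*} [Fintype Q] (B : Net Q P) (w : ℕ) (r : Equiv.Perm Q)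

/-- The loop of `u`, as a finset. -/
noncomputable def loop (ω : ℕ → P → Bool) (u : Q) : Finset Q :=
  Finset.univ.filter fun z => Lp B w r ω u z

lemma mem_loop {ω : ℕ → P → Bool} {u z : Q} : z ∈ loop B w r ω u ↔ Lp B w r ω u z := by
  simp only [loop, Finset.mem_filter, Finset.mem_univ, true_and]

lemma self_mem_loop (ω : ℕ → P → Bool) (u : Q) : u ∈ loop B w r ω u :=
  (mem_loop B w r).2 (Lp.refl B w r ω u)

lemma loop_eq_of_Lp {ω : ℕ → P → Bool} {u v : Q} (h : Lp B w r ω u v) :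
    loop B w r ω u = loop B w r ω v := by
  ext z
  rw [mem_loop, mem_loop]
  exact ⟨fun h' => h.symm.trans h', fun h' => h.trans h'⟩

/-- The cycle of the walk is inside the loop. -/
lemma orb_subset_loop (ω : ℕ → P → Bool) (u : Q) :
    Bfly.orb (sg B w r ω) u ⊆ loop B w r ω u := by
  intro z hz
  rw [Bfly.mem_orb] at hz
  obtain ⟨n, rfl⟩ := hz.exists_nat_pow_eq
  exact (mem_loop B w r).2 (Lp_pow B w r ω n u)

/-- Loops contained in `D` with at most `L` wires. -/
noncomputable def shortIn (ω : ℕ → P → Bool) (D : Finset Q) (L : ℕ) : Finset (Finset Q) :=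
  (D.image (loop B w r ω)).filter fun c => c ⊆ D ∧ c.card ≤ L

lemma mem_shortIn {ω : ℕ → P → Bool} {D : Finset Q} {L : ℕ} {c : Finset Q} :
    c ∈ shortIn B w r ω D L ↔ (∃ y ∈ D, loop B w r ω y = c) ∧ c ⊆ D ∧ c.card ≤ L := by
  unfold shortIn
  simp only [Finset.mem_filter, Finset.mem_image]

/-- Number of layers at which the path with input `u` meets a path of its own loop. -/
noncomputable def ownN (ω : ℕ → P → Bool) (u : Q) : ℕ :=
  ((Finset.range w).filter fun i => ∃ x', pos B ω x' i = B.t (pos B ω u i) ∧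
    Lp B w r ω u x').card

/-- The own lemma for sets of at most `2 ^ lam` paths. -/
def Own (lam : ℕ) : Prop :=
  ∀ (ω : ℕ → P → Bool) (A : Finset Q), A.Nonempty → A.card ≤ 2 ^ lam → ∃ x ∈ A,
    ((Finset.range w).filter fun i => ∃ x' ∈ A, pos B ω x' i = B.t (pos B ω x i)).card ≤ lam

/-- Input and output determine the path. -/
def Uniq : Prop :=
  ∀ ω ω' : ℕ → P → Bool, ∀ x, pos B ω x w = pos B ω' x w → ∀ i, i ≤ w →
    pos B ω x i = pos B ω' x i

/-- Every short loop has a good starting point. -/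
lemma exists_start {lam : ℕ} (hown : Own B w lam) (ω : ℕ → P → Bool) (u0 : Q)
    (hc : (loop B w r ω u0).card ≤ 2 ^ lam) :
    ∃ u ∈ loop B w r ω u0, ownN B w r ω u ≤ lam := by
  obtain ⟨x, hx, hle⟩ := hown ω (loop B w r ω u0) ⟨u0, self_mem_loop B w r ω u0⟩ hc
  refine ⟨x, hx, le_trans (Finset.card_le_card ?_) hle⟩
  intro i hi
  obtain ⟨hi, x', h1, h2⟩ := Finset.mem_filter.1 hi
  refine Finset.mem_filter.2 ⟨hi, x', ?_, h1⟩
  exact (mem_loop B w r).2 (((mem_loop B w r).1 hx).trans h2)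

/-- The free layers for two opposite ranks and the own layers cover everything. -/
lemma free_add_free (Y : Finset Q) (rk rk' : Q → ℕ) (l : Q → ℕ)
    (hop : ∀ a b, rk a < rk b → ¬ rk' a < rk' b)
    {ω : ℕ → P → Bool} (hg : Good B w r Y l ω) {u : Q} :
    w ≤ (free B w r Y rk ω u).card + (free B w r Y rk' ω u).card + ownN B w r ω u := by
  have hcov : Finset.range w ⊆ (free B w r Y rk ω u ∪ free B w r Y rk' ω u) ∪
      ((Finset.range w).filter fun i => ∃ x', pos B ω x' i = B.t (pos B ω u i) ∧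
        Lp B w r ω u x') := by
    intro i hi
    have hiw := Finset.mem_range.1 hi
    by_contra hcon
    simp only [Finset.mem_union, not_or] at hcon
    obtain ⟨⟨h1, h2⟩, h3⟩ := hcon
    have h3' : ∀ x', pos B ω x' i = B.t (pos B ω u i) → ¬ Lp B w r ω u x' := by
      intro x' hx' hs
      exact h3 (Finset.mem_filter.2 ⟨hi, x', hx', hs⟩)
    have g1 : ∃ x', pos B ω x' i = B.t (pos B ω u i) ∧
        ∃ y'' ∈ Y, rk y'' < rk u ∧ Lp B w r ω y'' x' := by
      by_contra hno
      apply h1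
      refine Finset.mem_filter.2 ⟨hi, fun x' hx' => ⟨h3' x' hx', fun y'' hy'' hlt hs => ?_⟩⟩
      exact hno ⟨x', hx', y'', hy'', hlt, hs⟩
    have g2 : ∃ x', pos B ω x' i = B.t (pos B ω u i) ∧
        ∃ y'' ∈ Y, rk' y'' < rk' u ∧ Lp B w r ω y'' x' := by
      by_contra hno
      apply h2
      refine Finset.mem_filter.2 ⟨hi, fun x' hx' => ⟨h3' x' hx', fun y'' hy'' hlt hs => ?_⟩⟩
      exact hno ⟨x', hx', y'', hy'', hlt, hs⟩
    obtain ⟨x1, e1, y1, hy1, l1, s1⟩ := g1
    obtain ⟨x2, e2, y2, hy2, l2, s2⟩ := g2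
    have hx : x1 = x2 := pos_injective B ω i (e1.trans e2.symm)
    subst hx
    have hyy : y1 = y2 := by
      by_contra hne
      exact hg.disj y1 hy1 y2 hy2 hne (s1.trans s2.symm)
    subst hyy
    exact hop _ _ l1 l2
  have h := Finset.card_le_card hcov
  rw [Finset.card_range] at h
  refine h.trans ((Finset.card_union_le _ _).trans ?_)
  unfold ownN
  have := Finset.card_union_le (free B w r Y rk ω u) (free B w r Y rk' ω u)
  omega

variable [Fintype P] [DecidableEq P]

/-- Number of settings with prescribed starting points and lengths. -/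
lemma count_good (hr : ∀ q, r (r q) = q) (hr' : ∀ q, r q ≠ q) (huniq : Uniq B w)
    (Y : Finset Q) (l : Q → ℕ) (lam : ℕ) :
    ((Finset.univ.filter fun ω : Fin w → P → Bool => Good B w r Y l (ext ω) ∧
      ∀ y ∈ Y, ownN B w r (ext ω) y ≤ lam).card : ℝ) *
        ((2 : ℝ) ^ (((w : ℝ) - lam) / 2)) ^ Y.card
      ≤ Fintype.card (Fin w → P → Bool) := by
  set e := Fintype.equivFin Q with he
  set rk : Q → ℕ := fun q => (e q : ℕ) with hrk
  set rk' : Q → ℕ := fun q => Fintype.card Q - (e q : ℕ) with hrk'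
  have hlt : ∀ q, (e q : ℕ) < Fintype.card Q := fun q => (e q).2
  have hop : ∀ a b, rk a < rk b → ¬ rk' a < rk' b := by
    intro a b h h'
    have := hlt a
    have := hlt b
    simp only [hrk, hrk'] at h h'
    omega
  have inj : Set.InjOn rk Y := fun a _ b _ h => e.injective (Fin.ext h)
  have inj' : Set.InjOn rk' Y := by
    intro a _ b _ h
    have h1 := hlt a
    have h2 := hlt b
    simp only [hrk'] at h
    exact e.injective (Fin.ext (by omega))
  have k1 := sum_pow_supp_le (B := B) (w := w) (r := r) hr hr' huniq Y rk l inj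
  have k2 := sum_pow_supp_le (B := B) (w := w) (r := r) hr hr' huniq Y rk' l inj'
  have k1' : (∑ ω : Fin w → P → Bool, (if Good B w r Y l (ext ω) then
      (2 : ℝ) ^ (∑ y ∈ Y, (free B w r Y rk (ext ω) y).card) else 0))
      ≤ Fintype.card (Fin w → P → Bool) := by exact_mod_cast k1
  have k2' : (∑ ω : Fin w → P → Bool, (if Good B w r Y l (ext ω) then
      (2 : ℝ) ^ (∑ y ∈ Y, (free B w r Y rk' (ext ω) y).card) else 0))
      ≤ Fintype.card (Fin w → P → Bool) := by exact_mod_cast k2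
  set s : ℝ := (2 : ℝ) ^ (((w : ℝ) - lam) / 2) with hs
  have key : ∀ ω : Fin w → P → Bool,
      (if Good B w r Y l (ext ω) ∧ ∀ y ∈ Y, ownN B w r (ext ω) y ≤ lam then s ^ Y.card else 0)
      ≤ ((if Good B w r Y l (ext ω) then
          (2 : ℝ) ^ (∑ y ∈ Y, (free B w r Y rk (ext ω) y).card) else 0)
        + (if Good B w r Y l (ext ω) then
          (2 : ℝ) ^ (∑ y ∈ Y, (free B w r Y rk' (ext ω) y).card) else 0)) / 2 := by
    intro ω
    by_cases hg : Good B w r Y l (ext ω)
    · simp only [hg, true_and, if_true]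
      set a := ∑ y ∈ Y, (free B w r Y rk (ext ω) y).card with ha
      set b := ∑ y ∈ Y, (free B w r Y rk' (ext ω) y).card with hb
      split_ifs with hown
      · have hab : (Y.card : ℝ) * ((w : ℝ) - lam) ≤ (a : ℝ) + b := by
          have h1 : ∀ y ∈ Y, w ≤ (free B w r Y rk (ext ω) y).card
              + (free B w r Y rk' (ext ω) y).card + lam := by
            intro y hy
            have := free_add_free B w r Y rk rk' l hop hg (u := y)
            have := hown y hy
            omega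
          have h2 : ∑ _y ∈ Y, w ≤ ∑ y ∈ Y, ((free B w r Y rk (ext ω) y).card
              + (free B w r Y rk' (ext ω) y).card + lam) := Finset.sum_le_sum h1
          rw [Finset.sum_const, smul_eq_mul, Finset.sum_add_distrib, Finset.sum_add_distrib,
            Finset.sum_const, smul_eq_mul, ← ha, ← hb] at h2
          have h3 : (Y.card : ℝ) * w ≤ (a : ℝ) + b + Y.card * lam := by exact_mod_cast h2
          linarith only [h3]
        have hs' : s ^ Y.card = (2 : ℝ) ^ ((Y.card : ℝ) * ((w : ℝ) - lam) / 2) := by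
          rw [hs, ← Real.rpow_natCast, ← Real.rpow_mul (by norm_num)]
          congr 1
          ring
        rw [hs']
        have h4 : (2 : ℝ) ^ ((Y.card : ℝ) * ((w : ℝ) - lam) / 2)
            ≤ (2 : ℝ) ^ ((a : ℝ) / 2) * (2 : ℝ) ^ ((b : ℝ) / 2) := by
          rw [← Real.rpow_add (by norm_num)]
          exact Real.rpow_le_rpow_of_exponent_le (by norm_num) (by linarith only [hab])
        have h5 : ∀ n : ℕ, ((2 : ℝ) ^ ((n : ℝ) / 2)) ^ 2 = (2 : ℝ) ^ n := by
          intro n
          rw [← Real.rpow_natCast, ← Real.rpow_mul (by norm_num), ← Real.rpow_natCast]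
          congr 1
          push_cast
          ring
        nlinarith only [sq_nonneg ((2 : ℝ) ^ ((a : ℝ) / 2) - (2 : ℝ) ^ ((b : ℝ) / 2)), h5 a, h5 b, h4]
      · positivity
    · simp only [hg, false_and, ↓reduceIte, add_zero, zero_div, Std.le_refl]
  have hsum := Finset.sum_le_sum (s := Finset.univ) fun ω _ => key ω
  rw [← Finset.sum_div, Finset.sum_add_distrib] at hsum
  have hleft : ∑ ω : Fin w → P → Bool,
      (if Good B w r Y l (ext ω) ∧ ∀ y ∈ Y, ownN B w r (ext ω) y ≤ lam then s ^ Y.card else 0)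
      = ((Finset.univ.filter fun ω : Fin w → P → Bool => Good B w r Y l (ext ω) ∧
      ∀ y ∈ Y, ownN B w r (ext ω) y ≤ lam).card : ℝ) * s ^ Y.card := by
    rw [← Finset.sum_filter, Finset.sum_const, nsmul_eq_mul]
  rw [hleft] at hsum
  linarith only [k1', k2', hsum]

omit [Fintype P] [DecidableEq P] in
/-- Pointwise bound of the generating function. -/
lemma gen_le [Nonempty Q] {lam : ℕ} (hown : Own B w lam) (x : ℝ) (hx : 0 ≤ x) (D : Finset Q)
    (ω : ℕ → P → Bool) :
    (1 + x) ^ (shortIn B w r ω D (2 ^ lam)).card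
      ≤ ∑ Y ∈ D.powerset, x ^ Y.card * ∑ l ∈ Bfly.lenFns Y (2 ^ lam),
        (if Good B w r Y l ω ∧ ∀ y ∈ Y, ownN B w r ω y ≤ lam then 1 else 0) := by
  set SC := shortIn B w r ω D (2 ^ lam) with hSC
  have hst : ∀ c ∈ SC, ∃ y ∈ c, ownN B w r ω y ≤ lam := by
    intro c hc
    obtain ⟨⟨y0, -, rfl⟩, -, hcard⟩ := (mem_shortIn B w r).1 hc
    exact exists_start B w r hown ω y0 hcard
  choose! st hst1 hst2 using hst
  have horb : ∀ c ∈ SC, loop B w r ω (st c) = c := by
    intro c hc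
    obtain ⟨⟨y0, -, hy0⟩, -, -⟩ := (mem_shortIn B w r).1 hc
    have := hst1 c hc
    rw [← hy0] at this ⊢
    exact (loop_eq_of_Lp B w r ((mem_loop B w r).1 this)).symm
  have hinj : Set.InjOn st SC := by
    intro c hc c' hc' h
    rw [← horb c hc, ← horb c' hc', h]
  rw [show (1 + x) ^ SC.card = ∏ _c ∈ SC, (1 + x) by rw [Finset.prod_const],
    Finset.prod_one_add]
  have himg : ∑ T ∈ SC.powerset, ∏ _c ∈ T, x = ∑ Y ∈ SC.powerset.image (fun T => T.image st),
      x ^ Y.card := by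
    rw [Finset.sum_image]
    · refine Finset.sum_congr rfl fun T hT => ?_
      rw [Finset.prod_const, Finset.card_image_of_injOn]
      exact hinj.mono (by exact_mod_cast Finset.mem_powerset.1 hT)
    · intro T hT T' hT' h
      have hT := Finset.mem_powerset.1 (Finset.mem_coe.1 hT)
      have hT' := Finset.mem_powerset.1 (Finset.mem_coe.1 hT')
      have aux : ∀ T, T ⊆ SC → (T.image st).image (loop B w r ω) = T := by
        intro T hT
        rw [Finset.image_image]
        ext c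
        simp only [Finset.mem_image, Function.comp]
        constructor
        · rintro ⟨c', hc', rfl⟩
          rw [horb c' (hT hc')]
          exact hc'
        · intro hc
          exact ⟨c, hc, horb c (hT hc)⟩
      have h' : T.image st = T'.image st := h
      rw [← aux T hT, ← aux T' hT', h']
  rw [himg]
  have hterm : ∀ Y ∈ SC.powerset.image (fun T => T.image st), Y ∈ D.powerset ∧
      (1 : ℝ) ≤ ∑ l ∈ Bfly.lenFns Y (2 ^ lam),
        (if Good B w r Y l ω ∧ ∀ y ∈ Y, ownN B w r ω y ≤ lam then 1 else 0) := by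
    intro Y hY
    obtain ⟨T, hT, rfl⟩ := Finset.mem_image.1 hY
    have hT := Finset.mem_powerset.1 hT
    constructor
    · rw [Finset.mem_powerset]
      intro y hy
      obtain ⟨c, hc, rfl⟩ := Finset.mem_image.1 hy
      exact ((mem_shortIn B w r).1 (hT hc)).2.1 (hst1 c (hT hc))
    · set l : Q → ℕ := fun q => if q ∈ T.image st then (Bfly.orb (sg B w r ω) q).card else 0
        with hl
      have hmem : l ∈ Bfly.lenFns (T.image st) (2 ^ lam) := by
        unfold Bfly.lenFns
        rw [Fintype.mem_piFinset]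
        intro q
        by_cases hq : q ∈ T.image st
        · simp only [hl, hq, if_true]
          obtain ⟨c, hc, rfl⟩ := Finset.mem_image.1 hq
          rw [Finset.mem_Icc]
          refine ⟨Finset.card_pos.2 ⟨_, Bfly.self_mem_orb _ _⟩, ?_⟩
          refine (Finset.card_le_card (orb_subset_loop B w r ω _)).trans ?_
          rw [horb c (hT hc)]
          exact ((mem_shortIn B w r).1 (hT hc)).2.2
        · simp only [hl, hq, if_false, Finset.mem_singleton]
      have hgood : Good B w r (T.image st) l ω ∧ ∀ y ∈ T.image st, ownN B w r ω y ≤ lam := by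
        refine ⟨⟨?_, ?_⟩, ?_⟩
        · intro y hy
          simp only [hl, hy, if_true]
          exact Bfly.isLen_orb _ _
        · intro y hy y' hy' hne hsc
          obtain ⟨c, hc, rfl⟩ := Finset.mem_image.1 hy
          obtain ⟨c', hc', rfl⟩ := Finset.mem_image.1 hy'
          have := loop_eq_of_Lp B w r hsc
          rw [horb c (hT hc), horb c' (hT hc')] at this
          exact hne (by rw [this])
        · intro y hy
          obtain ⟨c, hc, rfl⟩ := Finset.mem_image.1 hy
          exact hst2 c (hT hc)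
      have h1 := Finset.single_le_sum (f := fun l => if Good B w r (T.image st) l ω ∧
        ∀ y ∈ T.image st, ownN B w r ω y ≤ lam then (1 : ℝ) else 0)
        (fun l _ => by split_ifs <;> norm_num) hmem
      rwa [if_pos hgood] at h1
  calc ∑ Y ∈ SC.powerset.image (fun T => T.image st), x ^ Y.card
      ≤ ∑ Y ∈ SC.powerset.image (fun T => T.image st), x ^ Y.card *
          ∑ l ∈ Bfly.lenFns Y (2 ^ lam),
          (if Good B w r Y l ω ∧ ∀ y ∈ Y, ownN B w r ω y ≤ lam then 1 else 0) := by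
        refine Finset.sum_le_sum fun Y hY => ?_
        have := (hterm Y hY).2
        nlinarith only [pow_nonneg hx Y.card, this]
    _ ≤ _ := by
        refine Finset.sum_le_sum_of_subset_of_nonneg (fun Y hY => (hterm Y hY).1) ?_
        intro Y _ _
        refine mul_nonneg (pow_nonneg hx _) (Finset.sum_nonneg fun l _ => ?_)
        split_ifs <;> norm_num

/-- WINDOW LEMMA: generating function of the number of short loops inside `D`. -/
theorem window [Nonempty Q] (hr : ∀ q, r (r q) = q) (hr' : ∀ q, r q ≠ q) (huniq : Uniq B w)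
    {lam : ℕ} (hown : Own B w lam) (x : ℝ) (hx : 0 ≤ x) (D : Finset Q) :
    ∑ ω : Fin w → P → Bool, (1 + x) ^ (shortIn B w r (ext ω) D (2 ^ lam)).card
      ≤ Fintype.card (Fin w → P → Bool) *
        (1 + x * 2 ^ lam / (2 : ℝ) ^ (((w : ℝ) - lam) / 2)) ^ D.card := by
  set s : ℝ := (2 : ℝ) ^ (((w : ℝ) - lam) / 2) with hs
  have hs0 : 0 < s := Real.rpow_pos_of_pos (by norm_num) _
  set N : ℝ := (Fintype.card (Fin w → P → Bool) : ℝ) with hN
  have hN0 : 0 ≤ N := Nat.cast_nonneg _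
  calc ∑ ω : Fin w → P → Bool, (1 + x) ^ (shortIn B w r (ext ω) D (2 ^ lam)).card
      ≤ ∑ ω : Fin w → P → Bool, ∑ Y ∈ D.powerset, x ^ Y.card *
        ∑ l ∈ Bfly.lenFns Y (2 ^ lam),
        (if Good B w r Y l (ext ω) ∧ ∀ y ∈ Y, ownN B w r (ext ω) y ≤ lam then 1 else 0) :=
        Finset.sum_le_sum fun ω _ => gen_le B w r hown x hx D (ext ω)
    _ = ∑ Y ∈ D.powerset, x ^ Y.card * ∑ l ∈ Bfly.lenFns Y (2 ^ lam),
        ((Finset.univ.filter fun ω : Fin w → P → Bool => Good B w r Y l (ext ω) ∧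
          ∀ y ∈ Y, ownN B w r (ext ω) y ≤ lam).card : ℝ) := by
        rw [Finset.sum_comm]
        refine Finset.sum_congr rfl fun Y _ => ?_
        rw [← Finset.mul_sum, Finset.sum_comm]
        congr 1
        refine Finset.sum_congr rfl fun l _ => ?_
        rw [Finset.sum_boole]
    _ ≤ ∑ Y ∈ D.powerset, x ^ Y.card * ((2 ^ lam : ℕ) ^ Y.card * (N / s ^ Y.card)) := by
        refine Finset.sum_le_sum fun Y _ => mul_le_mul_of_nonneg_left ?_ (pow_nonneg hx _)
        have h1 : ∀ l ∈ Bfly.lenFns Y (2 ^ lam),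
            ((Finset.univ.filter fun ω : Fin w → P → Bool => Good B w r Y l (ext ω) ∧
            ∀ y ∈ Y, ownN B w r (ext ω) y ≤ lam).card : ℝ) ≤ N / s ^ Y.card := by
          intro l _
          rw [le_div_iff₀ (pow_pos hs0 _)]
          exact count_good B w r hr hr' huniq Y l lam
        refine (Finset.sum_le_sum h1).trans (le_of_eq ?_)
        rw [Finset.sum_const, nsmul_eq_mul, Bfly.card_lenFns]
        push_cast
        ring
    _ = N * ∑ Y ∈ D.powerset, ∏ _y ∈ Y, (x * 2 ^ lam / s) := by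
        rw [Finset.mul_sum]
        refine Finset.sum_congr rfl fun Y _ => ?_
        rw [Finset.prod_const, div_pow, mul_pow]
        push_cast
        ring
    _ = N * (1 + x * 2 ^ lam / s) ^ D.card := by
        rw [← Finset.prod_one_add, Finset.prod_const]

end Vale.Agent.P162.Win
end
end
end

section

section

section

/-!
# P162: sector decomposition for commuting swaps

Column flips `flipE E` for `E : Finset β` acting on `β × Bool`; the projections on the joint
eigenspaces of the column swaps in an orthogonal representation.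
-/

namespace Vale.Agent.P162

open scoped InnerProductSpace symmDiff

section flip

variable {β : Type*} [DecidableEq β]

/-- Swap inside every column of `E`. -/
def flipFun (E : Finset β) (p : Bool × β) : Bool × β :=
  (if p.2 ∈ E then !p.1 else p.1, p.2)

theorem flipFun_invol (E : Finset β) : Function.Involutive (flipFun E) := by
  rintro ⟨i, x⟩
  by_cases h : x ∈ E <;> simp [flipFun, h]

/-- Swap inside every column of `E`, as a permutation. -/
def flipE (E : Finset β) : Equiv.Perm (Bool × β) := (flipFun_invol E).toPerm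

theorem flipE_apply (E : Finset β) (i : Bool) (x : β) :
    flipE E (i, x) = (if x ∈ E then !i else i, x) := rfl

theorem flipE_empty : flipE (∅ : Finset β) = 1 := by
  ext ⟨i, x⟩ <;> simp only [flipE_apply, Finset.notMem_empty, ↓reduceIte, Equiv.Perm.coe_one, id_eq]

theorem flipE_mul (E F : Finset β) : flipE (E ∆ F) = flipE E * flipE F := by
  refine Equiv.ext ?_
  rintro ⟨i, x⟩
  simp only [Equiv.Perm.coe_mul, Function.comp_apply, flipE_apply, Finset.mem_symmDiff]
  by_cases h : x ∈ E <;> by_cases h' : x ∈ F <;> simp [h, h']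

theorem flipE_mul_self (E : Finset β) : flipE E * flipE E = 1 := by
  rw [← flipE_mul, symmDiff_self]; exact flipE_empty

theorem flipE_inv (E : Finset β) : (flipE E)⁻¹ = flipE E :=
  inv_eq_of_mul_eq_one_left (flipE_mul_self E)

theorem flipE_singleton (x : β) : flipE {x} = Equiv.swap (false, x) (true, x) := by
  refine Equiv.ext ?_
  rintro ⟨i, y⟩
  rw [flipE_apply]
  by_cases h : y = x
  · subst h
    cases i <;> simp
  · rw [Equiv.swap_apply_of_ne_of_ne] <;> simp [h]

theorem flipE_swap (E : Finset β) (p q : Bool × β) :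
    flipE E * Equiv.swap p q = Equiv.swap (flipE E p) (flipE E q) * flipE E := by
  rw [Equiv.mul_swap_eq_swap_mul]

end flip

section sgn

variable {β : Type*} [Fintype β] [DecidableEq β]

/-- The character of `(ℤ/2)^β` attached to `D`, evaluated at `E`. -/
def sgn (D E : Finset β) : ℝ := ∏ x : β, if x ∈ D ∧ x ∈ E then (-1 : ℝ) else 1

theorem sgn_comm (D E : Finset β) : sgn D E = sgn E D := by
  unfold sgn
  refine Finset.prod_congr rfl fun x _ => ?_
  simp only [and_comm]

theorem sgn_symmDiff_right (D E F : Finset β) : sgn D (E ∆ F) = sgn D E * sgn D F := by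
  unfold sgn
  rw [← Finset.prod_mul_distrib]
  refine Finset.prod_congr rfl fun x _ => ?_
  by_cases h : x ∈ D <;> by_cases h1 : x ∈ E <;> by_cases h2 : x ∈ F <;>
    simp [h, h1, h2, Finset.mem_symmDiff]

theorem sgn_symmDiff_left (D E F : Finset β) : sgn (D ∆ E) F = sgn D F * sgn E F := by
  rw [sgn_comm, sgn_symmDiff_right, sgn_comm F D, sgn_comm F E]

theorem sgn_empty_right (D : Finset β) : sgn D ∅ = 1 := by
  simp only [sgn, Finset.notMem_empty, and_false, ↓reduceIte, Finset.prod_const_one]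

theorem sgn_singleton (D : Finset β) (x : β) : sgn D {x} = if x ∈ D then -1 else 1 := by
  unfold sgn
  rw [Finset.prod_eq_single x]
  · simp
  · intro y _ hy; simp [hy]
  · simp only [Finset.mem_univ, not_true_eq_false, Finset.mem_singleton, and_true, ite_eq_right_iff, IsEmpty.forall_iff]

theorem sgn_singleton_left (D : Finset β) (x : β) : sgn {x} D = if x ∈ D then -1 else 1 := by
  rw [sgn_comm, sgn_singleton]

theorem sgn_pair (E : Finset β) {x y : β} (hxy : x ≠ y) :
    sgn {x, y} E = (if x ∈ E then -1 else 1) * (if y ∈ E then -1 else 1) := by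
  have : ({x, y} : Finset β) = {x} ∆ {y} := by
    ext z
    simp only [Finset.mem_insert, Finset.mem_singleton, Finset.mem_symmDiff]
    constructor
    · rintro (rfl | rfl)
      · exact Or.inl ⟨rfl, hxy⟩
      · exact Or.inr ⟨rfl, fun h => hxy h.symm⟩
    · rintro (⟨h, _⟩ | ⟨h, _⟩)
      · exact Or.inl h
      · exact Or.inr h
  rw [this, sgn_symmDiff_left, sgn_singleton_left, sgn_singleton_left]

/-- Translation by `F` as a permutation of `Finset β`. -/
def translate (F : Finset β) : Equiv.Perm (Finset β) :=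
  Function.Involutive.toPerm (fun D => F ∆ D) (fun D => symmDiff_symmDiff_cancel_left F D)

omit [Fintype β] in
theorem translate_apply (F D : Finset β) : translate F D = F ∆ D := rfl

theorem sum_sgn (E : Finset β) : ∑ D : Finset β, sgn D E = if E = ∅ then (2 : ℝ) ^ Fintype.card β else 0 := by
  split_ifs with h
  · subst h
    simp only [sgn_empty_right, Finset.sum_const, Finset.card_univ, Fintype.card_finset, nsmul_eq_mul, Nat.cast_pow, Nat.cast_ofNat, mul_one]
  · obtain ⟨x, hx⟩ := Finset.nonempty_iff_ne_empty.mpr h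
    have h1 : ∑ D : Finset β, sgn D E = ∑ D : Finset β, sgn (translate {x} D) E :=
      (Equiv.sum_comp (translate {x}) (fun D => sgn D E)).symm
    have h2 : ∑ D : Finset β, sgn (translate {x} D) E = - ∑ D : Finset β, sgn D E := by
      rw [← Finset.sum_neg_distrib]
      refine Finset.sum_congr rfl fun D _ => ?_
      rw [translate_apply, sgn_symmDiff_left, sgn_singleton_left, if_pos hx]
      ring
    linarith only [h1, h2]

theorem sum_sgn' (E : Finset β) : ∑ D : Finset β, sgn E D = if E = ∅ then (2 : ℝ) ^ Fintype.card β else 0 := by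
  rw [← sum_sgn]
  exact Finset.sum_congr rfl fun D _ => sgn_comm _ _

end sgn

section proj

variable {β : Type*} [Fintype β] [DecidableEq β]
variable {V : Type*} [NormedAddCommGroup V] [InnerProductSpace ℝ V]

variable (ρ : Equiv.Perm (Bool × β) →* (V →L[ℝ] V))

/-- Action of the column flips. -/
def Hf (E : Finset β) : V →L[ℝ] V := ρ (flipE E)

omit [Fintype β] in
theorem Hf_empty : Hf ρ (∅ : Finset β) = 1 := by
  rw [Hf, flipE_empty, map_one]

omit [Fintype β] in
theorem Hf_mul (E F : Finset β) : Hf ρ (E ∆ F) = Hf ρ E * Hf ρ F := by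
  rw [Hf, flipE_mul, map_mul]; rfl

/-- The projection on the sector `D`. -/
noncomputable def Pr (D : Finset β) : V →L[ℝ] V :=
  ((2 : ℝ) ^ Fintype.card β)⁻¹ • ∑ E : Finset β, sgn D E • Hf ρ E

theorem sum_Pr : ∑ D : Finset β, Pr ρ D = 1 := by
  unfold Pr
  rw [← Finset.smul_sum, Finset.sum_comm]
  simp_rw [← Finset.sum_smul, sum_sgn]
  simp only [ite_smul, zero_smul, Finset.sum_ite_eq', Finset.mem_univ, if_true, Hf_empty]
  rw [smul_smul, inv_mul_cancel₀ (by positivity), one_smul]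

theorem Hf_mul_Pr (F D : Finset β) : Hf ρ F * Pr ρ D = sgn D F • Pr ρ D := by
  unfold Pr
  rw [mul_smul_comm, Finset.mul_sum, smul_comm]
  congr 1
  rw [Finset.smul_sum, ← Equiv.sum_comp (translate F) (fun E => Hf ρ F * (sgn D E • Hf ρ E))]
  refine Finset.sum_congr rfl fun E _ => ?_
  rw [translate_apply, mul_smul_comm, ← Hf_mul, symmDiff_symmDiff_cancel_left,
    sgn_symmDiff_right, smul_smul]

theorem Pr_mul_Pr (D D' : Finset β) : Pr ρ D * Pr ρ D' = if D = D' then Pr ρ D' else 0 := by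
  conv_lhs => rw [Pr]
  rw [smul_mul_assoc, Finset.sum_mul]
  simp_rw [smul_mul_assoc, Hf_mul_Pr, smul_smul, ← sgn_symmDiff_left]
  rw [← Finset.sum_smul, sum_sgn', smul_smul]
  by_cases h : D = D'
  · subst h
    rw [symmDiff_self]
    simp only [Finset.bot_eq_empty, ↓reduceIte, ne_eq, pow_eq_zero_iff', OfNat.ofNat_ne_zero, false_and, not_false_eq_true, inv_mul_cancel₀, one_smul]
  · have : D ∆ D' ≠ ∅ := by
      rw [← Finset.bot_eq_empty, Ne, symmDiff_eq_bot]
      exact h
    rw [if_neg this, if_neg h, mul_zero, zero_smul]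

end proj

end Vale.Agent.P162
end
end
end

section

section

section

/-!
# Window lemma, part 3: the network of `w` Thorp shuffles of `2 m` cards

`posn (i + 1) = 2 (posn i mod m) + bit`. Input and output determine the path if `2 ^ w ≤ 2 m`,
and the own lemma holds for sets of at most `2 ^ lam` paths if `2 ^ (w + lam) < 2 m`.
-/

open Classical

namespace Vale.Agent.P162.Win

section select

variable {α : Type*}

/-- Selection lemma for nested equivalence relations. -/
lemma own_select (w : ℕ) (E : ℕ → α → α → Prop) (hrefl : ∀ j x, E j x x)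
    (hsymm : ∀ j x y, E j x y → E j y x) (htrans : ∀ j x y z, E j x y → E j y z → E j x z)
    (hmono : ∀ j x y, E (j + 1) x y → E j x y)
    (M : ℕ → α → α → Prop) (hM : ∀ j, j < w → ∀ x y, M j x y → E j x y ∧ ¬ E (j + 1) x y) :
    ∀ k j0, j0 + k ≤ w → ∀ S : Finset α, S.Nonempty → ∃ x ∈ S,
      2 ^ ((Finset.Ico j0 (j0 + k)).filter (fun j => ∃ x' ∈ S, M j x x')).card ≤ S.card := by
  have hmono' : ∀ a b, a ≤ b → ∀ x y, E b x y → E a x y := by
    intro a b hab
    induction b, hab using Nat.le_induction with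
    | base => intro x y h; exact h
    | succ b _ ih => intro x y h; exact ih x y (hmono b x y h)
  intro k
  induction k with
  | zero =>
    intro j0 _ S hS
    obtain ⟨x, hx⟩ := hS
    refine ⟨x, hx, ?_⟩
    simp only [add_zero, Finset.Ico_self, Finset.filter_empty, Finset.card_empty, pow_zero]
    exact Finset.card_pos.2 ⟨x, hx⟩
  | succ k ih =>
    intro j0 hj0 S hS
    obtain ⟨x0, hx0, hmin⟩ := Finset.exists_min_image S
      (fun x => (S.filter (fun y => E (j0 + 1) x y)).card) hS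
    set T := S.filter (fun y => E (j0 + 1) x0 y) with hT
    have hTne : T.Nonempty := ⟨x0, Finset.mem_filter.2 ⟨hx0, hrefl _ _⟩⟩
    obtain ⟨x, hx, hle⟩ := ih (j0 + 1) (by omega) T hTne
    have hxS : x ∈ S := (Finset.mem_filter.1 hx).1
    have hxE : E (j0 + 1) x0 x := (Finset.mem_filter.1 hx).2
    have hTS : T ⊆ S := Finset.filter_subset _ _
    refine ⟨x, hxS, ?_⟩
    have hsplit : (Finset.Ico j0 (j0 + (k + 1))).filter (fun j => ∃ x' ∈ S, M j x x') ⊆
        (if ∃ x' ∈ S, M j0 x x' then {j0} else ∅) ∪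
        (Finset.Ico (j0 + 1) (j0 + 1 + k)).filter (fun j => ∃ x' ∈ T, M j x x') := by
      intro j hj
      obtain ⟨hj1, x', hx', hMj⟩ := Finset.mem_filter.1 hj
      rw [Finset.mem_Ico] at hj1
      rw [Finset.mem_union]
      by_cases hjj : j = j0
      · left
        subst hjj
        rw [if_pos ⟨x', hx', hMj⟩]
        simp
      · right
        refine Finset.mem_filter.2 ⟨Finset.mem_Ico.2 ⟨by omega, by omega⟩, x', ?_, hMj⟩
        refine Finset.mem_filter.2 ⟨hx', ?_⟩
        have h1 := (hM j (by omega) x x' hMj).1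
        exact htrans _ _ _ _ hxE (hmono' (j0 + 1) j (by omega) _ _ h1)
    have hcard := Finset.card_le_card hsplit
    have hcard2 := hcard.trans (Finset.card_union_le _ _)
    by_cases hex : ∃ x' ∈ S, M j0 x x'
    · rw [if_pos hex, Finset.card_singleton] at hcard2
      obtain ⟨x', hx', hMj⟩ := hex
      have hnE := (hM j0 (by omega) x x' hMj).2
      -- the class of `x'` is disjoint from `T`
      have hdisj : Disjoint T (S.filter (fun y => E (j0 + 1) x' y)) := by
        rw [Finset.disjoint_left]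
        intro z hz hz'
        have h1 := (Finset.mem_filter.1 hz).2
        have h2 := (Finset.mem_filter.1 hz').2
        exact hnE (htrans _ _ _ _ (htrans _ _ _ _ (hsymm _ _ _ hxE) h1) (hsymm _ _ _ h2))
      have hunion : (T ∪ S.filter (fun y => E (j0 + 1) x' y)).card ≤ S.card :=
        Finset.card_le_card (Finset.union_subset hTS (Finset.filter_subset _ _))
      rw [Finset.card_union_of_disjoint hdisj] at hunion
      have hm := hmin x' hx'
      calc 2 ^ ((Finset.Ico j0 (j0 + (k + 1))).filter (fun j => ∃ x' ∈ S, M j x x')).card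
          ≤ 2 ^ (1 + ((Finset.Ico (j0 + 1) (j0 + 1 + k)).filter
              (fun j => ∃ x' ∈ T, M j x x')).card) :=
            Nat.pow_le_pow_right (by norm_num) hcard2
        _ = 2 * 2 ^ ((Finset.Ico (j0 + 1) (j0 + 1 + k)).filter
              (fun j => ∃ x' ∈ T, M j x x')).card := by rw [pow_add, pow_one]
        _ ≤ 2 * T.card := Nat.mul_le_mul_left _ hle
        _ ≤ S.card := by omega
    · rw [if_neg hex, Finset.card_empty, zero_add] at hcard2
      exact (Nat.pow_le_pow_right (by norm_num) hcard2).trans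
        (hle.trans (Finset.card_le_card hTS))

end select

section ring

variable (m : ℕ)

/-- The network of Thorp shuffles of `2 m` cards. -/
noncomputable def ring : Net (Fin (2 * m)) (Fin m) where
  U := thorpPerm m 0
  t := (topEquiv m).symm.permCongr (colSwap fun _ => true)
  c y := (topEquiv m y).2
  tt q := by
    simp [Equiv.permCongr_apply, colSwap]
  t_ne q h := by
    have h1 := congrArg (topEquiv m) h
    simp only [Equiv.permCongr_apply, Equiv.symm_symm, Equiv.apply_symm_apply] at h1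
    have h2 := congrArg Prod.fst h1
    simp only [colSwap, Equiv.coe_fn_mk] at h2
    cases hb : (topEquiv m q).1 <;> simp [hb] at h2
  c_t q := by
    simp [Equiv.permCongr_apply, colSwap]
  c_eq q q' h := by
    have h' : (topEquiv m q).2 = (topEquiv m q').2 := h
    by_cases hb : (topEquiv m q).1 = (topEquiv m q').1
    · left
      exact ((topEquiv m).injective (Prod.ext hb h')).symm
    · right
      apply (topEquiv m).injective
      simp only [Equiv.permCongr_apply, Equiv.symm_symm, Equiv.apply_symm_apply]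
      refine Prod.ext ?_ h'.symm
      simp only [colSwap, Equiv.coe_fn_mk]
      cases h1 : (topEquiv m q).1 <;> cases h2 : (topEquiv m q').1 <;> simp_all

variable {m}

/-- The half (`0` or `1`) of the position at time `i`. -/
noncomputable def sgm (ω : ℕ → Fin m → Bool) (x : Fin (2 * m)) (i : ℕ) : ℕ :=
  ((topEquiv m (pos (ring m) ω x i)).1).toNat

lemma sgm_le (ω : ℕ → Fin m → Bool) (x : Fin (2 * m)) (i : ℕ) : sgm ω x i ≤ 1 := by
  unfold sgm
  cases (topEquiv m (pos (ring m) ω x i)).1 <;> simp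

lemma ring_step_val (ω : ℕ → Fin m → Bool) (x : Fin (2 * m)) (i : ℕ) :
    ∃ b : ℕ, b ≤ 1 ∧ ((pos (ring m) ω x (i + 1) : Fin (2 * m)) : ℕ) =
      2 * ((topEquiv m (pos (ring m) ω x i)).2 : ℕ) + b ∧
      ((pos (ring m) ω x (i + 1) : Fin (2 * m)) : ℕ) + 2 * m * sgm ω x i =
      2 * ((pos (ring m) ω x i : Fin (2 * m)) : ℕ) + b := by
  set y := pos (ring m) ω x i with hy
  obtain ⟨⟨b, l⟩, hbl⟩ := (topEquiv m).symm.surjective y
  have hval : (y : ℕ) = m * b.toNat + l := by rw [← hbl, topEquiv_symm_val]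
  have htop : topEquiv m y = (b, l) := by rw [← hbl]; simp
  have hsw : sw (ring m) (ω i) y = (topEquiv m).symm (xor (ω i l) b, l) := by
    unfold sw
    have hc : (ring m).c y = l := by
      show (topEquiv m y).2 = l
      rw [htop]
    rw [hc]
    by_cases h : ω i l = true
    · rw [if_pos h, h]
      show (topEquiv m).symm.permCongr (colSwap fun _ => true) y = _
      simp only [Equiv.permCongr_apply, Equiv.symm_symm, htop]
      simp [colSwap]
    · rw [if_neg h]
      have h' : ω i l = false := by simpa using h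
      rw [h', ← hbl]
      simp
  have hnext : ((pos (ring m) ω x (i + 1) : Fin (2 * m)) : ℕ) =
      2 * (l : ℕ) + (xor (ω i l) b).toNat := by
    rw [pos_succ, ← hy, hsw]
    exact thorp_zero_val m _ l
  refine ⟨(xor (ω i l) b).toNat, ?_, ?_, ?_⟩
  · cases (xor (ω i l) b) <;> simp
  · rw [hnext, htop]
  · unfold sgm
    rw [← hy, htop, hnext, hval]
    ring

/-- Two meeting paths have different halves and neighbouring next positions. -/
lemma ring_meet {ω : ℕ → Fin m → Bool} {x x' : Fin (2 * m)} {i : ℕ}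
    (h : pos (ring m) ω x' i = (ring m).t (pos (ring m) ω x i)) :
    sgm ω x' i ≠ sgm ω x i ∧ (topEquiv m (pos (ring m) ω x' i)).2 =
      (topEquiv m (pos (ring m) ω x i)).2 := by
  have h1 : topEquiv m (pos (ring m) ω x' i) =
      (!(topEquiv m (pos (ring m) ω x i)).1, (topEquiv m (pos (ring m) ω x i)).2) := by
    rw [h]
    simp [ring, Equiv.permCongr_apply, colSwap]
  refine ⟨?_, ?_⟩
  · unfold sgm
    rw [h1]
    cases (topEquiv m (pos (ring m) ω x i)).1 <;> simp
  · rw [h1]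

/-- Input and output determine the path. -/
theorem ring_uniq {w : ℕ} (hw : 2 ^ w ≤ 2 * m) : Uniq (ring m) w := by
  -- partial sums of bits
  have hsum : ∀ (ω : ℕ → Fin m → Bool) (x : Fin (2 * m)) (i j : ℕ), ∃ cc X : ℕ,
      cc < 2 ^ j ∧ 2 ^ j * ((pos (ring m) ω x i : Fin (2 * m)) : ℕ) + cc =
        ((pos (ring m) ω x (i + j) : Fin (2 * m)) : ℕ) + 2 * m * X := by
    intro ω x i j
    induction j with
    | zero => exact ⟨0, 0, by simp, by simp⟩
    | succ j ih =>
      obtain ⟨cc, X, hcc, h⟩ := ih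
      obtain ⟨b, hb, -, h2⟩ := ring_step_val ω x (i + j)
      refine ⟨2 * cc + b, 2 * X + sgm ω x (i + j), ?_, ?_⟩
      · rw [pow_succ]; omega
      · rw [← add_assoc i j 1]
        rw [pow_succ]
        nlinarith only [h, h2]
  intro ω ω' x hend i
  induction i with
  | zero => intro _; rfl
  | succ i ih =>
    intro hi
    have hp := ih (by omega)
    obtain ⟨b, hb, h1, -⟩ := ring_step_val ω x i
    obtain ⟨b', hb', h1', -⟩ := ring_step_val ω' x i
    rw [← hp] at h1'
    obtain ⟨cc, X, hcc, h⟩ := hsum ω x (i + 1) (w - (i + 1))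
    obtain ⟨cc', X', hcc', h'⟩ := hsum ω' x (i + 1) (w - (i + 1))
    rw [show i + 1 + (w - (i + 1)) = w by omega] at h h'
    rw [hend] at h
    have hbb : b = b' := by
      by_contra hne
      set l := ((topEquiv m (pos (ring m) ω x i)).2 : ℕ) with hl
      set p := 2 ^ (w - (i + 1)) with hpdef
      have hp2 : 2 * p ≤ 2 * m := by
        have : 2 * p = 2 ^ (w - i) := by
          rw [hpdef, ← pow_succ']
          congr 1
          (clear * - hi; omega)
        rw [this]
        exact (Nat.pow_le_pow_right (by norm_num) (by omega)).trans hw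
      rw [h1] at h
      rw [h1'] at h'
      set F := ((pos (ring m) ω' x w : Fin (2 * m)) : ℕ) with hF
      -- `p (2 l + b) + cc = F + 2 m X` and the same with primes
      have key : ∀ b b' cc cc' X X' : ℕ, b = 0 → b' = 1 → cc < p → cc' < p →
          p * (2 * l + b) + cc = F + 2 * m * X → p * (2 * l + b') + cc' = F + 2 * m * X' →
          False := by
        intro b b' cc cc' X X' hb hb' hcc hcc' h h'
        subst hb hb'
        have e1 : (2 * m : ℤ) * (X' - X) = p + cc' - cc := by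
          have a1 : ((p * (2 * l + 0) + cc : ℕ) : ℤ) = ((F + 2 * m * X : ℕ) : ℤ) := by rw [h]
          have a2 : ((p * (2 * l + 1) + cc' : ℕ) : ℤ) = ((F + 2 * m * X' : ℕ) : ℤ) := by rw [h']
          push_cast at a1 a2
          linarith only [h, h']
        have e2 : (0 : ℤ) < p + cc' - cc := by
          have : (cc : ℤ) < p := by exact_mod_cast hcc
          have : (0 : ℤ) ≤ cc' := by (clear * -; positivity)
          linarith only [hcc]
        have e3 : (p + cc' - cc : ℤ) < 2 * m := by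
          have : (cc' : ℤ) < p := by exact_mod_cast hcc'
          have : (0 : ℤ) ≤ cc := by (clear * -; positivity)
          have : (2 * p : ℤ) ≤ 2 * m := by exact_mod_cast hp2
          linarith only [hp2, hcc']
        rw [← e1] at e2 e3
        have hm0 : (0 : ℤ) < 2 * m := by
          by_contra hneg
          push Not at hneg
          have h0 : (0 : ℤ) ≤ 2 * m := by (clear * -; positivity)
          have : (2 * m : ℤ) = 0 := le_antisymm hneg h0
          rw [this] at e2
          simp at e2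
        have e4 : (0 : ℤ) < X' - X := by
          by_contra hneg
          push Not at hneg
          nlinarith only [hcc, h, h', hneg]
        nlinarith only [hp2, hcc', h, h', e4]
      rcases Nat.le_one_iff_eq_zero_or_eq_one.1 hb with h0 | h0 <;>
        rcases Nat.le_one_iff_eq_zero_or_eq_one.1 hb' with h0' | h0'
      · exact hne (h0.trans h0'.symm)
      · exact key b b' cc cc' X X' h0 h0' hcc hcc' h h'
      · exact key b' b cc' cc X' X h0' h0 hcc' hcc h' h
      · exact hne (h0.trans h0'.symm)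
    apply Fin.ext
    rw [h1, h1', hbb]

/-- Label of a path: lift of the last `j` steps to a window of length `2 m` starting at `a`. -/
noncomputable def lab (w a : ℕ) (ω : ℕ → Fin m → Bool) (x : Fin (2 * m)) : ℕ → ℤ
  | 0 => if ((pos (ring m) ω x w : Fin (2 * m)) : ℕ) < a then -1 else 0
  | j + 1 => lab w a ω x j + 2 ^ j * (sgm ω x (w - (j + 1)) : ℤ)

/-- The lifted final position. -/
noncomputable def lft (w a : ℕ) (ω : ℕ → Fin m → Bool) (x : Fin (2 * m)) : ℤ :=
  if ((pos (ring m) ω x w : Fin (2 * m)) : ℕ) < a then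
    ((pos (ring m) ω x w : Fin (2 * m)) : ℤ) + 2 * m
  else ((pos (ring m) ω x w : Fin (2 * m)) : ℤ)

lemma lab_inv (w a : ℕ) (ω : ℕ → Fin m → Bool) (x : Fin (2 * m)) (j : ℕ) (hj : j ≤ w) :
    ∃ cc : ℤ, 0 ≤ cc ∧ cc < 2 ^ j ∧ 2 * m * lab w a ω x j + lft w a ω x =
      2 ^ j * ((pos (ring m) ω x (w - j) : Fin (2 * m)) : ℤ) + cc := by
  induction j with
  | zero =>
    refine ⟨0, le_rfl, by norm_num, ?_⟩
    unfold lab lft
    rw [Nat.sub_zero]
    split_ifs <;> ring
  | succ j ih =>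
    obtain ⟨cc, h0, h1, h2⟩ := ih (by omega)
    obtain ⟨b, hb, -, h3⟩ := ring_step_val ω x (w - (j + 1))
    rw [show w - (j + 1) + 1 = w - j by omega] at h3
    have h3' : (((pos (ring m) ω x (w - j) : Fin (2 * m)) : ℕ) : ℤ) +
        2 * m * (sgm ω x (w - (j + 1)) : ℤ) =
        2 * (((pos (ring m) ω x (w - (j + 1)) : Fin (2 * m)) : ℕ) : ℤ) + b := by
      exact_mod_cast h3
    have hb' : (b : ℤ) ≤ 1 := by exact_mod_cast hb
    have hb0 : (0 : ℤ) ≤ b := by (clear * -; positivity)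
    have hp : (0 : ℤ) < 2 ^ j := by positivity
    refine ⟨2 ^ j * b + cc, by (clear * - h0; positivity), ?_, ?_⟩
    · rw [pow_succ]
      nlinarith only [h1, hb, h0]
    · have e : lab w a ω x (j + 1) = lab w a ω x j + 2 ^ j * (sgm ω x (w - (j + 1)) : ℤ) := rfl
      rw [e, pow_succ]
      linear_combination h2 + 2 ^ j * h3'

lemma lab_mod (w a : ℕ) (ω : ℕ → Fin m → Bool) (x : Fin (2 * m)) (j k : ℕ) :
    lab w a ω x (j + k) ≡ lab w a ω x j [ZMOD 2 ^ j] := by
  induction k with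
  | zero => rfl
  | succ k ih =>
    have e : lab w a ω x (j + (k + 1)) =
        lab w a ω x (j + k) + 2 ^ (j + k) * (sgm ω x (w - (j + k + 1)) : ℤ) := rfl
    rw [e]
    have h : (2 ^ (j + k) * (sgm ω x (w - (j + k + 1)) : ℤ)) ≡ 0 [ZMOD 2 ^ j] := by
      rw [Int.modEq_zero_iff_dvd, pow_add, mul_assoc]
      exact dvd_mul_right _ _
    simpa only [add_zero] using ih.add h

/-- There is a cut point far from all final positions. -/
lemma ring_cut {w lam : ℕ} (hw : 2 ^ (w + lam) < 2 * m) (ω : ℕ → Fin m → Bool)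
    (A : Finset (Fin (2 * m))) (hcard : A.card ≤ 2 ^ lam) :
    ∃ a : ℕ, ∀ x ∈ A, (a : ℤ) + 2 ^ w ≤ lft w a ω x ∧ lft w a ω x < a + 2 * m := by
  set F : Fin (2 * m) → ℕ := fun x => ((pos (ring m) ω x w : Fin (2 * m)) : ℕ) with hF
  have hFlt : ∀ x, F x < 2 * m := fun x => (pos (ring m) ω x w).2
  obtain ⟨a, ha, hcut⟩ : ∃ a, a < 2 * m ∧ ∀ x ∈ A, ∀ z, z < 2 ^ w →
      a ≠ (F x + 2 * m - z) % (2 * m) := by
    set Bd : Finset ℕ := A.biUnion fun x =>
      (Finset.range (2 ^ w)).image fun z => (F x + 2 * m - z) % (2 * m) with hBd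
    have hBc : Bd.card < 2 * m := by
      calc Bd.card ≤ A.card * 2 ^ w := by
            refine Finset.card_biUnion_le_card_mul _ _ _ fun x _ => ?_
            exact Finset.card_image_le.trans (le_of_eq (Finset.card_range _))
        _ ≤ 2 ^ lam * 2 ^ w := Nat.mul_le_mul_right _ hcard
        _ = 2 ^ (w + lam) := by rw [← pow_add, add_comm]
        _ < 2 * m := hw
    obtain ⟨a, ha, hna⟩ : ∃ a ∈ Finset.range (2 * m), a ∉ Bd := by
      by_contra hcon
      push Not at hcon
      have : Finset.range (2 * m) ⊆ Bd := hcon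
      have := Finset.card_le_card this
      rw [Finset.card_range] at this
      omega
    refine ⟨a, Finset.mem_range.1 ha, fun x hx z hz h => hna ?_⟩
    rw [hBd, Finset.mem_biUnion]
    exact ⟨x, hx, Finset.mem_image.2 ⟨z, Finset.mem_range.2 hz, h.symm⟩⟩
  refine ⟨a, fun x hx => ?_⟩
  have hc := hcut x hx
  have hFx := hFlt x
  have e1 : lft w a ω x = if F x < a then ((F x : ℕ) : ℤ) + 2 * m else ((F x : ℕ) : ℤ) := rfl
  rw [e1]
  split_ifs with hlt
  · constructor
    · by_contra hcon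
      push Not at hcon
      have h1 : F x + 2 * m < a + 2 ^ w := by exact_mod_cast hcon
      refine hc (F x + 2 * m - a) (by omega) ?_
      rw [show F x + 2 * m - (F x + 2 * m - a) = a by omega, Nat.mod_eq_of_lt ha]
    · have : (F x : ℤ) < a := by exact_mod_cast hlt
      linarith only [hlt]
  · push Not at hlt
    constructor
    · by_contra hcon
      push Not at hcon
      have h1 : F x < a + 2 ^ w := by exact_mod_cast hcon
      refine hc (F x - a) (by omega) ?_
      rw [show F x + 2 * m - (F x - a) = a + 2 * m by omega, Nat.add_mod_right,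
        Nat.mod_eq_of_lt ha]
    · have h1 : F x < a + 2 * m := by omega
      exact_mod_cast h1

/-- Labels of meeting paths. -/
lemma ring_lab_meet {w a : ℕ} {ω : ℕ → Fin m → Bool} {x x' : Fin (2 * m)}
    (hx : (a : ℤ) + 2 ^ w ≤ lft w a ω x ∧ lft w a ω x < a + 2 * m)
    (hx' : (a : ℤ) + 2 ^ w ≤ lft w a ω x' ∧ lft w a ω x' < a + 2 * m) {j : ℕ} (hj : j < w)
    (h : pos (ring m) ω x' (w - (j + 1)) = (ring m).t (pos (ring m) ω x (w - (j + 1)))) :
    lab w a ω x j = lab w a ω x' j ∧ sgm ω x' (w - (j + 1)) ≠ sgm ω x (w - (j + 1)) := by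
  obtain ⟨hs, hl⟩ := ring_meet h
  refine ⟨?_, hs⟩
  obtain ⟨b, hb, h1, -⟩ := ring_step_val ω x (w - (j + 1))
  obtain ⟨b', hb', h1', -⟩ := ring_step_val ω x' (w - (j + 1))
  rw [hl] at h1'
  rw [show w - (j + 1) + 1 = w - j by omega] at h1 h1'
  obtain ⟨cc, c0, c1, c2⟩ := lab_inv w a ω x j hj.le
  obtain ⟨cc', c0', c1', c2'⟩ := lab_inv w a ω x' j hj.le
  obtain ⟨l1, l2⟩ := hx
  obtain ⟨l1', l2'⟩ := hx'
  generalize ((topEquiv m (pos (ring m) ω x (w - (j + 1)))).2 : ℕ) = l at h1 h1'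
  have g1 : (((pos (ring m) ω x (w - j) : Fin (2 * m)) : ℕ) : ℤ) = 2 * l + b := by
    exact_mod_cast h1
  have g1' : (((pos (ring m) ω x' (w - j) : Fin (2 * m)) : ℕ) : ℤ) = 2 * l + b' := by
    exact_mod_cast h1'
  rw [g1] at c2
  rw [g1'] at c2'
  generalize lab w a ω x j = u at c2 ⊢
  generalize lab w a ω x' j = u' at c2' ⊢
  generalize lft w a ω x = L at l1 l2 c2
  generalize lft w a ω x' = L' at l1' l2' c2'
  have hb2 : (b : ℤ) ≤ 1 := by exact_mod_cast hb
  have hb2' : (b' : ℤ) ≤ 1 := by exact_mod_cast hb'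
  have hb0 : (0 : ℤ) ≤ b := by (clear * -; positivity)
  have hb0' : (0 : ℤ) ≤ b' := by (clear * -; positivity)
  have hp : (0 : ℤ) < 2 ^ j := by positivity
  have hpw : (2 : ℤ) ^ j * 2 ≤ 2 ^ w := by
    rw [← pow_succ]
    exact pow_le_pow_right₀ (by norm_num) (by omega)
  generalize (2 : ℤ) ^ j = p at *
  generalize (2 : ℤ) ^ w = W at *
  -- difference
  have hd : 2 * (m : ℤ) * (u - u') = (p * (b - b') + cc - cc') - (L - L') := by
    linear_combination c2 - c2'
  have hb3 : p * ((b : ℤ) - b') ≤ p * 1 := mul_le_mul_of_nonneg_left (by linarith only [hb]) hp.le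
  have hb4 : -p ≤ p * ((b : ℤ) - b') := by nlinarith only [hb', c0, c1]
  have u1 : 2 * (m : ℤ) * (u - u') < 2 * m := by
    rw [hd]; linarith only [c0', l2', c1, l1, hpw, hb3]
  have u2 : -(2 * (m : ℤ)) < 2 * (m : ℤ) * (u - u') := by
    rw [hd]; linarith only [c0, l2, c1', l1', hpw, hb4]
  have v1 : u - u' < 1 := by
    by_contra hcon
    push Not at hcon
    nlinarith only [c0', l2', c1, c2, c2', l1, hpw, hb3, hcon]
  have v2 : -1 < u - u' := by
    by_contra hcon
    push Not at hcon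
    nlinarith only [c0, l2, c1', c2, c2', l1', hpw, hb4, hcon]
  omega

/-- The label classes of meeting paths. -/
lemma ring_lab_class {w a : ℕ} {ω : ℕ → Fin m → Bool} {x x' : Fin (2 * m)} {j : ℕ} (hj : j < w)
    (h1 : lab w a ω x j = lab w a ω x' j)
    (h2 : sgm ω x' (w - (j + 1)) ≠ sgm ω x (w - (j + 1))) :
    lab w a ω x w ≡ lab w a ω x' w [ZMOD 2 ^ j] ∧
      ¬ lab w a ω x w ≡ lab w a ω x' w [ZMOD 2 ^ (j + 1)] := by
  have q1 := lab_mod w a ω x j (w - j)
  have q1' := lab_mod w a ω x' j (w - j)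
  rw [show j + (w - j) = w by omega] at q1 q1'
  have q2 := lab_mod w a ω x (j + 1) (w - (j + 1))
  have q2' := lab_mod w a ω x' (j + 1) (w - (j + 1))
  rw [show j + 1 + (w - (j + 1)) = w by omega] at q2 q2'
  constructor
  · refine q1.trans (Int.ModEq.trans ?_ q1'.symm)
    rw [h1]
  · intro hcon
    have h3 : lab w a ω x (j + 1) ≡ lab w a ω x' (j + 1) [ZMOD 2 ^ (j + 1)] :=
      q2.symm.trans (hcon.trans q2')
    have e : lab w a ω x (j + 1) = lab w a ω x j + 2 ^ j * (sgm ω x (w - (j + 1)) : ℤ) := rfl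
    have e' : lab w a ω x' (j + 1) =
      lab w a ω x' j + 2 ^ j * (sgm ω x' (w - (j + 1)) : ℤ) := rfl
    rw [e, e', h1] at h3
    have h4 := Int.ModEq.add_left_cancel' _ h3
    rw [pow_succ] at h4
    have h5 := Int.ModEq.mul_left_cancel' (by positivity : (2 : ℤ) ^ j ≠ 0) h4
    have s1 := sgm_le ω x (w - (j + 1))
    have s2 := sgm_le ω x' (w - (j + 1))
    have h6 : (sgm ω x (w - (j + 1)) : ℤ) % 2 = (sgm ω x' (w - (j + 1)) : ℤ) % 2 := h5
    omega

/-- The paths of `x, x'` in `A` meet at layer `w - (j + 1)`. -/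
def Mt (w : ℕ) (ω : ℕ → Fin m → Bool) (A : Finset (Fin (2 * m))) (j : ℕ)
    (x x' : Fin (2 * m)) : Prop :=
  x ∈ A ∧ x' ∈ A ∧
      pos (ring m) ω x' (w - (j + 1)) = (ring m).t (pos (ring m) ω x (w - (j + 1)))

/-- Own lemma on the ring. -/
theorem ring_own {w lam : ℕ} (hw : 2 ^ (w + lam) < 2 * m) : Own (ring m) w lam := by
  intro ω A hA hcard
  obtain ⟨a, hlft⟩ := ring_cut hw ω A hcard
  -- selection
  obtain ⟨x, hx, hle⟩ := own_select w
    (fun j x x' => lab w a ω x w ≡ lab w a ω x' w [ZMOD 2 ^ j])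
    (fun j x => Int.ModEq.refl _) (fun j x y h => h.symm) (fun j x y z h h' => h.trans h')
    (fun j x y h => h.of_dvd (by rw [pow_succ]; exact dvd_mul_right _ _))
    (Mt w ω A)
    (by
      intro j hj x x' ⟨hx, hx', h⟩
      obtain ⟨h1, h2⟩ := ring_lab_meet (hlft x hx) (hlft x' hx') hj h
      exact ring_lab_class hj h1 h2)
    w 0 (by omega) A hA
  refine ⟨x, hx, ?_⟩
  have hcount : ((Finset.range w).filter fun i => ∃ x' ∈ A,
      pos (ring m) ω x' i = (ring m).t (pos (ring m) ω x i)).card ≤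
      ((Finset.Ico 0 (0 + w)).filter (fun j => ∃ x' ∈ A, Mt w ω A j x x')).card := by
    refine Finset.card_le_card_of_injOn (fun i => w - (i + 1)) ?_ ?_
    · intro i hi
      obtain ⟨hi1, x', hx', h⟩ := Finset.mem_filter.1 (Finset.mem_coe.1 hi)
      have hi2 := Finset.mem_range.1 hi1
      refine Finset.mem_coe.2 (Finset.mem_filter.2 ⟨Finset.mem_Ico.2 ⟨Nat.zero_le _,
        by simp only; omega⟩, x', hx', hx, hx', ?_⟩)
      simp only
      rw [show w - (w - (i + 1) + 1) = i by omega]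
      exact h
    · intro i hi i' hi' h
      have h1 := Finset.mem_range.1 (Finset.mem_filter.1 (Finset.mem_coe.1 hi)).1
      have h2 := Finset.mem_range.1 (Finset.mem_filter.1 (Finset.mem_coe.1 hi')).1
      simp only at h
      omega
  have hle' : 2 ^ ((Finset.Ico 0 (0 + w)).filter (fun j => ∃ x' ∈ A, Mt w ω A j x x')).card ≤
      2 ^ lam := by
    refine le_trans (le_of_eq ?_) (hle.trans hcard)
    congr!
  have hfin := hcount.trans ((Nat.pow_le_pow_iff_right (by norm_num : 1 < 2)).1 hle')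
  refine le_trans (le_of_eq ?_) hfin
  congr!

/-- WINDOW LEMMA for `w` Thorp shuffles of `2 m` cards (short loops). -/
theorem ring_window {w lam : ℕ} (hw : 2 ^ (w + lam) < 2 * m) (r : Equiv.Perm (Fin (2 * m)))
    (hr : ∀ q, r (r q) = q) (hr' : ∀ q, r q ≠ q) (x : ℝ) (hx : 0 ≤ x)
    (D : Finset (Fin (2 * m))) :
    ∑ ω : Fin w → Fin m → Bool, (1 + x) ^ (shortIn (ring m) w r (ext ω) D (2 ^ lam)).card
      ≤ Fintype.card (Fin w → Fin m → Bool) *
        (1 + x * 2 ^ lam / (2 : ℝ) ^ (((w : ℝ) - lam) / 2)) ^ D.card := by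
  have : Nonempty (Fin (2 * m)) := ⟨⟨0, lt_of_le_of_lt (Nat.zero_le _) hw⟩⟩
  refine window (ring m) w r hr hr' (ring_uniq ?_) (ring_own hw) x hx D
  exact ((Nat.pow_le_pow_right (by norm_num) (Nat.le_add_right w lam)).trans hw.le)

end ring

end Vale.Agent.P162.Win
end
end
end

section

section

section

/-!
# The level bound for the ring network

For fixed left layers and fixed right layers below `s`, the number of loops at level `j` has
exponential moments under the random right layers `s, …, j - 1`.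
-/

open Classical

namespace Vale.Agent.P162.Win

open Equiv Finset Vale.Agent.P162.Ring
open Vale.Agent.P162.Lin (Ex nOrb)

section count

variable {Q P : Type*} [Fintype Q] (B : Net Q P) (w : ℕ) (r : Perm Q)

/-- Loops contained in `D`. -/
noncomputable def loopsIn (ω : ℕ → P → Bool) (D : Finset Q) : Finset (Finset Q) :=
  (D.image (loop B w r ω)).filter fun c => c ⊆ D

lemma mem_loopsIn {ω : ℕ → P → Bool} {D : Finset Q} {c : Finset Q} :
    c ∈ loopsIn B w r ω D ↔ (∃ y ∈ D, loop B w r ω y = c) ∧ c ⊆ D := by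
  unfold loopsIn
  simp only [Finset.mem_filter, Finset.mem_image]

lemma card_loopsIn_le (ω : ℕ → P → Bool) (D : Finset Q) (L : ℕ) (hL : 0 < L) :
    (loopsIn B w r ω D).card ≤ (shortIn B w r ω D L).card + D.card / L := by
  have h1 : (loopsIn B w r ω D).card = (shortIn B w r ω D L).card +
      ((loopsIn B w r ω D).filter fun c => ¬ c.card ≤ L).card := by
    rw [← card_filter_add_card_filter_not (s := loopsIn B w r ω D) fun c => c.card ≤ L]
    congr 2
    ext c
    rw [mem_filter, mem_loopsIn, mem_shortIn]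
    tauto
  rw [h1]
  refine Nat.add_le_add_left ?_ _
  rw [Nat.le_div_iff_mul_le hL]
  set F := (loopsIn B w r ω D).filter fun c => ¬ c.card ≤ L with hF
  have hdisj : ∀ c ∈ F, ∀ c' ∈ F, c ≠ c' → Disjoint c c' := by
    intro c hc c' hc' hne
    rw [hF, mem_filter, mem_loopsIn] at hc hc'
    obtain ⟨⟨⟨y, _, rfl⟩, _⟩, _⟩ := hc
    obtain ⟨⟨⟨y', _, rfl⟩, _⟩, _⟩ := hc'
    rw [Finset.disjoint_left]
    intro z hz hz'
    rw [mem_loop] at hz hz'
    exact hne (loop_eq_of_Lp B w r (hz.trans hz'.symm))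
  have h2 : (F.biUnion id).card = ∑ c ∈ F, c.card := by
    rw [card_biUnion]
    · rfl
    · intro c hc c' hc' hne
      exact hdisj c hc c' hc' hne
  have h3 : F.card * L ≤ ∑ c ∈ F, c.card := by
    rw [← smul_eq_mul, ← sum_const]
    refine sum_le_sum fun c hc => ?_
    rw [hF, mem_filter] at hc
    omega
  rw [← h2] at h3
  refine h3.trans (card_le_card ?_)
  intro z hz
  rw [mem_biUnion] at hz
  obtain ⟨c, hc, hz⟩ := hz
  rw [hF, mem_filter, mem_loopsIn] at hc
  exact hc.1.2 hz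

/-- Orbits of the conjugate group are loops. -/
lemma nOrb_le_loopsIn (ω : ℕ → P → Bool) (e κ M : Perm Q) (he : M * e * M⁻¹ = r)
    (hκ : M * κ * M⁻¹ = kp B w ω) (D : Finset Q) :
    nOrb (Subgroup.closure {e, κ}) (D : Set Q) ≤
      (loopsIn B w r ω (D.map M.toEmbedding)).card := by
  set G := Subgroup.closure {e, κ} with hG
  have hmap : G.map (MulAut.conj M).toMonoidHom = Subgroup.closure {r, kp B w ω} := by
    rw [hG, MonoidHom.map_closure, Set.image_pair]
    congr 1
    simp only [MulEquiv.toMonoidHom_eq_coe, MonoidHom.coe_coe, MulAut.conj_apply, he, hκ]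
  have horb : ∀ p q, q ∈ loop B w r ω (M p) ↔ M⁻¹ q ∈ MulAction.orbit G p := by
    intro p q
    rw [mem_loop]
    unfold Lp
    rw [← hmap]
    constructor
    · rintro ⟨⟨g', hg'⟩, h⟩
      obtain ⟨g, hg, rfl⟩ := Subgroup.mem_map.1 hg'
      have h' : M (g (M⁻¹ (M p))) = q := h
      refine ⟨⟨g, hg⟩, ?_⟩
      have h2 : M⁻¹ (M p) = p := M.symm_apply_apply p
      rw [h2] at h'
      show g p = M⁻¹ q
      rw [← h']
      exact (M.symm_apply_apply _).symm
    · rintro ⟨⟨g, hg⟩, h⟩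
      have h' : g p = M⁻¹ q := h
      refine ⟨⟨(MulAut.conj M).toMonoidHom g, Subgroup.mem_map_of_mem _ hg⟩, ?_⟩
      show M (g (M⁻¹ (M p))) = q
      have h2 : M⁻¹ (M p) = p := M.symm_apply_apply p
      rw [h2, h']
      exact M.apply_symm_apply q
  let T : Set Q → Finset Q := fun O => univ.filter fun q => M⁻¹ q ∈ O
  have hT : ∀ p, T (MulAction.orbit G p) = loop B w r ω (M p) := by
    intro p
    ext q
    rw [horb]
    simp only [Perm.coe_inv, mem_filter, mem_univ, true_and, T]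
  unfold nOrb
  rw [← Set.ncard_coe_finset]
  refine Set.ncard_le_ncard_of_injOn T ?_ ?_ (Finset.finite_toSet _)
  · rintro O ⟨⟨p, rfl⟩, hO⟩
    rw [hT, mem_coe, mem_loopsIn]
    have hsub : loop B w r ω (M p) ⊆ D.map M.toEmbedding := by
      intro q hq
      rw [horb] at hq
      rw [mem_map]
      exact ⟨M⁻¹ q, hO hq, M.apply_symm_apply q⟩
    exact ⟨⟨M p, hsub (self_mem_loop B w r ω _), rfl⟩, hsub⟩
  · rintro O ⟨⟨p, rfl⟩, hO⟩ O' ⟨⟨p', rfl⟩, hO'⟩ h
    have h1 : M p ∈ T (MulAction.orbit G p) := by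
      rw [hT]
      exact self_mem_loop B w r ω _
    have h2 : M p ∈ T (MulAction.orbit G p') := by rwa [← h]
    have h3 : M⁻¹ (M p) = p := M.symm_apply_apply p
    simp only [T, mem_filter, mem_univ, true_and, h3] at h1 h2
    exact MulAction.orbit_eq_iff.2 h2

end count

section network

variable {m D : ℕ}

lemma sw_ring (f : Fin m → Bool) (y : Fin (2 * m)) :
    sw (ring m) f y = (topEquiv m).symm.permCongr (colSwap f) y := by
  obtain ⟨⟨b, l⟩, rfl⟩ := (topEquiv m).symm.surjective y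
  unfold sw
  simp only [ring, Equiv.permCongr_apply, Equiv.symm_symm, Equiv.apply_symm_apply, colSwap,
    Equiv.coe_fn_mk]
  by_cases h : f l = true
  · simp [h]
  · simp [h]

lemma thorp_ring (f : Fin m → Bool) (y : Fin (2 * m)) :
    thorpPerm m (fun p => finTwoEquiv.symm (f p)) y = (ring m).U (sw (ring m) f y) := by
  rw [thorpPerm_eq, Perm.mul_apply, sw_ring]
  simp only [Equiv.apply_symm_apply]
  rfl

lemma opp_eq : opp m = (ring m).t := by
  ext1 y
  simp [opp, ring, Equiv.permCongr_apply, colSwap]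
  rfl

/-- Replace the layers `s ≤ i < j`. -/
def comb (s j : ℕ) (c : Cn m D) (ω : Fin (j - s) → Fin m → Bool) : Cn m D :=
  fun i p => if h : s ≤ (i : ℕ) ∧ (i : ℕ) < j then
    finTwoEquiv.symm (ω ⟨i - s, by omega⟩ p) else c i p

/-- Use `b` below `s`. -/
def spl (b : Cn m D) (s : ℕ) (c : Cn m D) : Cn m D := fun i => if (i : ℕ) < s then b i else c i

theorem Rg_congr (b b' : Cn m D) (k : ℕ) (h : ∀ i : Fin D, (i : ℕ) < k → b i = b' i) :
    Rg b k = Rg b' k := by
  induction k with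
  | zero => rfl
  | succ k ih =>
    rw [Rg_step, Rg_step, ih fun i hi => h i (by omega)]
    by_cases hm : k < D
    · rw [dif_pos hm, dif_pos hm, h ⟨k, hm⟩ (by simp)]
    · rw [dif_neg hm, dif_neg hm]

theorem Rg_pos (s j : ℕ) (hj : j ≤ D) (b c : Cn m D) (ω : Fin (j - s) → Fin m → Bool)
    (p : Fin (2 * m)) (k : ℕ) (hk : k ≤ j - s) :
    Rg (spl b s (comb s j c ω)) (s + k) p = pos (ring m) (ext ω) (Rg b s p) k := by
  induction k with
  | zero =>
    rw [add_zero, pos_zero]
    congr 1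
    apply Rg_congr
    intro i hi
    unfold spl
    rw [if_pos hi]
  | succ k ih =>
    have hk' : s + k < D := by omega
    rw [← add_assoc, Rg_step, dif_pos hk', Perm.mul_apply, ih (by omega), pos_succ, ← thorp_ring]
    congr 2
    funext q
    unfold spl comb ext
    simp only
    rw [if_neg (by omega), dif_pos ⟨by omega, by omega⟩, dif_pos (by omega)]
    congr 3
    simp only [add_tsub_cancel_left]

/-- The network as a product. -/
theorem net_eq (s j : ℕ) (hs : s ≤ j) (hj : j ≤ D) (a b c : Cn m D)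
    (ω : Fin (j - s) → Fin m → Bool) :
    net a (spl b s (comb s j c ω)) j =
      Vp (ring m) (j - s) (ext ω) * (Rg b s * (Rg a j)⁻¹) := by
  ext1 q
  unfold net
  rw [Perm.mul_apply, Perm.mul_apply, Perm.mul_apply, Vp_apply]
  have h := Rg_pos s j hj b c ω ((Rg a j)⁻¹ q) (j - s) le_rfl
  rw [show s + (j - s) = j by (clear * - hs; omega)] at h
  exact h

/-- Loops of one level, for fixed remaining switches. -/
theorem loops_le (s j : ℕ) (hs : s ≤ j) (hj : j ≤ D) (a b : Cn m D) (S : Finset (Fin (2 * m)))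
    (l : ℕ) :
    ∃ (r : Perm (Fin (2 * m))) (T : Finset (Fin (2 * m))), (∀ q, r (r q) = q) ∧
      (∀ q, r q ≠ q) ∧ T.card = S.card ∧
      ∀ (c : Cn m D) (ω : Fin (j - s) → Fin m → Bool),
        loops a (spl b s (comb s j c ω)) S j ≤
          (shortIn (ring m) (j - s) r (ext ω) T (2 ^ l)).card + S.card / 2 ^ l := by
  set M := Rg b s * (Rg a j)⁻¹ with hM
  have hMM : ∀ q, M⁻¹ (M q) = q := fun q => M.symm_apply_apply q
  have hMM' : ∀ q, M (M⁻¹ q) = q := fun q => M.apply_symm_apply q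
  have hopp : ∀ q, opp m (opp m q) = q := by
    rw [opp_eq]
    exact (ring m).tt
  have hopp' : ∀ q, opp m q ≠ q := by
    rw [opp_eq]
    exact (ring m).t_ne
  refine ⟨M * opp m * M⁻¹, (occ a j S).map M.toEmbedding, ?_, ?_, ?_, ?_⟩
  · intro q
    simp only [Perm.mul_apply, hMM, hopp, hMM']
  · intro q h
    simp only [Perm.mul_apply] at h
    have h1 : opp m (M⁻¹ q) = M⁻¹ q := by
      rw [← hMM (opp m (M⁻¹ q)), h]
    exact hopp' _ h1
  · rw [card_map]
    unfold occ
    rw [card_map]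
  · intro c ω
    unfold loops
    have hcard : ((occ a j S).map M.toEmbedding).card = S.card := by
      rw [card_map]
      unfold occ
      rw [card_map]
    have h1 := nOrb_le_loopsIn (ring m) (j - s) (M * opp m * M⁻¹) (ext ω) (opp m)
      (kap (net a (spl b s (comb s j c ω)) j)) M rfl (by
        rw [net_eq s j hs hj, ← hM, kap, kp, opp_eq]
        group) (occ a j S)
    have h2 := card_loopsIn_le (ring m) (j - s) (M * opp m * M⁻¹) (ext ω)
      ((occ a j S).map M.toEmbedding) (2 ^ l) (by positivity)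
    rw [hcard] at h2
    exact h1.trans h2

/-- Refreshing the layers of the window does not change averages. -/
theorem Ex_comb (s j : ℕ) (hj : j ≤ D) (F : Cn m D → ℝ) :
    Ex F = Ex (fun c : Cn m D => Ex (fun ω : Fin (j - s) → Fin m → Bool =>
      F (comb s j c ω))) := by
  let extr : Cn m D → (Fin (j - s) → Fin m → Bool) := fun c i q =>
    finTwoEquiv (c ⟨s + i, by omega⟩ q)
  have h1 : ∀ c ω, comb s j (comb s j c ω) (extr c) = c := by
    intro c ω
    funext i p
    unfold comb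
    by_cases h : s ≤ (i : ℕ) ∧ (i : ℕ) < j
    · rw [dif_pos h]
      simp only [extr, Equiv.symm_apply_apply]
      congr 1
      congr 1
      omega
    · rw [dif_neg h, dif_neg h]
  have h2 : ∀ c ω, extr (comb s j c ω) = ω := by
    intro c ω
    funext i q
    simp only [extr]
    unfold comb
    rw [dif_pos ⟨by simp only [le_add_iff_nonneg_right, zero_le], by simp only; omega⟩]
    simp only [Equiv.apply_symm_apply]
    congr 1
    · congr 1
      simp only [add_tsub_cancel_left]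
  let e : (Cn m D × (Fin (j - s) → Fin m → Bool)) ≃
      (Cn m D × (Fin (j - s) → Fin m → Bool)) :=
    { toFun := fun p => (comb s j p.1 p.2, extr p.1)
      invFun := fun p => (comb s j p.1 p.2, extr p.1)
      left_inv := fun p => by
        refine Prod.ext ?_ ?_
        · exact h1 p.1 p.2
        · exact h2 p.1 p.2
      right_inv := fun p => by
        refine Prod.ext ?_ ?_
        · exact h1 p.1 p.2
        · exact h2 p.1 p.2 }
  have h3 := Equiv.sum_comp e (fun p => F p.1)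
  rw [Fintype.sum_prod_type, Fintype.sum_prod_type] at h3
  have h4 : ∑ c : Cn m D, ∑ ω : Fin (j - s) → Fin m → Bool, F (comb s j c ω) =
      (Fintype.card (Fin (j - s) → Fin m → Bool) : ℝ) * ∑ c : Cn m D, F c := by
    refine h3.trans ?_
    simp only [sum_const, card_univ, nsmul_eq_mul]
    rw [mul_sum]
  unfold Ex
  rw [← sum_div, h4]
  have hne : (Fintype.card (Fin (j - s) → Fin m → Bool) : ℝ) ≠ 0 := by
    exact_mod_cast Fintype.card_ne_zero
  (clear * - hne; field_simp)

/-- **One level.** Given all the left switches and the right layers below `s`; the window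
`s ≤ i < j` may be any window with `2 ^ (j - s + l) < 2 m`. -/
theorem ring_level_bound (a b : Cn m D) (S : Finset (Fin (2 * m))) (j s l : ℕ)
    (hs : s ≤ j) (hj : j ≤ D) (hw : 2 ^ (j - s + l) < 2 * m) (x : ℝ) (hx : 0 ≤ x) :
    Ex (fun c : Cn m D => (1 + x) ^ loops a (fun i => if (i : ℕ) < s then b i else c i) S j)
      ≤ (1 + x) ^ (S.card / 2 ^ l) *
        Real.exp (S.card * (x * 2 ^ l / (2 : ℝ) ^ ((((j - s : ℕ) : ℝ) - l) / 2))) := by
  rw [Ex_comb s j hj]
  set K := (1 + x) ^ (S.card / 2 ^ l) *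
        Real.exp (S.card * (x * 2 ^ l / (2 : ℝ) ^ ((((j - s : ℕ) : ℝ) - l) / 2))) with hK
  have hne : (0 : ℝ) < Fintype.card (Fin (j - s) → Fin m → Bool) := by
    exact_mod_cast Fintype.card_pos
  have hne' : (0 : ℝ) < Fintype.card (Cn m D) := by
    exact_mod_cast Fintype.card_pos
  obtain ⟨r, T, hr, hr', hT, hle⟩ := loops_le s j hs hj a b S l
  have key : ∀ c : Cn m D, Ex (fun ω : Fin (j - s) → Fin m → Bool =>
      (1 + x) ^ loops a (fun i => if (i : ℕ) < s then b i else comb s j c ω i) S j) ≤ K := by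
    intro c
    unfold Ex
    rw [div_le_iff₀ hne]
    have h1x : 1 ≤ 1 + x := by linarith only [hx]
    set y := x * 2 ^ l / (2 : ℝ) ^ ((((j - s : ℕ) : ℝ) - l) / 2) with hy
    have hy0 : 0 ≤ y := by (clear * - hx; positivity)
    calc ∑ ω : Fin (j - s) → Fin m → Bool,
          (1 + x) ^ loops a (fun i => if (i : ℕ) < s then b i else comb s j c ω i) S j
        ≤ ∑ ω : Fin (j - s) → Fin m → Bool, (1 + x) ^ (S.card / 2 ^ l) *
          (1 + x) ^ (shortIn (ring m) (j - s) r (ext ω) T (2 ^ l)).card := by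
          refine sum_le_sum fun ω _ => ?_
          rw [← pow_add]
          refine pow_le_pow_right₀ h1x ?_
          rw [add_comm]
          exact hle c ω
      _ = (1 + x) ^ (S.card / 2 ^ l) * ∑ ω : Fin (j - s) → Fin m → Bool,
          (1 + x) ^ (shortIn (ring m) (j - s) r (ext ω) T (2 ^ l)).card := by rw [mul_sum]
      _ ≤ (1 + x) ^ (S.card / 2 ^ l) * (Fintype.card (Fin (j - s) → Fin m → Bool) *
          (1 + y) ^ T.card) := by
          refine mul_le_mul_of_nonneg_left ?_ (by positivity)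
          exact ring_window hw r hr hr' x hx T
      _ ≤ (1 + x) ^ (S.card / 2 ^ l) * (Fintype.card (Fin (j - s) → Fin m → Bool) *
          Real.exp (S.card * y)) := by
          refine mul_le_mul_of_nonneg_left (mul_le_mul_of_nonneg_left ?_ hne.le) (by positivity)
          rw [hT]
          calc (1 + y) ^ S.card ≤ (Real.exp y) ^ S.card :=
                pow_le_pow_left₀ (by linarith only [hy0]) (by linarith only [Real.add_one_le_exp y]) _
            _ = Real.exp (S.card * y) := by rw [← Real.exp_nat_mul]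
      _ = K * Fintype.card (Fin (j - s) → Fin m → Bool) := by rw [hK]; ring
  calc Ex (fun c : Cn m D => Ex (fun ω : Fin (j - s) → Fin m → Bool =>
        (1 + x) ^ loops a (fun i => if (i : ℕ) < s then b i else comb s j c ω i) S j))
      ≤ Ex (fun _ : Cn m D => K) := by
        unfold Ex
        exact div_le_div_of_nonneg_right (sum_le_sum fun c _ => key c) hne'.le
    _ = K := by
        unfold Ex
        rw [sum_const, card_univ, nsmul_eq_mul]
        (clear * -; field_simp)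

end network

end Vale.Agent.P162.Win
end
end
end

section

section

section

/-!
# P162: operators of the key lemma
-/

namespace Vale.Agent.P162

open scoped InnerProductSpace symmDiff
open Equiv

section isom

variable {G : Type*} [Group G]
variable {V : Type*} [NormedAddCommGroup V] [InnerProductSpace ℝ V]

theorem inner_isom (ρ : G →* (V →L[ℝ] V)) (hρ : ∀ g v, ‖ρ g v‖ = ‖v‖) (g : G) (u v : V) :
    ⟪ρ g u, ρ g v⟫_ℝ = ⟪u, v⟫_ℝ := by
  rw [real_inner_eq_norm_add_mul_self_sub_norm_mul_self_sub_norm_mul_self_div_two,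
    real_inner_eq_norm_add_mul_self_sub_norm_mul_self_sub_norm_mul_self_div_two,
    ← map_add, hρ, hρ, hρ]

theorem rho_inv_apply (ρ : G →* (V →L[ℝ] V)) (g : G) (v : V) : ρ g (ρ g⁻¹ v) = v := by
  rw [← mul_apply_eq_comp, ← map_mul, mul_inv_cancel, map_one]
  rfl

theorem inner_rho_left (ρ : G →* (V →L[ℝ] V)) (hρ : ∀ g v, ‖ρ g v‖ = ‖v‖) (g : G) (u v : V) :
    ⟪ρ g u, v⟫_ℝ = ⟪u, ρ g⁻¹ v⟫_ℝ := by
  conv_lhs => rw [← rho_inv_apply ρ g v]
  rw [inner_isom ρ hρ]

theorem inner_rho_self_le (ρ : G →* (V →L[ℝ] V)) (hρ : ∀ g v, ‖ρ g v‖ = ‖v‖) (g : G) (u : V) :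
    ⟪u, ρ g u⟫_ℝ ≤ ‖u‖ ^ 2 := by
  calc ⟪u, ρ g u⟫_ℝ ≤ ‖u‖ * ‖ρ g u‖ := real_inner_le_norm _ _
    _ = ‖u‖ ^ 2 := by rw [hρ]; ring

theorem neg_le_inner_rho_self (ρ : G →* (V →L[ℝ] V)) (hρ : ∀ g v, ‖ρ g v‖ = ‖v‖) (g : G) (u : V) :
    -‖u‖ ^ 2 ≤ ⟪u, ρ g u⟫_ℝ := by
  have h := abs_real_inner_le_norm u (ρ g u)
  rw [hρ] at h
  have := neg_le_of_abs_le h
  nlinarith only [this]

end isom

section ops

variable {β : Type*} [Fintype β] [DecidableEq β]
variable {V : Type*} [NormedAddCommGroup V] [InnerProductSpace ℝ V]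

/-- The two swaps along a pair of columns, inside the halves. -/
def aop (ρ : Perm (Bool × β) →* (V →L[ℝ] V)) (x y : β) : V →L[ℝ] V :=
  ρ (swap (false, x) (false, y)) + ρ (swap (true, x) (true, y))

/-- The two swaps along a pair of columns, across the halves. -/
def bop (ρ : Perm (Bool × β) →* (V →L[ℝ] V)) (x y : β) : V →L[ℝ] V :=
  ρ (swap (false, x) (true, y)) + ρ (swap (true, x) (false, y))

/-- The off-diagonal operator of a pair of columns. -/
noncomputable def oop (ρ : Perm (Bool × β) →* (V →L[ℝ] V)) (x y : β) : V →L[ℝ] V :=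
  (1 / (2 * (Fintype.card β : ℝ))) • (bop ρ x y - aop ρ x y)

/-- The Laplacian of a pair of columns. -/
noncomputable def sop (ρ : Perm (Bool × β) →* (V →L[ℝ] V)) (x y : β) : V →L[ℝ] V :=
  (4 : ℝ) • (1 : V →L[ℝ] V) - aop ρ x y - bop ρ x y

variable (ρ : Perm (Bool × β) →* (V →L[ℝ] V))

omit [Fintype β] in
theorem Hf_mul_swap (E : Finset β) (p q : Bool × β) :
    Hf ρ E * ρ (swap p q) = ρ (swap (flipE E p) (flipE E q)) * Hf ρ E := by
  rw [Hf, ← map_mul, flipE_swap, map_mul]

omit [Fintype β] in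
theorem Hf_mul_aop_sub (E : Finset β) {x y : β} :
    Hf ρ E * (bop ρ x y - aop ρ x y) =
      ((if x ∈ E then (-1 : ℝ) else 1) * (if y ∈ E then (-1 : ℝ) else 1)) •
        ((bop ρ x y - aop ρ x y) * Hf ρ E) := by
  unfold aop bop
  rw [mul_sub, mul_add, mul_add]
  simp only [Hf_mul_swap, flipE_apply]
  by_cases hx : x ∈ E <;> by_cases hy : y ∈ E
  · simp only [hx, hy, if_true, Bool.not_true, Bool.not_false, sub_mul, add_mul]
    simp only [neg_mul_neg, one_mul, one_smul]
    abel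
  · simp only [hx, Bool.not_false, if_true, hy, Bool.not_true, if_false, sub_mul, add_mul]
    simp only [mul_one, neg_smul, one_smul]
    abel
  · simp only [hx, Bool.not_false, if_false, hy, Bool.not_true, if_true, sub_mul, add_mul]
    simp only [one_mul, neg_smul, one_smul]
    abel
  · simp only [hx, if_false, hy, sub_mul, add_mul]
    simp only [one_mul, one_smul]

theorem Hf_mul_oop (E : Finset β) {x y : β} (hxy : x ≠ y) :
    Hf ρ E * oop ρ x y = sgn {x, y} E • (oop ρ x y * Hf ρ E) := by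
  unfold oop
  rw [mul_smul_comm, Hf_mul_aop_sub, sgn_pair E hxy, smul_mul_assoc, smul_comm]

theorem sgn_mul_self (D E : Finset β) : sgn D E * sgn D E = 1 := by
  rw [← sgn_symmDiff_right, symmDiff_self]
  exact sgn_empty_right D

theorem oop_mul_Hf (E : Finset β) {x y : β} (hxy : x ≠ y) :
    oop ρ x y * Hf ρ E = sgn {x, y} E • (Hf ρ E * oop ρ x y) := by
  rw [Hf_mul_oop ρ E hxy, smul_smul, sgn_mul_self, one_smul]

theorem oop_mul_Pr (D : Finset β) {x y : β} (hxy : x ≠ y) :
    oop ρ x y * Pr ρ D = Pr ρ ({x, y} ∆ D) * oop ρ x y := by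
  unfold Pr
  rw [mul_smul_comm, smul_mul_assoc, Finset.mul_sum, Finset.sum_mul]
  congr 1
  refine Finset.sum_congr rfl fun E _ => ?_
  rw [mul_smul_comm, smul_mul_assoc, oop_mul_Hf ρ E hxy, smul_smul, sgn_symmDiff_left, mul_comm]

end ops

section symm

variable {β : Type*} [Fintype β] [DecidableEq β]
variable {V : Type*} [NormedAddCommGroup V] [InnerProductSpace ℝ V]
variable (ρ : Perm (Bool × β) →* (V →L[ℝ] V)) (hρ : ∀ g v, ‖ρ g v‖ = ‖v‖)

include hρ

omit [Fintype β] in
theorem swap_symm (p q : Bool × β) (u v : V) :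
    ⟪ρ (swap p q) u, v⟫_ℝ = ⟪u, ρ (swap p q) v⟫_ℝ := by
  rw [inner_rho_left ρ hρ, swap_inv]

omit [Fintype β] in
theorem Hf_symm (E : Finset β) (u v : V) : ⟪Hf ρ E u, v⟫_ℝ = ⟪u, Hf ρ E v⟫_ℝ := by
  rw [Hf, inner_rho_left ρ hρ, flipE_inv]

theorem Pr_symm (D : Finset β) (u v : V) : ⟪Pr ρ D u, v⟫_ℝ = ⟪u, Pr ρ D v⟫_ℝ := by
  unfold Pr
  simp only [smul_apply, sum_apply, inner_smul_left,
    inner_smul_right, sum_inner, inner_sum, Hf_symm ρ hρ]
  simp only [map_inv₀, Real.ringHom_apply]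

theorem oop_symm (x y : β) (u v : V) : ⟪oop ρ x y u, v⟫_ℝ = ⟪u, oop ρ x y v⟫_ℝ := by
  unfold oop aop bop
  simp only [smul_apply, add_apply,
    sub_apply, inner_smul_left, inner_smul_right, inner_add_left,
    inner_add_right, inner_sub_left, inner_sub_right, swap_symm ρ hρ]
  simp only [one_div, mul_inv_rev, Real.ringHom_apply]

omit [Fintype β] in
theorem sop_nonneg (x y : β) (u : V) : 0 ≤ ⟪u, sop ρ x y u⟫_ℝ := by
  unfold sop aop bop
  simp only [smul_apply, add_apply,
    sub_apply, inner_smul_right, inner_add_right, inner_sub_right,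
    one_apply_eq_self, real_inner_self_eq_norm_sq]
  have h1 := inner_rho_self_le ρ hρ (swap (false, x) (false, y)) u
  have h2 := inner_rho_self_le ρ hρ (swap (true, x) (true, y)) u
  have h3 := inner_rho_self_le ρ hρ (swap (false, x) (true, y)) u
  have h4 := inner_rho_self_le ρ hρ (swap (true, x) (false, y)) u
  linarith only [h1, h2, h3, h4]

theorem norm_oop_le [Nonempty β] (x y : β) (u : V) :
    ‖oop ρ x y u‖ ≤ 2 / (Fintype.card β : ℝ) * ‖u‖ := by
  have hN : (0 : ℝ) < Fintype.card β := by exact_mod_cast Fintype.card_pos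
  unfold oop aop bop
  simp only [smul_apply, sub_apply, add_apply]
  rw [norm_smul, Real.norm_of_nonneg (by positivity)]
  have h : ‖ρ (swap (false, x) (true, y)) u + ρ (swap (true, x) (false, y)) u -
      (ρ (swap (false, x) (false, y)) u + ρ (swap (true, x) (true, y)) u)‖ ≤ 4 * ‖u‖ := by
    refine (norm_sub_le _ _).trans ?_
    have h1 := norm_add_le (ρ (swap (false, x) (true, y)) u) (ρ (swap (true, x) (false, y)) u)
    have h2 := norm_add_le (ρ (swap (false, x) (false, y)) u) (ρ (swap (true, x) (true, y)) u)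
    rw [hρ, hρ] at h1 h2
    linarith only [h1, h2]
  calc 1 / (2 * (Fintype.card β : ℝ)) * _ ≤ 1 / (2 * (Fintype.card β : ℝ)) * (4 * ‖u‖) := by
        gcongr
    _ = 2 / (Fintype.card β : ℝ) * ‖u‖ := by field_simp; ring

end symm

end Vale.Agent.P162
end
end
end

section

section

section

/-!
# P162: the core inequality of the key lemma
-/

namespace Vale.Agent.P162

open scoped InnerProductSpace symmDiff
open Equiv

section star

variable {β : Type*} [Fintype β] [DecidableEq β]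
variable {V : Type*} [NormedAddCommGroup V] [InnerProductSpace ℝ V]
variable (ρ : Perm (Bool × β) →* (V →L[ℝ] V)) (hρ : ∀ g v, ‖ρ g v‖ = ‖v‖)

omit [Fintype β] in
theorem Hf_singleton_mul_self (x : β) : Hf ρ {x} * Hf ρ {x} = 1 := by
  rw [← Hf_mul, symmDiff_self]
  exact Hf_empty ρ

include hρ

omit [Fintype β] in
theorem norm_Hf (E : Finset β) (u : V) : ‖Hf ρ E u‖ = ‖u‖ := hρ _ _

/-- The star inequality. -/
theorem norm_oop_sq_le [Nonempty β] {x y : β} (hxy : x ≠ y) (u : V) (hx : Hf ρ {x} u = u)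
    (hy : Hf ρ {y} u = u) :
    ‖oop ρ x y u‖ ^ 2 ≤ 1 / (2 * (Fintype.card β : ℝ) ^ 2) * ⟪u, sop ρ x y u⟫_ℝ := by
  have hN : (0 : ℝ) < Fintype.card β := by exact_mod_cast Fintype.card_pos
  set w := ρ (swap (false, x) (false, y)) u with hw
  -- the four swaps applied to u
  have e1 : ρ (swap (true, x) (false, y)) u = Hf ρ {x} w := by
    have h := congrArg (fun T : V →L[ℝ] V => T u)
      (Hf_mul_swap ρ {x} (false, x) (false, y))
    simp only [mul_apply_eq_comp, flipE_apply, Finset.mem_singleton, if_true, hxy.symm, if_false,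
      Bool.not_false, hx] at h
    exact h.symm
  have e2 : ρ (swap (false, x) (true, y)) u = Hf ρ {y} w := by
    have h := congrArg (fun T : V →L[ℝ] V => T u)
      (Hf_mul_swap ρ {y} (false, x) (false, y))
    simp only [mul_apply_eq_comp, flipE_apply, Finset.mem_singleton, if_true, hxy, if_false,
      Bool.not_false, hy] at h
    exact h.symm
  have e3 : ρ (swap (true, x) (true, y)) u = Hf ρ {x} (Hf ρ {y} w) := by
    have h := congrArg (fun T : V →L[ℝ] V => T u)
      (Hf_mul_swap ρ {x} (false, x) (true, y))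
    simp only [mul_apply_eq_comp, flipE_apply, Finset.mem_singleton, if_true, hxy.symm, if_false,
      Bool.not_false, hx] at h
    rw [← h, e2]
  have hcomm : Hf ρ {x} * Hf ρ {y} = Hf ρ {y} * Hf ρ {x} := by
    rw [← Hf_mul, ← Hf_mul, symmDiff_comm]
  have hcomm' : ∀ v, Hf ρ {x} (Hf ρ {y} v) = Hf ρ {y} (Hf ρ {x} v) := fun v => by
    rw [← mul_apply_eq_comp, hcomm]; rfl
  have hxx : ∀ v, Hf ρ {x} (Hf ρ {x} v) = v := fun v => by
    rw [← mul_apply_eq_comp, Hf_singleton_mul_self]; rfl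
  have hyy : ∀ v, Hf ρ {y} (Hf ρ {y} v) = v := fun v => by
    rw [← mul_apply_eq_comp, Hf_singleton_mul_self]; rfl
  have hnw : ‖w‖ = ‖u‖ := hρ _ _
  -- inner products with u
  have i0 : ⟪u, Hf ρ {x} w⟫_ℝ = ⟪u, w⟫_ℝ := by rw [← Hf_symm ρ hρ, hx]
  have i1 : ⟪u, Hf ρ {y} w⟫_ℝ = ⟪u, w⟫_ℝ := by rw [← Hf_symm ρ hρ, hy]
  have i2 : ⟪u, Hf ρ {x} (Hf ρ {y} w)⟫_ℝ = ⟪u, w⟫_ℝ := by
    rw [← Hf_symm ρ hρ, hx, i1]
  -- inner products with w
  have j0 : ⟪w, Hf ρ {x} w⟫_ℝ = ⟪u, w⟫_ℝ := by
    have h : ρ (swap (false, x) (false, y)) (Hf ρ {x} w) = ρ (swap (false, y) (true, x)) u := by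
      rw [Hf, flipE_singleton, ← mul_apply_eq_comp, ← map_mul, mul_swap_eq_swap_mul,
        swap_apply_left, swap_apply_of_ne_of_ne (by simp) (by simp), map_mul, mul_apply_eq_comp, hw,
        ← mul_apply_eq_comp (ρ (swap (false, x) (false, y))), ← map_mul, swap_mul_self, map_one]
      rfl
    calc ⟪w, Hf ρ {x} w⟫_ℝ = ⟪u, ρ (swap (false, x) (false, y)) (Hf ρ {x} w)⟫_ℝ := by
          rw [hw, swap_symm ρ hρ]
      _ = ⟪u, ρ (swap (false, y) (true, x)) u⟫_ℝ := by rw [h]
      _ = ⟪u, w⟫_ℝ := by rw [swap_comm, e1, i0]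
  have j1 : ⟪w, Hf ρ {y} w⟫_ℝ = ⟪u, w⟫_ℝ := by
    have h : ρ (swap (false, x) (false, y)) (Hf ρ {y} w) = ρ (swap (false, x) (true, y)) u := by
      rw [Hf, flipE_singleton, ← mul_apply_eq_comp, ← map_mul, mul_swap_eq_swap_mul,
        swap_apply_right, swap_apply_of_ne_of_ne (by simp) (by simp), map_mul, mul_apply_eq_comp, hw,
        ← mul_apply_eq_comp (ρ (swap (false, x) (false, y))), ← map_mul, swap_mul_self, map_one]
      rfl
    calc ⟪w, Hf ρ {y} w⟫_ℝ = ⟪u, ρ (swap (false, x) (false, y)) (Hf ρ {y} w)⟫_ℝ := by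
          rw [hw, swap_symm ρ hρ]
      _ = ⟪u, ρ (swap (false, x) (true, y)) u⟫_ℝ := by rw [h]
      _ = ⟪u, w⟫_ℝ := by rw [e2, i1]
  have j2 : ⟪w, Hf ρ {x} (Hf ρ {y} w)⟫_ℝ ≤ ‖u‖ ^ 2 := by
    calc ⟪w, Hf ρ {x} (Hf ρ {y} w)⟫_ℝ ≤ ‖w‖ * ‖Hf ρ {x} (Hf ρ {y} w)‖ := real_inner_le_norm _ _
      _ = ‖u‖ ^ 2 := by rw [norm_Hf ρ hρ, norm_Hf ρ hρ, hnw]; ring
  -- the norm of the difference
  have key : ‖Hf ρ {y} w + Hf ρ {x} w - (w + Hf ρ {x} (Hf ρ {y} w))‖ ^ 2 ≤
      8 * (‖u‖ ^ 2 - ⟪u, w⟫_ℝ) := by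
    have k1 : ⟪Hf ρ {y} w, Hf ρ {x} w⟫_ℝ = ⟪w, Hf ρ {x} (Hf ρ {y} w)⟫_ℝ := by
      rw [Hf_symm ρ hρ, hcomm']
    have k2 : ⟪Hf ρ {y} w, Hf ρ {x} (Hf ρ {y} w)⟫_ℝ = ⟪w, Hf ρ {x} w⟫_ℝ := by
      rw [Hf_symm ρ hρ, ← hcomm', hyy]
    have k3 : ⟪Hf ρ {x} w, Hf ρ {x} (Hf ρ {y} w)⟫_ℝ = ⟪w, Hf ρ {y} w⟫_ℝ := by
      rw [Hf_symm ρ hρ, hxx]
    have c1 : ⟪Hf ρ {y} w, w⟫_ℝ = ⟪u, w⟫_ℝ := by rw [real_inner_comm]; exact j1
    have c2 : ⟪Hf ρ {x} w, w⟫_ℝ = ⟪u, w⟫_ℝ := by rw [real_inner_comm]; exact j0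
    have c3 : ⟪Hf ρ {x} w, Hf ρ {y} w⟫_ℝ = ⟪w, Hf ρ {x} (Hf ρ {y} w)⟫_ℝ := by
      rw [real_inner_comm]; exact k1
    have c4 : ⟪Hf ρ {x} (Hf ρ {y} w), Hf ρ {y} w⟫_ℝ = ⟪w, Hf ρ {x} w⟫_ℝ := by
      rw [real_inner_comm]; exact k2
    have c5 : ⟪Hf ρ {x} (Hf ρ {y} w), Hf ρ {x} w⟫_ℝ = ⟪w, Hf ρ {y} w⟫_ℝ := by
      rw [real_inner_comm]; exact k3
    have c6 : ⟪Hf ρ {x} (Hf ρ {y} w), w⟫_ℝ = ⟪w, Hf ρ {x} (Hf ρ {y} w)⟫_ℝ :=
      real_inner_comm _ _
    rw [← real_inner_self_eq_norm_sq]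
    simp only [inner_sub_left, inner_sub_right, inner_add_left, inner_add_right,
      real_inner_self_eq_norm_sq, norm_Hf ρ hρ, hnw]
    rw [k1, k2, k3, c1, c2, c3, c4, c5, c6, j0, j1]
    linarith only [j2]
  have hS : ⟪u, sop ρ x y u⟫_ℝ = 4 * (‖u‖ ^ 2 - ⟪u, w⟫_ℝ) := by
    unfold sop aop bop
    simp only [sub_apply, smul_apply, one_apply_eq_self, add_apply, inner_sub_right, inner_smul_right, real_inner_self_eq_norm_sq, inner_add_right]
    rw [e1, e2, e3, i0, i1, i2, ← hw]
    ring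
  have hO : ‖oop ρ x y u‖ ^ 2 = 1 / (4 * (Fintype.card β : ℝ) ^ 2) *
      ‖Hf ρ {y} w + Hf ρ {x} w - (w + Hf ρ {x} (Hf ρ {y} w))‖ ^ 2 := by
    unfold oop aop bop
    simp only [smul_apply, add_apply, sub_apply]
    rw [e1, e2, e3, ← hw, norm_smul, Real.norm_of_nonneg (by positivity), mul_pow]
    congr 1
    field_simp
    ring
  rw [hO, hS]
  calc 1 / (4 * (Fintype.card β : ℝ) ^ 2) *
      ‖Hf ρ {y} w + Hf ρ {x} w - (w + Hf ρ {x} (Hf ρ {y} w))‖ ^ 2
      ≤ 1 / (4 * (Fintype.card β : ℝ) ^ 2) * (8 * (‖u‖ ^ 2 - ⟪u, w⟫_ℝ)) := by (clear hN e3 i2 hS hO; gcongr)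
    _ = 1 / (2 * (Fintype.card β : ℝ) ^ 2) * (4 * (‖u‖ ^ 2 - ⟪u, w⟫_ℝ)) := by
      field_simp
      ring

end star

end Vale.Agent.P162
end
end
end

section

section

section

/-!
# P162: summing the pair inequalities of the key lemma
-/

namespace Vale.Agent.P162

open scoped InnerProductSpace symmDiff
open Equiv

section cards

variable {β : Type*} [DecidableEq β]

theorem card_pair_symmDiff_of_notMem {x y : β} (hxy : x ≠ y) {D : Finset β} (hx : x ∉ D)
    (hy : y ∉ D) : (({x, y} : Finset β) ∆ D).card = D.card + 2 := by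
  have : ({x, y} : Finset β) ∆ D = insert x (insert y D) := by
    ext z
    simp only [Finset.mem_symmDiff, Finset.mem_insert, Finset.mem_singleton]
    constructor
    · rintro (⟨h | h, _⟩ | ⟨h, _⟩)
      · exact Or.inl h
      · exact Or.inr (Or.inl h)
      · exact Or.inr (Or.inr h)
    · rintro (h | h | h)
      · subst h; exact Or.inl ⟨Or.inl rfl, hx⟩
      · subst h; exact Or.inl ⟨Or.inr rfl, hy⟩
      · refine Or.inr ⟨h, ?_⟩
        rintro (rfl | rfl)
        · exact hx h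
        · exact hy h
  rw [this, Finset.card_insert_of_notMem, Finset.card_insert_of_notMem hy]
  simp [hxy, hx]

theorem card_pair_symmDiff_of_mem_left {x y : β} (hxy : x ≠ y) {D : Finset β} (hx : x ∈ D)
    (hy : y ∉ D) : (({x, y} : Finset β) ∆ D).card = D.card := by
  have : ({x, y} : Finset β) ∆ D = insert y (D.erase x) := by
    ext z
    simp only [Finset.mem_symmDiff, Finset.mem_insert, Finset.mem_singleton, Finset.mem_erase]
    constructor
    · rintro (⟨h | h, h'⟩ | ⟨h, h'⟩)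
      · subst h; exact absurd hx h'
      · exact Or.inl h
      · push Not at h'
        exact Or.inr ⟨h'.1, h⟩
    · rintro (h | ⟨h, h'⟩)
      · subst h; exact Or.inl ⟨Or.inr rfl, hy⟩
      · refine Or.inr ⟨h', ?_⟩
        rintro (rfl | rfl)
        · exact h rfl
        · exact hy h'
  rw [this, Finset.card_insert_of_notMem, Finset.card_erase_of_mem hx]
  · have := Finset.card_pos.mpr ⟨x, hx⟩
    omega
  · simp [hy]

theorem card_pair_symmDiff_of_mem_right {x y : β} (hxy : x ≠ y) {D : Finset β} (hx : x ∉ D)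
    (hy : y ∈ D) : (({x, y} : Finset β) ∆ D).card = D.card := by
  rw [Finset.pair_comm]
  exact card_pair_symmDiff_of_mem_left hxy.symm hy hx

end cards

section pair

variable {β : Type*} [Fintype β] [DecidableEq β]
variable {V : Type*} [NormedAddCommGroup V] [InnerProductSpace ℝ V]
variable (ρ : Perm (Bool × β) →* (V →L[ℝ] V)) (hρ : ∀ g v, ‖ρ g v‖ = ‖v‖)

/-- The matrix element between a sector and its partner. -/
noncomputable def kel (z : V) (x y : β) (D : Finset β) : ℝ :=
  ⟪Pr ρ D z, oop ρ x y (Pr ρ ({x, y} ∆ D) z)⟫_ℝ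

/-- The bound attached to one sector. -/
noncomputable def bel (W μ : ℝ) (z : V) (x y : β) (D : Finset β) : ℝ :=
  if x ∈ D then
    if y ∈ D then W / (2 * μ * ((D.card : ℝ) - 1)) * ‖Pr ρ D z‖ ^ 2
    else 2 / (Fintype.card β : ℝ) * ‖Pr ρ D z‖ ^ 2
  else
    if y ∈ D then 2 / (Fintype.card β : ℝ) * ‖Pr ρ D z‖ ^ 2
    else W * μ * ((D.card : ℝ) + 1) / 2 * ‖oop ρ x y (Pr ρ D z)‖ ^ 2

theorem real_create {θ W μ m a b : ℝ} (hθ : 0 < θ) (hμ : 0 < μ) (hm : 0 ≤ m)
    (hW : W = θ + 1 / θ) :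
    (1 + θ ^ 2) * (a * b) ≤
      θ ^ 2 * (W / (2 * μ * (m + 1)) * a ^ 2) + W * μ * (m + 1) / 2 * b ^ 2 := by
  have hc : 0 < μ * (m + 1) := by (clear * - hμ hm; positivity)
  set c := μ * (m + 1) with hcdef
  have hWpos : 0 < W := by rw [hW]; positivity
  have h1 : 1 + θ ^ 2 = θ * W := by rw [hW]; field_simp; ring
  have h2 : θ ^ 2 * (W / (2 * μ * (m + 1)) * a ^ 2) = W / 2 * (θ ^ 2 * a ^ 2 / c) := by
    rw [hcdef]; field_simp
  have h3 : W * μ * (m + 1) / 2 * b ^ 2 = W / 2 * (c * b ^ 2) := by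
    rw [hcdef]; ring
  rw [h1, h2, h3]
  have h4 : θ ^ 2 * a ^ 2 / c + c * b ^ 2 - 2 * θ * (a * b) = (θ * a - c * b) ^ 2 / c := by
    field_simp
    ring
  have h5 : 0 ≤ (θ * a - c * b) ^ 2 / c := by (clear * - hμ hm; (clear * - hμ hm; positivity))
  nlinarith only [hWpos, h4, h5]

include hρ

theorem kel_symm (z : V) {x y : β} (D : Finset β) :
    kel ρ z x y ({x, y} ∆ D) = kel ρ z x y D := by
  unfold kel
  rw [symmDiff_symmDiff_cancel_left, ← oop_symm ρ hρ, real_inner_comm]

theorem pair_bound_create [Nonempty β] {θ W μ : ℝ} (hθ : 0 < θ) (hμ : 0 < μ)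
    (hW : W = θ + 1 / θ) (z : V) {x y : β} (hxy : x ≠ y) (D : Finset β) (hx : x ∉ D)
    (hy : y ∉ D) :
    -(θ ^ D.card * kel ρ z x y D +
        θ ^ (({x, y} : Finset β) ∆ D).card * kel ρ z x y ({x, y} ∆ D)) ≤
      θ ^ D.card * bel ρ W μ z x y D +
        θ ^ (({x, y} : Finset β) ∆ D).card * bel ρ W μ z x y ({x, y} ∆ D) := by
  have hc := card_pair_symmDiff_of_notMem hxy hx hy
  have hx' : x ∈ ({x, y} : Finset β) ∆ D := by simp [Finset.mem_symmDiff, hx]
  have hy' : y ∈ ({x, y} : Finset β) ∆ D := by simp [Finset.mem_symmDiff, hy]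
  rw [kel_symm ρ hρ]
  have hk : |kel ρ z x y D| ≤ ‖Pr ρ ({x, y} ∆ D) z‖ * ‖oop ρ x y (Pr ρ D z)‖ := by
    unfold kel
    rw [← oop_symm ρ hρ, mul_comm]
    exact abs_real_inner_le_norm _ _
  have hb := real_create (a := ‖Pr ρ ({x, y} ∆ D) z‖) (b := ‖oop ρ x y (Pr ρ D z)‖)
    (m := (D.card : ℝ)) hθ hμ (by (clear * -; (clear * -; positivity))) hW
  have h0 : 0 < θ ^ D.card := by positivity
  have e1 : bel ρ W μ z x y D =
      W * μ * ((D.card : ℝ) + 1) / 2 * ‖oop ρ x y (Pr ρ D z)‖ ^ 2 := by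
    unfold bel; rw [if_neg hx, if_neg hy]
  have e2 : bel ρ W μ z x y ({x, y} ∆ D) =
      W / (2 * μ * ((D.card : ℝ) + 1)) * ‖Pr ρ ({x, y} ∆ D) z‖ ^ 2 := by
    unfold bel; rw [if_pos hx', if_pos hy', hc]
    push_cast
    ring_nf
  rw [hc, e1, e2, pow_add]
  have h1 : -(kel ρ z x y D) ≤ ‖Pr ρ ({x, y} ∆ D) z‖ * ‖oop ρ x y (Pr ρ D z)‖ :=
    (neg_le_abs _).trans hk
  have h2 : -((1 + θ ^ 2) * kel ρ z x y D) ≤
      θ ^ 2 * (W / (2 * μ * ((D.card : ℝ) + 1)) * ‖Pr ρ ({x, y} ∆ D) z‖ ^ 2) +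
        W * μ * ((D.card : ℝ) + 1) / 2 * ‖oop ρ x y (Pr ρ D z)‖ ^ 2 := by
    refine le_trans ?_ hb
    have : 0 ≤ 1 + θ ^ 2 := by (clear * - hθ; positivity)
    nlinarith only [h1]
  have h3 := mul_le_mul_of_nonneg_left h2 h0.le
  linarith only [h3]

theorem pair_bound_hop [Nonempty β] {θ W μ : ℝ} (hθ : 0 < θ) (z : V) {x y : β} (D : Finset β)
    (hc : (({x, y} : Finset β) ∆ D).card = D.card)
    (e1 : bel ρ W μ z x y D = 2 / (Fintype.card β : ℝ) * ‖Pr ρ D z‖ ^ 2)
    (e2 : bel ρ W μ z x y ({x, y} ∆ D) =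
      2 / (Fintype.card β : ℝ) * ‖Pr ρ ({x, y} ∆ D) z‖ ^ 2) :
    -(θ ^ D.card * kel ρ z x y D +
        θ ^ (({x, y} : Finset β) ∆ D).card * kel ρ z x y ({x, y} ∆ D)) ≤
      θ ^ D.card * bel ρ W μ z x y D +
        θ ^ (({x, y} : Finset β) ∆ D).card * bel ρ W μ z x y ({x, y} ∆ D) := by
  have hN : (0 : ℝ) < Fintype.card β := by exact_mod_cast Fintype.card_pos
  rw [kel_symm ρ hρ, hc, e1, e2]
  have hk : |kel ρ z x y D| ≤
      ‖Pr ρ D z‖ * (2 / (Fintype.card β : ℝ) * ‖Pr ρ ({x, y} ∆ D) z‖) := by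
    unfold kel
    refine (abs_real_inner_le_norm _ _).trans ?_
    gcongr
    exact norm_oop_le ρ hρ x y _
  have h1 : -(kel ρ z x y D) ≤
      ‖Pr ρ D z‖ * (2 / (Fintype.card β : ℝ) * ‖Pr ρ ({x, y} ∆ D) z‖) :=
    (neg_le_abs _).trans hk
  have h0 : 0 < θ ^ D.card := by positivity
  have h2 : -(2 * kel ρ z x y D) ≤ 2 / (Fintype.card β : ℝ) * ‖Pr ρ D z‖ ^ 2 +
      2 / (Fintype.card β : ℝ) * ‖Pr ρ ({x, y} ∆ D) z‖ ^ 2 := by
    have h3 : 2 * (‖Pr ρ D z‖ * (2 / (Fintype.card β : ℝ) * ‖Pr ρ ({x, y} ∆ D) z‖)) ≤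
        2 / (Fintype.card β : ℝ) * ‖Pr ρ D z‖ ^ 2 +
      2 / (Fintype.card β : ℝ) * ‖Pr ρ ({x, y} ∆ D) z‖ ^ 2 := by
      have h4 : 0 ≤ 2 / (Fintype.card β : ℝ) * (‖Pr ρ D z‖ - ‖Pr ρ ({x, y} ∆ D) z‖) ^ 2 := by
        (clear hρ θ W μ hθ hc e1 e2 hN hk h1 h0; positivity)
      nlinarith only [h4]
    linarith only [h1, h3]
  have h3 := mul_le_mul_of_nonneg_left h2 h0.le
  linarith only [h3]

theorem pair_bound [Nonempty β] {θ W μ : ℝ} (hθ : 0 < θ) (hμ : 0 < μ)
    (hW : W = θ + 1 / θ) (z : V) {x y : β} (hxy : x ≠ y) (D : Finset β) :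
    -(θ ^ D.card * kel ρ z x y D +
        θ ^ (({x, y} : Finset β) ∆ D).card * kel ρ z x y ({x, y} ∆ D)) ≤
      θ ^ D.card * bel ρ W μ z x y D +
        θ ^ (({x, y} : Finset β) ∆ D).card * bel ρ W μ z x y ({x, y} ∆ D) := by
  by_cases hx : x ∈ D <;> by_cases hy : y ∈ D
  · have hx' : x ∉ ({x, y} : Finset β) ∆ D := by simp [Finset.mem_symmDiff, hx]
    have hy' : y ∉ ({x, y} : Finset β) ∆ D := by simp [Finset.mem_symmDiff, hy]
    have h := pair_bound_create ρ hρ hθ hμ hW z hxy _ hx' hy'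
    rw [symmDiff_symmDiff_cancel_left] at h
    linarith only [h]
  · refine pair_bound_hop ρ hρ hθ z D (card_pair_symmDiff_of_mem_left hxy hx hy) ?_ ?_
    · unfold bel; rw [if_pos hx, if_neg hy]
    · have hx' : x ∉ ({x, y} : Finset β) ∆ D := by simp [Finset.mem_symmDiff, hx]
      have hy' : y ∈ ({x, y} : Finset β) ∆ D := by simp [Finset.mem_symmDiff, hy]
      unfold bel; rw [if_neg hx', if_pos hy']
  · refine pair_bound_hop ρ hρ hθ z D (card_pair_symmDiff_of_mem_right hxy hx hy) ?_ ?_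
    · unfold bel; rw [if_neg hx, if_pos hy]
    · have hx' : x ∈ ({x, y} : Finset β) ∆ D := by simp [Finset.mem_symmDiff, hx]
      have hy' : y ∉ ({x, y} : Finset β) ∆ D := by simp [Finset.mem_symmDiff, hy]
      unfold bel; rw [if_pos hx', if_neg hy']
  · exact pair_bound_create ρ hρ hθ hμ hW z hxy D hx hy

/-- Summing over the sectors. -/
theorem sum_pair_bound [Nonempty β] {θ W μ : ℝ} (hθ : 0 < θ) (hμ : 0 < μ)
    (hW : W = θ + 1 / θ) (z : V) {x y : β} (hxy : x ≠ y) :
    -∑ D : Finset β, θ ^ D.card * kel ρ z x y D ≤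
      ∑ D : Finset β, θ ^ D.card * bel ρ W μ z x y D := by
  have h1 : ∑ D : Finset β, θ ^ D.card * kel ρ z x y D =
      ∑ D : Finset β, θ ^ (({x, y} : Finset β) ∆ D).card * kel ρ z x y ({x, y} ∆ D) :=
    (Equiv.sum_comp (translate {x, y}) (fun D => θ ^ D.card * kel ρ z x y D)).symm
  have h2 : ∑ D : Finset β, θ ^ D.card * bel ρ W μ z x y D =
      ∑ D : Finset β, θ ^ (({x, y} : Finset β) ∆ D).card * bel ρ W μ z x y ({x, y} ∆ D) :=
    (Equiv.sum_comp (translate {x, y}) (fun D => θ ^ D.card * bel ρ W μ z x y D)).symm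
  have h3 : ∑ D : Finset β, -(θ ^ D.card * kel ρ z x y D +
        θ ^ (({x, y} : Finset β) ∆ D).card * kel ρ z x y ({x, y} ∆ D)) ≤
      ∑ D : Finset β, (θ ^ D.card * bel ρ W μ z x y D +
        θ ^ (({x, y} : Finset β) ∆ D).card * bel ρ W μ z x y ({x, y} ∆ D)) :=
    Finset.sum_le_sum fun D _ => pair_bound ρ hρ hθ hμ hW z hxy D
  rw [Finset.sum_neg_distrib, Finset.sum_add_distrib, Finset.sum_add_distrib, ← h1, ← h2] at h3
  linarith only [h3]

end pair

end Vale.Agent.P162
end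
end
end

section

section

section

/-!
# P162: the generators in terms of pairs of columns
-/

namespace Vale.Agent.P162

open scoped InnerProductSpace symmDiff
open Equiv

section general

variable {β : Type*} [Fintype β] [DecidableEq β]

theorem sum_sum_eq_diag_add_offDiag {M : Type*} [AddCommMonoid M] (f : β → β → M) :
    ∑ x, ∑ y, f x y = ∑ x, f x x + ∑ p ∈ (Finset.univ : Finset β).offDiag, f p.1 p.2 := by
  rw [← Finset.sum_product', ← Finset.diag_union_offDiag,
    Finset.sum_union (Finset.disjoint_diag_offDiag _)]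
  congr 1
  unfold Finset.diag
  simp only [Finset.sum_map, Function.Embedding.coeFn_mk, Function.diag_apply]

theorem sum_offDiag_le (f : β → β → ℝ) (hf : ∀ x, 0 ≤ f x x) :
    ∑ p ∈ (Finset.univ : Finset β).offDiag, f p.1 p.2 ≤ ∑ x, ∑ y, f x y := by
  rw [sum_sum_eq_diag_add_offDiag]
  have := Finset.sum_nonneg (s := Finset.univ) fun x _ => hf x
  linarith

theorem sum_offDiag_both (D : Finset β) (c : ℝ) :
    ∑ p ∈ (Finset.univ : Finset β).offDiag, (if p.1 ∈ D ∧ p.2 ∈ D then c else 0) =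
      (D.card : ℝ) * ((D.card : ℝ) - 1) * c := by
  rw [← Finset.sum_filter]
  have : (Finset.univ : Finset β).offDiag.filter (fun p => p.1 ∈ D ∧ p.2 ∈ D) = D.offDiag := by
    ext p
    simp only [Finset.mem_filter, Finset.mem_offDiag, Finset.mem_univ, true_and]
    tauto
  rw [this, Finset.sum_const, Finset.offDiag_card, nsmul_eq_mul]
  rw [Nat.cast_sub (Nat.le_mul_self _)]
  push_cast
  ring

end general

section gens

variable {β : Type*} [Fintype β] [DecidableEq β]
variable {V : Type*} [NormedAddCommGroup V] [InnerProductSpace ℝ V]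
variable (ρ : Perm (Bool × β) →* (V →L[ℝ] V)) (hρ : ∀ g v, ‖ρ g v‖ = ‖v‖)

omit [Fintype β] in
theorem extHom_swap (b : Bool) (x y : β) : extHom b (swap x y) = swap (b, x) (b, y) := by
  refine Equiv.ext ?_
  rintro ⟨c, z⟩
  simp only [extHom, MonoidHom.coe_mk, OneHom.coe_mk, Equiv.coe_fn_mk]
  by_cases hc : c = b
  · subst hc
    simp only [if_true]
    by_cases hx : z = x
    · subst hx; simp
    · by_cases hy : z = y
      · subst hy; simp
      · rw [swap_apply_of_ne_of_ne hx hy, swap_apply_of_ne_of_ne] <;> simp [hx, hy]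
  · simp only [hc, if_false]
    rw [swap_apply_of_ne_of_ne] <;> simp [hc]

theorem gen_eq : gen ρ = (1 / (4 * (Fintype.card β : ℝ))) • ∑ x, ∑ y, sop ρ x y := by
  unfold gen
  rw [Fintype.card_prod, Fintype.card_bool]
  congr 1
  · push_cast; ring
  · simp only [Fintype.sum_prod_type, Fintype.sum_bool, ← Finset.sum_add_distrib]
    refine Finset.sum_congr rfl fun x _ => Finset.sum_congr rfl fun y _ => ?_
    unfold sop aop bop
    have : (4 : ℝ) • (1 : V →L[ℝ] V) = 1 + 1 + 1 + 1 := by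
      ext v
      simp only [smul_apply, one_apply_eq_self, add_apply]
      module
    rw [this]
    abel

theorem gen_half_eq (b : Bool) : gen (ρ.comp (extHom (β := β) b)) =
    (1 / (2 * (Fintype.card β : ℝ))) • ∑ x, ∑ y, (1 - ρ (swap (b, x) (b, y))) := by
  unfold gen
  simp only [MonoidHom.comp_apply, extHom_swap]

theorem gen_sub_halves : gen ρ - (gen (ρ.comp (extHom (β := β) true)) +
      gen (ρ.comp (extHom (β := β) false))) =
    (1 / (4 * (Fintype.card β : ℝ))) • ∑ x, ∑ y, (aop ρ x y - bop ρ x y) := by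
  rw [gen_eq, gen_half_eq, gen_half_eq, ← smul_add, ← Finset.sum_add_distrib]
  have h : (1 / (2 * (Fintype.card β : ℝ))) = (1 / (4 * (Fintype.card β : ℝ))) * 2 := by ring
  rw [h, mul_smul, ← smul_sub]
  congr 1
  rw [Finset.smul_sum, ← Finset.sum_sub_distrib]
  refine Finset.sum_congr rfl fun x _ => ?_
  rw [← Finset.sum_add_distrib, Finset.smul_sum, ← Finset.sum_sub_distrib]
  refine Finset.sum_congr rfl fun y _ => ?_
  unfold sop aop bop
  module

theorem gen_sub_halves' [Nonempty β] : gen ρ - (gen (ρ.comp (extHom (β := β) true)) +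
      gen (ρ.comp (extHom (β := β) false))) =
    (1 / (2 * (Fintype.card β : ℝ))) • ∑ x, (1 - Hf ρ {x}) -
      (1 / 2 : ℝ) • ∑ p ∈ (Finset.univ : Finset β).offDiag, oop ρ p.1 p.2 := by
  have hN : (0 : ℝ) < Fintype.card β := by exact_mod_cast Fintype.card_pos
  rw [gen_sub_halves, sum_sum_eq_diag_add_offDiag, smul_add, sub_eq_add_neg]
  congr 1
  · have : (1 / (2 * (Fintype.card β : ℝ))) = (1 / (4 * (Fintype.card β : ℝ))) * 2 := by ring
    rw [this, mul_smul]
    congr 1
    rw [Finset.smul_sum]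
    refine Finset.sum_congr rfl fun x _ => ?_
    unfold aop bop
    rw [Hf, flipE_singleton, swap_self, swap_self, swap_comm (true, x) (false, x)]
    have h1 : ρ (Equiv.refl (Bool × β)) = 1 := map_one ρ
    rw [h1]
    module
  · rw [Finset.smul_sum, Finset.smul_sum, ← Finset.sum_neg_distrib]
    refine Finset.sum_congr rfl fun p _ => ?_
    unfold oop
    rw [← smul_neg, ← smul_neg, neg_sub, smul_smul]
    congr 1
    ring

end gens

section sector

variable {β : Type*} [Fintype β] [DecidableEq β]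
variable {V : Type*} [NormedAddCommGroup V] [InnerProductSpace ℝ V]
variable (ρ : Perm (Bool × β) →* (V →L[ℝ] V)) (hρ : ∀ g v, ‖ρ g v‖ = ‖v‖)

/-- The generator commutes with the group. -/
theorem gen_comm {ι : Type*} [Fintype ι] [DecidableEq ι] (σ : Perm ι →* (V →L[ℝ] V))
    (g : Perm ι) : σ g * gen σ = gen σ * σ g := by
  unfold gen
  rw [mul_smul_comm, smul_mul_assoc]
  congr 1
  rw [Finset.mul_sum, Finset.sum_mul, ← Equiv.sum_comp g (fun a => (∑ b, (1 - σ (swap a b))) * σ g)]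
  refine Finset.sum_congr rfl fun a _ => ?_
  rw [Finset.mul_sum, Finset.sum_mul, ← Equiv.sum_comp g (fun b => (1 - σ (swap (g a) b)) * σ g)]
  refine Finset.sum_congr rfl fun b _ => ?_
  rw [mul_sub, sub_mul, one_mul, mul_one, ← map_mul, ← map_mul, mul_swap_eq_swap_mul]

theorem gen_comm_Pr (D : Finset β) : Pr ρ D * gen ρ = gen ρ * Pr ρ D := by
  unfold Pr
  rw [mul_smul_comm, smul_mul_assoc]
  congr 1
  rw [Finset.mul_sum, Finset.sum_mul]
  refine Finset.sum_congr rfl fun E _ => ?_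
  rw [mul_smul_comm, smul_mul_assoc]
  congr 1
  exact gen_comm ρ _

/-- The generator is symmetric. -/
theorem gen_symm {ι : Type*} [Fintype ι] [DecidableEq ι] (σ : Perm ι →* (V →L[ℝ] V))
    (hσ : ∀ g v, ‖σ g v‖ = ‖v‖) (u v : V) : ⟪gen σ u, v⟫_ℝ = ⟪u, gen σ v⟫_ℝ := by
  unfold gen
  simp only [smul_apply, sum_apply, sub_apply, one_apply_eq_self, inner_smul_left,
    inner_smul_right, sum_inner, inner_sum, inner_sub_left, inner_sub_right,
    inner_rho_left σ hσ, swap_inv]
  simp only [one_div, mul_inv_rev, Real.ringHom_apply, Finset.sum_sub_distrib, Finset.sum_const, Finset.card_univ, nsmul_eq_mul]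

theorem inner_gen_le {ι : Type*} [Fintype ι] [DecidableEq ι] [Nonempty ι]
    (σ : Perm ι →* (V →L[ℝ] V))
    (hσ : ∀ g v, ‖σ g v‖ = ‖v‖) (u : V) : ⟪u, gen σ u⟫_ℝ ≤ (Fintype.card ι : ℝ) * ‖u‖ ^ 2 := by
  have hN : (0 : ℝ) < Fintype.card ι := by exact_mod_cast Fintype.card_pos
  unfold gen
  simp only [smul_apply, sum_apply, sub_apply, one_apply_eq_self, inner_smul_right, inner_sum,
    inner_sub_right, real_inner_self_eq_norm_sq]
  have h : ∑ a : ι, ∑ b : ι, (‖u‖ ^ 2 - ⟪u, σ (swap a b) u⟫_ℝ) ≤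
      ∑ a : ι, ∑ b : ι, 2 * ‖u‖ ^ 2 := by
    refine Finset.sum_le_sum fun a _ => Finset.sum_le_sum fun b _ => ?_
    have := neg_le_inner_rho_self σ hσ (swap a b) u
    linarith only [this]
  calc 1 / (2 * (Fintype.card ι : ℝ)) * ∑ a : ι, ∑ b : ι, (‖u‖ ^ 2 - ⟪u, σ (swap a b) u⟫_ℝ)
      ≤ 1 / (2 * (Fintype.card ι : ℝ)) * ∑ a : ι, ∑ b : ι, 2 * ‖u‖ ^ 2 := by gcongr
    _ = (Fintype.card ι : ℝ) * ‖u‖ ^ 2 := by
      rw [Finset.sum_const, Finset.sum_const, Finset.card_univ, nsmul_eq_mul, nsmul_eq_mul]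
      field_simp

theorem inner_gen_nonneg {ι : Type*} [Fintype ι] [DecidableEq ι]
    (σ : Perm ι →* (V →L[ℝ] V))
    (hσ : ∀ g v, ‖σ g v‖ = ‖v‖) (u : V) : 0 ≤ ⟪u, gen σ u⟫_ℝ := by
  unfold gen
  simp only [smul_apply, sum_apply, sub_apply, one_apply_eq_self, inner_smul_right, inner_sum,
    inner_sub_right, real_inner_self_eq_norm_sq]
  refine mul_nonneg (by (clear * -; positivity)) ?_
  refine Finset.sum_nonneg fun a _ => Finset.sum_nonneg fun b _ => ?_
  have := inner_rho_self_le σ hσ (swap a b) u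
  linarith

end sector

section main

variable {β : Type*} [Fintype β] [DecidableEq β]
variable {V : Type*} [NormedAddCommGroup V] [InnerProductSpace ℝ V]
variable (ρ : Perm (Bool × β) →* (V →L[ℝ] V)) (hρ : ∀ g v, ‖ρ g v‖ = ‖v‖)

theorem Pr_Pr (D : Finset β) (z : V) : Pr ρ D (Pr ρ D z) = Pr ρ D z := by
  rw [← mul_apply_eq_comp, Pr_mul_Pr, if_pos rfl]

theorem Hf_Pr (F D : Finset β) (z : V) : Hf ρ F (Pr ρ D z) = sgn D F • Pr ρ D z := by
  rw [← mul_apply_eq_comp, Hf_mul_Pr]; rfl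

include hρ

theorem inner_Pr_Pr (D : Finset β) (z w : V) : ⟪Pr ρ D z, Pr ρ D w⟫_ℝ = ⟪Pr ρ D z, w⟫_ℝ := by
  rw [← Pr_symm ρ hρ, Pr_Pr]

theorem inner_Pr_self (D : Finset β) (z : V) : ⟪Pr ρ D z, z⟫_ℝ = ‖Pr ρ D z‖ ^ 2 := by
  rw [← inner_Pr_Pr ρ hρ, real_inner_self_eq_norm_sq]

theorem sum_norm_Pr_sq (z : V) : ∑ D : Finset β, ‖Pr ρ D z‖ ^ 2 = ‖z‖ ^ 2 := by
  simp_rw [← inner_Pr_self ρ hρ]
  rw [← sum_inner, ← sum_apply, sum_Pr, one_apply_eq_self, real_inner_self_eq_norm_sq]

theorem inner_Pr_gen (D : Finset β) (z : V) :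
    ⟪Pr ρ D z, gen ρ z⟫_ℝ = ⟪Pr ρ D z, gen ρ (Pr ρ D z)⟫_ℝ := by
  rw [← inner_Pr_Pr ρ hρ, ← mul_apply_eq_comp (Pr ρ D) (gen ρ) z, gen_comm_Pr, mul_apply_eq_comp]

theorem inner_Pr_oop (D : Finset β) (z : V) {x y : β} (hxy : x ≠ y) :
    ⟪Pr ρ D z, oop ρ x y z⟫_ℝ = kel ρ z x y D := by
  unfold kel
  rw [← inner_Pr_Pr ρ hρ D z (oop ρ x y z), ← mul_apply_eq_comp (oop ρ x y),
    oop_mul_Pr ρ _ hxy, symmDiff_symmDiff_cancel_left, mul_apply_eq_comp]

theorem inner_Pr_sub_Hf (D : Finset β) (z : V) (x : β) :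
    ⟪Pr ρ D z, ((1 : V →L[ℝ] V) - Hf ρ {x}) z⟫_ℝ =
      if x ∈ D then 2 * ‖Pr ρ D z‖ ^ 2 else 0 := by
  rw [sub_apply, one_apply_eq_self, inner_sub_right, ← Hf_symm ρ hρ, Hf_Pr, sgn_singleton,
    inner_smul_left, inner_Pr_self ρ hρ]
  split_ifs <;> simp
  ring

theorem inner_Pr_gen_sub [Nonempty β] (D : Finset β) (z : V) :
    ⟪Pr ρ D z, (gen ρ - (gen (ρ.comp (extHom (β := β) true)) +
      gen (ρ.comp (extHom (β := β) false)))) z⟫_ℝ =
    (D.card : ℝ) / (Fintype.card β : ℝ) * ‖Pr ρ D z‖ ^ 2 -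
      1 / 2 * ∑ p ∈ (Finset.univ : Finset β).offDiag, kel ρ z p.1 p.2 D := by
  have hN : (0 : ℝ) < Fintype.card β := by exact_mod_cast Fintype.card_pos
  rw [gen_sub_halves']
  simp only [sub_apply, smul_apply, sum_apply, inner_sub_right, inner_smul_right, inner_sum]
  congr 1
  · have : ∀ x, ⟪Pr ρ D z, (1 : V →L[ℝ] V) z⟫_ℝ - ⟪Pr ρ D z, Hf ρ {x} z⟫_ℝ =
        if x ∈ D then 2 * ‖Pr ρ D z‖ ^ 2 else 0 := fun x => by
      rw [← inner_Pr_sub_Hf ρ hρ D z x, sub_apply, inner_sub_right]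
    simp_rw [this]
    rw [Finset.sum_ite_mem, Finset.univ_inter, Finset.sum_const, nsmul_eq_mul]
    (clear hρ hN this; field_simp)
  · congr 1
    refine Finset.sum_congr rfl fun p hp => ?_
    rw [Finset.mem_offDiag] at hp
    exact inner_Pr_oop ρ hρ D z hp.2.2

theorem sum_bel_le [Nonempty β] {W μ : ℝ} (hW : 0 < W) (hμ : 0 < μ) (z : V) (D : Finset β) :
    1 / 2 * ∑ p ∈ (Finset.univ : Finset β).offDiag, bel ρ W μ z p.1 p.2 D ≤
      2 * (D.card : ℝ) * ‖Pr ρ D z‖ ^ 2 + W / (4 * μ) * (D.card : ℝ) * ‖Pr ρ D z‖ ^ 2 +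
      W * μ * ((D.card : ℝ) + 1) / (2 * (Fintype.card β : ℝ)) *
        ⟪Pr ρ D z, gen ρ (Pr ρ D z)⟫_ℝ := by
  have hN : (0 : ℝ) < Fintype.card β := by exact_mod_cast Fintype.card_pos
  set N : ℝ := (Fintype.card β : ℝ) with hNdef
  set m : ℝ := (D.card : ℝ) with hm
  set u := Pr ρ D z with hu
  have hm0 : 0 ≤ m := by (clear * -; (clear * -; positivity))
  -- termwise bound
  have h1 : ∀ p ∈ (Finset.univ : Finset β).offDiag, bel ρ W μ z p.1 p.2 D ≤
      ((if p.1 ∈ D then 2 / N * ‖u‖ ^ 2 else 0) + (if p.2 ∈ D then 2 / N * ‖u‖ ^ 2 else 0)) +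
      (if p.1 ∈ D ∧ p.2 ∈ D then W / (2 * μ * (m - 1)) * ‖u‖ ^ 2 else 0) +
      W * μ * (m + 1) / 2 * (1 / (2 * N ^ 2) * ⟪u, sop ρ p.1 p.2 u⟫_ℝ) := by
    intro p hp
    rw [Finset.mem_offDiag] at hp
    have hs := sop_nonneg ρ hρ p.1 p.2 u
    have hs' : 0 ≤ W * μ * (m + 1) / 2 * (1 / (2 * N ^ 2) * ⟪u, sop ρ p.1 p.2 u⟫_ℝ) := by
      (clear hN hNdef hm hu hm0 hp; positivity)
    have hn : 0 ≤ 2 / N * ‖u‖ ^ 2 := by (clear hρ W μ hW hμ hN hNdef m hm hu hm0 p hp hs hs'; positivity)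
    unfold bel
    by_cases hx : p.1 ∈ D <;> by_cases hy : p.2 ∈ D
    · simp only [hx, hy, if_true, and_self]
      linarith only [hs', hn]
    · simp only [hx, hy, if_true, if_false, and_false]
      linarith only [hs']
    · simp only [hx, hy, if_true, if_false, false_and]
      linarith only [hs']
    · simp only [hx, hy, if_false, false_and]
      have hstar := norm_oop_sq_le ρ hρ hp.2.2 u
        (by rw [hu, Hf_Pr, sgn_singleton, if_neg hx, one_smul])
        (by rw [hu, Hf_Pr, sgn_singleton, if_neg hy, one_smul])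
      have : W * μ * (m + 1) / 2 * ‖oop ρ p.1 p.2 u‖ ^ 2 ≤
          W * μ * (m + 1) / 2 * (1 / (2 * N ^ 2) * ⟪u, sop ρ p.1 p.2 u⟫_ℝ) := by
        (clear * - hstar hW hμ; gcongr)
      linarith only [this]
  have h2 := Finset.sum_le_sum h1
  rw [Finset.sum_add_distrib, Finset.sum_add_distrib, sum_offDiag_both, ← Finset.mul_sum,
    ← Finset.mul_sum] at h2
  -- first sum
  have h3 : ∑ p ∈ (Finset.univ : Finset β).offDiag,
      ((if p.1 ∈ D then 2 / N * ‖u‖ ^ 2 else 0) + (if p.2 ∈ D then 2 / N * ‖u‖ ^ 2 else 0)) ≤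
      4 * m * ‖u‖ ^ 2 := by
    refine (sum_offDiag_le (fun x y => (if x ∈ D then 2 / N * ‖u‖ ^ 2 else 0) +
      (if y ∈ D then 2 / N * ‖u‖ ^ 2 else 0)) ?_).trans ?_
    · intro x
      split_ifs <;> positivity
    · simp only [Finset.sum_add_distrib, Finset.sum_ite_mem, Finset.univ_inter, Finset.sum_const,
        Finset.card_univ, nsmul_eq_mul, ← Finset.mul_sum]
      rw [← hNdef, ← hm]
      apply le_of_eq
      field_simp
      ring
  -- second
  have h4 : m * (m - 1) * (W / (2 * μ * (m - 1)) * ‖u‖ ^ 2) ≤ W / (2 * μ) * m * ‖u‖ ^ 2 := by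
    by_cases h : m - 1 = 0
    · rw [h]
      have : 0 ≤ W / (2 * μ) * m * ‖u‖ ^ 2 := by (clear * - hW hμ; (clear * - hW hμ; positivity))
      simpa only [mul_zero, div_zero, zero_mul, ge_iff_le] using this
    · apply le_of_eq
      (clear * - h hμ hW; field_simp)
  -- third
  have h5 : ∑ p ∈ (Finset.univ : Finset β).offDiag, ⟪u, sop ρ p.1 p.2 u⟫_ℝ ≤
      4 * N * ⟪u, gen ρ u⟫_ℝ := by
    refine (sum_offDiag_le (fun x y => ⟪u, sop ρ x y u⟫_ℝ) fun x => sop_nonneg ρ hρ x x u).trans ?_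
    rw [gen_eq]
    simp only [smul_apply, sum_apply, inner_smul_right, inner_sum]
    rw [← hNdef]
    apply le_of_eq
    (clear * - hN; field_simp)
  have h6 : W * μ * (m + 1) / 2 * (1 / (2 * N ^ 2) *
      ∑ p ∈ (Finset.univ : Finset β).offDiag, ⟪u, sop ρ p.1 p.2 u⟫_ℝ) ≤
      W * μ * (m + 1) / 2 * (1 / (2 * N ^ 2) * (4 * N * ⟪u, gen ρ u⟫_ℝ)) := by
    (clear hm hu hm0 h1 h2 h3 h4; gcongr)
  have h7 : W * μ * (m + 1) / 2 * (1 / (2 * N ^ 2) * (4 * N * ⟪u, gen ρ u⟫_ℝ)) =
      2 * (W * μ * (m + 1) / (2 * N) * ⟪u, gen ρ u⟫_ℝ) := by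
    field_simp
    ring
  have h8 : W / (2 * μ) * m * ‖u‖ ^ 2 = 2 * (W / (4 * μ) * m * ‖u‖ ^ 2) := by
    field_simp
    ring
  linarith only [h2, h3, h4, h6, h7, h8]

end main

end Vale.Agent.P162
end
end
end

section

section

section

/-!
# P162: the key lemma
-/

namespace Vale.Agent.P162

open scoped InnerProductSpace symmDiff
open Equiv

section core

variable {β : Type*} [Fintype β] [DecidableEq β]
variable {V : Type*} [NormedAddCommGroup V] [InnerProductSpace ℝ V]
variable (ρ : Perm (Bool × β) →* (V →L[ℝ] V)) (hρ : ∀ g v, ‖ρ g v‖ = ‖v‖)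

/-- Twice the operator driving the interpolation. -/
noncomputable def drive (t : ℝ) : V →L[ℝ] V :=
  gen ρ - (gen (ρ.comp (extHom (β := β) true)) + gen (ρ.comp (extHom (β := β) false))) -
    (5 * t / (2 * (Fintype.card β : ℝ))) • gen ρ

include hρ

theorem core_ineq [Nonempty β] {θ t : ℝ} (hθ : 0 < θ) (hW : θ + 1 / θ ≤ 309 / 100)
    (ht0 : 0 < t) (ht : t ≤ 7 / 100) (z : V) :
    ∑ D : Finset β, θ ^ D.card * ⟪Pr ρ D z, drive ρ t z⟫_ℝ ≤
      ∑ D : Finset β, θ ^ D.card * ((D.card : ℝ) / t * ‖Pr ρ D z‖ ^ 2) := by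
  have hN : (0 : ℝ) < Fintype.card β := by exact_mod_cast Fintype.card_pos
  have hN1 : (1 : ℝ) ≤ Fintype.card β := by exact_mod_cast Fintype.card_pos
  set N : ℝ := (Fintype.card β : ℝ) with hNdef
  set W : ℝ := θ + 1 / θ with hWdef
  have hWpos : 0 < W := by (clear * - hθ; positivity)
  set μ : ℝ := 5 * t / W with hμdef
  have hμ : 0 < μ := by positivity
  have hWμ : W * μ = 5 * t := by rw [hμdef]; (clear * - hWpos ht0; field_simp)
  -- expansion
  have h1 : ∀ D : Finset β, ⟪Pr ρ D z, drive ρ t z⟫_ℝ =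
      (D.card : ℝ) / N * ‖Pr ρ D z‖ ^ 2 -
      1 / 2 * ∑ p ∈ (Finset.univ : Finset β).offDiag, kel ρ z p.1 p.2 D -
      5 * t / (2 * N) * ⟪Pr ρ D z, gen ρ (Pr ρ D z)⟫_ℝ := by
    intro D
    unfold drive
    rw [sub_apply, inner_sub_right, inner_Pr_gen_sub ρ hρ, smul_apply, inner_smul_right,
      inner_Pr_gen ρ hρ]
  -- pair sums
  have h2 : ∑ D : Finset β, θ ^ D.card *
      (-(1 / 2 * ∑ p ∈ (Finset.univ : Finset β).offDiag, kel ρ z p.1 p.2 D)) ≤
      ∑ D : Finset β, θ ^ D.card *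
      (1 / 2 * ∑ p ∈ (Finset.univ : Finset β).offDiag, bel ρ W μ z p.1 p.2 D) := by
    have e1 : ∑ D : Finset β, θ ^ D.card *
      (-(1 / 2 * ∑ p ∈ (Finset.univ : Finset β).offDiag, kel ρ z p.1 p.2 D)) =
      1 / 2 * ∑ p ∈ (Finset.univ : Finset β).offDiag,
        -∑ D : Finset β, θ ^ D.card * kel ρ z p.1 p.2 D := by
      rw [Finset.sum_neg_distrib, Finset.sum_comm, mul_neg, Finset.mul_sum,
        ← Finset.sum_neg_distrib]
      refine Finset.sum_congr rfl fun D _ => ?_
      rw [← Finset.mul_sum]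
      ring
    have e2 : ∑ D : Finset β, θ ^ D.card *
      (1 / 2 * ∑ p ∈ (Finset.univ : Finset β).offDiag, bel ρ W μ z p.1 p.2 D) =
      1 / 2 * ∑ p ∈ (Finset.univ : Finset β).offDiag,
        ∑ D : Finset β, θ ^ D.card * bel ρ W μ z p.1 p.2 D := by
      rw [Finset.sum_comm, Finset.mul_sum]
      refine Finset.sum_congr rfl fun D _ => ?_
      rw [← Finset.mul_sum]
      ring
    rw [e1, e2]
    have : ∀ p ∈ (Finset.univ : Finset β).offDiag,
        -∑ D : Finset β, θ ^ D.card * kel ρ z p.1 p.2 D ≤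
        ∑ D : Finset β, θ ^ D.card * bel ρ W μ z p.1 p.2 D := by
      intro p hp
      rw [Finset.mem_offDiag] at hp
      exact sum_pair_bound ρ hρ hθ hμ hWdef z hp.2.2
    have := Finset.sum_le_sum this
    linarith only [this]
  have h3 : ∑ D : Finset β, θ ^ D.card * ⟪Pr ρ D z, drive ρ t z⟫_ℝ =
      ∑ D : Finset β, θ ^ D.card *
      (-(1 / 2 * ∑ p ∈ (Finset.univ : Finset β).offDiag, kel ρ z p.1 p.2 D)) +
      ∑ D : Finset β, θ ^ D.card * ((D.card : ℝ) / N * ‖Pr ρ D z‖ ^ 2 -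
        5 * t / (2 * N) * ⟪Pr ρ D z, gen ρ (Pr ρ D z)⟫_ℝ) := by
    rw [← Finset.sum_add_distrib]
    refine Finset.sum_congr rfl fun D _ => ?_
    rw [h1]
    ring
  rw [h3]
  refine (add_le_add_left h2 _).trans ?_
  rw [← Finset.sum_add_distrib]
  refine Finset.sum_le_sum fun D _ => ?_
  rw [← mul_add]
  refine mul_le_mul_of_nonneg_left ?_ (by positivity)
  have h4 := sum_bel_le ρ hρ hWpos hμ z D
  rw [hWμ] at h4
  have h5 : ⟪Pr ρ D z, gen ρ (Pr ρ D z)⟫_ℝ ≤ 2 * N * ‖Pr ρ D z‖ ^ 2 := by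
    have := inner_gen_le ρ hρ (Pr ρ D z)
    rwa [Fintype.card_prod, Fintype.card_bool, Nat.cast_mul, Nat.cast_ofNat, ← hNdef] at this
  set m : ℝ := (D.card : ℝ) with hm
  have hm0 : 0 ≤ m := by (clear * -; positivity)
  set q : ℝ := ‖Pr ρ D z‖ ^ 2 with hq
  have hq0 : 0 ≤ q := by (clear * -; positivity)
  set G : ℝ := ⟪Pr ρ D z, gen ρ (Pr ρ D z)⟫_ℝ with hG
  have h6 : 5 * t * (m + 1) / (2 * N) * G - 5 * t / (2 * N) * G ≤ 5 * t * m * q := by
    have e : 5 * t * (m + 1) / (2 * N) * G - 5 * t / (2 * N) * G = 5 * t * m / (2 * N) * G := by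
      ring
    rw [e]
    calc 5 * t * m / (2 * N) * G ≤ 5 * t * m / (2 * N) * (2 * N * q) := by (clear hρ θ hθ ht hN hN1 hNdef W hW hWdef hWpos μ hμdef hμ hWμ h1 h2 h3 hm hm0 hq hq0 h4 hG e; gcongr)
      _ = 5 * t * m * q := by (clear * - hN ht0; field_simp)
  have h7 : W / (4 * μ) = W ^ 2 / (20 * t) := by
    rw [hμdef]; field_simp; ring
  rw [h7] at h4
  have h8 : m / N * q ≤ m * q := by
    have : m / N ≤ m := div_le_self hm0 hN1
    (clear * - this; gcongr)
  have h9 : 2 * m * q + W ^ 2 / (20 * t) * m * q + 5 * t * m * q + m * q ≤ m / t * q := by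
    have hW2 : W ^ 2 ≤ 9.5481 := by nlinarith only [hW, hWpos]
    have e : m / t * q - (2 * m * q + W ^ 2 / (20 * t) * m * q + 5 * t * m * q + m * q) =
        m * q / t * (1 - (3 * t + W ^ 2 / 20 + 5 * t ^ 2)) := by
      field_simp
      ring
    have h10 : 0 ≤ 1 - (3 * t + W ^ 2 / 20 + 5 * t ^ 2) := by nlinarith only [ht0, ht, hW2]
    have h11 : 0 ≤ m * q / t * (1 - (3 * t + W ^ 2 / 20 + 5 * t ^ 2)) := by (clear * - ht0 h10; positivity)
    linarith only [e, h11]
  linarith only [h4, h6, h8, h9]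

end core

section ode

open NormedSpace

variable {β : Type*} [Fintype β] [DecidableEq β]
variable {V : Type*} [NormedAddCommGroup V] [InnerProductSpace ℝ V] [CompleteSpace V]
variable (ρ : Perm (Bool × β) →* (V →L[ℝ] V)) (hρ : ∀ g v, ‖ρ g v‖ = ‖v‖)

theorem hasDerivAt_exp_apply (M : V →L[ℝ] V) (v : V) (s : ℝ) :
    HasDerivAt (fun s : ℝ => exp (s • M) v) (M (exp (s • M) v)) s := by
  have h := hasDerivAt_exp_smul_const' (𝕂 := ℝ) M s
  have h2 := ((ContinuousLinearMap.apply ℝ V v).hasFDerivAt).comp_hasDerivAt s h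
  exact h2

/-- The interpolation functional. -/
noncomputable def phi (t : ℝ) (v : V) (s : ℝ) : ℝ :=
  ∑ D : Finset β, Real.exp (1 - s / t) ^ D.card *
    ‖Pr ρ D (exp (s • ((1 / 2 : ℝ) • drive ρ t)) v)‖ ^ 2

include hρ

theorem hasDerivAt_phi (t : ℝ) (v : V) (s : ℝ) :
    HasDerivAt (phi ρ t v)
      (∑ D : Finset β, (-((D.card : ℝ) / t) * Real.exp (1 - s / t) ^ D.card *
          ‖Pr ρ D (exp (s • ((1 / 2 : ℝ) • drive ρ t)) v)‖ ^ 2 +
        Real.exp (1 - s / t) ^ D.card *
          ⟪Pr ρ D (exp (s • ((1 / 2 : ℝ) • drive ρ t)) v),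
            drive ρ t (exp (s • ((1 / 2 : ℝ) • drive ρ t)) v)⟫_ℝ)) s := by
  unfold phi
  apply HasDerivAt.fun_sum
  intro D _
  have h1 : HasDerivAt (fun s : ℝ => Real.exp (1 - s / t) ^ D.card)
      (-((D.card : ℝ) / t) * Real.exp (1 - s / t) ^ D.card) s := by
    have e : (fun s : ℝ => Real.exp (1 - s / t) ^ D.card) =
        fun s : ℝ => Real.exp ((D.card : ℝ) * (1 - s / t)) := by
      funext s
      rw [← Real.exp_nat_mul]
    have e' : Real.exp (1 - s / t) ^ D.card = Real.exp ((D.card : ℝ) * (1 - s / t)) := by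
      rw [← Real.exp_nat_mul]
    rw [e, e']
    have h : HasDerivAt (fun s : ℝ => (D.card : ℝ) * (1 - s / t)) (-((D.card : ℝ) / t)) s := by
      have h0 : HasDerivAt (fun s : ℝ => 1 - s / t) (-(1 / t)) s :=
        ((hasDerivAt_id s).div_const t).const_sub 1
      exact (h0.const_mul (D.card : ℝ)).congr_deriv (by ring)
    exact h.exp.congr_deriv (by ring)
  have h2 : HasDerivAt (fun s : ℝ => ‖Pr ρ D (exp (s • ((1 / 2 : ℝ) • drive ρ t)) v)‖ ^ 2)
      (⟪Pr ρ D (exp (s • ((1 / 2 : ℝ) • drive ρ t)) v),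
            drive ρ t (exp (s • ((1 / 2 : ℝ) • drive ρ t)) v)⟫_ℝ) s := by
    have h := hasDerivAt_exp_apply ((1 / 2 : ℝ) • drive ρ t) v s
    have h3 : HasDerivAt (fun s : ℝ => Pr ρ D (exp (s • ((1 / 2 : ℝ) • drive ρ t)) v))
        (Pr ρ D (((1 / 2 : ℝ) • drive ρ t) (exp (s • ((1 / 2 : ℝ) • drive ρ t)) v))) s :=
      ((Pr ρ D).hasFDerivAt).comp_hasDerivAt s h
    refine h3.norm_sq.congr_deriv ?_
    rw [inner_Pr_Pr ρ hρ, smul_apply, inner_smul_right]
    ring
  exact h1.mul h2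

theorem phi_le [Nonempty β] {t : ℝ} (ht0 : 0 < t) (ht : t ≤ 7 / 100) (v : V) :
    phi ρ t v t ≤ phi ρ t v 0 := by
  have hanti : AntitoneOn (phi ρ t v) (Set.Icc 0 t) := by
    apply antitoneOn_of_deriv_nonpos (convex_Icc 0 t)
    · exact fun s _ => (hasDerivAt_phi ρ hρ t v s).continuousAt.continuousWithinAt
    · exact fun s _ => (hasDerivAt_phi ρ hρ t v s).differentiableAt.differentiableWithinAt
    · intro s hs
      rw [interior_Icc] at hs
      rw [(hasDerivAt_phi ρ hρ t v s).deriv]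
      set z := exp (s • ((1 / 2 : ℝ) • drive ρ t)) v with hz
      have hs0 : 0 ≤ 1 - s / t := by
        rw [sub_nonneg, div_le_one ht0]
        exact hs.2.le
      have hs1 : 1 - s / t ≤ 1 := by
        have : 0 ≤ s / t := div_nonneg hs.1.le ht0.le
        linarith only [this]
      set θ := Real.exp (1 - s / t) with hθ
      have hθ1 : 1 ≤ θ := Real.one_le_exp hs0
      have hθe : θ ≤ Real.exp 1 := Real.exp_le_exp.mpr hs1
      have hθpos : 0 < θ := Real.exp_pos _
      have he : Real.exp 1 < 2.7182818286 := Real.exp_one_lt_d9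
      have he' : 2.7182818283 < Real.exp 1 := Real.exp_one_gt_d9
      have hW : θ + 1 / θ ≤ 309 / 100 := by
        have h1 : θ * (θ + 1 / θ) = θ ^ 2 + 1 := by (clear * - hθ1; field_simp)
        have h2 : θ ^ 2 + 1 ≤ θ * (309 / 100) := by nlinarith only [hθe, he, hθ1]
        rw [← h1] at h2
        exact le_of_mul_le_mul_left h2 hθpos
      have h := core_ineq ρ hρ hθpos hW ht0 ht z
      rw [Finset.sum_add_distrib]
      have e : ∑ D : Finset β, -((D.card : ℝ) / t) * θ ^ D.card * ‖Pr ρ D z‖ ^ 2 =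
          -∑ D : Finset β, θ ^ D.card * ((D.card : ℝ) / t * ‖Pr ρ D z‖ ^ 2) := by
        rw [← Finset.sum_neg_distrib]
        refine Finset.sum_congr rfl fun D _ => ?_
        ring
      rw [e]
      linarith only [h]
  exact hanti (Set.left_mem_Icc.mpr ht0.le) (Set.right_mem_Icc.mpr ht0.le) ht0.le

omit [CompleteSpace V] in
theorem norm_Pr_eq_zero {v : V} (hv : ∀ x : β, ρ (swap (false, x) (true, x)) v = v)
    {D : Finset β} (hD : D ≠ ∅) : ‖Pr ρ D v‖ ^ 2 = 0 := by
  obtain ⟨x, hx⟩ := Finset.nonempty_iff_ne_empty.mpr hD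
  have h1 : ⟪Pr ρ D v, v⟫_ℝ = -⟪Pr ρ D v, v⟫_ℝ := by
    have h2 : Hf ρ {x} v = v := by rw [Hf, flipE_singleton, hv x]
    have h3 : ⟪Pr ρ D v, v⟫_ℝ = ⟪Pr ρ D v, Hf ρ {x} v⟫_ℝ := by rw [h2]
    rw [← Hf_symm ρ hρ, Hf_Pr, sgn_singleton, if_pos hx, neg_one_smul, inner_neg_left] at h3
    exact h3
  rw [← inner_Pr_self ρ hρ]
  linarith only [h1]

omit [CompleteSpace V] in
theorem phi_zero_eq {t : ℝ} {v : V} (hv : ∀ x : β, ρ (swap (false, x) (true, x)) v = v) :
    phi ρ t v 0 = ‖v‖ ^ 2 := by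
  rw [← sum_norm_Pr_sq ρ hρ v]
  unfold phi
  refine Finset.sum_congr rfl fun D _ => ?_
  rw [zero_smul, exp_zero, one_apply_eq_self]
  by_cases hD : D = ∅
  · subst hD; simp only [zero_div, sub_zero, Finset.card_empty, pow_zero, one_mul]
  · rw [norm_Pr_eq_zero ρ hρ hv hD, mul_zero]

omit [CompleteSpace V] in
theorem phi_end_eq {t : ℝ} (ht0 : 0 < t) (v : V) :
    phi ρ t v t = ‖exp (t • ((1 / 2 : ℝ) • drive ρ t)) v‖ ^ 2 := by
  rw [← sum_norm_Pr_sq ρ hρ]
  unfold phi
  refine Finset.sum_congr rfl fun D _ => ?_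
  rw [div_self ht0.ne', sub_self, Real.exp_zero, one_pow, one_mul]

theorem norm_exp_drive_le [Nonempty β] {t : ℝ} (ht0 : 0 < t) (ht : t ≤ 7 / 100) {v : V}
    (hv : ∀ x : β, ρ (swap (false, x) (true, x)) v = v) :
    ‖exp (t • ((1 / 2 : ℝ) • drive ρ t)) v‖ ≤ ‖v‖ := by
  have h := phi_le ρ hρ ht0 ht v
  rw [phi_end_eq ρ hρ ht0, phi_zero_eq ρ hρ hv] at h
  exact (sq_le_sq₀ (norm_nonneg _) (norm_nonneg _)).mp h

end ode

section final

open NormedSpace

variable {β : Type*} [Fintype β] [DecidableEq β]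
variable {V : Type*} [NormedAddCommGroup V] [InnerProductSpace ℝ V]

theorem gen_comm_comp {ι κ : Type*} [Fintype ι] [DecidableEq ι] [Fintype κ] [DecidableEq κ]
    (σ : Perm ι →* (V →L[ℝ] V)) (f : Perm κ →* Perm ι) :
    Commute (gen σ) (gen (σ.comp f)) := by
  have h : ∀ g, Commute (gen σ) (σ g) := fun g => (gen_comm σ g).symm
  unfold gen at h ⊢
  refine Commute.smul_right ?_ _
  refine Commute.sum_right _ _ _ fun a _ => Commute.sum_right _ _ _ fun b _ => ?_
  exact (Commute.one_right _).sub_right (h _)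

/-- **Key lemma.** -/
theorem keyLemma [FiniteDimensional ℝ V] [Nonempty β]
    (ρ : Perm (Bool × β) →* (V →L[ℝ] V)) (hρ : ∀ g v, ‖ρ g v‖ = ‖v‖)
    (t : ℝ) (ht0 : 0 < t) (ht : t ≤ 7 / 100) (v : V)
    (hv : ∀ x : β, ρ (swap (false, x) (true, x)) v = v) :
    ‖exp (-(t / 2) • (gen (ρ.comp (extHom true)) + gen (ρ.comp (extHom false)))) v‖ ≤
      ‖exp (-((t - 5 * t ^ 2 / (2 * Fintype.card β)) / 2) • gen ρ) v‖ := by
  have : CompleteSpace V := FiniteDimensional.complete ℝ V
  let : NormedAlgebra ℚ (V →L[ℝ] V) := NormedAlgebra.restrictScalars ℚ ℝ _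
  have hN : (0 : ℝ) < Fintype.card β := by exact_mod_cast Fintype.card_pos
  set A : V →L[ℝ] V := gen (ρ.comp (extHom true)) + gen (ρ.comp (extHom false)) with hA
  set r : ℝ := (t - 5 * t ^ 2 / (2 * Fintype.card β)) / 2 with hr
  set w : V := exp (-r • gen ρ) v with hw
  have hcomm : ∀ g, ρ g w = exp (-r • gen ρ) (ρ g v) := by
    intro g
    have h : Commute (ρ g) (exp (-r • gen ρ)) :=
      ((show Commute (ρ g) (gen ρ) from gen_comm ρ g).smul_right (-r)).exp_right
    rw [hw, ← mul_apply_eq_comp, h.eq, mul_apply_eq_comp]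
  have hwfix : ∀ x : β, ρ (swap (false, x) (true, x)) w = w := by
    intro x
    rw [hcomm, hv x]
  have h1 := norm_exp_drive_le ρ hρ ht0 ht hwfix
  have hAcomm : Commute A (gen ρ) := by
    rw [hA]
    exact ((gen_comm_comp ρ _).symm.add_left (gen_comm_comp ρ _).symm)
  have e1 : t • ((1 / 2 : ℝ) • drive ρ t) = -(t / 2) • A + r • gen ρ := by
    unfold drive
    rw [← hA]
    have e2 : r = t / 2 - t / 2 * (5 * t / (2 * (Fintype.card β : ℝ))) := by
      rw [hr]; (clear ρ hρ ht v hv hN A hA r hr w hw hcomm hwfix h1 hAcomm; field_simp)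
    rw [e2]
    module
  have e3 : exp (t • ((1 / 2 : ℝ) • drive ρ t)) w = exp (-(t / 2) • A) v := by
    rw [hw, ← mul_apply_eq_comp, ← exp_add_of_commute]
    · congr 2
      rw [e1]
      module
    · rw [e1]
      exact Commute.add_left ((hAcomm.smul_left _).smul_right _)
        (((Commute.refl (gen ρ)).smul_left _).smul_right _)
  rw [e3] at h1
  exact h1

end final

end Vale.Agent.P162
end
end
end

section

section

section

/-!
# P162: the key lemma with different times in the two halves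
-/

namespace Vale.Agent.P162

open scoped InnerProductSpace symmDiff
open Equiv

section dopdef

variable {β : Type*} [Fintype β] [DecidableEq β]
variable {V : Type*} [NormedAddCommGroup V] [InnerProductSpace ℝ V]
variable (ρ : Perm (Bool × β) →* (V →L[ℝ] V)) (hρ : ∀ g v, ‖ρ g v‖ = ‖v‖)

/-- The part of the pair of columns which is odd in the first column. -/
def cop (x y : β) : V →L[ℝ] V :=
  ρ (swap (true, x) (true, y)) + ρ (swap (true, x) (false, y)) -
    (ρ (swap (false, x) (true, y)) + ρ (swap (false, x) (false, y)))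

/-- The part of the difference of the halves which is odd in the column `x`. -/
noncomputable def dop (x : β) : V →L[ℝ] V :=
  (-(1 / (2 * (Fintype.card β : ℝ)))) • ∑ y, cop ρ x y

omit [Fintype β] in
theorem Hf_mul_cop (E : Finset β) (x y : β) :
    Hf ρ E * cop ρ x y = (if x ∈ E then (-1 : ℝ) else 1) • (cop ρ x y * Hf ρ E) := by
  unfold cop
  rw [mul_sub, mul_add, mul_add]
  simp only [Hf_mul_swap, flipE_apply]
  by_cases hx : x ∈ E <;> by_cases hy : y ∈ E
  · simp only [hx, hy, if_true, Bool.not_true, Bool.not_false, sub_mul, add_mul, neg_smul,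
      one_smul]
    abel
  · simp only [hx, Bool.not_true, if_true, hy, if_false, Bool.not_false, sub_mul, add_mul, neg_smul, one_smul]
    abel
  · simp only [hx, Bool.not_true, if_false, hy, if_true, Bool.not_false, sub_mul, add_mul, one_smul]
    abel
  · simp only [hx, if_false, hy, sub_mul, add_mul, one_smul]

theorem Hf_mul_dop (E : Finset β) (x : β) :
    Hf ρ E * dop ρ x = sgn {x} E • (dop ρ x * Hf ρ E) := by
  unfold dop
  rw [mul_smul_comm, Finset.mul_sum, smul_mul_assoc, Finset.sum_mul, smul_comm]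
  congr 1
  rw [Finset.smul_sum]
  refine Finset.sum_congr rfl fun y _ => ?_
  rw [Hf_mul_cop, sgn_singleton_left]

theorem dop_mul_Hf (E : Finset β) (x : β) :
    dop ρ x * Hf ρ E = sgn {x} E • (Hf ρ E * dop ρ x) := by
  rw [Hf_mul_dop, smul_smul, sgn_mul_self, one_smul]

theorem dop_mul_Pr (D : Finset β) (x : β) :
    dop ρ x * Pr ρ D = Pr ρ ({x} ∆ D) * dop ρ x := by
  unfold Pr
  rw [mul_smul_comm, smul_mul_assoc, Finset.mul_sum, Finset.sum_mul]
  congr 1
  refine Finset.sum_congr rfl fun E _ => ?_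
  rw [mul_smul_comm, smul_mul_assoc, dop_mul_Hf ρ E, smul_smul, sgn_symmDiff_left, mul_comm]

theorem sum_dop : gen (ρ.comp (extHom (β := β) true)) - gen (ρ.comp (extHom (β := β) false)) =
    ∑ x, dop ρ x := by
  rw [gen_half_eq, gen_half_eq, ← smul_sub, ← Finset.sum_sub_distrib]
  unfold dop
  rw [← Finset.smul_sum, neg_smul, ← smul_neg]
  congr 1
  have h1 : ∑ x : β, ∑ y : β, ρ (swap (true, x) (false, y)) =
      ∑ x : β, ∑ y : β, ρ (swap (false, x) (true, y)) := by
    rw [Finset.sum_comm]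
    refine Finset.sum_congr rfl fun x _ => Finset.sum_congr rfl fun y _ => ?_
    rw [swap_comm]
  have h2 : ∑ x : β, ∑ y : β, cop ρ x y =
      ∑ x : β, ∑ y : β, (ρ (swap (true, x) (true, y)) - ρ (swap (false, x) (false, y))) := by
    unfold cop
    simp only [Finset.sum_add_distrib, Finset.sum_sub_distrib, h1]
    abel
  rw [h2, ← Finset.sum_neg_distrib]
  refine Finset.sum_congr rfl fun x _ => ?_
  rw [← Finset.sum_sub_distrib, ← Finset.sum_neg_distrib]
  refine Finset.sum_congr rfl fun y _ => ?_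
  abel

include hρ

theorem dop_symm (x : β) (u v : V) : ⟪dop ρ x u, v⟫_ℝ = ⟪u, dop ρ x v⟫_ℝ := by
  unfold dop cop
  simp only [smul_apply, sum_apply, add_apply, sub_apply, inner_smul_left, inner_smul_right,
    sum_inner, inner_sum, inner_add_left, inner_add_right, inner_sub_left, inner_sub_right,
    swap_symm ρ hρ]
  simp only [one_div, mul_inv_rev, Real.ringHom_apply, Finset.sum_sub_distrib, neg_mul]

omit [Fintype β] in
theorem norm_sub_rho_sq (g : Perm (Bool × β)) (u : V) :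
    ‖u - ρ g u‖ ^ 2 = 2 * (‖u‖ ^ 2 - ⟪u, ρ g u⟫_ℝ) := by
  rw [norm_sub_sq_real, hρ]
  ring

omit [Fintype β] in
theorem norm_cop_sq_le (x y : β) (u : V) :
    ‖cop ρ x y u‖ ^ 2 ≤ 8 * ⟪u, sop ρ x y u⟫_ℝ := by
  set a := u - ρ (swap (true, x) (true, y)) u with ha
  set b := u - ρ (swap (true, x) (false, y)) u with hb
  set c := u - ρ (swap (false, x) (true, y)) u with hc
  set d := u - ρ (swap (false, x) (false, y)) u with hd
  have h1 : cop ρ x y u = (c + d) - (a + b) := by
    unfold cop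
    simp only [sub_apply, add_apply]
    rw [ha, hb, hc, hd]
    abel
  have h2 : ‖cop ρ x y u‖ ≤ ‖c‖ + ‖d‖ + (‖a‖ + ‖b‖) := by
    rw [h1]
    exact (norm_sub_le _ _).trans (add_le_add (norm_add_le _ _) (norm_add_le _ _))
  have h3 : ‖a‖ ^ 2 = 2 * (‖u‖ ^ 2 - ⟪u, ρ (swap (true, x) (true, y)) u⟫_ℝ) :=
    norm_sub_rho_sq ρ hρ _ u
  have h4 : ‖b‖ ^ 2 = 2 * (‖u‖ ^ 2 - ⟪u, ρ (swap (true, x) (false, y)) u⟫_ℝ) :=
    norm_sub_rho_sq ρ hρ _ u
  have h5 : ‖c‖ ^ 2 = 2 * (‖u‖ ^ 2 - ⟪u, ρ (swap (false, x) (true, y)) u⟫_ℝ) :=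
    norm_sub_rho_sq ρ hρ _ u
  have h6 : ‖d‖ ^ 2 = 2 * (‖u‖ ^ 2 - ⟪u, ρ (swap (false, x) (false, y)) u⟫_ℝ) :=
    norm_sub_rho_sq ρ hρ _ u
  have h7 : ⟪u, sop ρ x y u⟫_ℝ = (‖u‖ ^ 2 - ⟪u, ρ (swap (true, x) (true, y)) u⟫_ℝ) +
      (‖u‖ ^ 2 - ⟪u, ρ (swap (true, x) (false, y)) u⟫_ℝ) +
      (‖u‖ ^ 2 - ⟪u, ρ (swap (false, x) (true, y)) u⟫_ℝ) +
      (‖u‖ ^ 2 - ⟪u, ρ (swap (false, x) (false, y)) u⟫_ℝ) := by
    unfold sop aop bop
    simp only [smul_apply, add_apply, sub_apply, inner_smul_right, inner_add_right,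
      inner_sub_right, one_apply_eq_self, real_inner_self_eq_norm_sq]
    ring
  have h8 : ‖cop ρ x y u‖ ^ 2 ≤ (‖c‖ + ‖d‖ + (‖a‖ + ‖b‖)) ^ 2 := by
    (clear * - h2; gcongr)
  have h9 : (‖c‖ + ‖d‖ + (‖a‖ + ‖b‖)) ^ 2 ≤ 4 * (‖c‖ ^ 2 + ‖d‖ ^ 2 + (‖a‖ ^ 2 + ‖b‖ ^ 2)) := by
    nlinarith only [sq_nonneg (‖c‖ - ‖d‖), sq_nonneg (‖a‖ - ‖b‖), sq_nonneg (‖c‖ - ‖a‖),
      sq_nonneg (‖c‖ - ‖b‖), sq_nonneg (‖d‖ - ‖a‖), sq_nonneg (‖d‖ - ‖b‖)]
  rw [h7]
  linarith only [h3, h4, h5, h6, h8, h9]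

theorem sum_norm_dop_sq_le [Nonempty β] (u : V) :
    ∑ x, ‖dop ρ x u‖ ^ 2 ≤ 8 * ⟪u, gen ρ u⟫_ℝ := by
  have hN : (0 : ℝ) < Fintype.card β := by exact_mod_cast Fintype.card_pos
  set N : ℝ := (Fintype.card β : ℝ) with hNdef
  have h1 : ∀ x, ‖dop ρ x u‖ ^ 2 ≤ 2 / N * ∑ y, ⟪u, sop ρ x y u⟫_ℝ := by
    intro x
    have e : ‖dop ρ x u‖ = 1 / (2 * N) * ‖∑ y, cop ρ x y u‖ := by
      unfold dop
      rw [smul_apply, norm_smul, sum_apply, norm_neg, Real.norm_of_nonneg (by positivity)]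
    have h2 : ‖∑ y, cop ρ x y u‖ ^ 2 ≤ N * ∑ y, ‖cop ρ x y u‖ ^ 2 := by
      have h3 : ‖∑ y, cop ρ x y u‖ ≤ ∑ y, ‖cop ρ x y u‖ := norm_sum_le _ _
      have h4 : (∑ y, ‖cop ρ x y u‖) ^ 2 ≤ N * ∑ y, ‖cop ρ x y u‖ ^ 2 := by
        have := sq_sum_le_card_mul_sum_sq (s := (Finset.univ : Finset β))
          (f := fun y => ‖cop ρ x y u‖)
        rwa [Finset.card_univ] at this
      exact (pow_le_pow_left₀ (norm_nonneg _) h3 2).trans h4
    have h5 : ∑ y, ‖cop ρ x y u‖ ^ 2 ≤ 8 * ∑ y, ⟪u, sop ρ x y u⟫_ℝ := by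
      rw [Finset.mul_sum]
      exact Finset.sum_le_sum fun y _ => norm_cop_sq_le ρ hρ x y u
    rw [e, mul_pow]
    calc (1 / (2 * N)) ^ 2 * ‖∑ y, cop ρ x y u‖ ^ 2
        ≤ (1 / (2 * N)) ^ 2 * (N * (8 * ∑ y, ⟪u, sop ρ x y u⟫_ℝ)) := by
          gcongr
          exact h2.trans (by gcongr)
      _ = 2 / N * ∑ y, ⟪u, sop ρ x y u⟫_ℝ := by
          field_simp
          ring
  calc ∑ x, ‖dop ρ x u‖ ^ 2 ≤ ∑ x, 2 / N * ∑ y, ⟪u, sop ρ x y u⟫_ℝ :=
        Finset.sum_le_sum fun x _ => h1 x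
    _ = 8 * ⟪u, gen ρ u⟫_ℝ := by
        rw [← Finset.mul_sum, gen_eq]
        simp only [smul_apply, sum_apply, inner_smul_right, inner_sum]
        rw [← hNdef]
        field_simp
        ring

end dopdef

section dopsum

variable {β : Type*} [Fintype β] [DecidableEq β]
variable {V : Type*} [NormedAddCommGroup V] [InnerProductSpace ℝ V]
variable (ρ : Perm (Bool × β) →* (V →L[ℝ] V)) (hρ : ∀ g v, ‖ρ g v‖ = ‖v‖)

/-- matrix element of `dop` -/
noncomputable def dkel (z : V) (x : β) (D : Finset β) : ℝ :=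
  ⟪Pr ρ D z, dop ρ x (Pr ρ ({x} ∆ D) z)⟫_ℝ

/-- bound attached to one sector -/
noncomputable def dbel (θ γ η : ℝ) (z : V) (x : β) (D : Finset β) : ℝ :=
  if x ∈ D then (1 + 1 / θ) / (2 * γ) * ‖Pr ρ D z‖ ^ 2
  else (1 + θ) * (γ / 2) * η ^ 2 * ‖dop ρ x (Pr ρ D z)‖ ^ 2

include hρ

theorem dkel_symm (z : V) (x : β) (D : Finset β) :
    dkel ρ z x ({x} ∆ D) = dkel ρ z x D := by
  unfold dkel
  rw [symmDiff_symmDiff_cancel_left, ← dop_symm ρ hρ, real_inner_comm]

theorem inner_Pr_dop (D : Finset β) (z : V) (x : β) :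
    ⟪Pr ρ D z, dop ρ x z⟫_ℝ = dkel ρ z x D := by
  unfold dkel
  rw [← inner_Pr_Pr ρ hρ D z (dop ρ x z), ← mul_apply_eq_comp (dop ρ x),
    dop_mul_Pr ρ _ x, symmDiff_symmDiff_cancel_left, mul_apply_eq_comp]

theorem dpair_bound_notMem {θ γ : ℝ} (hθ : 0 < θ) (hγ : 0 < γ) (η : ℝ) (z : V) (x : β)
    (D : Finset β) (hx : x ∉ D) :
    -η * (θ ^ D.card * dkel ρ z x D + θ ^ (({x} : Finset β) ∆ D).card * dkel ρ z x ({x} ∆ D)) ≤
      θ ^ D.card * dbel ρ θ γ η z x D +
        θ ^ (({x} : Finset β) ∆ D).card * dbel ρ θ γ η z x ({x} ∆ D) := by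
  have hc : (({x} : Finset β) ∆ D).card = D.card + 1 := by
    have : ({x} : Finset β) ∆ D = insert x D := by
      ext y
      simp only [Finset.mem_symmDiff, Finset.mem_singleton, Finset.mem_insert]
      constructor
      · rintro (⟨h, _⟩ | ⟨h, _⟩)
        · exact Or.inl h
        · exact Or.inr h
      · rintro (h | h)
        · subst h; exact Or.inl ⟨rfl, hx⟩
        · refine Or.inr ⟨h, ?_⟩
          rintro rfl
          exact hx h
    rw [this, Finset.card_insert_of_notMem hx]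
  have hx' : x ∈ ({x} : Finset β) ∆ D := by simp [Finset.mem_symmDiff, hx]
  rw [dkel_symm ρ hρ, hc]
  have e1 : dbel ρ θ γ η z x D = (1 + θ) * (γ / 2) * η ^ 2 * ‖dop ρ x (Pr ρ D z)‖ ^ 2 := by
    unfold dbel; rw [if_neg hx]
  have e2 : dbel ρ θ γ η z x ({x} ∆ D) =
      (1 + 1 / θ) / (2 * γ) * ‖Pr ρ ({x} ∆ D) z‖ ^ 2 := by
    unfold dbel; rw [if_pos hx']
  rw [e1, e2, pow_succ]
  have hk : |dkel ρ z x D| ≤ ‖dop ρ x (Pr ρ D z)‖ * ‖Pr ρ ({x} ∆ D) z‖ := by
    unfold dkel
    rw [← dop_symm ρ hρ]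
    exact abs_real_inner_le_norm _ _
  set A := ‖dop ρ x (Pr ρ D z)‖ with hA
  set B := ‖Pr ρ ({x} ∆ D) z‖ with hB
  have hA0 : 0 ≤ A := norm_nonneg _
  have hB0 : 0 ≤ B := norm_nonneg _
  have h0 : 0 < θ ^ D.card := by positivity
  have h1 : -η * dkel ρ z x D ≤ |η| * (A * B) := by
    calc -η * dkel ρ z x D ≤ |(-η) * dkel ρ z x D| := le_abs_self _
      _ = |η| * |dkel ρ z x D| := by rw [abs_mul, abs_neg]
      _ ≤ |η| * (A * B) := by (clear * - hk; gcongr)
  have h2 : |η| * (A * B) ≤ γ / 2 * η ^ 2 * A ^ 2 + 1 / (2 * γ) * B ^ 2 := by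
    have h3 : 0 ≤ (γ * |η| * A - B) ^ 2 / (2 * γ) := by (clear * - hγ; (clear * - hγ; positivity))
    have h4 : (γ * |η| * A - B) ^ 2 / (2 * γ) =
        γ / 2 * |η| ^ 2 * A ^ 2 + 1 / (2 * γ) * B ^ 2 - |η| * (A * B) := by
      field_simp
      ring
    rw [sq_abs] at h4
    linarith only [h3, h4]
  have h5 : (1 + θ) * (-η * dkel ρ z x D) ≤
      (1 + θ) * (γ / 2 * η ^ 2 * A ^ 2 + 1 / (2 * γ) * B ^ 2) :=
    mul_le_mul_of_nonneg_left (h1.trans h2) (by positivity)
  have h6 := mul_le_mul_of_nonneg_left h5 h0.le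
  have h7 : θ * ((1 + 1 / θ) / (2 * γ) * B ^ 2) = (1 + θ) * (1 / (2 * γ) * B ^ 2) := by
    field_simp
    ring
  calc -η * (θ ^ D.card * dkel ρ z x D + θ ^ D.card * θ * dkel ρ z x D)
      = θ ^ D.card * ((1 + θ) * (-η * dkel ρ z x D)) := by ring
    _ ≤ θ ^ D.card * ((1 + θ) * (γ / 2 * η ^ 2 * A ^ 2 + 1 / (2 * γ) * B ^ 2)) := h6
    _ = θ ^ D.card * ((1 + θ) * (γ / 2) * η ^ 2 * A ^ 2) +
        θ ^ D.card * (θ * ((1 + 1 / θ) / (2 * γ) * B ^ 2)) := by rw [h7]; ring
    _ = _ := by ring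

theorem dpair_bound {θ γ : ℝ} (hθ : 0 < θ) (hγ : 0 < γ) (η : ℝ) (z : V) (x : β)
    (D : Finset β) :
    -η * (θ ^ D.card * dkel ρ z x D + θ ^ (({x} : Finset β) ∆ D).card * dkel ρ z x ({x} ∆ D)) ≤
      θ ^ D.card * dbel ρ θ γ η z x D +
        θ ^ (({x} : Finset β) ∆ D).card * dbel ρ θ γ η z x ({x} ∆ D) := by
  by_cases hx : x ∈ D
  · have hx' : x ∉ ({x} : Finset β) ∆ D := by simp [Finset.mem_symmDiff, hx]
    have h := dpair_bound_notMem ρ hρ hθ hγ η z x _ hx'
    rw [symmDiff_symmDiff_cancel_left] at h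
    linarith only [h]
  · exact dpair_bound_notMem ρ hρ hθ hγ η z x D hx

theorem sum_dpair_bound {θ γ : ℝ} (hθ : 0 < θ) (hγ : 0 < γ) (η : ℝ) (z : V) (x : β) :
    -η * ∑ D : Finset β, θ ^ D.card * dkel ρ z x D ≤
      ∑ D : Finset β, θ ^ D.card * dbel ρ θ γ η z x D := by
  have h1 : ∑ D : Finset β, θ ^ D.card * dkel ρ z x D =
      ∑ D : Finset β, θ ^ (({x} : Finset β) ∆ D).card * dkel ρ z x ({x} ∆ D) :=
    (Equiv.sum_comp (translate {x}) (fun D => θ ^ D.card * dkel ρ z x D)).symm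
  have h2 : ∑ D : Finset β, θ ^ D.card * dbel ρ θ γ η z x D =
      ∑ D : Finset β, θ ^ (({x} : Finset β) ∆ D).card * dbel ρ θ γ η z x ({x} ∆ D) :=
    (Equiv.sum_comp (translate {x}) (fun D => θ ^ D.card * dbel ρ θ γ η z x D)).symm
  have h3 : ∑ D : Finset β, -η * (θ ^ D.card * dkel ρ z x D +
        θ ^ (({x} : Finset β) ∆ D).card * dkel ρ z x ({x} ∆ D)) ≤
      ∑ D : Finset β, (θ ^ D.card * dbel ρ θ γ η z x D +
        θ ^ (({x} : Finset β) ∆ D).card * dbel ρ θ γ η z x ({x} ∆ D)) :=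
    Finset.sum_le_sum fun D _ => dpair_bound ρ hρ hθ hγ η z x D
  rw [← Finset.mul_sum, Finset.sum_add_distrib, Finset.sum_add_distrib, ← h1, ← h2] at h3
  linarith only [h3]

theorem sum_dbel_le [Nonempty β] {θ γ : ℝ} (hθ : 0 < θ) (hγ : 0 < γ) (η : ℝ) (z : V)
    (D : Finset β) :
    ∑ x, dbel ρ θ γ η z x D ≤ (1 + 1 / θ) / (2 * γ) * (D.card : ℝ) * ‖Pr ρ D z‖ ^ 2 +
      4 * (1 + θ) * γ * η ^ 2 * ⟪Pr ρ D z, gen ρ (Pr ρ D z)⟫_ℝ := by
  set u := Pr ρ D z with hu
  have h1 : ∀ x, dbel ρ θ γ η z x D ≤ (if x ∈ D then (1 + 1 / θ) / (2 * γ) * ‖u‖ ^ 2 else 0) +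
      (1 + θ) * (γ / 2) * η ^ 2 * ‖dop ρ x u‖ ^ 2 := by
    intro x
    unfold dbel
    rw [← hu]
    split_ifs with h
    · have : 0 ≤ (1 + θ) * (γ / 2) * η ^ 2 * ‖dop ρ x u‖ ^ 2 := by (clear * - hθ hγ; (clear * - hθ hγ; positivity))
      linarith only [this]
    · linarith only []
  refine (Finset.sum_le_sum fun x _ => h1 x).trans ?_
  rw [Finset.sum_add_distrib, Finset.sum_ite_mem, Finset.univ_inter, Finset.sum_const,
    nsmul_eq_mul, ← Finset.mul_sum]
  have h2 := sum_norm_dop_sq_le ρ hρ u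
  have h3 : (1 + θ) * (γ / 2) * η ^ 2 * ∑ x, ‖dop ρ x u‖ ^ 2 ≤
      (1 + θ) * (γ / 2) * η ^ 2 * (8 * ⟪u, gen ρ u⟫_ℝ) := by
    gcongr
  have h4 : (1 + θ) * (γ / 2) * η ^ 2 * (8 * ⟪u, gen ρ u⟫_ℝ) =
      4 * (1 + θ) * γ * η ^ 2 * ⟪u, gen ρ u⟫_ℝ := by ring
  have h5 : (D.card : ℝ) * ((1 + 1 / θ) / (2 * γ) * ‖u‖ ^ 2) =
      (1 + 1 / θ) / (2 * γ) * (D.card : ℝ) * ‖u‖ ^ 2 := by ring
  linarith only [h3]

end dopsum

section core2

variable {β : Type*} [Fintype β] [DecidableEq β]
variable {V : Type*} [NormedAddCommGroup V] [InnerProductSpace ℝ V]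
variable (ρ : Perm (Bool × β) →* (V →L[ℝ] V)) (hρ : ∀ g v, ‖ρ g v‖ = ‖v‖)

/-- The operator driving the interpolation, unequal times. -/
noncomputable def drive2 (t η : ℝ) : V →L[ℝ] V :=
  drive ρ t - η • (gen (ρ.comp (extHom (β := β) true)) - gen (ρ.comp (extHom (β := β) false))) -
    (60 * η ^ 2 * t) • gen ρ

include hρ

/-- `core_ineq` with a better constant -/
theorem core_ineq' [Nonempty β] {θ t : ℝ} (hθ : 0 < θ) (hW : θ + 1 / θ ≤ 309 / 100)
    (ht0 : 0 < t) (ht : t ≤ 7 / 100) (z : V) :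
    ∑ D : Finset β, θ ^ D.card * ⟪Pr ρ D z, drive ρ t z⟫_ℝ ≤
      ∑ D : Finset β, θ ^ D.card * (72 / 100 * ((D.card : ℝ) / t) * ‖Pr ρ D z‖ ^ 2) := by
  have hN : (0 : ℝ) < Fintype.card β := by exact_mod_cast Fintype.card_pos
  have hN1 : (1 : ℝ) ≤ Fintype.card β := by exact_mod_cast Fintype.card_pos
  set N : ℝ := (Fintype.card β : ℝ) with hNdef
  set W : ℝ := θ + 1 / θ with hWdef
  have hWpos : 0 < W := by positivity
  set μ : ℝ := 5 * t / W with hμdef
  have hμ : 0 < μ := by positivity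
  have hWμ : W * μ = 5 * t := by rw [hμdef]; field_simp
  -- expansion
  have h1 : ∀ D : Finset β, ⟪Pr ρ D z, drive ρ t z⟫_ℝ =
      (D.card : ℝ) / N * ‖Pr ρ D z‖ ^ 2 -
      1 / 2 * ∑ p ∈ (Finset.univ : Finset β).offDiag, kel ρ z p.1 p.2 D -
      5 * t / (2 * N) * ⟪Pr ρ D z, gen ρ (Pr ρ D z)⟫_ℝ := by
    intro D
    unfold drive
    rw [sub_apply, inner_sub_right, inner_Pr_gen_sub ρ hρ, smul_apply, inner_smul_right,
      inner_Pr_gen ρ hρ]
  -- pair sums
  have h2 : ∑ D : Finset β, θ ^ D.card *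
      (-(1 / 2 * ∑ p ∈ (Finset.univ : Finset β).offDiag, kel ρ z p.1 p.2 D)) ≤
      ∑ D : Finset β, θ ^ D.card *
      (1 / 2 * ∑ p ∈ (Finset.univ : Finset β).offDiag, bel ρ W μ z p.1 p.2 D) := by
    have e1 : ∑ D : Finset β, θ ^ D.card *
      (-(1 / 2 * ∑ p ∈ (Finset.univ : Finset β).offDiag, kel ρ z p.1 p.2 D)) =
      1 / 2 * ∑ p ∈ (Finset.univ : Finset β).offDiag,
        -∑ D : Finset β, θ ^ D.card * kel ρ z p.1 p.2 D := by
      rw [Finset.sum_neg_distrib, Finset.sum_comm, mul_neg, Finset.mul_sum,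
        ← Finset.sum_neg_distrib]
      refine Finset.sum_congr rfl fun D _ => ?_
      rw [← Finset.mul_sum]
      ring
    have e2 : ∑ D : Finset β, θ ^ D.card *
      (1 / 2 * ∑ p ∈ (Finset.univ : Finset β).offDiag, bel ρ W μ z p.1 p.2 D) =
      1 / 2 * ∑ p ∈ (Finset.univ : Finset β).offDiag,
        ∑ D : Finset β, θ ^ D.card * bel ρ W μ z p.1 p.2 D := by
      rw [Finset.sum_comm, Finset.mul_sum]
      refine Finset.sum_congr rfl fun D _ => ?_
      rw [← Finset.mul_sum]
      ring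
    rw [e1, e2]
    have : ∀ p ∈ (Finset.univ : Finset β).offDiag,
        -∑ D : Finset β, θ ^ D.card * kel ρ z p.1 p.2 D ≤
        ∑ D : Finset β, θ ^ D.card * bel ρ W μ z p.1 p.2 D := by
      intro p hp
      rw [Finset.mem_offDiag] at hp
      exact sum_pair_bound ρ hρ hθ hμ hWdef z hp.2.2
    have := Finset.sum_le_sum this
    linarith only [this]
  have h3 : ∑ D : Finset β, θ ^ D.card * ⟪Pr ρ D z, drive ρ t z⟫_ℝ =
      ∑ D : Finset β, θ ^ D.card *
      (-(1 / 2 * ∑ p ∈ (Finset.univ : Finset β).offDiag, kel ρ z p.1 p.2 D)) +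
      ∑ D : Finset β, θ ^ D.card * ((D.card : ℝ) / N * ‖Pr ρ D z‖ ^ 2 -
        5 * t / (2 * N) * ⟪Pr ρ D z, gen ρ (Pr ρ D z)⟫_ℝ) := by
    rw [← Finset.sum_add_distrib]
    refine Finset.sum_congr rfl fun D _ => ?_
    rw [h1]
    ring
  rw [h3]
  refine (add_le_add_left h2 _).trans ?_
  rw [← Finset.sum_add_distrib]
  refine Finset.sum_le_sum fun D _ => ?_
  rw [← mul_add]
  refine mul_le_mul_of_nonneg_left ?_ (by positivity)
  have h4 := sum_bel_le ρ hρ hWpos hμ z D
  rw [hWμ] at h4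
  have h5 : ⟪Pr ρ D z, gen ρ (Pr ρ D z)⟫_ℝ ≤ 2 * N * ‖Pr ρ D z‖ ^ 2 := by
    have := inner_gen_le ρ hρ (Pr ρ D z)
    rwa [Fintype.card_prod, Fintype.card_bool, Nat.cast_mul, Nat.cast_ofNat, ← hNdef] at this
  set m : ℝ := (D.card : ℝ) with hm
  have hm0 : 0 ≤ m := by (clear * -; positivity)
  set q : ℝ := ‖Pr ρ D z‖ ^ 2 with hq
  have hq0 : 0 ≤ q := by (clear * -; positivity)
  set G : ℝ := ⟪Pr ρ D z, gen ρ (Pr ρ D z)⟫_ℝ with hG
  have h6 : 5 * t * (m + 1) / (2 * N) * G - 5 * t / (2 * N) * G ≤ 5 * t * m * q := by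
    have e : 5 * t * (m + 1) / (2 * N) * G - 5 * t / (2 * N) * G = 5 * t * m / (2 * N) * G := by
      ring
    rw [e]
    calc 5 * t * m / (2 * N) * G ≤ 5 * t * m / (2 * N) * (2 * N * q) := by (clear hρ θ hθ ht hN hN1 hNdef W hW hWdef hWpos μ hμdef hμ hWμ h1 h2 h3 hm hm0 hq hq0 h4 hG e; gcongr)
      _ = 5 * t * m * q := by (clear * - hN ht0; field_simp)
  have h7 : W / (4 * μ) = W ^ 2 / (20 * t) := by
    rw [hμdef]; field_simp; ring
  rw [h7] at h4
  have h8 : m / N * q ≤ m * q := by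
    have : m / N ≤ m := div_le_self hm0 hN1
    (clear * - this; gcongr)
  have h9 : 2 * m * q + W ^ 2 / (20 * t) * m * q + 5 * t * m * q + m * q ≤
      72 / 100 * (m / t) * q := by
    have hW2 : W ^ 2 ≤ 9.5481 := by nlinarith only [hW, hWpos]
    have e : 72 / 100 * (m / t) * q - (2 * m * q + W ^ 2 / (20 * t) * m * q + 5 * t * m * q +
        m * q) = m * q / t * (72 / 100 - (3 * t + W ^ 2 / 20 + 5 * t ^ 2)) := by
      field_simp
      ring
    have h10 : 0 ≤ 72 / 100 - (3 * t + W ^ 2 / 20 + 5 * t ^ 2) := by nlinarith only [ht, hW2, ht0]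
    have h11 : 0 ≤ m * q / t * (72 / 100 - (3 * t + W ^ 2 / 20 + 5 * t ^ 2)) := by (clear * - ht0 h10; positivity)
    linarith only [e, h11]
  linarith only [h4, h6, h8, h9]

theorem core_ineq2 [Nonempty β] {θ t : ℝ} (η : ℝ) (hθ1 : 1 ≤ θ) (hθ2 : θ ≤ 2.7182818286)
    (ht0 : 0 < t) (ht : t ≤ 7 / 100) (z : V) :
    ∑ D : Finset β, θ ^ D.card * ⟪Pr ρ D z, drive2 ρ t η z⟫_ℝ ≤
      ∑ D : Finset β, θ ^ D.card * ((D.card : ℝ) / t * ‖Pr ρ D z‖ ^ 2) := by
  have hθ : 0 < θ := by linarith only [hθ1]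
  have hW : θ + 1 / θ ≤ 309 / 100 := by
    have h1 : θ * (θ + 1 / θ) = θ ^ 2 + 1 := by (clear * - hθ1; field_simp)
    have h2 : θ ^ 2 + 1 ≤ θ * (309 / 100) := by nlinarith only [hθ2, hθ1]
    rw [← h1] at h2
    exact le_of_mul_le_mul_left h2 hθ
  have hγ : 0 < 18 / 5 * t := by positivity
  have h1 := core_ineq' ρ hρ hθ hW ht0 ht z
  -- the new part
  have h2 : ∑ D : Finset β, θ ^ D.card * (-η * ∑ x, dkel ρ z x D) ≤
      ∑ D : Finset β, θ ^ D.card * ∑ x, dbel ρ θ (18 / 5 * t) η z x D := by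
    have e1 : ∑ D : Finset β, θ ^ D.card * (-η * ∑ x, dkel ρ z x D) =
        ∑ x, -η * ∑ D : Finset β, θ ^ D.card * dkel ρ z x D := by
      simp only [Finset.mul_sum]
      rw [Finset.sum_comm]
      refine Finset.sum_congr rfl fun x _ => Finset.sum_congr rfl fun D _ => ?_
      ring
    have e2 : ∑ D : Finset β, θ ^ D.card * ∑ x, dbel ρ θ (18 / 5 * t) η z x D =
        ∑ x, ∑ D : Finset β, θ ^ D.card * dbel ρ θ (18 / 5 * t) η z x D := by
      simp only [Finset.mul_sum]
      rw [Finset.sum_comm]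
    rw [e1, e2]
    exact Finset.sum_le_sum fun x _ => sum_dpair_bound ρ hρ hθ hγ η z x
  have h3 : ∀ D : Finset β, ⟪Pr ρ D z, drive2 ρ t η z⟫_ℝ =
      ⟪Pr ρ D z, drive ρ t z⟫_ℝ + -η * ∑ x, dkel ρ z x D -
        60 * η ^ 2 * t * ⟪Pr ρ D z, gen ρ (Pr ρ D z)⟫_ℝ := by
    intro D
    unfold drive2
    rw [sum_dop]
    simp only [sub_apply, smul_apply, sum_apply, inner_sub_right, inner_smul_right, inner_sum, inner_Pr_dop ρ hρ, inner_Pr_gen ρ hρ]
    ring
  have h4 : ∑ D : Finset β, θ ^ D.card * ⟪Pr ρ D z, drive2 ρ t η z⟫_ℝ =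
      ∑ D : Finset β, θ ^ D.card * ⟪Pr ρ D z, drive ρ t z⟫_ℝ +
      ∑ D : Finset β, θ ^ D.card * (-η * ∑ x, dkel ρ z x D) -
      ∑ D : Finset β, θ ^ D.card * (60 * η ^ 2 * t * ⟪Pr ρ D z, gen ρ (Pr ρ D z)⟫_ℝ) := by
    rw [← Finset.sum_add_distrib, ← Finset.sum_sub_distrib]
    refine Finset.sum_congr rfl fun D _ => ?_
    rw [h3]
    ring
  rw [h4]
  have h5 : ∑ D : Finset β, θ ^ D.card * (72 / 100 * ((D.card : ℝ) / t) * ‖Pr ρ D z‖ ^ 2) +
      ∑ D : Finset β, θ ^ D.card * ∑ x, dbel ρ θ (18 / 5 * t) η z x D -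
      ∑ D : Finset β, θ ^ D.card * (60 * η ^ 2 * t * ⟪Pr ρ D z, gen ρ (Pr ρ D z)⟫_ℝ) ≤
      ∑ D : Finset β, θ ^ D.card * ((D.card : ℝ) / t * ‖Pr ρ D z‖ ^ 2) := by
    rw [← Finset.sum_add_distrib, ← Finset.sum_sub_distrib]
    refine Finset.sum_le_sum fun D _ => ?_
    rw [← mul_add, ← mul_sub]
    refine mul_le_mul_of_nonneg_left ?_ (by positivity)
    have h6 := sum_dbel_le ρ hρ hθ hγ η z D
    have h7 : 0 ≤ ⟪Pr ρ D z, gen ρ (Pr ρ D z)⟫_ℝ := inner_gen_nonneg ρ hρ _
    set G := ⟪Pr ρ D z, gen ρ (Pr ρ D z)⟫_ℝ with hG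
    set m : ℝ := (D.card : ℝ) with hm
    have hm0 : 0 ≤ m := by (clear * -; positivity)
    set q : ℝ := ‖Pr ρ D z‖ ^ 2 with hq
    have hq0 : 0 ≤ q := by (clear * -; positivity)
    have h8 : (1 + 1 / θ) / (2 * (18 / 5 * t)) * m * q ≤ 28 / 100 * (m / t) * q := by
      have h9 : 1 + 1 / θ ≤ 2 := by
        have : 1 / θ ≤ 1 := by
          rw [div_le_one hθ]; exact hθ1
        linarith only [this]
      have h10 : (1 + 1 / θ) / (2 * (18 / 5 * t)) ≤ 28 / 100 * (1 / t) := by
        rw [div_le_iff₀ (by positivity)]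
        have : 28 / 100 * (1 / t) * (2 * (18 / 5 * t)) = 2.016 := by
          field_simp
          norm_num
        linarith only [ht0, ht, h9, this]
      calc (1 + 1 / θ) / (2 * (18 / 5 * t)) * m * q ≤ 28 / 100 * (1 / t) * m * q := by (clear * - h10; gcongr)
        _ = 28 / 100 * (m / t) * q := by ring
    have h11 : 4 * (1 + θ) * (18 / 5 * t) * η ^ 2 * G ≤ 60 * η ^ 2 * t * G := by
      have h12 : 4 * (1 + θ) * (18 / 5) ≤ 60 := by linarith only [hθ2]
      have h13 : 0 ≤ η ^ 2 * t * G := by (clear * - ht0 h7; positivity)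
      nlinarith only [h13, hθ2]
    have h14 : 72 / 100 * (m / t) * q + 28 / 100 * (m / t) * q = m / t * q := by ring
    linarith only [h6, h8, h11]
  linarith only [h1, h2, h5]

end core2

section ode2

open NormedSpace

variable {β : Type*} [Fintype β] [DecidableEq β]
variable {V : Type*} [NormedAddCommGroup V] [InnerProductSpace ℝ V] [CompleteSpace V]
variable (ρ : Perm (Bool × β) →* (V →L[ℝ] V)) (hρ : ∀ g v, ‖ρ g v‖ = ‖v‖)

/-- The interpolation functional for a general driving operator. -/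
noncomputable def phiM (M : V →L[ℝ] V) (t : ℝ) (v : V) (s : ℝ) : ℝ :=
  ∑ D : Finset β, Real.exp (1 - s / t) ^ D.card *
    ‖Pr ρ D (exp (s • ((1 / 2 : ℝ) • M)) v)‖ ^ 2

include hρ

theorem hasDerivAt_phiM (M : V →L[ℝ] V) (t : ℝ) (v : V) (s : ℝ) :
    HasDerivAt (phiM ρ M t v)
      (∑ D : Finset β, (-((D.card : ℝ) / t) * Real.exp (1 - s / t) ^ D.card *
          ‖Pr ρ D (exp (s • ((1 / 2 : ℝ) • M)) v)‖ ^ 2 +
        Real.exp (1 - s / t) ^ D.card *
          ⟪Pr ρ D (exp (s • ((1 / 2 : ℝ) • M)) v),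
            M (exp (s • ((1 / 2 : ℝ) • M)) v)⟫_ℝ)) s := by
  unfold phiM
  apply HasDerivAt.fun_sum
  intro D _
  have h1 : HasDerivAt (fun s : ℝ => Real.exp (1 - s / t) ^ D.card)
      (-((D.card : ℝ) / t) * Real.exp (1 - s / t) ^ D.card) s := by
    have e : (fun s : ℝ => Real.exp (1 - s / t) ^ D.card) =
        fun s : ℝ => Real.exp ((D.card : ℝ) * (1 - s / t)) := by
      funext s
      rw [← Real.exp_nat_mul]
    have e' : Real.exp (1 - s / t) ^ D.card = Real.exp ((D.card : ℝ) * (1 - s / t)) := by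
      rw [← Real.exp_nat_mul]
    rw [e, e']
    have h : HasDerivAt (fun s : ℝ => (D.card : ℝ) * (1 - s / t)) (-((D.card : ℝ) / t)) s := by
      have h0 : HasDerivAt (fun s : ℝ => 1 - s / t) (-(1 / t)) s :=
        ((hasDerivAt_id s).div_const t).const_sub 1
      exact (h0.const_mul (D.card : ℝ)).congr_deriv (by ring)
    exact h.exp.congr_deriv (by ring)
  have h2 : HasDerivAt (fun s : ℝ => ‖Pr ρ D (exp (s • ((1 / 2 : ℝ) • M)) v)‖ ^ 2)
      (⟪Pr ρ D (exp (s • ((1 / 2 : ℝ) • M)) v),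
            M (exp (s • ((1 / 2 : ℝ) • M)) v)⟫_ℝ) s := by
    have h := hasDerivAt_exp_apply ((1 / 2 : ℝ) • M) v s
    have h3 : HasDerivAt (fun s : ℝ => Pr ρ D (exp (s • ((1 / 2 : ℝ) • M)) v))
        (Pr ρ D (((1 / 2 : ℝ) • M) (exp (s • ((1 / 2 : ℝ) • M)) v))) s :=
      ((Pr ρ D).hasFDerivAt).comp_hasDerivAt s h
    refine h3.norm_sq.congr_deriv ?_
    rw [inner_Pr_Pr ρ hρ, smul_apply, inner_smul_right]
    ring
  exact h1.mul h2

theorem phiM_le [Nonempty β] (η : ℝ) {t : ℝ} (ht0 : 0 < t) (ht : t ≤ 7 / 100) (v : V) :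
    phiM ρ (drive2 ρ t η) t v t ≤ phiM ρ (drive2 ρ t η) t v 0 := by
  have hanti : AntitoneOn (phiM ρ (drive2 ρ t η) t v) (Set.Icc 0 t) := by
    apply antitoneOn_of_deriv_nonpos (convex_Icc 0 t)
    · exact fun s _ => (hasDerivAt_phiM ρ hρ _ t v s).continuousAt.continuousWithinAt
    · exact fun s _ => (hasDerivAt_phiM ρ hρ _ t v s).differentiableAt.differentiableWithinAt
    · intro s hs
      rw [interior_Icc] at hs
      rw [(hasDerivAt_phiM ρ hρ _ t v s).deriv]
      set z := exp (s • ((1 / 2 : ℝ) • drive2 ρ t η)) v with hz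
      have hs0 : 0 ≤ 1 - s / t := by
        rw [sub_nonneg, div_le_one ht0]
        exact hs.2.le
      have hs1 : 1 - s / t ≤ 1 := by
        have : 0 ≤ s / t := div_nonneg hs.1.le ht0.le
        linarith only [this]
      set θ := Real.exp (1 - s / t) with hθ
      have hθ1 : 1 ≤ θ := Real.one_le_exp hs0
      have hθe : θ ≤ Real.exp 1 := Real.exp_le_exp.mpr hs1
      have he : Real.exp 1 < 2.7182818286 := Real.exp_one_lt_d9
      have h := core_ineq2 ρ hρ η hθ1 (hθe.trans he.le) ht0 ht z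
      rw [Finset.sum_add_distrib]
      have e : ∑ D : Finset β, -((D.card : ℝ) / t) * θ ^ D.card * ‖Pr ρ D z‖ ^ 2 =
          -∑ D : Finset β, θ ^ D.card * ((D.card : ℝ) / t * ‖Pr ρ D z‖ ^ 2) := by
        rw [← Finset.sum_neg_distrib]
        refine Finset.sum_congr rfl fun D _ => ?_
        ring
      rw [e]
      linarith only [h]
  exact hanti (Set.left_mem_Icc.mpr ht0.le) (Set.right_mem_Icc.mpr ht0.le) ht0.le

omit [CompleteSpace V] in
theorem phiM_zero_eq (M : V →L[ℝ] V) {t : ℝ} {v : V}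
    (hv : ∀ x : β, ρ (swap (false, x) (true, x)) v = v) :
    phiM ρ M t v 0 = ‖v‖ ^ 2 := by
  rw [← sum_norm_Pr_sq ρ hρ v]
  unfold phiM
  refine Finset.sum_congr rfl fun D _ => ?_
  rw [zero_smul, exp_zero, one_apply_eq_self]
  by_cases hD : D = ∅
  · subst hD; simp only [zero_div, sub_zero, Finset.card_empty, pow_zero, one_mul]
  · rw [norm_Pr_eq_zero ρ hρ hv hD, mul_zero]

omit [CompleteSpace V] in
theorem phiM_end_eq (M : V →L[ℝ] V) {t : ℝ} (ht0 : 0 < t) (v : V) :
    phiM ρ M t v t = ‖exp (t • ((1 / 2 : ℝ) • M)) v‖ ^ 2 := by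
  rw [← sum_norm_Pr_sq ρ hρ]
  unfold phiM
  refine Finset.sum_congr rfl fun D _ => ?_
  rw [div_self ht0.ne', sub_self, Real.exp_zero, one_pow, one_mul]

theorem norm_exp_drive2_le [Nonempty β] (η : ℝ) {t : ℝ} (ht0 : 0 < t) (ht : t ≤ 7 / 100) {v : V}
    (hv : ∀ x : β, ρ (swap (false, x) (true, x)) v = v) :
    ‖exp (t • ((1 / 2 : ℝ) • drive2 ρ t η)) v‖ ≤ ‖v‖ := by
  have h := phiM_le ρ hρ η ht0 ht v
  rw [phiM_end_eq ρ hρ _ ht0, phiM_zero_eq ρ hρ _ hv] at h
  exact (sq_le_sq₀ (norm_nonneg _) (norm_nonneg _)).mp h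

end ode2

section final2

open NormedSpace

variable {β : Type*} [Fintype β] [DecidableEq β]
variable {V : Type*} [NormedAddCommGroup V] [InnerProductSpace ℝ V]

/-- **Key lemma, different times in the two halves.** -/
theorem keyLemma2 [FiniteDimensional ℝ V] [Nonempty β]
    (ρ : Perm (Bool × β) →* (V →L[ℝ] V)) (hρ : ∀ g v, ‖ρ g v‖ = ‖v‖)
    (a b : ℝ) (ha : 0 ≤ a) (hb : 0 ≤ b) (hab : (a + b) / 2 ≤ 7 / 100) (v : V)
    (hv : ∀ x : β, ρ (swap (false, x) (true, x)) v = v) :
    ‖exp (-((1 / 2 : ℝ) • (a • gen (ρ.comp (extHom true)) +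
        b • gen (ρ.comp (extHom false))))) v‖ ≤
      ‖exp (-(((a + b) / 2 - 5 * ((a + b) / 2) ^ 2 / (2 * Fintype.card β) -
        60 * ((a - b) / 2) ^ 2) / 2) • gen ρ) v‖ := by
  rcases eq_or_lt_of_le (add_nonneg ha hb) with h0 | h0
  · have ha0 : a = 0 := by linarith only [ha, hb, h0]
    have hb0 : b = 0 := by linarith only [hb, ha, h0]
    subst ha0
    subst hb0
    apply le_of_eq
    congr 2
    simp only [one_div, zero_smul, add_zero, smul_zero, neg_zero, exp_zero, zero_div, ne_eq, OfNat.ofNat_ne_zero, not_false_eq_true, zero_pow, mul_zero, sub_self]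
  have : CompleteSpace V := FiniteDimensional.complete ℝ V
  let : NormedAlgebra ℚ (V →L[ℝ] V) := NormedAlgebra.restrictScalars ℚ ℝ _
  have hN : (0 : ℝ) < Fintype.card β := by exact_mod_cast Fintype.card_pos
  set N : ℝ := (Fintype.card β : ℝ) with hNdef
  set t : ℝ := (a + b) / 2 with ht
  have ht0 : 0 < t := by rw [ht]; linarith only [h0]
  set η : ℝ := (a - b) / 2 / t with hη
  set gu : V →L[ℝ] V := gen (ρ.comp (extHom true)) with hgu
  set gl : V →L[ℝ] V := gen (ρ.comp (extHom false)) with hgl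
  set r : ℝ := (t - 5 * t ^ 2 / (2 * N) - 60 * ((a - b) / 2) ^ 2) / 2 with hr
  set w : V := exp (-r • gen ρ) v with hw
  have hcomm : ∀ g, ρ g w = exp (-r • gen ρ) (ρ g v) := by
    intro g
    have h : Commute (ρ g) (exp (-r • gen ρ)) :=
      ((show Commute (ρ g) (gen ρ) from gen_comm ρ g).smul_right (-r)).exp_right
    rw [hw, ← mul_apply_eq_comp, h.eq, mul_apply_eq_comp]
  have hwfix : ∀ x : β, ρ (swap (false, x) (true, x)) w = w := by
    intro x
    rw [hcomm, hv x]
  have h1 := norm_exp_drive2_le ρ hρ η ht0 hab hwfix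
  have hgc : Commute gu (gen ρ) := (gen_comm_comp ρ _).symm
  have hlc : Commute gl (gen ρ) := (gen_comm_comp ρ _).symm
  have hAcomm : Commute ((1 / 2 : ℝ) • (a • gu + b • gl)) (gen ρ) :=
    (((hgc.smul_left a).add_left (hlc.smul_left b)).smul_left _)
  have e1 : t • ((1 / 2 : ℝ) • drive2 ρ t η) =
      -((1 / 2 : ℝ) • (a • gu + b • gl)) + r • gen ρ := by
    unfold drive2 drive
    rw [← hgu, ← hgl, ← hNdef]
    have e2 : t * η = (a - b) / 2 := by rw [hη]; (clear * - ht0; field_simp)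
    have e3 : t * (60 * η ^ 2 * t) = 60 * ((a - b) / 2) ^ 2 := by
      rw [← e2]; ring
    have e4 : t • ((1 / 2 : ℝ) • (gen ρ - (gu + gl) - (5 * t / (2 * N)) • gen ρ - η • (gu - gl) -
        (60 * η ^ 2 * t) • gen ρ)) =
        (t / 2 - t * (5 * t / (2 * N)) / 2 - t * (60 * η ^ 2 * t) / 2) • gen ρ -
          ((t + t * η) / 2) • gu - ((t - t * η) / 2) • gl := by
      module
    rw [e4, e3, e2]
    have e5 : (t + (a - b) / 2) / 2 = a / 2 := by rw [ht]; ring
    have e6 : (t - (a - b) / 2) / 2 = b / 2 := by rw [ht]; ring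
    rw [e5, e6]
    have e7 : t / 2 - t * (5 * t / (2 * N)) / 2 - 60 * ((a - b) / 2) ^ 2 / 2 = r := by
      rw [hr]; ring
    rw [e7]
    module
  have e3 : exp (t • ((1 / 2 : ℝ) • drive2 ρ t η)) w =
      exp (-((1 / 2 : ℝ) • (a • gu + b • gl))) v := by
    rw [hw, ← mul_apply_eq_comp, ← exp_add_of_commute]
    · congr 2
      rw [e1]
      module
    · rw [e1]
      exact Commute.add_left ((hAcomm.neg_left).smul_right _)
        (((Commute.refl (gen ρ)).smul_left _).smul_right _)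
  rw [e3] at h1
  exact h1

end final2

end Vale.Agent.P162
end
end
end

section

section

section

/-!
# P162: the pass bound, by recursion on the dimension
-/

namespace Vale.Agent.P162

open Equiv NormedSpace
open scoped InnerProductSpace

section basics

variable {ι : Type*} [Fintype ι] [DecidableEq ι]
variable {β : Type*} [Fintype β] [DecidableEq β]
variable {V : Type*} [NormedAddCommGroup V] [InnerProductSpace ℝ V]

/-- A column swap of one column. -/
theorem colSwap_single (x : β) :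
    colSwap (fun y => decide (y = x)) = swap (false, x) (true, x) := by
  ext1 ⟨b, y⟩
  by_cases h : y = x
  · subst h
    cases b <;> simp [colSwap]
  · cases b <;> simp [colSwap, h, swap_apply_def]

theorem colSwap_mul (ω ω' : β → Bool) :
    colSwap ω * colSwap ω' = colSwap (fun x => xor (ω x) (ω' x)) := by
  ext1 ⟨b, y⟩
  simp only [colSwap, Perm.coe_mul, coe_fn_mk, Function.comp_apply, Bool.bne_assoc]

theorem rho_colSwap_avgCol (ρ : Perm (Bool × β) →* (V →L[ℝ] V)) (ω : β → Bool) :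
    ρ (colSwap ω) * avgCol ρ = avgCol ρ := by
  unfold avgCol
  rw [mul_smul_comm, Finset.mul_sum]
  congr 1
  have e : Function.Involutive (fun ω' : β → Bool => fun x => xor (ω x) (ω' x)) := by
    intro ω'
    funext x
    simp
  rw [← Equiv.sum_comp e.toPerm (fun ω' => ρ (colSwap ω'))]
  refine Finset.sum_congr rfl fun ω' _ => ?_
  rw [← map_mul, colSwap_mul]
  rfl

theorem avgCol_fixed (ρ : Perm (Bool × β) →* (V →L[ℝ] V)) (v : V) (x : β) :
    ρ (swap (false, x) (true, x)) (avgCol ρ v) = avgCol ρ v := by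
  rw [← colSwap_single, ← mul_apply_eq_comp, rho_colSwap_avgCol]

theorem norm_avgCol_le (ρ : Perm (Bool × β) →* (V →L[ℝ] V)) (hρ : ∀ g v, ‖ρ g v‖ = ‖v‖)
    (v : V) : ‖avgCol ρ v‖ ≤ ‖v‖ := by
  unfold avgCol
  rw [smul_apply, norm_smul, sum_apply]
  have h : ‖∑ ω : β → Bool, ρ (colSwap ω) v‖ ≤ ∑ _ω : β → Bool, ‖v‖ :=
    (norm_sum_le _ _).trans (Finset.sum_le_sum fun ω _ => (hρ _ _).le)
  rw [Finset.sum_const, Finset.card_univ, nsmul_eq_mul] at h
  have hc : (Fintype.card (β → Bool) : ℝ) = 2 ^ Fintype.card β := by simp only [Fintype.card_pi, Fintype.card_bool, Finset.prod_const, Finset.card_univ, Nat.cast_pow, Nat.cast_ofNat]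
  rw [hc] at h
  have hn : ‖(1 : ℝ) / 2 ^ Fintype.card β‖ = 1 / 2 ^ Fintype.card β := by
    rw [Real.norm_eq_abs, abs_of_nonneg (by positivity)]
  rw [hn]
  calc (1 : ℝ) / 2 ^ Fintype.card β * ‖∑ ω : β → Bool, ρ (colSwap ω) v‖
      ≤ 1 / 2 ^ Fintype.card β * (2 ^ Fintype.card β * ‖v‖) := by gcongr
    _ = ‖v‖ := by field_simp

theorem commute_avgCol (ρ : Perm (Bool × β) →* (V →L[ℝ] V)) (X : V →L[ℝ] V)
    (hX : ∀ g, Commute X (ρ g)) : Commute X (avgCol ρ) := by
  unfold avgCol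
  exact (Commute.sum_right _ _ _ fun ω _ => hX _).smul_right _

theorem commute_passAdj (d : ℕ) (ρ : Perm (Cube d) →* (V →L[ℝ] V)) (X : V →L[ℝ] V)
    (hX : ∀ g, Commute X (ρ g)) : Commute X (passAdj d ρ) := by
  induction d with
  | zero => exact Commute.one_right X
  | succ d ih =>
    simp only [passAdj]
    exact ((ih _ fun g => hX _).mul_right (ih _ fun g => hX _)).mul_right
      (commute_avgCol (β := Cube d) ρ X hX)

theorem commute_gen (ρ : Perm ι →* (V →L[ℝ] V)) (X : V →L[ℝ] V)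
    (hX : ∀ g, Commute X (ρ g)) : Commute X (gen ρ) := by
  unfold gen
  exact (Commute.sum_right _ _ _ fun a _ => Commute.sum_right _ _ _ fun b _ =>
    (Commute.one_right X).sub_right (hX _)).smul_right _

end basics

section expo

variable {ι : Type*} [Fintype ι] [DecidableEq ι]
variable {V : Type*} [NormedAddCommGroup V] [InnerProductSpace ℝ V] [FiniteDimensional ℝ V]

/-- `exp (-c A)` is a contraction for `c ≥ 0` and `A` symmetric and nonnegative. -/
theorem norm_exp_le (A : V →L[ℝ] V) (hA : ∀ x y, ⟪A x, y⟫_ℝ = ⟪x, A y⟫_ℝ)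
    (hA0 : ∀ x, 0 ≤ ⟪x, A x⟫_ℝ) (c : ℝ) (hc : 0 ≤ c) (v : V) :
    ‖exp (-c • A) v‖ ≤ ‖v‖ := by
  letI : NormedAlgebra ℚ (V →L[ℝ] V) := NormedAlgebra.restrictScalars ℚ ℝ (V →L[ℝ] V)
  have hsym : ∀ x y, ⟪(-c • A) x, y⟫_ℝ = ⟪x, (-c • A) y⟫_ℝ := by
    intro x y
    rw [smul_apply, smul_apply, inner_smul_left, inner_smul_right, hA]
    simp only [Real.ringHom_apply, neg_mul]
  have h1 : ‖exp (-c • A) v‖ ^ 2 = ⟪v, exp (-(2 * c) • A) v⟫_ℝ := by
    have h2 : exp (-(2 * c) • A) = exp (-c • A) * exp (-c • A) := by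
      rw [← exp_add_of_commute (Commute.refl _), ← add_smul]
      congr 2
      ring
    rw [h2, mul_apply_eq_comp, ← exp_symm _ hsym, real_inner_self_eq_norm_sq]
  have h3 := exp_form_le A hA ⊤ (fun x _ => Submodule.mem_top) 0
    (fun x _ => by rw [zero_mul]; exact hA0 x) (2 * c) (by (clear * - hc; positivity)) v Submodule.mem_top
  rw [mul_zero, Real.exp_zero, one_mul, ← h1] at h3
  exact le_of_sq_le_sq h3 (norm_nonneg _)

theorem norm_exp_mono (A : V →L[ℝ] V) (hA : ∀ x y, ⟪A x, y⟫_ℝ = ⟪x, A y⟫_ℝ)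
    (hA0 : ∀ x, 0 ≤ ⟪x, A x⟫_ℝ) (a b : ℝ) (hab : a ≤ b) (v : V) :
    ‖exp (-b • A) v‖ ≤ ‖exp (-a • A) v‖ := by
  letI : NormedAlgebra ℚ (V →L[ℝ] V) := NormedAlgebra.restrictScalars ℚ ℝ (V →L[ℝ] V)
  have h2 : exp (-b • A) = exp (-(b - a) • A) * exp (-a • A) := by
    rw [← exp_add_of_commute ((Commute.refl A).smul_left _ |>.smul_right _), ← add_smul]
    congr 2
    ring
  rw [h2, mul_apply_eq_comp]
  exact norm_exp_le A hA hA0 (b - a) (by linarith only [hab]) _

end expo

section step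

variable {V : Type*} [NormedAddCommGroup V] [InnerProductSpace ℝ V] [FiniteDimensional ℝ V]

theorem step_aux {β : Type*} [Fintype β] [DecidableEq β]
    (ρ : Perm (Bool × β) →* (V →L[ℝ] V)) (hρ : ∀ g v, ‖ρ g v‖ = ‖v‖)
    (Q : (Perm β →* (V →L[ℝ] V)) → (V →L[ℝ] V))
    (hQc : ∀ σ : Perm β →* (V →L[ℝ] V), ∀ X : V →L[ℝ] V, (∀ g, Commute X (σ g)) →
      Commute X (Q σ))
    (t s : ℝ)
    (hQ : ∀ σ : Perm β →* (V →L[ℝ] V), (∀ g v, ‖σ g v‖ = ‖v‖) → ∀ v,
      ‖Q σ v‖ ≤ ‖exp (-(t / 2) • gen σ) v‖)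
    (hkey : ∀ v : V, (∀ x : β, ρ (swap (false, x) (true, x)) v = v) →
      ‖exp (-(t / 2) • (gen (ρ.comp (extHom true)) + gen (ρ.comp (extHom false)))) v‖ ≤
      ‖exp (-(s / 2) • gen ρ) v‖) (v : V) :
    ‖Q (ρ.comp (extHom true)) (Q (ρ.comp (extHom false)) (avgCol ρ v))‖ ≤
      ‖exp (-(s / 2) • gen ρ) v‖ := by
  letI : NormedAlgebra ℚ (V →L[ℝ] V) := NormedAlgebra.restrictScalars ℚ ℝ (V →L[ℝ] V)
  have hcc : ∀ g g' : Perm β, Commute (ρ.comp (extHom true) g) (ρ.comp (extHom false) g') := by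
    intro g g'
    change ρ (extHom true g) * ρ (extHom false g') = ρ (extHom false g') * ρ (extHom true g)
    rw [← map_mul, extHom_commute, map_mul]
  have hgc : ∀ g', Commute (gen (ρ.comp (extHom true))) (ρ.comp (extHom false) g') := by
    intro g'
    exact (commute_gen _ _ fun g => (hcc g g').symm).symm
  have hec : ∀ g', Commute (exp (-(t / 2) • gen (ρ.comp (extHom (β := β) true))))
      (ρ.comp (extHom false) g') := by
    intro g'
    exact (((hgc g').smul_left _).symm.exp_right).symm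
  have hQ2 : Commute (exp (-(t / 2) • gen (ρ.comp (extHom (β := β) true))))
      (Q (ρ.comp (extHom false))) := hQc _ _ hec
  have hgg : Commute (gen (ρ.comp (extHom (β := β) false)))
      (gen (ρ.comp (extHom (β := β) true))) :=
    commute_gen _ _ fun g => (commute_gen _ _ fun g' => (hcc g g')).symm
  set w := avgCol ρ v with hw
  calc ‖Q (ρ.comp (extHom true)) (Q (ρ.comp (extHom false)) w)‖
      ≤ ‖exp (-(t / 2) • gen (ρ.comp (extHom (β := β) true))) (Q (ρ.comp (extHom false)) w)‖ :=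
        hQ _ (fun g u => hρ _ _) _
    _ = ‖Q (ρ.comp (extHom false)) (exp (-(t / 2) • gen (ρ.comp (extHom (β := β) true))) w)‖ := by
        rw [← mul_apply_eq_comp, hQ2.eq, mul_apply_eq_comp]
    _ ≤ ‖exp (-(t / 2) • gen (ρ.comp (extHom (β := β) false)))
          (exp (-(t / 2) • gen (ρ.comp (extHom (β := β) true))) w)‖ :=
        hQ _ (fun g u => hρ _ _) _
    _ = ‖exp (-(t / 2) • (gen (ρ.comp (extHom true)) + gen (ρ.comp (extHom false)))) w‖ := by
        rw [← mul_apply_eq_comp, ← exp_add_of_commute ((hgg.smul_left _).smul_right _),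
          ← smul_add, add_comm]
    _ ≤ ‖exp (-(s / 2) • gen ρ) w‖ := hkey w fun x => avgCol_fixed ρ v x
    _ = ‖avgCol ρ (exp (-(s / 2) • gen ρ) v)‖ := by
        have h1 : Commute (exp (-(s / 2) • gen ρ)) (avgCol ρ) := by
          refine commute_avgCol ρ _ fun g => ?_
          have h2 : Commute (gen ρ) (ρ g) := (gen_comm ρ g).symm
          exact (((h2).smul_left _).symm.exp_right).symm
        rw [hw, ← mul_apply_eq_comp, h1.eq, mul_apply_eq_comp]
    _ ≤ ‖exp (-(s / 2) • gen ρ) v‖ := norm_avgCol_le ρ hρ _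

/-- the induction step -/
theorem pass_step (d : ℕ) (t s : ℝ) (ht0 : 0 < t) (ht : t ≤ 7 / 100)
    (hs : s ≤ t - 5 * t ^ 2 / (2 * 2 ^ d))
    (ih : ∀ σ : Perm (Cube d) →* (V →L[ℝ] V), (∀ g v, ‖σ g v‖ = ‖v‖) → ∀ v,
      ‖passAdj d σ v‖ ≤ ‖exp (-(t / 2) • gen σ) v‖)
    (ρ : Perm (Cube (d + 1)) →* (V →L[ℝ] V)) (hρ : ∀ g v, ‖ρ g v‖ = ‖v‖) (v : V) :
    ‖passAdj (d + 1) ρ v‖ ≤ ‖exp (-(s / 2) • gen ρ) v‖ := by
  have hne : Nonempty (Cube d) := by
    rw [← Fintype.card_pos_iff, card_cube]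
    positivity
  refine step_aux (β := Cube d) ρ hρ (passAdj d) (commute_passAdj d) t s ih ?_ v
  intro w hw
  refine (keyLemma (β := Cube d) ρ hρ t ht0 ht w hw).trans ?_
  rw [card_cube]
  push_cast
  refine norm_exp_mono (gen ρ) (gen_symm ρ hρ) (inner_gen_nonneg ρ hρ) (s / 2) _ ?_ w
  linarith only [hs]

/-- the schedule -/
theorem pass_zero (t : ℝ) (σ : Perm (Cube 0) →* (V →L[ℝ] V)) (v : V) :
    ‖passAdj 0 σ v‖ ≤ ‖exp (-(t / 2) • gen σ) v‖ := by
  have h : gen σ = 0 := by
    unfold gen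
    have : ∀ a b : Cube 0, swap a b = 1 := by
      intro a b
      have : Subsingleton (Cube 0) := inferInstanceAs (Subsingleton Unit)
      rw [Subsingleton.elim a b, swap_self]
      rfl
    simp only [one_div, mul_inv_rev, this, map_one, sub_self, Finset.sum_const_zero, smul_zero]
  rw [h, smul_zero, exp_zero]
  exact le_of_eq rfl

theorem pass_three (σ : Perm (Cube 3) →* (V →L[ℝ] V)) (hσ : ∀ g v, ‖σ g v‖ = ‖v‖) (v : V) :
    ‖passAdj 3 σ v‖ ≤ ‖exp (-((5177 / 100000 : ℝ) / 2) • gen σ) v‖ := by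
  refine pass_step 2 (5357 / 100000) _ (by norm_num) (by norm_num) (by norm_num) ?_ σ hσ v
  refine pass_step 1 (5775 / 100000) _ (by norm_num) (by norm_num) (by norm_num) ?_
  refine pass_step 0 (7 / 100) _ (by norm_num) (by norm_num) (by norm_num) ?_
  intro σ _ v
  exact pass_zero _ σ v

theorem pass_ge_three (d : ℕ) (σ : Perm (Cube (d + 3)) →* (V →L[ℝ] V))
    (hσ : ∀ g v, ‖σ g v‖ = ‖v‖) (v : V) :
    ‖passAdj (d + 3) σ v‖ ≤ ‖exp (-((1 / 20 + (177 / 100000) / 2 ^ d : ℝ) / 2) • gen σ) v‖ := by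
  induction d generalizing v with
  | zero =>
    have h := pass_three σ hσ v
    norm_num at h ⊢
    exact h
  | succ d ih =>
    have h1 : (0 : ℝ) < 2 ^ d := by positivity
    have h2 : (1 : ℝ) ≤ 2 ^ d := one_le_pow₀ (by norm_num)
    have h3 : ((177 : ℝ) / 100000) / 2 ^ d ≤ 177 / 100000 := by
      rw [div_le_iff₀ h1]
      nlinarith only [h2]
    have h4 : 0 < ((177 : ℝ) / 100000) / 2 ^ d := by positivity
    refine pass_step (d + 3) (1 / 20 + (177 / 100000) / 2 ^ d) _ (by positivity) (by linarith only [h3])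
      ?_ (fun σ hσ v => ih σ hσ v) σ hσ v
    have h5 : (5 : ℝ) * (1 / 20 + (177 / 100000) / 2 ^ d) ^ 2 ≤ 5 * (5177 / 100000) ^ 2 := by
      gcongr
      linarith only [h3]
    have h6 : (2 : ℝ) * 2 ^ (d + 3) = 16 * 2 ^ d := by ring
    have h7 : (5 : ℝ) * (1 / 20 + (177 / 100000) / 2 ^ d) ^ 2 / (2 * 2 ^ (d + 3)) ≤
        5 * (5177 / 100000) ^ 2 / (16 * 2 ^ d) := by
      rw [h6]
      (clear * - h5; gcongr)
    have h8 : ((177 : ℝ) / 100000) / 2 ^ (d + 1) = ((177 / 100000) / 2) / 2 ^ d := by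
      rw [pow_succ]
      (clear * -; field_simp)
    have h9 : (5 : ℝ) * (5177 / 100000) ^ 2 / (16 * 2 ^ d) ≤ ((177 / 100000) / 2) / 2 ^ d := by
      rw [div_le_div_iff₀ (by positivity) (by positivity)]
      nlinarith only [h2]
    have h10 : ((177 : ℝ) / 100000) / 2 ^ d = 2 * (((177 / 100000) / 2) / 2 ^ d) := by ring
    rw [h8]
    linarith only [h7, h9, h10]

/-- The pass bound. -/
theorem passBound (d : ℕ) (ρ : Perm (Cube d) →* (V →L[ℝ] V)) (hρ : ∀ g v, ‖ρ g v‖ = ‖v‖)
    (v : V) : ‖passAdj d ρ v‖ ≤ ‖exp (-(1 / 40 : ℝ) • gen ρ) v‖ := by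
  have hmono : ∀ a : ℝ, 1 / 20 ≤ a → ‖passAdj d ρ v‖ ≤ ‖exp (-(a / 2) • gen ρ) v‖ →
      ‖passAdj d ρ v‖ ≤ ‖exp (-(1 / 40 : ℝ) • gen ρ) v‖ := by
    intro a ha h
    exact h.trans (norm_exp_mono (gen ρ) (gen_symm ρ hρ) (inner_gen_nonneg ρ hρ) (1 / 40) _
      (by linarith only [ha]) v)
  match d, ρ, hρ, hmono with
  | 0, ρ, hρ, hmono => exact hmono (1 / 20) le_rfl (pass_zero _ ρ v)
  | 1, ρ, hρ, hmono =>
    refine hmono (5775 / 100000) (by norm_num) ?_
    refine pass_step 0 (7 / 100) _ (by norm_num) (by norm_num) (by norm_num) ?_ ρ hρ v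
    intro σ _ v
    exact pass_zero _ σ v
  | 2, ρ, hρ, hmono =>
    refine hmono (5357 / 100000) (by norm_num) ?_
    refine pass_step 1 (5775 / 100000) _ (by norm_num) (by norm_num) (by norm_num) ?_ ρ hρ v
    refine pass_step 0 (7 / 100) _ (by norm_num) (by norm_num) (by norm_num) ?_
    intro σ _ v
    exact pass_zero _ σ v
  | d + 3, ρ, hρ, hmono =>
    refine hmono (1 / 20 + (177 / 100000) / 2 ^ d) ?_ (pass_ge_three d ρ hρ v)
    have h4 : 0 < ((177 : ℝ) / 100000) / 2 ^ d := by positivity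
    linarith only [h4]

end step

end Vale.Agent.P162
end
end
end

section

section

section

/-!
# P162: generators on subsets, family form of the key lemma, dropping wires
-/

namespace Vale.Agent.P162

open Equiv NormedSpace
open scoped InnerProductSpace

section genOn

variable {ι : Type*} [DecidableEq ι]
variable {V : Type*} [NormedAddCommGroup V] [InnerProductSpace ℝ V]
variable (ρ : Perm ι →* (V →L[ℝ] V))

/-- The interchange generator on the subset `B`. -/
noncomputable def genOn (B : Finset ι) : V →L[ℝ] V :=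
  (1 / (2 * (B.card : ℝ))) • ∑ a ∈ B, ∑ b ∈ B, (1 - ρ (swap a b))

theorem genOn_univ [Fintype ι] : genOn ρ Finset.univ = gen ρ := by
  unfold genOn gen
  rw [Finset.card_univ]

theorem genOn_empty : genOn ρ (∅ : Finset ι) = 0 := by
  unfold genOn
  simp

theorem genOn_singleton (a : ι) : genOn ρ {a} = 0 := by
  unfold genOn
  rw [Finset.sum_singleton, Finset.sum_singleton, swap_self]
  have : ρ (Equiv.refl ι) = 1 := map_one ρ
  rw [this, sub_self, smul_zero]

theorem genOn_map_mul (g : Perm ι) (B : Finset ι) :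
    genOn ρ (B.map g.toEmbedding) * ρ g = ρ g * genOn ρ B := by
  unfold genOn
  rw [Finset.card_map, smul_mul_assoc, mul_smul_comm]
  congr 1
  rw [Finset.sum_map, Finset.sum_mul, Finset.mul_sum]
  refine Finset.sum_congr rfl fun a _ => ?_
  rw [Finset.sum_map, Finset.sum_mul, Finset.mul_sum]
  refine Finset.sum_congr rfl fun b _ => ?_
  simp only [Equiv.toEmbedding_apply]
  rw [mul_sub, sub_mul, one_mul, mul_one, ← map_mul, ← map_mul, mul_swap_eq_swap_mul]

omit [DecidableEq ι] in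
theorem map_eq_of_maps (g : Perm ι) (B : Finset ι) (hg : ∀ a ∈ B, g a ∈ B) :
    B.map g.toEmbedding = B := by
  apply Finset.eq_of_subset_of_card_le
  · intro x hx
    rw [Finset.mem_map] at hx
    obtain ⟨a, ha, rfl⟩ := hx
    exact hg a ha
  · rw [Finset.card_map]

theorem rho_genOn_commute (g : Perm ι) (B : Finset ι) (hg : ∀ a ∈ B, g a ∈ B) :
    Commute (ρ g) (genOn ρ B) := by
  have h := genOn_map_mul ρ g B
  rw [map_eq_of_maps g B hg] at h
  exact h.symm

theorem swap_maps {B : Finset ι} {c d : ι} (h : (c ∈ B ∧ d ∈ B) ∨ (c ∉ B ∧ d ∉ B)) :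
    ∀ a ∈ B, swap c d a ∈ B := by
  intro a ha
  rcases h with ⟨hc, hd⟩ | ⟨hc, hd⟩
  · rcases swap_apply_def c d a ▸ (rfl : swap c d a = swap c d a) with _
    by_cases h1 : a = c
    · subst h1; rwa [swap_apply_left]
    · by_cases h2 : a = d
      · subst h2; rwa [swap_apply_right]
      · rwa [swap_apply_of_ne_of_ne h1 h2]
  · rw [swap_apply_of_ne_of_ne]
    · exact ha
    · rintro rfl; exact hc ha
    · rintro rfl; exact hd ha

theorem swap_genOn_commute {B : Finset ι} {c d : ι} (h : (c ∈ B ∧ d ∈ B) ∨ (c ∉ B ∧ d ∉ B)) :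
    Commute (ρ (swap c d)) (genOn ρ B) :=
  rho_genOn_commute ρ _ B (swap_maps h)

theorem genOn_commute {B B' : Finset ι} (h : B' ⊆ B ∨ Disjoint B B') :
    Commute (genOn ρ B) (genOn ρ B') := by
  conv => rhs; unfold genOn
  refine Commute.smul_right (Commute.sum_right _ _ _ fun c hc =>
    Commute.sum_right _ _ _ fun d hd => ?_) _
  refine (Commute.one_right _).sub_right ?_
  refine (swap_genOn_commute ρ ?_).symm
  rcases h with h | h
  · exact Or.inl ⟨h hc, h hd⟩
  · exact Or.inr ⟨fun hc' => (Finset.disjoint_left.mp h hc' hc),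
      fun hd' => (Finset.disjoint_left.mp h hd' hd)⟩

theorem genOn_commute' {B B' : Finset ι} (h : B ⊆ B' ∨ B' ⊆ B ∨ Disjoint B B') :
    Commute (genOn ρ B) (genOn ρ B') := by
  rcases h with h | h
  · exact (genOn_commute ρ (Or.inl h)).symm
  · exact genOn_commute ρ h

section inner

variable (hρ : ∀ g v, ‖ρ g v‖ = ‖v‖)

include hρ

theorem genOn_symm (B : Finset ι) (u v : V) : ⟪genOn ρ B u, v⟫_ℝ = ⟪u, genOn ρ B v⟫_ℝ := by
  unfold genOn
  simp only [smul_apply, sum_apply, sub_apply, one_apply_eq_self, inner_smul_left,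
    inner_smul_right, sum_inner, inner_sum, inner_sub_left, inner_sub_right,
    inner_rho_left ρ hρ, swap_inv]
  simp only [one_div, mul_inv_rev, Real.ringHom_apply, Finset.sum_sub_distrib, Finset.sum_const, nsmul_eq_mul]

omit hρ in
theorem inner_genOn (B : Finset ι) (u : V) : ⟪u, genOn ρ B u⟫_ℝ =
    1 / (2 * (B.card : ℝ)) * ∑ p ∈ B ×ˢ B, (‖u‖ ^ 2 - ⟪u, ρ (swap p.1 p.2) u⟫_ℝ) := by
  unfold genOn
  simp only [smul_apply, sum_apply, sub_apply, one_apply_eq_self, inner_smul_right, inner_sum,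
    inner_sub_right, real_inner_self_eq_norm_sq]
  rw [Finset.sum_product]

/-- Disjoint subsets: the generator on the big set dominates. -/
theorem sum_card_genOn_le {κ : Type*} (𝒲 : Finset κ) (B : κ → Finset ι) (C : Finset ι)
    (hsub : ∀ W ∈ 𝒲, B W ⊆ C)
    (hdisj : ∀ W ∈ 𝒲, ∀ W' ∈ 𝒲, W ≠ W' → Disjoint (B W) (B W')) (u : V) :
    ∑ W ∈ 𝒲, ((B W).card : ℝ) * ⟪u, genOn ρ (B W) u⟫_ℝ ≤ (C.card : ℝ) * ⟪u, genOn ρ C u⟫_ℝ := by
  classical
  have hf : ∀ p : ι × ι, 0 ≤ ‖u‖ ^ 2 - ⟪u, ρ (swap p.1 p.2) u⟫_ℝ := fun p => by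
    have := inner_rho_self_le ρ hρ (swap p.1 p.2) u
    linarith
  have h1 : ∀ B : Finset ι, (B.card : ℝ) * ⟪u, genOn ρ B u⟫_ℝ =
      1 / 2 * ∑ p ∈ B ×ˢ B, (‖u‖ ^ 2 - ⟪u, ρ (swap p.1 p.2) u⟫_ℝ) := by
    intro B
    rw [inner_genOn]
    rcases Finset.eq_empty_or_nonempty B with rfl | hB
    · simp only [Finset.card_empty, CharP.cast_eq_zero, mul_zero, div_zero, Finset.product_empty, Finset.sum_sub_distrib, Finset.sum_const, zero_nsmul, Finset.sum_empty, sub_self, one_div]
    · have : (0 : ℝ) < B.card := by exact_mod_cast hB.card_pos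
      (clear * - hB; field_simp)
  rw [h1 C]
  simp only [h1]
  rw [← Finset.mul_sum]
  refine mul_le_mul_of_nonneg_left ?_ (by norm_num)
  rw [← Finset.sum_biUnion]
  · refine Finset.sum_le_sum_of_subset_of_nonneg ?_ fun p _ _ => hf p
    intro p hp
    rw [Finset.mem_biUnion] at hp
    obtain ⟨W, hW, hp⟩ := hp
    rw [Finset.mem_product] at hp ⊢
    exact ⟨hsub W hW hp.1, hsub W hW hp.2⟩
  · intro W hW W' hW' hne
    change Disjoint (B W ×ˢ B W) (B W' ×ˢ B W')
    rw [Finset.disjoint_left]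
    intro p hp hp'
    rw [Finset.mem_product] at hp hp'
    exact Finset.disjoint_left.mp (hdisj W hW W' hW' hne) hp.1 hp'.1

theorem card_genOn_le {B C : Finset ι} (hsub : B ⊆ C) (u : V) :
    (B.card : ℝ) * ⟪u, genOn ρ B u⟫_ℝ ≤ (C.card : ℝ) * ⟪u, genOn ρ C u⟫_ℝ := by
  have h := sum_card_genOn_le ρ hρ ({()} : Finset Unit) (fun _ => B) C (fun _ _ => hsub)
    (fun _ _ _ _ h => absurd rfl h) u
  simpa only [ge_iff_le, Finset.sum_const, Finset.card_singleton, one_smul] using h

theorem inner_genOn_nonneg (B : Finset ι) (u : V) : 0 ≤ ⟪u, genOn ρ B u⟫_ℝ := by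
  rw [inner_genOn]
  refine mul_nonneg (by (clear * -; (clear * -; positivity))) (Finset.sum_nonneg fun p _ => ?_)
  have := inner_rho_self_le ρ hρ (swap p.1 p.2) u
  linarith

end inner

end genOn

section expo

variable {V : Type*} [NormedAddCommGroup V] [InnerProductSpace ℝ V] [FiniteDimensional ℝ V]

/-- Comparison of exponentials of commuting symmetric operators. -/
theorem norm_exp_anti (X Y : V →L[ℝ] V) (hX : ∀ x y, ⟪X x, y⟫_ℝ = ⟪x, X y⟫_ℝ)
    (hY : ∀ x y, ⟪Y x, y⟫_ℝ = ⟪x, Y y⟫_ℝ) (hXY : Commute X Y)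
    (h : ∀ u, ⟪u, X u⟫_ℝ ≤ ⟪u, Y u⟫_ℝ) (v : V) :
    ‖exp (-((1 / 2 : ℝ) • Y)) v‖ ≤ ‖exp (-((1 / 2 : ℝ) • X)) v‖ := by
  let _ : NormedAlgebra ℚ (V →L[ℝ] V) := NormedAlgebra.restrictScalars ℚ ℝ (V →L[ℝ] V)
  have hc : Commute (-(1 / 2 : ℝ) • (Y - X)) (-((1 / 2 : ℝ) • X)) :=
    (((hXY.symm.sub_left (Commute.refl X)).smul_left _).smul_right _).neg_right
  have h1 : exp (-((1 / 2 : ℝ) • Y)) = exp (-(1 / 2 : ℝ) • (Y - X)) * exp (-((1 / 2 : ℝ) • X)) := by
    rw [← exp_add_of_commute hc]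
    congr 1
    module
  rw [h1, mul_apply_eq_comp]
  refine norm_exp_le (Y - X) ?_ ?_ (1 / 2) (by norm_num) _
  · intro x y
    rw [sub_apply, sub_apply, inner_sub_left, inner_sub_right, hX, hY]
  · intro x
    rw [sub_apply, inner_sub_right]
    linarith only [h x, h]

end expo

section embed

variable {ι : Type*} [DecidableEq ι]
variable {V : Type*} [NormedAddCommGroup V] [InnerProductSpace ℝ V]
variable (ρ : Perm ι →* (V →L[ℝ] V))

theorem viaEmbedding_swap {κ : Type*} [DecidableEq κ] (e : κ ↪ ι) (a b : κ) :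
    Perm.viaEmbeddingHom e (swap a b) = swap (e a) (e b) := by
  ext x
  rw [Perm.viaEmbeddingHom_apply]
  by_cases hx : x ∈ Set.range e
  · obtain ⟨y, rfl⟩ := hx
    rw [Perm.viaEmbedding_apply, e.injective.map_swap]
  · rw [Perm.viaEmbedding_apply_of_notMem _ _ _ hx, swap_apply_of_ne_of_ne]
    · rintro rfl; exact hx ⟨a, rfl⟩
    · rintro rfl; exact hx ⟨b, rfl⟩

theorem gen_viaEmbedding {κ : Type*} [Fintype κ] [DecidableEq κ] (e : κ ↪ ι) :
    gen (ρ.comp (Perm.viaEmbeddingHom e)) = genOn ρ (Finset.univ.map e) := by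
  unfold gen genOn
  rw [Finset.card_map, Finset.card_univ]
  congr 1
  rw [Finset.sum_map]
  refine Finset.sum_congr rfl fun a _ => ?_
  rw [Finset.sum_map]
  refine Finset.sum_congr rfl fun b _ => ?_
  rw [MonoidHom.comp_apply, viaEmbedding_swap]

end embed

section family

variable {ι : Type*} [DecidableEq ι]
variable {V : Type*} [NormedAddCommGroup V] [InnerProductSpace ℝ V]
variable {γ : Type*} [DecidableEq γ]

/-- One side of a set of columns. -/
def side (E : Bool × γ ↪ ι) (b : Bool) (s : Finset γ) : Finset ι :=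
  s.map ⟨fun l => E (b, l), fun _ _ h => (Prod.mk.inj (E.injective h)).2⟩

/-- The wires of a set of columns. -/
def full (E : Bool × γ ↪ ι) (s : Finset γ) : Finset ι :=
  ((Finset.univ : Finset Bool) ×ˢ s).map E

omit [DecidableEq ι] [DecidableEq γ] in
theorem mem_side {E : Bool × γ ↪ ι} {b : Bool} {s : Finset γ} {x : ι} :
    x ∈ side E b s ↔ ∃ l ∈ s, E (b, l) = x := by
  unfold side
  rw [Finset.mem_map]
  rfl

omit [DecidableEq ι] [DecidableEq γ] in
theorem mem_full {E : Bool × γ ↪ ι} {s : Finset γ} {x : ι} :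
    x ∈ full E s ↔ ∃ b, ∃ l ∈ s, E (b, l) = x := by
  unfold full
  rw [Finset.mem_map]
  constructor
  · rintro ⟨⟨b, l⟩, hl, h⟩
    exact ⟨b, l, (Finset.mem_product.mp hl).2, h⟩
  · rintro ⟨b, l, hl, h⟩
    exact ⟨(b, l), Finset.mem_product.mpr ⟨Finset.mem_univ _, hl⟩, h⟩

omit [DecidableEq ι] [DecidableEq γ] in
theorem apply_mem_side {E : Bool × γ ↪ ι} {b c : Bool} {s : Finset γ} {l : γ} :
    E (c, l) ∈ side E b s ↔ c = b ∧ l ∈ s := by
  rw [mem_side]
  constructor
  · rintro ⟨l', hl', h⟩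
    have := E.injective h
    rw [Prod.mk.injEq] at this
    obtain ⟨rfl, rfl⟩ := this
    exact ⟨rfl, hl'⟩
  · rintro ⟨rfl, hl⟩
    exact ⟨l, hl, rfl⟩

omit [DecidableEq ι] [DecidableEq γ] in
theorem apply_mem_full {E : Bool × γ ↪ ι} {c : Bool} {s : Finset γ} {l : γ} :
    E (c, l) ∈ full E s ↔ l ∈ s := by
  rw [mem_full]
  constructor
  · rintro ⟨b, l', hl', h⟩
    have := E.injective h
    rw [Prod.mk.injEq] at this
    obtain ⟨rfl, rfl⟩ := this
    exact hl'
  · intro hl
    exact ⟨c, l, hl, rfl⟩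

omit [DecidableEq ι] [DecidableEq γ] in
theorem card_side (E : Bool × γ ↪ ι) (b : Bool) (s : Finset γ) : (side E b s).card = s.card :=
  Finset.card_map _

omit [DecidableEq ι] [DecidableEq γ] in
theorem card_full (E : Bool × γ ↪ ι) (s : Finset γ) : (full E s).card = 2 * s.card := by
  unfold full
  rw [Finset.card_map, Finset.card_product, Finset.card_univ, Fintype.card_bool]

omit [DecidableEq ι] [DecidableEq γ] in
theorem side_empty (E : Bool × γ ↪ ι) (b : Bool) : side E b (∅ : Finset γ) = ∅ := by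
  simp [side]

omit [DecidableEq ι] [DecidableEq γ] in
theorem full_empty (E : Bool × γ ↪ ι) : full E (∅ : Finset γ) = ∅ := by
  simp [full]

/-- The time of the parent block. -/
noncomputable def tt (a b N : ℝ) : ℝ :=
  (a + b) / 2 - 5 * ((a + b) / 2) ^ 2 / (2 * N) - 60 * ((a - b) / 2) ^ 2

variable (ρ : Perm ι →* (V →L[ℝ] V))

omit [DecidableEq γ] in
theorem gen_side (E : Bool × γ ↪ ι) (b : Bool) (s : Finset γ)
    [DecidableEq {l // l ∈ s}] (e : Bool × {l // l ∈ s} ↪ ι)
    (he : ∀ p, e p = E (p.1, p.2.1)) :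
    gen ((ρ.comp (Perm.viaEmbeddingHom e)).comp (extHom b)) = genOn ρ (side E b s) := by
  unfold gen genOn
  rw [card_side, Fintype.card_coe]
  congr 1
  unfold side
  rw [Finset.sum_map, ← Finset.sum_coe_sort s]
  refine Finset.sum_congr rfl fun x _ => ?_
  rw [Finset.sum_map, ← Finset.sum_coe_sort s]
  refine Finset.sum_congr rfl fun y _ => ?_
  rw [MonoidHom.comp_apply, MonoidHom.comp_apply, extHom_swap, viaEmbedding_swap, he, he]
  rfl

omit [DecidableEq γ] in
theorem gen_full (E : Bool × γ ↪ ι) (s : Finset γ)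
    [DecidableEq {l // l ∈ s}] (e : Bool × {l // l ∈ s} ↪ ι)
    (he : ∀ p, e p = E (p.1, p.2.1)) :
    gen (ρ.comp (Perm.viaEmbeddingHom e)) = genOn ρ (full E s) := by
  rw [gen_viaEmbedding]
  congr 1
  ext x
  rw [mem_full, Finset.mem_map]
  constructor
  · rintro ⟨⟨b, l⟩, _, h⟩
    exact ⟨b, l.1, l.2, by rw [← h, he]⟩
  · rintro ⟨b, l, hl, h⟩
    exact ⟨(b, ⟨l, hl⟩), Finset.mem_univ _, by rw [he, ← h]⟩

variable [FiniteDimensional ℝ V] (hρ : ∀ g v, ‖ρ g v‖ = ‖v‖)

include hρ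

theorem block_key (E : Bool × γ ↪ ι) (s : Finset γ) (a b : ℝ) (ha : 0 ≤ a) (hb : 0 ≤ b)
    (hab : (a + b) / 2 ≤ 7 / 100) (v : V)
    (hv : ∀ l ∈ s, ρ (swap (E (false, l)) (E (true, l))) v = v) :
    ‖exp (-((1 / 2 : ℝ) • (a • genOn ρ (side E true s) + b • genOn ρ (side E false s)))) v‖ ≤
      ‖exp (-((1 / 2 : ℝ) • (tt a b s.card • genOn ρ (full E s)))) v‖ := by
  rcases Finset.eq_empty_or_nonempty s with rfl | hs
  · simp only [side_empty, full_empty, genOn_empty, smul_zero, add_zero]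
    exact le_rfl
  set e : Bool × {l // l ∈ s} ↪ ι :=
    ⟨fun p => E (p.1, p.2.1), by
      rintro ⟨b1, l1⟩ ⟨b2, l2⟩ h
      have := E.injective h
      rw [Prod.mk.injEq] at this
      exact Prod.ext this.1 (Subtype.ext this.2)⟩ with he
  have he' : ∀ p, e p = E (p.1, p.2.1) := fun p => rfl
  have hne : Nonempty {l // l ∈ s} := hs.to_subtype
  have h := keyLemma2 (ρ.comp (Perm.viaEmbeddingHom e)) (fun g u => hρ _ _) a b ha hb hab v (by
    intro x
    rw [MonoidHom.comp_apply, viaEmbedding_swap, he', he']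
    exact hv x.1 x.2)
  rw [gen_side ρ E true s e he', gen_side ρ E false s e he', gen_full ρ E s e he',
    Fintype.card_coe] at h
  refine h.trans (le_of_eq ?_)
  have e1 : -((1 / 2 : ℝ) • (tt a b s.card • genOn ρ (full E s))) =
      -(((a + b) / 2 - 5 * ((a + b) / 2) ^ 2 / (2 * (s.card : ℝ)) - 60 * ((a - b) / 2) ^ 2) / 2) •
        genOn ρ (full E s) := by
    unfold tt
    module
  rw [e1]

theorem family_key {κ : Type*} [DecidableEq κ] (E : Bool × γ ↪ ι) (β : κ → Finset γ)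
    (a b : κ → ℝ) (𝒲 : Finset κ)
    (hdisj : ∀ W ∈ 𝒲, ∀ W' ∈ 𝒲, W ≠ W' → Disjoint (β W) (β W'))
    (ha : ∀ W ∈ 𝒲, 0 ≤ a W) (hb : ∀ W ∈ 𝒲, 0 ≤ b W) (hab : ∀ W ∈ 𝒲, (a W + b W) / 2 ≤ 7 / 100)
    (v : V) (hv : ∀ W ∈ 𝒲, ∀ l ∈ β W, ρ (swap (E (false, l)) (E (true, l))) v = v) :
    ‖exp (-((1 / 2 : ℝ) • ∑ W ∈ 𝒲, (a W • genOn ρ (side E true (β W)) +
        b W • genOn ρ (side E false (β W))))) v‖ ≤
      ‖exp (-((1 / 2 : ℝ) • ∑ W ∈ 𝒲, tt (a W) (b W) (β W).card • genOn ρ (full E (β W)))) v‖ := by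
  let _ : NormedAlgebra ℚ (V →L[ℝ] V) := NormedAlgebra.restrictScalars ℚ ℝ (V →L[ℝ] V)
  induction 𝒲 using Finset.induction_on generalizing v with
  | empty => simp only [one_div, Finset.sum_empty, smul_zero, neg_zero, exp_zero, one_apply_eq_self, Std.le_refl]
  | insert W₀ 𝒲 hW₀ ih =>
    rw [Finset.sum_insert hW₀, Finset.sum_insert hW₀]
    have hsplit : ∀ W ∈ 𝒲, Disjoint (β W) (β W₀) := fun W hW =>
      hdisj W (Finset.mem_insert_of_mem hW) W₀ (Finset.mem_insert_self _ _)
        (fun h => hW₀ (h ▸ hW))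
    -- disjointness of the sets of wires
    have dss : ∀ W ∈ 𝒲, ∀ c c' : Bool, Disjoint (side E c (β W)) (side E c' (β W₀)) := by
      intro W hW c c'
      rw [Finset.disjoint_left]
      intro x hx hx'
      rw [mem_side] at hx
      obtain ⟨l, hl, rfl⟩ := hx
      exact Finset.disjoint_left.mp (hsplit W hW) hl (apply_mem_side.mp hx').2
    have dsf : ∀ W ∈ 𝒲, ∀ c : Bool, Disjoint (side E c (β W)) (full E (β W₀)) := by
      intro W hW c
      rw [Finset.disjoint_left]
      intro x hx hx'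
      rw [mem_side] at hx
      obtain ⟨l, hl, rfl⟩ := hx
      exact Finset.disjoint_left.mp (hsplit W hW) hl (apply_mem_full.mp hx')
    have dff : ∀ W ∈ 𝒲, Disjoint (full E (β W)) (full E (β W₀)) := by
      intro W hW
      rw [Finset.disjoint_left]
      intro x hx hx'
      rw [mem_full] at hx
      obtain ⟨c, l, hl, rfl⟩ := hx
      exact Finset.disjoint_left.mp (hsplit W hW) hl (apply_mem_full.mp hx')
    set A₀ : V →L[ℝ] V := a W₀ • genOn ρ (side E true (β W₀)) +
      b W₀ • genOn ρ (side E false (β W₀)) with hA₀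
    set C₀ : V →L[ℝ] V := tt (a W₀) (b W₀) (β W₀).card • genOn ρ (full E (β W₀)) with hC₀
    set SA : V →L[ℝ] V := ∑ W ∈ 𝒲, (a W • genOn ρ (side E true (β W)) +
      b W • genOn ρ (side E false (β W))) with hSA
    set SC : V →L[ℝ] V := ∑ W ∈ 𝒲, tt (a W) (b W) (β W).card • genOn ρ (full E (β W)) with hSC
    have cAA : Commute A₀ SA := by
      rw [hA₀, hSA]
      refine Commute.sum_right _ _ _ fun W hW => ?_
      have h : ∀ c c' : Bool, Commute (genOn ρ (side E c (β W₀))) (genOn ρ (side E c' (β W))) :=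
        fun c c' => genOn_commute ρ (Or.inr (dss W hW c' c).symm)
      exact (((h _ _).smul_left _).smul_right _ |>.add_right
        (((h _ _).smul_left _).smul_right _)).add_left
        ((((h _ _).smul_left _).smul_right _).add_right (((h _ _).smul_left _).smul_right _))
    have cCA : Commute C₀ SA := by
      rw [hC₀, hSA]
      refine Commute.sum_right _ _ _ fun W hW => ?_
      have h : ∀ c' : Bool, Commute (genOn ρ (full E (β W₀))) (genOn ρ (side E c' (β W))) :=
        fun c' => genOn_commute ρ (Or.inr (dsf W hW c').symm)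
      exact ((((h _).smul_left _).smul_right _).add_right (((h _).smul_left _).smul_right _))
    have cCC : Commute C₀ SC := by
      rw [hC₀, hSC]
      refine Commute.sum_right _ _ _ fun W hW => ?_
      exact ((genOn_commute ρ (Or.inr (dff W hW).symm)).smul_left _).smul_right _
    have ecomm : ∀ X Y : V →L[ℝ] V, Commute X Y →
        Commute (exp (-((1 / 2 : ℝ) • X))) (exp (-((1 / 2 : ℝ) • Y))) := by
      intro X Y h
      exact (((h.smul_left _).smul_right _).neg_left.neg_right).exp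
    have eadd : ∀ X Y : V →L[ℝ] V, Commute X Y → exp (-((1 / 2 : ℝ) • (X + Y))) =
        exp (-((1 / 2 : ℝ) • X)) * exp (-((1 / 2 : ℝ) • Y)) := by
      intro X Y h
      rw [← exp_add_of_commute (((h.smul_left _).smul_right _).neg_left.neg_right)]
      congr 1
      module
    rw [eadd A₀ SA cAA, eadd C₀ SC cCC, mul_apply_eq_comp]
    -- first block
    have h1 : ‖exp (-((1 / 2 : ℝ) • A₀)) (exp (-((1 / 2 : ℝ) • SA)) v)‖ ≤
        ‖exp (-((1 / 2 : ℝ) • C₀)) (exp (-((1 / 2 : ℝ) • SA)) v)‖ := by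
      refine block_key ρ hρ E (β W₀) (a W₀) (b W₀) (ha _ (Finset.mem_insert_self _ _))
        (hb _ (Finset.mem_insert_self _ _)) (hab _ (Finset.mem_insert_self _ _)) _ ?_
      intro l hl
      have hc : Commute (ρ (swap (E (false, l)) (E (true, l)))) SA := by
        rw [hSA]
        refine Commute.sum_right _ _ _ fun W hW => ?_
        have hn : l ∉ β W := fun h => Finset.disjoint_left.mp (hsplit W hW) h hl
        have h : ∀ c : Bool, Commute (ρ (swap (E (false, l)) (E (true, l))))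
            (genOn ρ (side E c (β W))) := fun c =>
          swap_genOn_commute ρ (Or.inr ⟨fun h => hn (apply_mem_side.mp h).2,
            fun h => hn (apply_mem_side.mp h).2⟩)
        exact ((h _).smul_right _).add_right ((h _).smul_right _)
      have hc2 : Commute (ρ (swap (E (false, l)) (E (true, l)))) (exp (-((1 / 2 : ℝ) • SA))) :=
        (hc.smul_right _).neg_right.exp_right
      rw [← mul_apply_eq_comp, hc2.eq, mul_apply_eq_comp,
        hv W₀ (Finset.mem_insert_self _ _) l hl]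
    refine h1.trans ?_
    rw [← mul_apply_eq_comp, (ecomm C₀ SA cCA).eq, mul_apply_eq_comp, (ecomm C₀ SC cCC).eq,
      mul_apply_eq_comp]
    refine ih (fun W hW W' hW' => hdisj W (Finset.mem_insert_of_mem hW) W'
      (Finset.mem_insert_of_mem hW')) (fun W hW => ha W (Finset.mem_insert_of_mem hW))
      (fun W hW => hb W (Finset.mem_insert_of_mem hW))
      (fun W hW => hab W (Finset.mem_insert_of_mem hW)) _ ?_
    intro W hW l hl
    have hn : l ∉ β W₀ := fun h => Finset.disjoint_left.mp (hsplit W hW) hl h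
    have hc : Commute (ρ (swap (E (false, l)) (E (true, l)))) C₀ := by
      rw [hC₀]
      exact (swap_genOn_commute ρ (Or.inr ⟨fun h => hn (apply_mem_full.mp h),
        fun h => hn (apply_mem_full.mp h)⟩)).smul_right _
    have hc2 : Commute (ρ (swap (E (false, l)) (E (true, l)))) (exp (-((1 / 2 : ℝ) • C₀))) :=
      (hc.smul_right _).neg_right.exp_right
    rw [← mul_apply_eq_comp, hc2.eq, mul_apply_eq_comp,
      hv W (Finset.mem_insert_of_mem hW) l hl]

end family

end Vale.Agent.P162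
end
end
end

section

section

section

/-!
# From moments of the kernel on injective tuples to the trace (any symmetrised law)
-/

namespace Vale.Agent.P162.Lin

open Equiv

section Gen

variable {G : Type*} [Group G] [Fintype G]

theorem symLaw_inv (μ : G → ℝ) (g : G) : symLaw μ g⁻¹ = symLaw μ g := by
  unfold symLaw
  rw [← Equiv.sum_comp (Equiv.mulLeft g)]
  refine Finset.sum_congr rfl fun h _ => ?_
  simp only [Equiv.coe_mulLeft, inv_mul_cancel_left]
  ring

theorem symLaw_nonneg (μ : G → ℝ) (hμ : ∀ g, 0 ≤ μ g) (g : G) : 0 ≤ symLaw μ g :=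
  Finset.sum_nonneg fun _ _ => mul_nonneg (hμ _) (hμ _)

theorem symLaw_sum (μ : G → ℝ) (hμ : ∑ g, μ g = 1) : ∑ g, symLaw μ g = 1 := by
  unfold symLaw
  rw [Finset.sum_comm]
  have : ∀ h : G, ∑ g : G, μ (g * h) * μ h = μ h := by
    intro h
    have h1 := Equiv.sum_comp (Equiv.mulRight h) μ
    simp only [Equiv.coe_mulRight] at h1
    rw [← Finset.sum_mul, h1, hμ, one_mul]
  simp only [this, hμ]

end Gen

section Mat

variable {P : Type*} [Fintype P] [DecidableEq P]

theorem matLaw_nonneg (k : ℕ) (ν : Perm P → ℝ) (hν : ∀ g, 0 ≤ ν g) (s z : Tup P k) :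
    0 ≤ matLaw k ν s z :=
  Finset.sum_nonneg fun g _ => by split_ifs <;> [exact hν g; exact le_rfl]

theorem matLaw_symm (k : ℕ) (ν : Perm P → ℝ) (hν : ∀ g, ν g⁻¹ = ν g) (s z : Tup P k) :
    matLaw k ν s z = matLaw k ν z s := by
  unfold matLaw
  rw [← Equiv.sum_comp (Equiv.inv (Perm P))]
  refine Finset.sum_congr rfl fun g _ => ?_
  simp only [Equiv.inv_apply, hν]
  congr 1
  apply propext
  constructor
  · intro h i
    rw [← h i]
    simp
  · intro h i
    rw [← h i]
    simp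

/-- Trace bound from the moments of order `1 + 2 ^ (-i)` of the rows. -/
theorem trk_le_of_moment (k i : ℕ) (ν : Perm P → ℝ) (hν : ∀ g, 0 ≤ ν g) (hsum : ∑ g, ν g = 1)
    (hsym : ∀ g, ν g⁻¹ = ν g) (hk : k ≤ Fintype.card P) (M : ℝ) (hM1 : 1 ≤ M)
    (hrow : ∀ s : Tup P k, ∑ z, matLaw k ν s z *
      ((Fintype.card P : ℝ) ^ k * matLaw k ν s z) ^ ((1 : ℝ) / 2 ^ i) ≤ M) :
    trk (convPow ν (2 ^ (i + 1))) k ≤ M ^ 2 ^ (i + 1) := by
  classical
  set X := Tup P k with hX
  set K : Matrix X X ℝ := matLaw k ν with hK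
  have : Nonempty X := by
    have : Nonempty (Fin k ↪ P) := Function.Embedding.nonempty_of_card_le (by simpa only [Fintype.card_fin] using hk)
    obtain ⟨f⟩ := this
    exact ⟨⟨f, f.injective⟩⟩
  have hKs : SymKernel K := by
    refine ⟨fun s z => matLaw_nonneg k ν hν s z, fun s z => matLaw_symm k ν hsym s z, fun s => ?_⟩
    rw [hK, matLaw_row, hsum]
  have hcardX : (Fintype.card X : ℝ) ≤ (Fintype.card P : ℝ) ^ k := by
    have h1 : Fintype.card X ≤ Fintype.card (Fin k → P) :=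
      Fintype.card_le_of_injective (fun s : X => s.1) Subtype.val_injective
    rw [Fintype.card_fun, Fintype.card_fin] at h1
    exact_mod_cast h1
  set p : ℝ := 1 + 1 / 2 ^ i with hp
  have h2i : (0 : ℝ) < 2 ^ i := by positivity
  have hp1 : 1 < p := by
    rw [hp]
    have : (0 : ℝ) < 1 / 2 ^ i := by positivity
    linarith only [this]
  have hpow : 2 ≤ p ^ 2 ^ i := by
    have h := one_add_mul_le_pow (a := 1 / (2 : ℝ) ^ i) (by
      have : (0 : ℝ) < 1 / 2 ^ i := by positivity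
      linarith only [hp1]) (2 ^ i)
    rw [← hp] at h
    refine le_trans (le_of_eq ?_) h
    push_cast
    field_simp
    norm_num
  have hrow' : ∀ s : X, ∑ z, K s z * ((Fintype.card X : ℝ) * K s z) ^ (p - 1) ≤ M := by
    intro s
    refine le_trans (Finset.sum_le_sum fun z _ => ?_) (hrow s)
    have h0 := matLaw_nonneg k ν hν s z
    refine mul_le_mul_of_nonneg_left ?_ h0
    have e : p - 1 = (1 : ℝ) / 2 ^ i := by rw [hp]; ring
    rw [e]
    exact Real.rpow_le_rpow (mul_nonneg (Nat.cast_nonneg _) h0)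
      (mul_le_mul_of_nonneg_right hcardX h0) (by positivity)
  have hfin := sum_row_sq_le K hKs p M hp1 hM1 hrow' (2 ^ i) hpow
  have hKt : K.transpose = K := by
    ext s z
    rw [Matrix.transpose_apply, hKs.symm]
  rw [← trace_sym_pow K hKt (2 ^ i), ← pow_succ', hK, ← matLaw_convPow, trace_matLaw] at hfin
  refine hfin.trans (le_of_eq ?_)
  have e : (2 : ℝ) / (p - 1) = ((2 ^ (i + 1) : ℕ) : ℝ) := by
    rw [hp]
    push_cast
    rw [pow_succ]
    field_simp
    ring
  rw [e, Real.rpow_natCast]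

end Mat

end Vale.Agent.P162.Lin
end
end
end

section

section

section

/-!
# `trk` as the trace of a matrix on tuples of distinct elements
-/

namespace Vale.Agent.P162.Lin

open Equiv Matrix

section Trk

variable {ι : Type*} [Fintype ι] [DecidableEq ι]

/-- number of injections with values in a finite set -/
theorem card_emb {κ : Type*} [Fintype κ] [DecidableEq κ] (F : Finset ι) :
    (Finset.univ.filter (fun x : κ ↪ ι => ∀ i, x i ∈ F)).card
      = F.card.descFactorial (Fintype.card κ) := by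
  have h : Fintype.card (κ ↪ F) = F.card.descFactorial (Fintype.card κ) := by
    rw [Fintype.card_embedding_eq, Fintype.card_coe]
  rw [← h, ← Finset.card_univ]
  symm
  refine Finset.card_bij (fun x _ => x.trans (Function.Embedding.subtype _)) ?_ ?_ ?_
  · intro x _
    rw [Finset.mem_filter]
    exact ⟨Finset.mem_univ _, fun i => (x i).2⟩
  · intro x _ y _ hxy
    ext i
    have := DFunLike.congr_fun hxy i
    exact this
  · intro y hy
    rw [Finset.mem_filter] at hy
    refine ⟨⟨fun i => ⟨y i, hy.2 i⟩, fun i j hij => ?_⟩, Finset.mem_univ _, ?_⟩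
    · exact y.injective (congrArg Subtype.val hij)
    · ext i
      rfl

/-- the action of a permutation on tuples of distinct elements -/
def actE {k : ℕ} (g : Perm ι) (x : Fin k ↪ ι) : Fin k ↪ ι := x.trans g.toEmbedding

omit [Fintype ι] [DecidableEq ι] in
theorem actE_mul {k : ℕ} (g h : Perm ι) (x : Fin k ↪ ι) : actE (g * h) x = actE g (actE h x) := by
  ext i
  rfl

theorem actE_eq_self {k : ℕ} (g : Perm ι) (x : Fin k ↪ ι) :
    actE g x = x ↔ ∀ i, x i ∈ Finset.univ.filter (fun p => g p = p) := by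
  constructor
  · intro h i
    rw [Finset.mem_filter]
    exact ⟨Finset.mem_univ _, DFunLike.congr_fun h i⟩
  · intro h
    ext i
    exact (Finset.mem_filter.1 (h i)).2

omit [Fintype ι] [DecidableEq ι] in
theorem actE_inv_eq {k : ℕ} (g : Perm ι) (x y : Fin k ↪ ι) :
    actE g⁻¹ x = y ↔ actE g y = x := by
  constructor
  · rintro rfl
    rw [← actE_mul, mul_inv_cancel]
    ext i; rfl
  · rintro rfl
    rw [← actE_mul, inv_mul_cancel]
    ext i; rfl

/-- matrix of the law `q` on tuples of distinct elements -/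
noncomputable def trM (k : ℕ) (q : Perm ι → ℝ) : Matrix (Fin k ↪ ι) (Fin k ↪ ι) ℝ :=
  Matrix.of fun x y => ∑ g : Perm ι, if actE g x = y then q g else 0

theorem trM_apply (k : ℕ) (q : Perm ι → ℝ) (x y : Fin k ↪ ι) :
    trM k q x y = ∑ g : Perm ι, if actE g x = y then q g else 0 := rfl

theorem trM_mul (k : ℕ) (q q' : Perm ι → ℝ) :
    trM k q * trM k q' = trM k (fun g => ∑ h, q' h * q (h⁻¹ * g)) := by
  ext x z
  rw [Matrix.mul_apply]
  simp only [trM_apply]
  calc ∑ y, (∑ g : Perm ι, if actE g x = y then q g else 0) *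
        (∑ h : Perm ι, if actE h y = z then q' h else 0)
      = ∑ y, ∑ g : Perm ι, ∑ h : Perm ι, (if actE g x = y then q g *
          (if actE h y = z then q' h else 0) else 0) := by
        refine Finset.sum_congr rfl fun y _ => ?_
        rw [Finset.sum_mul_sum]
        refine Finset.sum_congr rfl fun g _ => Finset.sum_congr rfl fun h _ => ?_
        split_ifs <;> simp
    _ = ∑ g : Perm ι, ∑ h : Perm ι, ∑ y, (if actE g x = y then q g *
          (if actE h y = z then q' h else 0) else 0) := by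
        rw [Finset.sum_comm]
        refine Finset.sum_congr rfl fun g _ => ?_
        rw [Finset.sum_comm]
    _ = ∑ g : Perm ι, ∑ h : Perm ι, q g * (if actE (h * g) x = z then q' h else 0) := by
        refine Finset.sum_congr rfl fun g _ => Finset.sum_congr rfl fun h _ => ?_
        rw [Finset.sum_ite_eq, if_pos (Finset.mem_univ _), actE_mul]
    _ = ∑ h : Perm ι, ∑ g : Perm ι, q g * (if actE (h * g) x = z then q' h else 0) :=
        Finset.sum_comm
    _ = ∑ h : Perm ι, ∑ g : Perm ι, (if actE g x = z then q' h * q (h⁻¹ * g) else 0) := by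
        refine Finset.sum_congr rfl fun h _ => ?_
        rw [← Equiv.sum_comp (Equiv.mulLeft h)
          (fun g : Perm ι => if actE g x = z then q' h * q (h⁻¹ * g) else 0)]
        refine Finset.sum_congr rfl fun g _ => ?_
        simp only [Equiv.coe_mulLeft, inv_mul_cancel_left]
        split_ifs
        · ring
        · simp
    _ = ∑ g : Perm ι, if actE g x = z then ∑ h : Perm ι, q' h * q (h⁻¹ * g) else 0 := by
        rw [Finset.sum_comm]
        refine Finset.sum_congr rfl fun g _ => ?_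
        split_ifs <;> simp

theorem trM_one (k : ℕ) : trM k (fun g : Perm ι => if g = 1 then 1 else 0) = 1 := by
  ext x y
  rw [trM_apply, Finset.sum_eq_single 1]
  · have : actE (1 : Perm ι) x = x := by ext i; rfl
    rw [this, Matrix.one_apply]
    simp
  · intro g _ hg
    simp [hg]
  · intro h
    exact absurd (Finset.mem_univ _) h

theorem trM_convPow (k : ℕ) (q : Perm ι → ℝ) (t : ℕ) :
    trM k (convPow q t) = (trM k q) ^ t := by
  induction t with
  | zero =>
    rw [pow_zero, ← trM_one (ι := ι) k]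
    congr 1
  | succ t ih =>
    rw [pow_succ, ← ih, trM_mul]
    congr 1

theorem trM_transpose (k : ℕ) (q : Perm ι → ℝ) :
    (trM k q)ᵀ = trM k (fun g => q g⁻¹) := by
  ext x y
  rw [Matrix.transpose_apply, trM_apply, trM_apply]
  rw [← Equiv.sum_comp (Equiv.inv (Perm ι)) (fun g : Perm ι => if actE g y = x then q g else 0)]
  refine Finset.sum_congr rfl fun g _ => ?_
  simp only [Equiv.inv_apply, actE_inv_eq]

theorem trM_symLaw (k : ℕ) (q : Perm ι → ℝ) : trM k (symLaw q) = (trM k q)ᵀ * trM k q := by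
  rw [trM_transpose, trM_mul]
  congr 1
  funext g
  unfold symLaw
  rw [← Equiv.sum_comp (Equiv.mulLeft g) (fun h : Perm ι => q h * q (h⁻¹ * g)⁻¹)]
  refine Finset.sum_congr rfl fun h _ => ?_
  simp [_root_.mul_inv_rev]

theorem trace_trM (k : ℕ) (q : Perm ι → ℝ) : Matrix.trace (trM k q) = trk q k := by
  unfold Matrix.trace trk
  simp only [Matrix.diag_apply, trM_apply]
  rw [Finset.sum_comm]
  refine Finset.sum_congr rfl fun g _ => ?_
  rw [← Finset.sum_filter, Finset.sum_const, nsmul_eq_mul, mul_comm]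
  congr 2
  have h := card_emb (κ := Fin k) (Finset.univ.filter (fun p => g p = p))
  rw [Fintype.card_fin] at h
  rw [← h]
  congr 1
  ext x
  simp only [Finset.mem_filter, Finset.mem_univ, true_and]
  rw [actE_eq_self]
  simp only [Finset.mem_filter, Finset.mem_univ, true_and]

/-- The trace inequality in terms of `trk`. -/
theorem trk_pow_le (μ : Perm ι → ℝ) (i k : ℕ) :
    trk (symLaw (convPow μ (2 ^ i))) k ≤ trk (convPow (symLaw μ) (2 ^ i)) k := by
  rw [← trace_trM, ← trace_trM, trM_symLaw, trM_convPow, trM_convPow, trM_symLaw]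
  have h := trace_pow_mul_transpose_le (trM k μ)ᵀ i
  rw [transpose_transpose, ← transpose_pow, transpose_transpose] at h
  exact h

end Trk

end Vale.Agent.P162.Lin
end
end
end

section

section

section

/-!
N1: the parity lemma, and lemmas on orbits of a group generated by two involutions.
-/

set_option linter.unusedSectionVars false

namespace Vale.Agent.P162.Lin

open Equiv Finset

namespace ClA

section orbits

variable {P : Type*}

/-- an orbit of the group generated by two involutions is contained in every invariant set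
through its base point. -/
lemma orbit_subset {e κ : Perm P} (he : ∀ p, e (e p) = p) (hκ : ∀ p, κ (κ p) = p) {O : Set P}
    {p : P} (hp : p ∈ O) (h1 : ∀ q ∈ O, e q ∈ O) (h2 : ∀ q ∈ O, κ q ∈ O) :
    MulAction.orbit (Subgroup.closure {e, κ}) p ⊆ O := by
  have hinv : ∀ g ∈ Subgroup.closure ({e, κ} : Set (Perm P)), ∀ q, g q ∈ O ↔ q ∈ O := by
    intro g hg
    induction hg using Subgroup.closure_induction with
    | mem x hx =>
      simp only [Set.mem_insert_iff, Set.mem_singleton_iff] at hx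
      rcases hx with rfl | rfl
      · intro q
        exact ⟨fun h => by have := h1 _ h; rwa [he] at this, h1 q⟩
      · intro q
        exact ⟨fun h => by have := h2 _ h; rwa [hκ] at this, h2 q⟩
    | one => intro q; exact Iff.rfl
    | mul x y _ _ hx hy => intro q; exact (hx _).trans (hy q)
    | inv x hx' ih =>
      intro q
      rw [← ih (x⁻¹ q)]
      simp
  rintro _ ⟨⟨g, hg⟩, rfl⟩
  exact (hinv g hg p).mpr hp

lemma apply_left_mem {e κ : Perm P} {p q : P}
    (hq : q ∈ MulAction.orbit (Subgroup.closure {e, κ}) p) :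
    e q ∈ MulAction.orbit (Subgroup.closure {e, κ}) p := by
  obtain ⟨g, rfl⟩ := hq
  exact ⟨(⟨e, Subgroup.subset_closure (by simp)⟩ : Subgroup.closure {e, κ}) * g, rfl⟩

lemma apply_right_mem {e κ : Perm P} {p q : P}
    (hq : q ∈ MulAction.orbit (Subgroup.closure {e, κ}) p) :
    κ q ∈ MulAction.orbit (Subgroup.closure {e, κ}) p := by
  obtain ⟨g, rfl⟩ := hq
  exact ⟨(⟨κ, Subgroup.subset_closure (by simp)⟩ : Subgroup.closure {e, κ}) * g, rfl⟩

lemma self_mem {H : Subgroup (Perm P)} (p : P) : p ∈ MulAction.orbit H p :=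
  MulAction.mem_orbit_self p

/-- the orbits inside `S` only depend on the pairs inside `S`. -/
lemma nOrb_congr {e κ κ' : Perm P} (he : ∀ p, e (e p) = p) (hκ : ∀ p, κ (κ p) = p)
    (hκ' : ∀ p, κ' (κ' p) = p) {S : Set P}
    (h1 : ∀ p ∈ S, κ p ∈ S → κ' p = κ p) (h2 : ∀ p ∈ S, κ' p ∈ S → κ p = κ' p) :
    nOrb (Subgroup.closure {e, κ}) S = nOrb (Subgroup.closure {e, κ'}) S := by
  have key : ∀ (κ κ' : Perm P), (∀ p, κ (κ p) = p) → (∀ p, κ' (κ' p) = p) →
      (∀ p ∈ S, κ p ∈ S → κ' p = κ p) → (∀ p ∈ S, κ' p ∈ S → κ p = κ' p) →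
      {O : Set P | (∃ p, O = MulAction.orbit (Subgroup.closure {e, κ}) p) ∧ O ⊆ S} ⊆
      {O : Set P | (∃ p, O = MulAction.orbit (Subgroup.closure {e, κ'}) p) ∧ O ⊆ S} := by
    rintro κ κ' hκ hκ' h1 h2 O ⟨⟨p, rfl⟩, hO⟩
    refine ⟨⟨p, ?_⟩, hO⟩
    have hsub : MulAction.orbit (Subgroup.closure {e, κ'}) p ⊆
        MulAction.orbit (Subgroup.closure {e, κ}) p := by
      refine orbit_subset he hκ' (self_mem p) (fun q hq => apply_left_mem hq) ?_
      intro q hq
      rw [h1 q (hO hq) (hO (apply_right_mem hq))]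
      exact apply_right_mem hq
    refine Set.Subset.antisymm ?_ hsub
    refine orbit_subset he hκ (self_mem p) (fun q hq => apply_left_mem hq) ?_
    intro q hq
    rw [h2 q (hO (hsub hq)) (hO (hsub (apply_right_mem hq)))]
    exact apply_right_mem hq
  unfold nOrb
  rw [Set.Subset.antisymm (key κ κ' hκ hκ' h1 h2) (key κ' κ hκ' hκ h2 h1)]

variable [Finite P]

lemma nOrb_mono {H : Subgroup (Perm P)} {S S' : Set P} (h : S' ⊆ S) : nOrb H S' ≤ nOrb H S := by
  unfold nOrb
  refine Set.ncard_le_ncard ?_ (Set.toFinite _)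
  rintro O ⟨h1, h2⟩
  exact ⟨h1, h2.trans h⟩

lemma nOrb_succ_le {H : Subgroup (Perm P)} {S S' : Set P} (h : S' ⊆ S) {p : P}
    (hp : MulAction.orbit H p ⊆ S) (hp' : p ∉ S') : nOrb H S' + 1 ≤ nOrb H S := by
  unfold nOrb
  refine Set.ncard_lt_ncard ?_ (Set.toFinite _)
  refine ⟨?_, ?_⟩
  · rintro O ⟨h1, h2⟩
    exact ⟨h1, h2.trans h⟩
  · intro hcon
    have : MulAction.orbit H p ∈ {O : Set P | (∃ p, O = MulAction.orbit H p) ∧ O ⊆ S'} :=
      hcon ⟨⟨p, rfl⟩, hp⟩
    exact hp' (this.2 (self_mem p))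

end orbits

section parity

variable {P : Type*} [Fintype P] [DecidableEq P]

/-- the proper colourings of `S`. -/
def col (e κ : Perm P) (S : Finset P) : Finset (Finset P) :=
  S.powerset.filter (fun U => (∀ p ∈ S, e p ∈ S → (e p ∈ U ↔ p ∉ U)) ∧
        (∀ p ∈ S, κ p ∈ S → (κ p ∈ U ↔ p ∉ U)))

/-- number of pairs meeting `S`. -/
def blk (e : Perm P) (S : Finset P) : ℕ := (S.image (fun p => ({p, e p} : Finset P))).card

lemma col_comm (e κ : Perm P) (S : Finset P) : col e κ S = col κ e S := by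
  unfold col
  congr 1
  ext U
  exact and_comm

lemma blk_mono (e : Perm P) {S S' : Finset P} (h : S' ⊆ S) : blk e S' ≤ blk e S :=
  card_le_card (image_subset_image h)

lemma blk_succ_le {e : Perm P} (_he : ∀ p, e (e p) = p) {S : Finset P} {p : P} (hp : p ∈ S)
    (hep : e p ∉ S) : blk e (S.erase p) + 1 ≤ blk e S := by
  unfold blk
  have h1 : ({p, e p} : Finset P) ∉ (S.erase p).image (fun p => ({p, e p} : Finset P)) := by
    intro h
    obtain ⟨q, hq, hqe⟩ := mem_image.mp h
    rw [mem_erase] at hq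
    have : q ∈ ({p, e p} : Finset P) := by rw [← hqe]; simp
    rw [mem_insert, mem_singleton] at this
    rcases this with h | h
    · exact hq.1 h
    · rw [← h] at hep; exact hep hq.2
  rw [← card_insert_of_notMem h1]
  refine card_le_card ?_
  intro O hO
  rw [mem_insert] at hO
  rcases hO with rfl | hO
  · exact mem_image_of_mem _ hp
  · exact image_subset_image (erase_subset _ _) hO

lemma erase_mem_col {e κ : Perm P} {S : Finset P} {p : P} {U : Finset P}
    (hU : U ∈ col e κ S) : U.erase p ∈ col e κ (S.erase p) := by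
  simp only [col, mem_filter, mem_powerset] at hU ⊢
  obtain ⟨hUS, h1, h2⟩ := hU
  refine ⟨erase_subset_erase _ hUS, ?_, ?_⟩
  · intro q hq heq
    rw [mem_erase] at hq heq
    simp only [mem_erase, heq.1, hq.1, ne_eq, not_false_eq_true, true_and]
    exact h1 q hq.2 heq.2
  · intro q hq heq
    rw [mem_erase] at hq heq
    simp only [mem_erase, heq.1, hq.1, ne_eq, not_false_eq_true, true_and]
    exact h2 q hq.2 heq.2

lemma card_col_le_of_mem {e κ : Perm P} (he1 : ∀ p, e p ≠ p) {S : Finset P} {p : P} (hp : p ∈ S)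
    (hep : e p ∈ S) : (col e κ S).card ≤ (col e κ (S.erase p)).card := by
  refine card_le_card_of_injOn (fun U => U.erase p) (fun U hU => erase_mem_col hU) ?_
  intro U hU V hV h
  simp only [col, coe_filter, mem_powerset, Set.mem_ofPred_eq] at hU hV
  simp only at h
  have hpU : p ∈ U ↔ p ∈ V := by
    have h3 : e p ∈ U ↔ e p ∈ V := by
      have : e p ∈ U.erase p ↔ e p ∈ V.erase p := by rw [h]
      simpa [mem_erase, he1 p] using this
    have h1 := hU.2.1 p hp hep
    have h2 := hV.2.1 p hp hep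
    (clear * - hU hV h3 h1 h2; tauto)
  ext q
  by_cases hq : q = p
  · rw [hq]; exact hpU
  · have : q ∈ U.erase p ↔ q ∈ V.erase p := by rw [h]
    simpa [mem_erase, hq] using this

lemma card_col_le {e κ : Perm P} {S : Finset P} (p : P) :
    (col e κ S).card ≤ (col e κ (S.erase p)).card * 2 := by
  have : (col e κ (S.erase p)).card * 2 =
      (col e κ (S.erase p) ×ˢ (univ : Finset Bool)).card := by
    rw [card_product]; simp
  rw [this]
  refine card_le_card_of_injOn (fun U => (U.erase p, decide (p ∈ U))) ?_ ?_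
  · intro U hU
    simp only [coe_product, coe_univ, Set.mem_prod, Set.mem_univ, and_true]
    exact erase_mem_col hU
  · intro U hU V hV h
    simp only [Prod.mk.injEq, decide_eq_decide] at h
    ext q
    by_cases hq : q = p
    · rw [hq]; exact h.2
    · have : q ∈ U.erase p ↔ q ∈ V.erase p := by rw [h.1]
      simpa [mem_erase, hq] using this

/-- removal of a point with a missing `e`-partner. -/
lemma parity_step {e κ : Perm P} (he : ∀ p, e (e p) = p) (hκ : ∀ p, κ (κ p) = p)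
    (hκ1 : ∀ p, κ p ≠ p) {S : Finset P} {p : P} (hp : p ∈ S)
    (hep : e p ∉ S) (ih : (col e κ (S.erase p)).card * 2 ^ (S.erase p).card ≤
      2 ^ (blk e (S.erase p) + blk κ (S.erase p) +
        nOrb (Subgroup.closure {e, κ}) (S.erase p : Finset P))) :
    (col e κ S).card * 2 ^ S.card ≤
      2 ^ (blk e S + blk κ S + nOrb (Subgroup.closure {e, κ}) (S : Set P)) := by
  have hcard : S.card = (S.erase p).card + 1 := (card_erase_add_one hp).symm
  have h1 := blk_succ_le he hp hep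
  have h2 : nOrb (Subgroup.closure {e, κ}) ((S.erase p : Finset P) : Set P) ≤
      nOrb (Subgroup.closure {e, κ}) (S : Set P) :=
    nOrb_mono (by exact_mod_cast erase_subset p S)
  by_cases hκp : κ p ∈ S
  · have h3 : (col e κ S).card ≤ (col e κ (S.erase p)).card := by
      rw [col_comm e κ S, col_comm e κ (S.erase p)]
      exact card_col_le_of_mem hκ1 hp hκp
    have h4 := blk_mono κ (erase_subset p S)
    calc (col e κ S).card * 2 ^ S.card
        ≤ (col e κ (S.erase p)).card * 2 ^ S.card := Nat.mul_le_mul_right _ h3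
      _ = ((col e κ (S.erase p)).card * 2 ^ (S.erase p).card) * 2 := by
          rw [hcard, pow_succ]; ring
      _ ≤ _ := Nat.mul_le_mul_right _ ih
      _ = 2 ^ (blk e (S.erase p) + blk κ (S.erase p) +
        nOrb (Subgroup.closure {e, κ}) (S.erase p : Finset P) + 1) := by rw [pow_succ]
      _ ≤ _ := Nat.pow_le_pow_right (by norm_num) (by omega)
  · have h3 := card_col_le (e := e) (κ := κ) (S := S) p
    have h4 := blk_succ_le hκ hp hκp
    calc (col e κ S).card * 2 ^ S.card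
        ≤ ((col e κ (S.erase p)).card * 2) * 2 ^ S.card := Nat.mul_le_mul_right _ h3
      _ = ((col e κ (S.erase p)).card * 2 ^ (S.erase p).card) * 2 ^ 2 := by
          rw [hcard, pow_succ]; ring
      _ ≤ _ := Nat.mul_le_mul_right _ ih
      _ = 2 ^ (blk e (S.erase p) + blk κ (S.erase p) +
        nOrb (Subgroup.closure {e, κ}) (S.erase p : Finset P) + 2) := by rw [← pow_add]
      _ ≤ _ := Nat.pow_le_pow_right (by norm_num) (by omega)

lemma parity' (e κ : Perm P)
    (he : ∀ p, e (e p) = p) (hκ : ∀ p, κ (κ p) = p) (he1 : ∀ p, e p ≠ p) (hκ1 : ∀ p, κ p ≠ p)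
    (n : ℕ) : ∀ S : Finset P, S.card = n → (col e κ S).card * 2 ^ S.card ≤
      2 ^ (blk e S + blk κ S + nOrb (Subgroup.closure {e, κ}) (S : Set P)) := by
  induction n with
  | zero =>
    intro S hS
    rw [card_eq_zero] at hS
    subst hS
    have h1 : (col e κ (∅ : Finset P)).card ≤ 1 := by
      unfold col
      refine (card_filter_le _ _).trans ?_
      simp
    calc (col e κ (∅ : Finset P)).card * 2 ^ (∅ : Finset P).card ≤ 1 * 2 ^ (∅ : Finset P).card :=
          Nat.mul_le_mul_right _ h1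
      _ = 1 := by simp
      _ ≤ _ := Nat.one_le_two_pow
  | succ n IH =>
    intro S hS
    by_cases h1 : ∃ p ∈ S, e p ∉ S
    · obtain ⟨p, hp, hep⟩ := h1
      exact parity_step he hκ hκ1 hp hep (IH _ (by rw [card_erase_of_mem hp, hS]; omega))
    by_cases h2 : ∃ p ∈ S, κ p ∉ S
    · obtain ⟨p, hp, hκp⟩ := h2
      have := parity_step (e := κ) (κ := e) hκ he he1 hp hκp (by
        have := IH (S.erase p) (by rw [card_erase_of_mem hp, hS]; omega)
        rwa [col_comm κ e, add_comm (blk κ _), Set.pair_comm κ e])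
      rwa [col_comm κ e, add_comm (blk κ _), Set.pair_comm κ e] at this
    · push Not at h1 h2
      have hne : S.Nonempty := by rw [← card_pos, hS]; omega
      obtain ⟨p, hp⟩ := hne
      have ih := IH (S.erase p) (by rw [card_erase_of_mem hp, hS]; omega)
      have hcard : S.card = (S.erase p).card + 1 := (card_erase_add_one hp).symm
      have h3 := card_col_le_of_mem (κ := κ) he1 hp (h1 p hp)
      have h4 := blk_mono e (erase_subset p S)
      have h5 := blk_mono κ (erase_subset p S)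
      have h6 : nOrb (Subgroup.closure {e, κ}) ((S.erase p : Finset P) : Set P) + 1 ≤
          nOrb (Subgroup.closure {e, κ}) (S : Set P) := by
        refine nOrb_succ_le (by exact_mod_cast erase_subset p S) (p := p) ?_ (by simp)
        exact orbit_subset he hκ (by exact_mod_cast hp) (fun q hq => h1 q hq)
          (fun q hq => h2 q hq)
      calc (col e κ S).card * 2 ^ S.card
          ≤ (col e κ (S.erase p)).card * 2 ^ S.card := Nat.mul_le_mul_right _ h3
        _ = ((col e κ (S.erase p)).card * 2 ^ (S.erase p).card) * 2 := by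
            rw [hcard, pow_succ]; ring
        _ ≤ _ := Nat.mul_le_mul_right _ ih
        _ = 2 ^ (blk e (S.erase p) + blk κ (S.erase p) +
          nOrb (Subgroup.closure {e, κ}) (S.erase p : Finset P) + 1) := by rw [pow_succ]
        _ ≤ _ := Nat.pow_le_pow_right (by norm_num) (by omega)

end parity

end ClA

/-- N1 (parity lemma). -/
theorem parity {P : Type*} [Fintype P] [DecidableEq P] (e κ : Perm P)
    (he : ∀ p, e (e p) = p) (hκ : ∀ p, κ (κ p) = p) (he1 : ∀ p, e p ≠ p) (hκ1 : ∀ p, κ p ≠ p)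
    (S : Finset P) :
    (S.powerset.filter (fun U => (∀ p ∈ S, e p ∈ S → (e p ∈ U ↔ p ∉ U)) ∧
        (∀ p ∈ S, κ p ∈ S → (κ p ∈ U ↔ p ∉ U)))).card * 2 ^ S.card
      ≤ 2 ^ ((S.image (fun p => ({p, e p} : Finset P))).card +
          (S.image (fun p => ({p, κ p} : Finset P))).card +
          nOrb (Subgroup.closure {e, κ}) (S : Set P)) :=
  ClA.parity' e κ he hκ he1 hκ1 _ S rfl

end Vale.Agent.P162.Lin
end
end
end

section

section

section

/-!
# P162, ring network: pairs of closed sets (K2)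
-/

namespace Vale.Agent.P162.Ring

open Equiv Finset
open Vale.Agent.P162.Lin (Ex nOrb)

variable {P : Type*} [Fintype P] [DecidableEq P]

/-- The subsets of `K` closed under `e`. -/
def clo (e : Perm P) (K : Finset P) : Finset (Finset P) :=
  K.powerset.filter (fun U => ∀ p ∈ U, e p ∈ U)

theorem mem_clo {e : Perm P} {K U : Finset P} : U ∈ clo e K ↔ U ⊆ K ∧ ∀ p ∈ U, e p ∈ U := by
  simp only [clo, mem_filter, mem_powerset]

/-- The number of common closed subsets. -/
theorem card_clo_inter (e κ : Perm P) (he : ∀ p, e (e p) = p) (hκ : ∀ p, κ (κ p) = p)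
    (K : Finset P) :
    (clo e K ∩ clo κ K).card ≤ 2 ^ nOrb (Subgroup.closure {e, κ}) (K : Set P) := by
  classical
  set H := Subgroup.closure ({e, κ} : Set (Perm P)) with hH
  set 𝒪 : Set (Set P) := {O : Set P | (∃ p, O = MulAction.orbit H p) ∧ O ⊆ (K : Set P)} with h𝒪
  have hfin : 𝒪.Finite := Set.toFinite _
  have hcard : (hfin.toFinset.powerset).card = 2 ^ nOrb H (K : Set P) := by
    rw [Finset.card_powerset]
    congr 1
    unfold nOrb
    rw [Set.ncard_eq_toFinset_card _ hfin]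
  rw [← hcard]
  refine Finset.card_le_card_of_injOn
    (fun W => hfin.toFinset.filter (fun O => O ⊆ (W : Set P))) ?_ ?_
  · intro W _
    rw [Finset.mem_coe, Finset.mem_powerset]
    exact Finset.filter_subset _ _
  · have key : ∀ W W' : Finset P, W ∈ clo e K ∩ clo κ K → W' ∈ clo e K ∩ clo κ K →
        (hfin.toFinset.filter (fun O => O ⊆ (W : Set P))) =
        (hfin.toFinset.filter (fun O => O ⊆ (W' : Set P))) → W ⊆ W' := by
      intro W W' hW hW' h p hp
      rw [Finset.mem_inter, mem_clo, mem_clo] at hW hW'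
      have horb : MulAction.orbit H p ⊆ (W : Set P) := by
        apply Lin.ClA.orbit_subset he hκ (O := (W : Set P)) hp
        · intro q hq; exact hW.1.2 q hq
        · intro q hq; exact hW.2.2 q hq
      have hmem : MulAction.orbit H p ∈
          (hfin.toFinset.filter (fun O => O ⊆ (W : Set P))) := by
        rw [Finset.mem_filter, Set.Finite.mem_toFinset]
        refine ⟨⟨⟨p, rfl⟩, horb.trans ?_⟩, horb⟩
        exact_mod_cast hW.1.1
      rw [h, Finset.mem_filter] at hmem
      exact hmem.2 (MulAction.mem_orbit_self p)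
    intro W hW W' hW' h
    exact Finset.Subset.antisymm (key W W' hW hW' h) (key W' W hW' hW h.symm)

theorem symmDiff_mem_clo {e : Perm P} (he : ∀ p, e (e p) = p) {K U U' : Finset P}
    (hU : U ∈ clo e K) (hU' : U' ∈ clo e K) : symmDiff U U' ∈ clo e K := by
  rw [mem_clo] at *
  refine ⟨?_, ?_⟩
  · intro p hp
    rw [Finset.mem_symmDiff] at hp
    rcases hp with hp | hp
    · exact hU.1 hp.1
    · exact hU'.1 hp.1
  · intro p hp
    rw [Finset.mem_symmDiff] at hp ⊢
    rcases hp with hp | hp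
    · refine Or.inl ⟨hU.2 p hp.1, fun h => hp.2 ?_⟩
      have := hU'.2 _ h
      rwa [he] at this
    · refine Or.inr ⟨hU'.2 p hp.1, fun h => hp.2 ?_⟩
      have := hU.2 _ h
      rwa [he] at this

/-- The fibers of the symmetric difference. -/
theorem card_fiber_le (e κ : Perm P) (he : ∀ p, e (e p) = p) (hκ : ∀ p, κ (κ p) = p)
    (K T : Finset P) :
    ((clo e K ×ˢ clo κ K).filter (fun q => symmDiff q.1 q.2 = T)).card ≤
      (clo e K ∩ clo κ K).card := by
  classical
  rcases Finset.eq_empty_or_nonempty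
    ((clo e K ×ˢ clo κ K).filter (fun q => symmDiff q.1 q.2 = T)) with h | ⟨q₀, hq₀⟩
  · rw [h]
    simp
  · rw [Finset.mem_filter, Finset.mem_product] at hq₀
    refine Finset.card_le_card_of_injOn (fun q => symmDiff q.1 q₀.1) ?_ ?_
    · intro q hq
      rw [Finset.mem_coe, Finset.mem_filter, Finset.mem_product] at hq
      rw [Finset.mem_coe, Finset.mem_inter]
      refine ⟨symmDiff_mem_clo he hq.1.1 hq₀.1.1, ?_⟩
      have h1 : symmDiff q.1 q₀.1 = symmDiff q.2 q₀.2 := by
        have h2 : symmDiff q.1 q.2 = symmDiff q₀.1 q₀.2 := hq.2.trans hq₀.2.symm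
        calc symmDiff q.1 q₀.1 = symmDiff (symmDiff q.1 q.2) (symmDiff q.2 q₀.1) := by
              rw [symmDiff_assoc, ← symmDiff_assoc q.2 q.2, symmDiff_self, bot_symmDiff]
          _ = symmDiff (symmDiff q₀.1 q₀.2) (symmDiff q.2 q₀.1) := by rw [h2]
          _ = symmDiff q.2 q₀.2 := by
              rw [symmDiff_comm q.2 q₀.1, symmDiff_comm q₀.1 q₀.2, symmDiff_assoc,
                ← symmDiff_assoc q₀.1 q₀.1, symmDiff_self, bot_symmDiff, symmDiff_comm]
      beta_reduce
      rw [h1]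
      exact symmDiff_mem_clo hκ hq.1.2 hq₀.1.2
    · intro q hq q' hq' h
      rw [Finset.mem_coe, Finset.mem_filter, Finset.mem_product] at hq hq'
      have h1 : q.1 = q'.1 := symmDiff_left_injective _ h
      have h2 : symmDiff q.1 q.2 = symmDiff q'.1 q'.2 := hq.2.trans hq'.2.symm
      rw [h1] at h2
      exact Prod.ext h1 (symmDiff_right_injective _ h2)

/-- K2: the sum over pairs of closed sets. -/
theorem sum_closed_le (e κ : Perm P) (he : ∀ p, e (e p) = p) (hκ : ∀ p, κ (κ p) = p)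
    (K : Finset P) (ε : P → ℝ) (hε : ∀ p, 0 ≤ ε p) :
    ∑ U ∈ clo e K, ∑ U' ∈ clo κ K, ∏ p ∈ K, (if (p ∈ U ↔ p ∈ U') then 1 else ε p) ≤
      2 ^ nOrb (Subgroup.closure {e, κ}) (K : Set P) *
        ∏ p ∈ K.filter (fun p => e p ∈ K ∨ κ p ∈ K), (1 + ε p) := by
  classical
  set Z := K.filter (fun p => e p ∈ K ∨ κ p ∈ K) with hZ
  have h1 : ∀ U ∈ clo e K, ∀ U' ∈ clo κ K,
      ∏ p ∈ K, (if (p ∈ U ↔ p ∈ U') then 1 else ε p) = ∏ p ∈ symmDiff U U', ε p := by
    intro U hU U' hU'
    rw [mem_clo] at hU hU'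
    rw [← Finset.prod_filter_mul_prod_filter_not K (fun p => p ∈ U ↔ p ∈ U')]
    rw [Finset.prod_congr rfl (g := fun _ => (1 : ℝ)) (by
      intro p hp
      rw [if_pos (Finset.mem_filter.mp hp).2]), Finset.prod_const_one, one_mul]
    have e1 : K.filter (fun p => ¬ (p ∈ U ↔ p ∈ U')) = symmDiff U U' := by
      ext p
      rw [Finset.mem_filter, Finset.mem_symmDiff]
      constructor
      · rintro ⟨_, h⟩
        by_cases h2 : p ∈ U
        · exact Or.inl ⟨h2, fun h3 => h ⟨fun _ => h3, fun _ => h2⟩⟩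
        · refine Or.inr ⟨?_, h2⟩
          by_contra h3
          exact h ⟨fun h => absurd h h2, fun h => absurd h h3⟩
      · rintro (⟨h2, h3⟩ | ⟨h2, h3⟩)
        · exact ⟨hU.1 h2, fun h => h3 (h.mp h2)⟩
        · exact ⟨hU'.1 h2, fun h => h3 (h.mpr h2)⟩
    rw [e1]
    refine Finset.prod_congr rfl fun p hp => ?_
    rw [if_neg]
    rw [Finset.mem_symmDiff] at hp
    rcases hp with ⟨h2, h3⟩ | ⟨h2, h3⟩
    · exact fun h => h3 (h.mp h2)
    · exact fun h => h3 (h.mpr h2)
  have h2 : ∑ U ∈ clo e K, ∑ U' ∈ clo κ K, ∏ p ∈ K, (if (p ∈ U ↔ p ∈ U') then 1 else ε p) =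
      ∑ q ∈ clo e K ×ˢ clo κ K, ∏ p ∈ symmDiff q.1 q.2, ε p := by
    rw [Finset.sum_product]
    refine Finset.sum_congr rfl fun U hU => Finset.sum_congr rfl fun U' hU' => ?_
    exact h1 U hU U' hU'
  rw [h2]
  have hmaps : ∀ q ∈ clo e K ×ˢ clo κ K, symmDiff q.1 q.2 ∈ Z.powerset := by
    intro q hq
    rw [Finset.mem_product, mem_clo, mem_clo] at hq
    rw [Finset.mem_powerset]
    intro p hp
    rw [Finset.mem_symmDiff] at hp
    rw [hZ, Finset.mem_filter]
    rcases hp with ⟨h3, _⟩ | ⟨h3, _⟩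
    · exact ⟨hq.1.1 h3, Or.inl (hq.1.1 (hq.1.2 p h3))⟩
    · exact ⟨hq.2.1 h3, Or.inr (hq.2.1 (hq.2.2 p h3))⟩
  rw [← Finset.sum_fiberwise_of_maps_to hmaps, Finset.prod_one_add, Finset.mul_sum]
  refine Finset.sum_le_sum fun T _ => ?_
  have h3 : ∑ q ∈ (clo e K ×ˢ clo κ K).filter (fun q => symmDiff q.1 q.2 = T),
      ∏ p ∈ symmDiff q.1 q.2, ε p =
      (((clo e K ×ˢ clo κ K).filter (fun q => symmDiff q.1 q.2 = T)).card : ℝ) *
        ∏ p ∈ T, ε p := by
    rw [← nsmul_eq_mul, ← Finset.sum_const]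
    refine Finset.sum_congr rfl fun q hq => ?_
    rw [(Finset.mem_filter.mp hq).2]
  rw [h3]
  refine mul_le_mul_of_nonneg_right ?_ (Finset.prod_nonneg fun p _ => hε p)
  have h4 := (card_fiber_le e κ he hκ K T).trans (card_clo_inter e κ he hκ K)
  exact_mod_cast h4

end Vale.Agent.P162.Ring
end
end
end

section

section

section

/-!
N2: Claim A.
-/

set_option linter.unusedSectionVars false

namespace Vale.Agent.P162.Lin

open Equiv Finset

namespace ClA

variable {d : ℕ}

/-! ### layers -/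

/-! ### the network -/

/-! ### averages -/

lemma Ex_le {Ω : Type*} [Fintype Ω] {f g : Ω → ℝ} (h : ∀ ω, f ω ≤ g ω) : Ex f ≤ Ex g :=
  div_le_div_of_nonneg_right (sum_le_sum fun ω _ => h ω) (Nat.cast_nonneg _)

lemma Ex_const_mul {Ω : Type*} [Fintype Ω] (c : ℝ) (f : Ω → ℝ) :
    Ex (fun ω => c * f ω) = c * Ex f := by
  unfold Ex
  rw [← mul_sum, mul_div_assoc]

lemma Ex_le_const {Ω : Type*} [Fintype Ω] {f : Ω → ℝ} {c : ℝ} (hc : 0 ≤ c)
    (h : ∀ ω, f ω ≤ c) : Ex f ≤ c := by
  unfold Ex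
  refine div_le_of_le_mul₀ (Nat.cast_nonneg _) hc ?_
  calc ∑ ω, f ω ≤ ∑ _ω : Ω, c := sum_le_sum fun ω _ => h ω
    _ = c * Fintype.card Ω := by rw [sum_const, card_univ, nsmul_eq_mul, mul_comm]

/-! ### the loops seen from the level `m` -/

/-! ### counting -/

/-! ### the induction -/

end ClA

end Vale.Agent.P162.Lin
end
end
end

section

section

section

/-!
# Superharmonic majorant of the one-card kernels, invariant under the half turn
(module B of note 4829)
-/

namespace Vale.Agent.P162.Ring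

open Equiv Finset

namespace Ker

/-! ### counting functions -/

/-- Numerator of the exact kernel of `j` levels. -/
def exN (n j p q : ℕ) : ℕ :=
  ((range (2 ^ j) ×ˢ range (2 ^ j)).filter
    (fun v => (p + n * v.1) / 2 ^ j = (q + n * v.2) / 2 ^ j)).card

/-- `#{(X, Y) ∈ [0, L)² : Y - X = q - p mod n}`. -/
def triN (n L p q : ℕ) : ℕ :=
  ((range L ×ˢ range L).filter (fun v => (v.2 + p) ≡ (v.1 + q) [MOD n])).card

lemma sum_range_two_mul (N : ℕ) (f : ℕ → ℕ) :
    ∑ U ∈ range (2 * N), f U = ∑ U ∈ range N, (f (2 * U) + f (2 * U + 1)) := by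
  induction N with
  | zero => simp
  | succ N ih =>
    rw [mul_add, mul_one, sum_range_succ, sum_range_succ, ih, sum_range_succ]
    ring

lemma exN_eq_sum (n j p q : ℕ) : exN n j p q = ∑ U ∈ range (2 ^ j), ∑ V ∈ range (2 ^ j),
    if (p + n * U) / 2 ^ j = (q + n * V) / 2 ^ j then 1 else 0 := by
  unfold exN
  rw [card_filter, sum_product]

lemma div_step (m j p s U : ℕ) :
    (p + 2 * m * (2 * U + s)) / 2 ^ (j + 1) = (p / 2 + m * s + 2 * m * U) / 2 ^ j := by
  rw [pow_succ', ← Nat.div_div_eq_div_mul]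
  congr 1
  have : p + 2 * m * (2 * U + s) = p + 2 * (m * (2 * U + s)) := by ring
  rw [this, Nat.add_mul_div_left _ _ (by norm_num)]
  ring

theorem exN_succ (m j p q : ℕ) :
    exN (2 * m) (j + 1) p q =
      ∑ s ∈ range 2, ∑ s' ∈ range 2, exN (2 * m) j (p / 2 + m * s) (q / 2 + m * s') := by
  have h : ∀ f : ℕ → ℕ, ∑ U ∈ range (2 ^ (j + 1)), f U =
      ∑ U ∈ range (2 ^ j), (f (2 * U) + f (2 * U + 1)) := by
    intro f
    rw [pow_succ', sum_range_two_mul]
  have e0 : ∀ p U, (p + 2 * m * (2 * U)) / 2 ^ (j + 1) = (p / 2 + m * 0 + 2 * m * U) / 2 ^ j :=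
    fun p U => by simpa only [mul_zero, add_zero] using div_step m j p 0 U
  have e1 : ∀ p U, (p + 2 * m * (2 * U + 1)) / 2 ^ (j + 1) =
      (p / 2 + m * 1 + 2 * m * U) / 2 ^ j := fun p U => div_step m j p 1 U
  simp only [exN_eq_sum]
  simp only [h, e0, e1, sum_range_succ, range_zero, sum_empty, zero_add, sum_add_distrib]
  ring

/-! ### the half turn -/

/-- Half turn on numbers. -/
def op (m p : ℕ) : ℕ := if p < m then p + m else p - m

lemma op_lt {m p : ℕ} (hp : p < 2 * m) : op m p < 2 * m := by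
  unfold op; split_ifs <;> omega

lemma op_op {m p : ℕ} (hp : p < 2 * m) : op m (op m p) = p := by
  unfold op; split_ifs <;> omega

lemma op_modEq {m p : ℕ} : op m p ≡ p + m [MOD 2 * m] := by
  unfold op
  split_ifs with h
  · rfl
  · have : p + m = (p - m) + 2 * m := by omega
    rw [this]
    exact (Nat.add_modEq_right).symm

lemma cond_iff {m j p q U V : ℕ} (hj : 2 ^ j ∣ m) (hp : p < 2 * m) (hq : q < 2 * m) :
    (p + 2 * m * U) / 2 ^ j = (q + 2 * m * V) / 2 ^ j ↔ U = V ∧ p / 2 ^ j = q / 2 ^ j := by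
  obtain ⟨t, rfl⟩ := hj
  have hpos : 0 < 2 ^ j := by positivity
  have e : ∀ p U, (p + 2 * (2 ^ j * t) * U) / 2 ^ j = p / 2 ^ j + 2 * t * U := by
    intro p U
    have : p + 2 * (2 ^ j * t) * U = p + 2 ^ j * (2 * t * U) := by ring
    rw [this, Nat.add_mul_div_left _ _ hpos]
  rw [e, e]
  have hp' : p / 2 ^ j < 2 * t := by
    rw [Nat.div_lt_iff_lt_mul hpos]
    calc p < 2 * (2 ^ j * t) := hp
      _ = 2 * t * 2 ^ j := by ring
  have hq' : q / 2 ^ j < 2 * t := by
    rw [Nat.div_lt_iff_lt_mul hpos]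
    calc q < 2 * (2 ^ j * t) := hq
      _ = 2 * t * 2 ^ j := by ring
  constructor
  · intro h
    have h2 : (p / 2 ^ j + 2 * t * U) / (2 * t) = (q / 2 ^ j + 2 * t * V) / (2 * t) := by rw [h]
    have ht : 0 < 2 * t := lt_of_le_of_lt (Nat.zero_le _) hp'
    rw [Nat.add_mul_div_left _ _ ht, Nat.add_mul_div_left _ _ ht, Nat.div_eq_of_lt hp',
      Nat.div_eq_of_lt hq'] at h2
    have h3 : U = V := by omega
    subst h3
    exact ⟨rfl, Nat.add_right_cancel h⟩
  · rintro ⟨rfl, h⟩
    rw [h]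

lemma op_div {m j p q : ℕ} (hj : 2 ^ j ∣ m) (h : p / 2 ^ j = q / 2 ^ j) :
    op m p / 2 ^ j = op m q / 2 ^ j := by
  obtain ⟨t, rfl⟩ := hj
  have hpos : 0 < 2 ^ j := by positivity
  have key : ∀ p, p < 2 ^ j * t ↔ p / 2 ^ j < t := by
    intro p
    rw [Nat.div_lt_iff_lt_mul hpos, mul_comm]
  unfold op
  by_cases h1 : p < 2 ^ j * t
  · have h2 : q < 2 ^ j * t := by rw [key, ← h, ← key]; exact h1
    rw [if_pos h1, if_pos h2, Nat.add_mul_div_left _ _ hpos, Nat.add_mul_div_left _ _ hpos, h]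
  · have h2 : ¬ q < 2 ^ j * t := by rw [key, ← h, ← key]; exact h1
    rw [if_neg h1, if_neg h2, Nat.sub_mul_div _ _ _, Nat.sub_mul_div _ _ _, h]

theorem exN_op_le {m j p q : ℕ} (hj : 2 ^ j ∣ m) (hp : p < 2 * m) (hq : q < 2 * m) :
    exN (2 * m) j p q ≤ exN (2 * m) j (op m p) (op m q) := by
  unfold exN
  refine card_le_card fun v hv => ?_
  rw [mem_filter] at hv ⊢
  refine ⟨hv.1, ?_⟩
  rw [cond_iff hj (op_lt hp) (op_lt hq)]
  have h := (cond_iff hj hp hq).1 hv.2
  exact ⟨h.1, op_div hj h.2⟩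

theorem exN_op {m j p q : ℕ} (hj : 2 ^ j ∣ m) (hp : p < 2 * m) (hq : q < 2 * m) :
    exN (2 * m) j (op m p) (op m q) = exN (2 * m) j p q := by
  refine le_antisymm ?_ (exN_op_le hj hp hq)
  have := exN_op_le hj (op_lt hp) (op_lt hq)
  rwa [op_op hp, op_op hq] at this

theorem triN_op {m L p q : ℕ} :
    triN (2 * m) L (op m p) (op m q) = triN (2 * m) L p q := by
  unfold triN
  congr 1
  ext v
  rw [mem_filter, mem_filter]
  refine and_congr_right fun _ => ?_
  have h1 : v.2 + op m p ≡ (v.2 + p) + m [MOD 2 * m] := by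
    rw [add_assoc]; exact op_modEq.add_left _
  have h2 : v.1 + op m q ≡ (v.1 + q) + m [MOD 2 * m] := by
    rw [add_assoc]; exact op_modEq.add_left _
  constructor
  · intro h
    exact Nat.ModEq.add_right_cancel' m ((h1.symm.trans h).trans h2)
  · intro h
    exact (h1.trans (h.add_right m)).trans h2.symm

/-! ### comparison of the exact kernel with the triangle -/

theorem exN_le_tri {n j a r : ℕ} (hr : r % 2 = 1) (ham : n = 2 ^ a * r) (haj : a ≤ j) (p q : ℕ) :
    exN n j p q ≤ triN n (2 ^ j + 2 ^ a) p q := by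
  have hpj : 0 < 2 ^ j := by positivity
  have hpa : 0 < 2 ^ a := by positivity
  have hpja : 0 < 2 ^ (j - a) := by positivity
  have hj2 : 2 ^ j = 2 ^ a * 2 ^ (j - a) := by rw [← pow_add]; congr 1; omega
  have hn : 0 < n := by
    rw [ham]
    have : 0 < r := by omega
    positivity
  unfold exN triN
  refine card_le_card_of_injOn (fun v => ((p + n * v.1) % 2 ^ j + v.1 / 2 ^ (j - a),
    (q + n * v.2) % 2 ^ j + v.1 / 2 ^ (j - a))) ?_ ?_
  · rintro ⟨U, V⟩ hv
    simp only [coe_filter, mem_product, mem_range, Set.mem_ofPred_eq] at hv ⊢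
    obtain ⟨⟨hU, hV⟩, hc⟩ := hv
    have hi : U / 2 ^ (j - a) < 2 ^ a := by
      rw [Nat.div_lt_iff_lt_mul hpja, ← hj2]
      exact hU
    have h1 := Nat.mod_lt (p + n * U) hpj
    have h2 := Nat.mod_lt (q + n * V) hpj
    refine ⟨⟨by omega, by omega⟩, ?_⟩
    have e1 := Nat.div_add_mod (p + n * U) (2 ^ j)
    have e2 := Nat.div_add_mod (q + n * V) (2 ^ j)
    rw [hc] at e1
    have e3 : (q + n * V) % 2 ^ j + (p + n * U) = (p + n * U) % 2 ^ j + (q + n * V) := by (clear * - e1 e2; omega)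
    have e4 : (q + n * V) % 2 ^ j + U / 2 ^ (j - a) + p + n * U =
        (p + n * U) % 2 ^ j + U / 2 ^ (j - a) + q + n * V := by omega
    have e5 : (q + n * V) % 2 ^ j + U / 2 ^ (j - a) + p ≡
        (q + n * V) % 2 ^ j + U / 2 ^ (j - a) + p + n * U [MOD n] :=
      (Nat.ModEq.symm (by simp only [Nat.ModEq, Nat.add_mul_mod_self_left]))
    have e6 : (p + n * U) % 2 ^ j + U / 2 ^ (j - a) + q ≡
        (p + n * U) % 2 ^ j + U / 2 ^ (j - a) + q + n * V [MOD n] :=
      (Nat.ModEq.symm (by simp only [Nat.ModEq, Nat.add_mul_mod_self_left]))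
    rw [← e4] at e6
    exact e5.trans e6.symm
  · rintro ⟨U, V⟩ hv ⟨U', V'⟩ hv' heq
    simp only [coe_filter, mem_product, mem_range, Set.mem_ofPred_eq] at hv hv'
    obtain ⟨⟨hU, hV⟩, hc⟩ := hv
    obtain ⟨⟨hU', hV'⟩, hc'⟩ := hv'
    simp only [Prod.mk.injEq] at heq
    obtain ⟨h1, h2⟩ := heq
    have hi : U / 2 ^ (j - a) < 2 ^ a := by
      rw [Nat.div_lt_iff_lt_mul hpja, ← hj2]
      exact hU
    have hi' : U' / 2 ^ (j - a) < 2 ^ a := by
      rw [Nat.div_lt_iff_lt_mul hpja, ← hj2]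
      exact hU'
    -- residues modulo `2 ^ a`
    have hres : ∀ U, ((p + n * U) % 2 ^ j) % 2 ^ a = p % 2 ^ a := by
      intro U
      rw [hj2, Nat.mod_mul_right_mod, ham]
      have : p + 2 ^ a * r * U = p + 2 ^ a * (r * U) := by ring
      rw [this, Nat.add_mul_mod_self_left]
    set v := (p + n * U) % 2 ^ j with hv
    set v' := (p + n * U') % 2 ^ j with hv'
    have e1 := Nat.div_add_mod v (2 ^ a)
    have e2 := Nat.div_add_mod v' (2 ^ a)
    rw [hres U] at e1
    rw [hres U'] at e2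
    have hvv : v / 2 ^ a = v' / 2 ^ a := by
      have h3 : 2 ^ a * (v / 2 ^ a) + U / 2 ^ (j - a) = 2 ^ a * (v' / 2 ^ a) + U' / 2 ^ (j - a) := by
        (clear * - h1 e1 e2; omega)
      have h4 : (U / 2 ^ (j - a) + 2 ^ a * (v / 2 ^ a)) / 2 ^ a =
          (U' / 2 ^ (j - a) + 2 ^ a * (v' / 2 ^ a)) / 2 ^ a := by
        congr 1
        (clear * - h1 e1 e2; omega)
      rw [Nat.add_mul_div_left _ _ hpa, Nat.add_mul_div_left _ _ hpa, Nat.div_eq_of_lt hi,
        Nat.div_eq_of_lt hi', zero_add, zero_add] at h4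
      exact h4
    have hvv' : v = v' := by rw [← e1, ← e2, hvv]
    have hii : U / 2 ^ (j - a) = U' / 2 ^ (j - a) := by (clear * - h1 e1 e2 hvv'; omega)
    -- `U = U'` modulo `2 ^ (j - a)`
    have hmod : U ≡ U' [MOD 2 ^ (j - a)] := by
      have h3 : p + n * U ≡ p + n * U' [MOD 2 ^ j] := hvv'
      have h4 : n * U ≡ n * U' [MOD 2 ^ j] := Nat.ModEq.add_left_cancel' p h3
      rw [ham, hj2, mul_assoc, mul_assoc] at h4
      have h5 : r * U ≡ r * U' [MOD 2 ^ (j - a)] := Nat.ModEq.mul_left_cancel' hpa.ne' h4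
      refine Nat.ModEq.cancel_left_of_coprime ?_ h5
      apply Nat.Coprime.pow_left
      rw [Nat.coprime_two_left]
      exact Nat.odd_iff.2 hr
    have hUU : U = U' := by
      have e3 := Nat.div_add_mod U (2 ^ (j - a))
      have e4 := Nat.div_add_mod U' (2 ^ (j - a))
      have h3 : U % 2 ^ (j - a) = U' % 2 ^ (j - a) := hmod
      rw [← e3, ← e4, hii, h3]
    subst hUU
    have e5 := Nat.div_add_mod (q + n * V) (2 ^ j)
    have e6 := Nat.div_add_mod (q + n * V') (2 ^ j)
    have h3 : (q + n * V) % 2 ^ j = (q + n * V') % 2 ^ j := by omega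
    rw [← hc, h3] at e5
    rw [← hc'] at e6
    have h4 : q + n * V = q + n * V' := by omega
    have h5 : n * V = n * V' := by omega
    rw [Nat.eq_of_mul_eq_mul_left hn h5]

/-! ### the triangle is superharmonic -/

lemma two_ite (m A B : ℕ) (hm : 0 < m) :
    (if A ≡ B [MOD 2 * m] then 1 else 0) + (if A ≡ B + m [MOD 2 * m] then 1 else 0) =
      if A ≡ B [MOD m] then 1 else 0 := by
  have h2m : 0 < 2 * m := by omega
  by_cases h : A ≡ B [MOD m]
  · rw [if_pos h]
    by_cases h1 : A ≡ B [MOD 2 * m]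
    · rw [if_pos h1, if_neg]
      intro h2
      have h3 : B + 0 ≡ B + m [MOD 2 * m] := by simpa only [add_zero, Nat.left_modEq_add_iff] using h1.symm.trans h2
      have h4 : 0 ≡ m [MOD 2 * m] := Nat.ModEq.add_left_cancel' B h3
      have h5 : 0 % (2 * m) = m % (2 * m) := h4
      rw [Nat.zero_mod, Nat.mod_eq_of_lt (by omega)] at h5
      omega
    · rw [if_neg h1, if_pos]
      rcases le_total A B with hAB | hAB
      · obtain ⟨k, hk⟩ := (Nat.modEq_iff_dvd' hAB).1 h
        have hk' : B = A + m * k := by omega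
        rcases Nat.even_or_odd' k with ⟨t, ht | ht⟩
        · exfalso
          apply h1
          rw [hk', ht]
          have : A + m * (2 * t) = A + 2 * m * t := by ring
          rw [this]
          simp [Nat.ModEq]
        · rw [hk', ht]
          have : A + m * (2 * t + 1) + m = A + 2 * m * (t + 1) := by ring
          rw [this]
          simp [Nat.ModEq]
      · obtain ⟨k, hk⟩ := (Nat.modEq_iff_dvd' hAB).1 h.symm
        have hk' : A = B + m * k := by omega
        rcases Nat.even_or_odd' k with ⟨t, ht | ht⟩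
        · exfalso
          apply h1
          rw [hk', ht]
          have : B + m * (2 * t) = B + 2 * m * t := by ring
          rw [this]
          simp [Nat.ModEq]
        · rw [hk', ht]
          have : B + m * (2 * t + 1) = B + m + 2 * m * t := by ring
          rw [this]
          simp [Nat.ModEq]
  · rw [if_neg h, if_neg, if_neg]
    · intro h2
      apply h
      have h3 : A ≡ B + m [MOD m] := h2.of_mul_left 2
      exact h3.trans (by simp [Nat.ModEq])
    · intro h2
      exact h (h2.of_mul_left 2)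

lemma triN_eq_sum (n L p q : ℕ) : triN n L p q = ∑ X ∈ range L, ∑ Y ∈ range L,
    if Y + p ≡ X + q [MOD n] then 1 else 0 := by
  unfold triN
  rw [card_filter, sum_product]

lemma sum_triN (m L p q : ℕ) (hm : 0 < m) :
    ∑ s ∈ range 2, ∑ s' ∈ range 2, triN (2 * m) L (p + m * s) (q + m * s') =
      2 * triN m L p q := by
  simp only [sum_range_succ, range_zero, sum_empty, zero_add, mul_zero, add_zero, mul_one]
  simp only [triN_eq_sum]
  have e1 : ∀ X Y, ((if Y + p ≡ X + q [MOD 2 * m] then 1 else 0) +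
      (if Y + p ≡ X + (q + m) [MOD 2 * m] then 1 else 0)) =
      if Y + p ≡ X + q [MOD m] then 1 else 0 := by
    intro X Y
    rw [← two_ite m _ _ hm, add_assoc X q m]
  have e2 : ∀ X Y, ((if Y + (p + m) ≡ X + q [MOD 2 * m] then 1 else 0) +
      (if Y + (p + m) ≡ X + (q + m) [MOD 2 * m] then 1 else 0)) =
      if Y + p ≡ X + q [MOD m] then 1 else 0 := by
    intro X Y
    have h1 : (Y + (p + m) ≡ X + (q + m) [MOD 2 * m]) ↔ (Y + p ≡ X + q [MOD 2 * m]) := by
      rw [← add_assoc, ← add_assoc]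
      exact ⟨fun h => Nat.ModEq.add_right_cancel' m h, fun h => h.add_right m⟩
    have h2 : (Y + (p + m) ≡ X + q [MOD 2 * m]) ↔ (Y + p ≡ X + q + m [MOD 2 * m]) := by
      constructor
      · intro h
        have h3 : Y + p + 2 * m ≡ X + q + m [MOD 2 * m] := by
          have := h.add_right m
          have e : Y + (p + m) + m = Y + p + 2 * m := by ring
          rwa [e] at this
        have h4 : Y + p ≡ Y + p + 2 * m [MOD 2 * m] := by simp [Nat.ModEq]
        exact h4.trans h3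
      · intro h
        have h3 := h.add_right m
        have e : X + q + m + m = X + q + 2 * m := by ring
        rw [e] at h3
        have h4 : X + q + 2 * m ≡ X + q [MOD 2 * m] := by simp [Nat.ModEq]
        rw [← add_assoc]
        exact h3.trans h4
    rw [← two_ite m _ _ hm]
    simp only [h1, h2]
    ring
  rw [← sum_add_distrib, ← sum_add_distrib, ← sum_add_distrib, mul_sum]
  refine sum_congr rfl fun X _ => ?_
  rw [← sum_add_distrib, ← sum_add_distrib, ← sum_add_distrib, mul_sum]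
  refine sum_congr rfl fun Y _ => ?_
  rw [e1, e2]
  ring

theorem two_triN_le (m L p q : ℕ) :
    2 * triN m L (p / 2) (q / 2) ≤ triN (2 * m) (2 * L + 1) p q := by
  unfold triN
  have h0 : 2 * ((range L ×ˢ range L).filter
      (fun v => v.2 + p / 2 ≡ v.1 + q / 2 [MOD m])).card =
      ((range 2) ×ˢ ((range L ×ˢ range L).filter
      (fun v => v.2 + p / 2 ≡ v.1 + q / 2 [MOD m]))).card := by
    rw [card_product, card_range]
  rw [h0]
  have hpm : p % 2 < 2 := Nat.mod_lt _ (by norm_num)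
  have hqm : q % 2 < 2 := Nat.mod_lt _ (by norm_num)
  have hp2 := Nat.div_add_mod p 2
  have hq2 := Nat.div_add_mod q 2
  refine card_le_card_of_injOn (fun v => (2 * v.2.1 + v.1 + (p % 2) * (1 - q % 2),
    2 * v.2.2 + v.1 + (q % 2) * (1 - p % 2))) ?_ ?_
  · rintro ⟨i, X, Y⟩ hv
    simp only [coe_product, Set.mem_prod, mem_coe, mem_filter, mem_product, mem_range] at hv
    obtain ⟨hi, ⟨hX, hY⟩, hc⟩ := hv
    simp only [coe_filter, mem_product, mem_range, Set.mem_ofPred_eq]
    have hc2 : 2 * (Y + p / 2) ≡ 2 * (X + q / 2) [MOD 2 * m] := Nat.ModEq.mul_left' 2 hc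
    rcases Nat.mod_two_eq_zero_or_one p with hp | hp <;>
      rcases Nat.mod_two_eq_zero_or_one q with hq | hq <;>
      simp only [hp, hq] at hp2 hq2 ⊢ <;>
      refine ⟨⟨by omega, by omega⟩, ?_⟩
    · have e1 : 2 * Y + i + 0 * (1 - 0) + p = 2 * (Y + p / 2) + i := by omega
      have e2 : 2 * X + i + 0 * (1 - 0) + q = 2 * (X + q / 2) + i := by (clear * - hq; omega)
      rw [e1, e2]
      exact hc2.add_right _
    · have e1 : 2 * Y + i + 1 * (1 - 0) + p = 2 * (Y + p / 2) + (i + 1) := by (clear * - hp; omega)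
      have e2 : 2 * X + i + 0 * (1 - 1) + q = 2 * (X + q / 2) + (i + 1) := by omega
      rw [e1, e2]
      exact hc2.add_right _
    · have e1 : 2 * Y + i + 0 * (1 - 1) + p = 2 * (Y + p / 2) + (i + 1) := by omega
      have e2 : 2 * X + i + 1 * (1 - 0) + q = 2 * (X + q / 2) + (i + 1) := by (clear * - hq; omega)
      rw [e1, e2]
      exact hc2.add_right _
    · have e1 : 2 * Y + i + 1 * (1 - 1) + p = 2 * (Y + p / 2) + (i + 1) := by omega
      have e2 : 2 * X + i + 1 * (1 - 1) + q = 2 * (X + q / 2) + (i + 1) := by (clear * - hq; omega)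
      rw [e1, e2]
      exact hc2.add_right _
  · rintro ⟨i, X, Y⟩ hv ⟨i', X', Y'⟩ hv' heq
    simp only [coe_product, Set.mem_prod, mem_coe, mem_filter, mem_product, mem_range] at hv hv'
    simp only [Prod.mk.injEq] at heq
    have h1 : 2 * X + i = 2 * X' + i' := by omega
    have h2 : 2 * Y + i = 2 * Y' + i' := by omega
    have hi : i < 2 := hv.1
    have hi' : i' < 2 := hv'.1
    have : i = i' := by omega
    have : X = X' := by omega
    have : Y = Y' := by omega
    simp [*]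

theorem triN_succ (m L p q : ℕ) (hm : 0 < m) :
    ∑ s ∈ range 2, ∑ s' ∈ range 2, triN (2 * m) L (p / 2 + m * s) (q / 2 + m * s') ≤
      triN (2 * m) (2 * L + 1) p q := by
  rw [sum_triN _ _ _ _ hm]
  exact two_triN_le m L p q

theorem triN_le (n L p q : ℕ) (hn : 0 < n) (hp : p ≤ n) : triN n L p q ≤ L * (L / n + 1) := by
  rw [triN_eq_sum]
  calc ∑ X ∈ range L, ∑ Y ∈ range L, (if Y + p ≡ X + q [MOD n] then 1 else 0)
      ≤ ∑ X ∈ range L, (L / n + 1) := by
        refine sum_le_sum fun X _ => ?_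
        have h1 : ∀ Y, (Y + p ≡ X + q [MOD n]) ↔ (Y ≡ X + q + (n - p) [MOD n]) := by
          intro Y
          have e : Y + p + (n - p) = Y + n := by omega
          constructor
          · intro h
            have h2 := h.add_right (n - p)
            rw [e] at h2
            have h3 : Y ≡ Y + n [MOD n] := by simp [Nat.ModEq]
            exact h3.trans h2
          · intro h
            have h2 := h.add_right p
            have e2 : X + q + (n - p) + p = X + q + n := by omega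
            rw [e2] at h2
            have h3 : X + q + n ≡ X + q [MOD n] := by simp [Nat.ModEq]
            exact h2.trans h3
        simp only [h1]
        rw [← card_filter, ← Nat.count_eq_card_filter_range, Nat.count_modEq_card _ hn]
        split_ifs <;> omega
    _ = L * (L / n + 1) := by rw [sum_const, card_range, smul_eq_mul]

/-! ### the numbers -/

/-- The lengths of the triangles: `L (j + 1) = 2 L j + 1`. -/
def Ls (a u j : ℕ) : ℕ := 2 ^ (j - (a + u)) * (2 ^ (a + u) + 2 ^ a + 1) - 1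

lemma Ls_start (a u : ℕ) : Ls a u (a + u) = 2 ^ (a + u) + 2 ^ a := by
  unfold Ls
  rw [Nat.sub_self, pow_zero, one_mul, Nat.add_sub_cancel]

lemma Ls_succ {a u j : ℕ} (h : a + u ≤ j) : Ls a u (j + 1) = 2 * Ls a u j + 1 := by
  unfold Ls
  have e : j + 1 - (a + u) = (j - (a + u)) + 1 := by omega
  rw [e, pow_succ]
  have : 1 ≤ 2 ^ (j - (a + u)) * (2 ^ (a + u) + 2 ^ a + 1) :=
    Nat.one_le_iff_ne_zero.2 (by (clear * -; positivity))
  have e2 : 2 ^ (j - (a + u)) * 2 * (2 ^ (a + u) + 2 ^ a + 1) =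
      2 * (2 ^ (j - (a + u)) * (2 ^ (a + u) + 2 ^ a + 1)) := by ring
  rw [e2]
  (clear * - this; omega)

lemma Ls_le {a u j : ℕ} (ha : 1 ≤ a) (h : a + u ≤ j) :
    (Ls a u j : ℝ) ≤ 2 ^ j * (1 + 3 / 2 * (1 / 2) ^ u) := by
  have h1 : (Ls a u j : ℝ) ≤ 2 ^ (j - (a + u)) * (2 ^ (a + u) + 2 ^ a + 1) := by
    have : Ls a u j ≤ 2 ^ (j - (a + u)) * (2 ^ (a + u) + 2 ^ a + 1) := Nat.sub_le _ _
    exact_mod_cast this
  refine h1.trans ?_
  have e1 : (2 : ℝ) ^ j = 2 ^ (j - (a + u)) * (2 ^ a * 2 ^ u) := by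
    rw [← pow_add, ← pow_add]
    congr 1
    omega
  have e2 : (2 : ℝ) ^ u * (1 / 2) ^ u = 1 := by rw [← mul_pow]; norm_num
  rw [e1]
  have e3 : (2 : ℝ) ^ (j - (a + u)) * (2 ^ a * 2 ^ u) * (1 + 3 / 2 * (1 / 2) ^ u) =
      2 ^ (j - (a + u)) * (2 ^ a * 2 ^ u + 3 / 2 * 2 ^ a * (2 ^ u * (1 / 2) ^ u)) := by ring
  rw [e3, e2, pow_add]
  refine mul_le_mul_of_nonneg_left ?_ (by positivity)
  have h2 : (2 : ℝ) ≤ 2 ^ a := by
    calc (2 : ℝ) = 2 ^ 1 := by norm_num
      _ ≤ 2 ^ a := pow_le_pow_right₀ (by norm_num) ha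
  linarith only [h2]

/-- The bound of the triangle at a high level. -/
lemma tri_bound {m j u p q L : ℕ} (hm : 1 ≤ m) (hp : p < 2 * m)
    (hj : Nat.log 2 (2 * m) + u + 1 ≤ j)
    (hL : (L : ℝ) ≤ 2 ^ j * (1 + 3 / 2 * (1 / 2) ^ u)) :
    (triN (2 * m) L p q : ℝ) / 4 ^ j ≤ (1 + 16 * ((1 : ℝ) / 2) ^ u) / ((2 * m : ℕ) : ℝ) := by
  have hn : 0 < 2 * m := by omega
  set n := 2 * m with hndef
  have hn' : (0 : ℝ) < n := by exact_mod_cast hn
  set ε : ℝ := (1 / 2) ^ u with hε
  have hε0 : 0 < ε := by positivity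
  have hε1 : ε ≤ 1 := pow_le_one₀ (by norm_num) (by norm_num)
  have h1 : (triN n L p q : ℝ) ≤ L * (L / n + 1) := by
    have h2 := triN_le n L p q hn hp.le
    have h3 : ((L / n : ℕ) : ℝ) ≤ (L : ℝ) / n := Nat.cast_div_le
    have h4 : (triN n L p q : ℝ) ≤ (L : ℝ) * (((L / n : ℕ) : ℝ) + 1) := by exact_mod_cast h2
    refine h4.trans (mul_le_mul_of_nonneg_left (by linarith only [h3]) (Nat.cast_nonneg _))
  -- `n ≤ 2 ^ j * ε`
  have hnj : (n : ℝ) ≤ 2 ^ j * ε := by
    have h2 : n < 2 ^ (Nat.log 2 n + 1) := Nat.lt_pow_succ_log_self (by norm_num) n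
    have h3 : (n : ℝ) ≤ 2 ^ (Nat.log 2 n + 1) := by exact_mod_cast h2.le
    refine h3.trans ?_
    have h4 : (2 : ℝ) ^ (Nat.log 2 n + 1) * 2 ^ u ≤ 2 ^ j := by
      rw [← pow_add]
      exact pow_le_pow_right₀ (by norm_num) (by omega)
    have h5 : (2 : ℝ) ^ u * ε = 1 := by rw [hε, ← mul_pow]; norm_num
    calc (2 : ℝ) ^ (Nat.log 2 n + 1) = (2 ^ (Nat.log 2 n + 1) * 2 ^ u) * ε := by
          rw [mul_assoc, h5, mul_one]
      _ ≤ 2 ^ j * ε := mul_le_mul_of_nonneg_right h4 hε0.le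
  have h4j : (4 : ℝ) ^ j = 2 ^ j * 2 ^ j := by rw [← mul_pow]; norm_num
  have hJ : (0 : ℝ) < 2 ^ j := by positivity
  rw [div_le_div_iff₀ (by positivity) hn', h4j]
  set J : ℝ := 2 ^ j with hJdef
  set M : ℝ := 1 + 3 / 2 * ε with hM
  have hM0 : 0 < M := by positivity
  have hL0 : (0 : ℝ) ≤ L := Nat.cast_nonneg _
  have h6 : (triN n L p q : ℝ) * n ≤ L * L + L * n := by
    calc (triN n L p q : ℝ) * n ≤ (L * (L / n + 1)) * n :=
          mul_le_mul_of_nonneg_right h1 hn'.le
      _ = L * L + L * n := by (clear * - hn; field_simp)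
  have h7 : (L : ℝ) * L ≤ (J * M) * (J * M) := mul_self_le_mul_self hL0 hL
  have h8 : (L : ℝ) * n ≤ (J * M) * (J * ε) := mul_le_mul hL hnj hn'.le (by positivity)
  have h9 : M * M + M * ε ≤ 1 + 16 * ε := by
    rw [hM]
    nlinarith only [hε0, hε1]
  calc (triN n L p q : ℝ) * n ≤ (J * M) * (J * M) + (J * M) * (J * ε) := by linarith only [h6, h7, h8]
    _ = (J * J) * (M * M + M * ε) := by ring
    _ ≤ (J * J) * (1 + 16 * ε) := mul_le_mul_of_nonneg_left h9 (by positivity)
    _ = (1 + 16 * ε) * (J * J) := by ring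

end Ker

open Ker

/-- The two possible backward moves. -/
def bk {m : ℕ} (p : Fin (2 * m)) (s : Fin 2) : Fin (2 * m) :=
  ⟨(p : ℕ) / 2 + m * s, by
    have h1 := p.2
    have h2 : (s : ℕ) = 0 ∨ (s : ℕ) = 1 := by omega
    rcases h2 with h2 | h2 <;> rw [h2] <;> omega⟩

theorem opp_val {m : ℕ} (p : Fin (2 * m)) : ((opp m p : Fin (2 * m)) : ℕ) = op m p := by
  obtain ⟨⟨b, i⟩, rfl⟩ := (topEquiv m).symm.surjective p
  have h1 : (opp m ((topEquiv m).symm (b, i))) = (topEquiv m).symm (!b, i) := by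
    change topFlip m ((topEquiv m).symm (b, i)) = _
    simp [topFlip]
  rw [h1, topEquiv_symm_val, topEquiv_symm_val]
  have hi := i.2
  unfold op
  cases b
  · simp only [Bool.not_false, Bool.toNat_true, mul_one, Bool.toNat_false, mul_zero, zero_add, hi, ↓reduceIte]
    omega
  · simp only [Bool.not_true, Bool.toNat_false, mul_zero, zero_add, Bool.toNat_true, mul_one, add_lt_iff_neg_left, not_lt_zero, ↓reduceIte, add_tsub_cancel_left]

/-- MODULE B: a superharmonic majorant of the one-card kernels which is invariant under the half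
turn except at the `u` levels `[a, a + u)`, `a = v₂ (2 m)`, and nearly uniform at the end. -/
theorem exists_kernel (m : ℕ) (hm : 1 ≤ m) (u : ℕ) : ∃ K : ℕ → Fin (2 * m) → Fin (2 * m) → ℝ,
    (∀ j p q, 0 ≤ K j p q) ∧ (∀ p, 1 ≤ K 0 p p) ∧
    (∀ j p q, ∑ s : Fin 2, ∑ s' : Fin 2, K j (bk p s) (bk q s') ≤ 4 * K (j + 1) p q) ∧
    (∀ j, (j < padicValNat 2 (2 * m) ∨ padicValNat 2 (2 * m) + u ≤ j) →
      ∀ p q, K j (opp m p) (opp m q) = K j p q) ∧
    (∀ j, Nat.log 2 (2 * m) + u + 1 ≤ j → ∀ p q,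
      K j p q = (1 + 16 * ((1 : ℝ) / 2) ^ u) / ((2 * m : ℕ) : ℝ)) := by
  set a := padicValNat 2 (2 * m) with ha
  set j1 := Nat.log 2 (2 * m) + u + 1 with hj1
  set κ : ℝ := (1 + 16 * ((1 : ℝ) / 2) ^ u) / ((2 * m : ℕ) : ℝ) with hκ
  have hκ0 : 0 ≤ κ := by (clear * - hm; positivity)
  have h2m : 2 * m ≠ 0 := by omega
  have ha1 : 1 ≤ a := one_le_padicValNat_of_dvd h2m (dvd_mul_right 2 m)
  obtain ⟨r, hr⟩ : 2 ^ a ∣ 2 * m := pow_padicValNat_dvd
  have hrodd : r % 2 = 1 := by
    by_contra hcon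
    have h0 : r % 2 = 0 := by omega
    obtain ⟨t, rfl⟩ := Nat.dvd_of_mod_eq_zero h0
    have h1 : 2 ^ (a + 1) ∣ 2 * m := ⟨t, by rw [hr, pow_succ]; ring⟩
    exact (pow_succ_padicValNat_not_dvd h2m) h1
  have halog : a ≤ Nat.log 2 (2 * m) := by
    apply Nat.le_log_of_pow_le (by norm_num)
    exact Nat.le_of_dvd (by omega) ⟨r, hr⟩
  have hdvd : ∀ j, j < a → 2 ^ j ∣ m := by
    intro j hj
    have h1 : 2 ^ (j + 1) ∣ 2 * m := (pow_dvd_pow 2 hj).trans ⟨r, hr⟩
    rw [pow_succ'] at h1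
    exact Nat.dvd_of_mul_dvd_mul_left (by norm_num) h1
  refine ⟨fun j p q => if j1 ≤ j then κ else if a + u ≤ j then
    (triN (2 * m) (Ls a u j) p q : ℝ) / 4 ^ j else (exN (2 * m) j p q : ℝ) / 4 ^ j,
    ?_, ?_, ?_, ?_, ?_⟩
  · intro j p q
    simp only
    split_ifs
    · exact hκ0
    · (clear * -; (clear * -; positivity))
    · (clear * -; positivity)
  · intro p
    simp only
    rw [if_neg (by omega), if_neg (by omega)]
    have h1 : 1 ≤ exN (2 * m) 0 p p := by
      unfold exN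
      rw [Nat.one_le_iff_ne_zero, card_ne_zero]
      exact ⟨(0, 0), by simp only [pow_zero, Nat.div_one, Nat.add_left_cancel_iff, mul_eq_mul_left_iff, mul_eq_zero, OfNat.ofNat_ne_zero, false_or, range_one, product_singleton, map_singleton, Function.Embedding.coeFn_mk, mem_filter, mem_singleton, true_or, and_self]⟩
    have h2 : (1 : ℝ) ≤ exN (2 * m) 0 p p := by exact_mod_cast h1
    simpa only [pow_zero, div_one, Nat.one_le_cast, ge_iff_le] using h2
  · intro j p q
    have hbk : ∀ (p : Fin (2 * m)) (s : Fin 2), ((bk p s : Fin (2 * m)) : ℕ) =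
        (p : ℕ) / 2 + m * (s : ℕ) := fun p s => rfl
    have hconv : ∀ f : ℕ → ℕ → ℕ, ∑ s : Fin 2, ∑ s' : Fin 2, (f (bk p s) (bk q s') : ℝ) =
        ((∑ s ∈ range 2, ∑ s' ∈ range 2, f ((p : ℕ) / 2 + m * s) ((q : ℕ) / 2 + m * s') : ℕ) : ℝ) := by
      intro f
      simp only [Fin.sum_univ_two, sum_range_succ, range_zero, sum_empty, zero_add, hbk]
      push_cast
      simp only [Fin.isValue, Fin.coe_ofNat_eq_mod, Nat.zero_mod, mul_zero, add_zero, Nat.mod_succ, mul_one]
    have hexN : ∑ s : Fin 2, ∑ s' : Fin 2, ((exN (2 * m) j (bk p s) (bk q s') : ℝ) / 4 ^ j) =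
        4 * ((exN (2 * m) (j + 1) p q : ℝ) / 4 ^ (j + 1)) := by
      simp only [← sum_div]
      rw [hconv (exN (2 * m) j), ← exN_succ, pow_succ]
      (clear * -; field_simp)
    have htriN : ∑ s : Fin 2, ∑ s' : Fin 2,
        ((triN (2 * m) (Ls a u j) (bk p s) (bk q s') : ℝ) / 4 ^ j) ≤
        4 * ((triN (2 * m) (2 * Ls a u j + 1) p q : ℝ) / 4 ^ (j + 1)) := by
      simp only [← sum_div]
      rw [hconv (triN (2 * m) (Ls a u j))]
      have h1 := triN_succ m (Ls a u j) p q (by omega)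
      have h2 : ((∑ s ∈ range 2, ∑ s' ∈ range 2, triN (2 * m) (Ls a u j) ((p : ℕ) / 2 + m * s)
          ((q : ℕ) / 2 + m * s') : ℕ) : ℝ) ≤ (triN (2 * m) (2 * Ls a u j + 1) p q : ℝ) := by
        exact_mod_cast h1
      have h3 := div_le_div_of_nonneg_right h2 (by positivity : (0 : ℝ) ≤ 4 ^ j)
      refine h3.trans (le_of_eq ?_)
      rw [pow_succ]
      (clear * -; (clear * -; field_simp))
    rcases Nat.lt_or_ge j j1 with hj | hj
    · rcases Nat.lt_or_ge (j + 1) j1 with hj' | hj'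
      · simp only [if_neg (not_le.2 hj), if_neg (not_le.2 hj')]
        rcases Nat.lt_or_ge j (a + u) with h | h
        · simp only [if_neg (not_le.2 h)]
          rw [hexN]
          split_ifs with h2
          · have h3 : j + 1 = a + u := by omega
            rw [h3, Ls_start, ← h3]
            have h4 := exN_le_tri hrodd hr (show a ≤ j + 1 by omega) p q
            rw [h3] at h4 ⊢
            (clear * - h4; gcongr)
          · exact le_rfl
        · simp only [if_pos h, if_pos (show a + u ≤ j + 1 by omega)]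
          rw [Ls_succ h]
          exact htriN
      · have hjj : j + 1 = j1 := by omega
        simp only [if_neg (not_le.2 hj), if_pos hj']
        rcases Nat.lt_or_ge j (a + u) with h | h
        · simp only [if_neg (not_le.2 h)]
          rw [hexN]
          have h4 := exN_le_tri hrodd hr (show a ≤ j + 1 by omega) p q
          have h5 : ((exN (2 * m) (j + 1) p q : ℕ) : ℝ) ≤
              (triN (2 * m) (2 ^ (j + 1) + 2 ^ a) p q : ℕ) := by exact_mod_cast h4
          have h6 := tri_bound (m := m) (j := j + 1) (u := u) (p := p) (q := q)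
            (L := 2 ^ (j + 1) + 2 ^ a) hm p.2 (by omega) (by
              push_cast
              have e1 : (2 : ℝ) ^ (j + 1) * (1 / 2) ^ u ≥ 2 ^ a := by
                have e2 : (2 : ℝ) ^ (j + 1) = 2 ^ (j + 1 - u) * 2 ^ u := by
                  rw [← pow_add]; congr 1; omega
                have e3 : (2 : ℝ) ^ u * (1 / 2) ^ u = 1 := by rw [← mul_pow]; norm_num
                rw [e2, mul_assoc, e3, mul_one]
                exact pow_le_pow_right₀ (by norm_num) (by omega)
              nlinarith only [pow_pos (show (0 : ℝ) < 2 by norm_num) a, e1])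
          calc 4 * (((exN (2 * m) (j + 1) p q : ℕ) : ℝ) / 4 ^ (j + 1))
              ≤ 4 * (((triN (2 * m) (2 ^ (j + 1) + 2 ^ a) p q : ℕ) : ℝ) / 4 ^ (j + 1)) := by
                (clear * - h5; gcongr)
            _ ≤ 4 * κ := by
                exact mul_le_mul_of_nonneg_left h6 (by norm_num)
        · simp only [if_pos h]
          refine htriN.trans ?_
          rw [← Ls_succ h]
          exact mul_le_mul_of_nonneg_left (tri_bound hm p.2 (by omega)
            (Ls_le ha1 (by omega))) (by norm_num)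
    · simp only [if_pos hj, if_pos (show j1 ≤ j + 1 by omega)]
      simp only [sum_const, card_univ, Fintype.card_fin, nsmul_eq_mul]
      push_cast
      linarith only []
  · intro j hj p q
    simp only
    split_ifs with h1 h2
    · rfl
    · rw [opp_val, opp_val, triN_op]
    · rw [opp_val, opp_val, exN_op (hdvd j (by omega)) p.2 q.2]
  · intro j hj p q
    simp only
    rw [if_pos hj]

end Vale.Agent.P162.Ring
end
end
end

section

section

section

/-!
Negative dependence for random permutations built from layers of independent fair switches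
(general positions).
-/

namespace Vale.Agent.P162.Ring

open Equiv Finset Vale.Agent.P162.Lin

variable {P : Type*} {Ω Ω' : Type*} [Fintype Ω] [Fintype Ω']

theorem Ex_le' {f g : Ω → ℝ} (h : ∀ ω, f ω ≤ g ω) : Ex f ≤ Ex g :=
  div_le_div_of_nonneg_right (Finset.sum_le_sum fun ω _ => h ω) (Nat.cast_nonneg _)

theorem Ex_nn {f : Ω → ℝ} (h : ∀ ω, 0 ≤ f ω) : 0 ≤ Ex f :=
  div_nonneg (Finset.sum_nonneg fun ω _ => h ω) (Nat.cast_nonneg _)

theorem Ex_c [Nonempty Ω] (c : ℝ) : Ex (fun _ : Ω => c) = c := by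
  unfold Ex
  rw [Finset.sum_const, Finset.card_univ, nsmul_eq_mul]
  have : (Fintype.card Ω : ℝ) ≠ 0 := Nat.cast_ne_zero.2 Fintype.card_ne_zero
  field_simp

theorem Ex_smul' (c : ℝ) (f : Ω → ℝ) : Ex (fun ω => c * f ω) = c * Ex f := by
  unfold Ex
  rw [← Finset.mul_sum, mul_div_assoc]

theorem Ex_sum_comm {ι : Type*} (s : Finset ι) (f : ι → Ω → ℝ) :
    Ex (fun ω => ∑ i ∈ s, f i ω) = ∑ i ∈ s, Ex (f i) := by
  unfold Ex
  rw [Finset.sum_comm, Finset.sum_div]

theorem Ex_prod' (f : Ω × Ω' → ℝ) : Ex f = Ex (fun ω => Ex (fun ω' => f (ω, ω'))) := by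
  unfold Ex
  rw [Fintype.sum_prod_type, Fintype.card_prod, Nat.cast_mul]
  rw [← Finset.sum_div, div_div, mul_comm]

theorem Ex_map (e : Ω ≃ Ω') (f : Ω' → ℝ) : Ex (fun ω => f (e ω)) = Ex f := by
  unfold Ex
  rw [Equiv.sum_comp e f, Fintype.card_congr e]

/-- Negative dependence of a random permutation. -/
def Neg (V : Ω → Perm P) : Prop :=
  ∀ (φ : P → ℝ), (∀ p, 0 ≤ φ p) → ∀ T : Finset P,
    Ex (fun ω => ∏ p ∈ T, φ (V ω p)) ≤ ∏ p ∈ T, Ex (fun ω => φ (V ω p))

/-- A fixed permutation. -/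
theorem Neg.const (g : Perm P) [Nonempty Ω] : Neg (fun _ : Ω => g) := by
  intro φ _ T
  rw [Ex_c]
  exact le_of_eq (Finset.prod_congr rfl fun p _ => (Ex_c _).symm)

/-- Transport along a bijection of the sample spaces. -/
theorem Neg.equiv {V : Ω → Perm P} (hV : Neg V) (e : Ω' ≃ Ω) : Neg (fun ω => V (e ω)) := by
  intro φ hφ T
  rw [Ex_map e (fun ω => ∏ p ∈ T, φ (V ω p))]
  refine (hV φ hφ T).trans (le_of_eq (Finset.prod_congr rfl fun p _ => ?_))
  exact (Ex_map e (fun ω => φ (V ω p))).symm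

section layer

variable {β : Type*} [Fintype β] [DecidableEq β]

theorem Ex_pi_prod {X : Type*} [Fintype X] (φ : β → X → ℝ) :
    Ex (fun f : β → X => ∏ b, φ b (f b)) = ∏ b, Ex (φ b) := by
  classical
  unfold Ex
  rw [← Fintype.prod_sum, Fintype.card_fun, Finset.prod_div_distrib, Finset.prod_const,
    Finset.card_univ]
  push_cast
  rfl

theorem Ex_bool' (f : Bool → ℝ) : Ex f = (f true + f false) / 2 := by
  unfold Ex
  simp

/-- One layer of independent fair switches: the switch of `p` is `c p`, its partner `e p`. -/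
theorem Neg.layer [DecidableEq P] {L : (β → Bool) → Perm P} (e : P → P) (c : P → β)
    (hL : ∀ f p, L f p = if f (c p) then e p else p)
    (hee : ∀ p, e (e p) = p) (hce : ∀ p, c (e p) = c p)
    (hc : ∀ p q, c p = c q → q = p ∨ q = e p) : Neg L := by
  intro φ hφ T
  -- group the product by switches
  have hprod : ∀ f : β → Bool, ∏ p ∈ T, φ (L f p)
      = ∏ b : β, ∏ p ∈ T with c p = b, φ (if f b then e p else p) := by
    intro f
    rw [← Finset.prod_fiberwise_of_maps_to (s := T) (t := Finset.univ) (g := c)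
      (fun _ _ => Finset.mem_univ _)]
    refine Finset.prod_congr rfl fun b _ => Finset.prod_congr rfl fun p hp => ?_
    rw [hL, (Finset.mem_filter.1 hp).2]
  have h1 : Ex (fun f : β → Bool => ∏ p ∈ T, φ (L f p))
      = ∏ b : β, Ex (fun x : Bool => ∏ p ∈ T with c p = b, φ (if x then e p else p)) := by
    rw [← Ex_pi_prod]
    congr 1
    funext f
    exact hprod f
  have hmarg : ∀ p, Ex (fun f : β → Bool => φ (L f p)) = (φ (e p) + φ p) / 2 := by
    intro p
    have : (fun f : β → Bool => φ (L f p))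
        = fun f : β → Bool => ∏ b : β, (if b = c p then φ (if f b then e p else p) else 1) := by
      funext f
      rw [Finset.prod_ite_eq' Finset.univ (c p)]
      simp only [hL, mem_univ, ↓reduceIte]
    rw [this, Ex_pi_prod (fun (b : β) (x : Bool) => if b = c p then φ (if x then e p else p) else 1),
      Finset.prod_eq_single (c p)]
    · simp [Ex_bool']
    · intro b _ hb
      simp [hb, Ex_c]
    · intro h; exact absurd (Finset.mem_univ _) h
  have h2 : ∏ p ∈ T, Ex (fun f : β → Bool => φ (L f p))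
      = ∏ b : β, ∏ p ∈ T with c p = b, (φ (e p) + φ p) / 2 := by
    rw [← Finset.prod_fiberwise_of_maps_to (s := T) (t := Finset.univ) (g := c)
      (fun _ _ => Finset.mem_univ _)]
    refine Finset.prod_congr rfl fun b _ => Finset.prod_congr rfl fun p _ => ?_
    rw [hmarg]
  rw [h1, h2]
  refine Finset.prod_le_prod (fun b _ => Ex_nn fun x => Finset.prod_nonneg fun p _ => hφ _)
    fun b _ => ?_
  rw [Ex_bool']
  simp only [if_true, Bool.false_eq_true, if_false]
  -- the fibre has at most two elements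
  rcases (T.filter (fun p => c p = b)).eq_empty_or_nonempty with h | ⟨p, hp⟩
  · rw [h]; simp only [prod_empty, add_self_div_two, prod_div_distrib, prod_const, card_empty, pow_zero, ne_eq, one_ne_zero, not_false_eq_true, div_self, Std.le_refl]
  have hcp : c p = b := (Finset.mem_filter.1 hp).2
  by_cases hep : e p ∈ T.filter (fun p => c p = b) ∧ e p ≠ p
  · have hF : T.filter (fun p => c p = b) = {p, e p} := by
      ext q
      constructor
      · intro hq
        rcases hc p q (by rw [hcp, (Finset.mem_filter.1 hq).2]) with h | h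
        · simp [h]
        · simp [h]
      · intro hq
        rcases Finset.mem_insert.1 hq with h | h
        · rw [h]; exact hp
        · rw [Finset.mem_singleton.1 h]; exact hep.1
    rw [hF, Finset.prod_pair hep.2.symm, Finset.prod_pair hep.2.symm,
      Finset.prod_pair hep.2.symm, hee]
    nlinarith only [sq_nonneg (φ p - φ (e p))]
  · have hF : T.filter (fun p => c p = b) = {p} := by
      ext q
      constructor
      · intro hq
        rcases hc p q (by rw [hcp, (Finset.mem_filter.1 hq).2]) with h | h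
        · simp [h]
        · by_cases hh : e p = p
          · simp [h, hh]
          · exfalso
            rw [h] at hq
            exact hep ⟨hq, hh⟩
      · intro hq
        rw [Finset.mem_singleton.1 hq]; exact hp
    rw [hF]
    simp only [prod_singleton, prod_div_distrib, prod_const, card_singleton, pow_one, Std.le_refl]

end layer

/-- Number of pairs (indexed by `b`) with both members mapped into `S`. -/
theorem Neg.pairs {β : Type*} [Fintype β] [DecidableEq β] [DecidableEq P]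
    {V : Ω → Perm P} (hV : Neg V) (S : Finset P)
    (u v : β → P) (hu : Function.Injective u) (hv : Function.Injective v)
    (huv : ∀ b b', u b ≠ v b') (x ρ : ℝ) (hx : 0 ≤ x)
    (hmarg : ∀ p, Ex (fun ω => if V ω p ∈ S then (1 : ℝ) else 0) ≤ ρ) :
    Ex (fun ω => (1 + x) ^ (Finset.univ.filter
      (fun b => V ω (u b) ∈ S ∧ V ω (v b) ∈ S)).card)
      ≤ Real.exp (x * ρ ^ 2 * Fintype.card β) := by
  classical
  set φ : P → ℝ := fun p => if p ∈ S then (1 : ℝ) else 0 with hφ
  have hφ0 : ∀ p, 0 ≤ φ p := fun p => by rw [hφ]; dsimp only; split_ifs <;> norm_num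
  have hm0 : ∀ p, 0 ≤ Ex (fun ω => φ (V ω p)) := fun p => Ex_nn fun ω => hφ0 _
  have hexp : ∀ ω, (1 + x) ^ (Finset.univ.filter
      (fun b => V ω (u b) ∈ S ∧ V ω (v b) ∈ S)).card
      = ∑ F : Finset β, x ^ F.card *
          ∏ p ∈ F.image u ∪ F.image v, φ (V ω p) := by
    intro ω
    have h1 : (1 + x) ^ (Finset.univ.filter
        (fun b => V ω (u b) ∈ S ∧ V ω (v b) ∈ S)).card
        = ∏ b : β, (x * (φ (V ω (u b)) * φ (V ω (v b))) + 1) := by
      rw [Finset.card_eq_sum_ones, ← Finset.prod_pow_eq_pow_sum, Finset.prod_filter]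
      refine Finset.prod_congr rfl fun b _ => ?_
      rw [hφ]
      by_cases h1 : V ω (u b) ∈ S <;> by_cases h2 : V ω (v b) ∈ S <;> simp [h1, h2, add_comm]
    rw [h1, Finset.prod_add_one]
    rw [Finset.powerset_univ]
    refine Finset.sum_congr rfl fun F _ => ?_
    rw [Finset.prod_mul_distrib, Finset.prod_const, Finset.prod_union,
      Finset.prod_image (fun a _ b _ h => hu h), Finset.prod_image (fun a _ b _ h => hv h),
      Finset.prod_mul_distrib]
    rw [Finset.disjoint_left]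
    intro p h2 h3
    obtain ⟨b, -, hb⟩ := Finset.mem_image.1 h2
    obtain ⟨b', -, hb'⟩ := Finset.mem_image.1 h3
    exact huv b b' (hb.trans hb'.symm)
  simp only [hexp]
  rw [Ex_sum_comm]
  have hterm : ∀ F : Finset β, Ex (fun ω => x ^ F.card *
      ∏ p ∈ F.image u ∪ F.image v, φ (V ω p)) ≤ ∏ _b ∈ F, x * ρ ^ 2 := by
    intro F
    rw [Ex_smul']
    rw [Finset.prod_const, mul_pow]
    refine mul_le_mul_of_nonneg_left ?_ (pow_nonneg hx _)
    refine (hV φ hφ0 _).trans ?_
    refine (Finset.prod_le_prod (fun p _ => hm0 p) fun p _ => hmarg p).trans ?_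
    rw [Finset.prod_const, Finset.card_union_of_disjoint, Finset.card_image_of_injective _ hu,
      Finset.card_image_of_injective _ hv, ← pow_mul]
    · rw [two_mul]
    · rw [Finset.disjoint_left]
      intro p h2 h3
      obtain ⟨b, -, hb⟩ := Finset.mem_image.1 h2
      obtain ⟨b', -, hb'⟩ := Finset.mem_image.1 h3
      exact huv b b' (hb.trans hb'.symm)
  refine (Finset.sum_le_sum fun F _ => hterm F).trans ?_
  have h2 : ∑ F : Finset β, ∏ _b ∈ F, x * ρ ^ 2 = (x * ρ ^ 2 + 1) ^ Fintype.card β := by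
    have := Finset.prod_add_one (s := (Finset.univ : Finset β)) (f := fun _ => x * ρ ^ 2)
    rw [Finset.powerset_univ] at this
    rw [← this, Finset.prod_const, Finset.card_univ]
  rw [h2, mul_comm (x * ρ ^ 2) _, Real.exp_nat_mul]
  have h3 : 0 ≤ x * ρ ^ 2 := mul_nonneg hx (sq_nonneg _)
  exact pow_le_pow_left₀ (by linarith only [h3]) (Real.add_one_le_exp _) _

end Vale.Agent.P162.Ring
end
end
end

section

section

section

/-!
One-card marginals and negative dependence of the layered ring network.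
-/

namespace Vale.Agent.P162.Ring

open Equiv Finset
open Vale.Agent.P162.Lin (Ex nOrb)

section general

variable {Ω P : Type*} [Fintype Ω]

theorem Neg.mul_left {V : Ω → Perm P} (g : Perm P) (hV : Neg V) : Neg (fun ω => g * V ω) := by
  intro φ hφ T
  exact hV (fun p => φ (g p)) (fun p => hφ _) T

theorem Neg.mul_right {V : Ω → Perm P} (hV : Neg V) (g : Perm P) : Neg (fun ω => V ω * g) := by
  intro φ hφ T
  have h := hV φ hφ (T.map g.toEmbedding)
  simpa only [Finset.prod_map, Equiv.coe_toEmbedding, Perm.mul_apply] using h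

/-- Resampling one coordinate. -/
theorem Ex_upd {ι X : Type*} [Fintype ι] [DecidableEq ι] [Fintype X] [Nonempty X]
    (i : ι) (F : (ι → X) → ℝ) :
    Ex F = Ex (fun b : ι → X => Ex (fun x : X => F (Function.update b i x))) := by
  have hX : (Fintype.card X : ℝ) ≠ 0 := by exact_mod_cast Fintype.card_ne_zero
  unfold Ex
  rw [← Finset.sum_div, div_div]
  have h2 : ∑ b : ι → X, ∑ x : X, F (Function.update b i x) =
      (Fintype.card X : ℝ) * ∑ b, F b := by
    rw [← Fintype.sum_prod_type' (fun (b : ι → X) (x : X) => F (Function.update b i x))]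
    have h3 : ∑ p : (ι → X) × X, F (Function.update p.1 i p.2) =
        ∑ p : (ι → X) × X, F p.1 := by
      refine Finset.sum_nbij' (fun p => (Function.update p.1 i p.2, p.1 i))
        (fun p => (Function.update p.1 i p.2, p.1 i)) (by simp) (by simp) ?_ ?_ ?_
      · rintro ⟨b, x⟩ _
        simp
      · rintro ⟨b, x⟩ _
        simp
      · rintro ⟨b, x⟩ _
        rfl
    rw [h3, Fintype.sum_prod_type]
    simp only [sum_const, card_univ, nsmul_eq_mul, mul_sum]
  rw [h2]
  field_simp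

end general

/-- One forward shuffle is negatively dependent. -/
theorem neg_thorp (m : ℕ) : Neg (fun ω : Fin m → Fin 2 => thorpPerm m ω) := by
  have h1 : Neg (fun f : Fin m → Bool => (topEquiv m).symm.permCongr (colSwap f)) := by
    refine Neg.layer (topFlip m) (fun p => (topEquiv m p).2) ?_ ?_ ?_ ?_
    · intro f p
      obtain ⟨⟨b, l⟩, rfl⟩ := (topEquiv m).symm.surjective p
      cases h : f l <;> simp [colSwap, topFlip, h]
    · intro p
      simp [topFlip]
    · intro p
      simp [topFlip]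
    · intro p q h
      obtain ⟨⟨b, l⟩, rfl⟩ := (topEquiv m).symm.surjective p
      obtain ⟨⟨b', l'⟩, rfl⟩ := (topEquiv m).symm.surjective q
      simp only [Equiv.apply_symm_apply] at h
      subst h
      cases b <;> cases b' <;> simp [topFlip]
  have h2 := (h1.equiv (Equiv.arrowCongr (Equiv.refl (Fin m)) finTwoEquiv)).mul_left
    (thorpPerm m 0)
  have h3 : (fun ω : Fin m → Fin 2 => thorpPerm m ω) = fun ω => thorpPerm m 0 *
      (topEquiv m).symm.permCongr (colSwap
        ((Equiv.arrowCongr (Equiv.refl (Fin m)) finTwoEquiv) ω)) := by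
    funext ω
    exact thorpPerm_eq m ω
  rw [h3]
  exact h2

/-- The point `c mod 2 m`. -/
def md {m : ℕ} (hm : 0 < m) (c : ℕ) : Fin (2 * m) := ⟨c % (2 * m), Nat.mod_lt _ (by omega)⟩

theorem thorp_md {m : ℕ} (hm : 0 < m) (ω : Fin m → Fin 2) (b : Bool) (l : Fin m) :
    thorpPerm m ω ((topEquiv m).symm (b, l)) =
      md hm (2 * (l : ℕ) + (xor (finTwoEquiv (ω l)) b).toNat) := by
  rw [thorpPerm_eq]
  have h1 : (topEquiv m).symm.permCongr (colSwap fun i => finTwoEquiv (ω i))
      ((topEquiv m).symm (b, l)) = (topEquiv m).symm (xor (finTwoEquiv (ω l)) b, l) := by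
    simp [colSwap]
  apply Fin.ext
  rw [Perm.mul_apply, h1, thorp_zero_val]
  have h2 := l.2
  have h3 : (xor (finTwoEquiv (ω l)) b).toNat ≤ 1 := Bool.toNat_le _
  exact (Nat.mod_eq_of_lt (by omega)).symm

theorem Ex_coord {ι X : Type*} [Fintype ι] [DecidableEq ι] [Fintype X] [Nonempty X]
    (i : ι) (F : X → ℝ) : Ex (fun f : ι → X => F (f i)) = Ex F := by
  rw [Ex_upd i]
  simp only [Function.update_self]
  exact Ex_c _

/-- One card through one forward shuffle. -/
theorem Ex_thorp {m : ℕ} (hm : 0 < m) (φ : Fin (2 * m) → ℝ) (p : Fin (2 * m)) :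
    Ex (fun ω : Fin m → Fin 2 => φ (thorpPerm m ω p)) =
      (φ (md hm (2 * p)) + φ (md hm (2 * p + 1))) / 2 := by
  obtain ⟨⟨b, l⟩, rfl⟩ := (topEquiv m).symm.surjective p
  simp only [thorp_md hm]
  rw [Ex_coord l (fun c => φ (md hm (2 * (l : ℕ) + (xor (finTwoEquiv c) b).toNat)))]
  have h1 : ∀ c : ℕ, md hm (2 * (((topEquiv m).symm (b, l) : Fin (2 * m)) : ℕ) + c) =
      md hm (2 * (l : ℕ) + c) := by
    intro c
    apply Fin.ext
    unfold md
    simp only [topEquiv_symm_val]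
    have : 2 * (m * b.toNat + (l : ℕ)) + c = 2 * (l : ℕ) + c + 2 * m * b.toNat := by ring
    rw [this, Nat.add_mul_mod_self_left]
  have h0 : finTwoEquiv 0 = false := rfl
  have h2 : finTwoEquiv 1 = true := rfl
  rw [h1 1, ← Nat.add_zero (2 * (((topEquiv m).symm (b, l) : Fin (2 * m)) : ℕ)), h1 0]
  unfold Ex
  rw [Fin.sum_univ_two, h0, h2]
  cases b
  · simp
  · simp only [Bool.bne_true, Bool.not_false, Bool.toNat_true, add_comm, bne_self_eq_false, Bool.toNat_false, zero_add, Fintype.card_fin, Nat.cast_ofNat]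

/-- The network from layer `j` to layer `t`. -/
def fwd {m D : ℕ} (a : Cn m D) (j t : ℕ) : Perm (Fin (2 * m)) := Rg a t * (Rg a j)⁻¹

theorem Rg_upd {m D : ℕ} (b : Cn m D) (i : Fin D) (x : Fin m → Fin 2) (j : ℕ)
    (hj : j ≤ (i : ℕ)) : Rg (Function.update b i x) j = Rg b j := by
  induction j with
  | zero => rw [Rg_nil, Rg_nil]
  | succ j ih =>
    have hjd : j < D := by omega
    have hne : (⟨j, hjd⟩ : Fin D) ≠ i := by
      intro h
      have := congrArg Fin.val h
      simp at this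
      omega
    rw [Rg_step, Rg_step, dif_pos hjd, dif_pos hjd, ih (by omega), Function.update_of_ne hne]

theorem fwd_self {m D : ℕ} (a : Cn m D) (j : ℕ) : fwd a j j = 1 := by
  unfold fwd
  exact mul_inv_cancel _

theorem fwd_succ {m D : ℕ} (a : Cn m D) (j t : ℕ) (ht : t < D) :
    fwd a j (t + 1) = thorpPerm m (a ⟨t, ht⟩) * fwd a j t := by
  unfold fwd
  rw [Rg_step, dif_pos ht, mul_assoc]

theorem fwd_upd {m D : ℕ} (a : Cn m D) (j t : ℕ) (ht : t < D) (hj : j ≤ t)
    (x : Fin m → Fin 2) : fwd (Function.update a ⟨t, ht⟩ x) j (t + 1) =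
      thorpPerm m x * fwd a j t := by
  rw [fwd_succ _ _ _ ht, Function.update_self]
  unfold fwd
  rw [Rg_upd _ _ _ _ le_rfl, Rg_upd _ _ _ _ hj]

/-- Adding one layer. -/
theorem Ex_fwd_succ {m D : ℕ} (j t : ℕ) (ht : t < D) (hj : j ≤ t)
    (F : Perm (Fin (2 * m)) → ℝ) :
    Ex (fun a : Cn m D => F (fwd a j (t + 1))) =
      Ex (fun a : Cn m D => Ex (fun x : Fin m → Fin 2 => F (thorpPerm m x * fwd a j t))) := by
  rw [Ex_upd (⟨t, ht⟩ : Fin D)]
  congr 1
  funext a
  congr 1
  funext x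
  rw [fwd_upd a j t ht hj]

theorem neg_fwd {m D : ℕ} (j t : ℕ) (hj : j ≤ t) (ht : t ≤ D) :
    Neg (fun a : Cn m D => fwd a j t) := by
  induction t, hj using Nat.le_induction with
  | base =>
    simp only [fwd_self]
    exact Neg.const 1
  | succ t hj ih =>
    intro φ hφ T
    rw [Ex_fwd_succ j t (by omega) hj (fun g => ∏ p ∈ T, φ (g p))]
    have h1 : ∀ a : Cn m D, Ex (fun x : Fin m → Fin 2 =>
        ∏ p ∈ T, φ ((thorpPerm m x * fwd a j t) p)) ≤
        ∏ p ∈ T, Ex (fun x : Fin m → Fin 2 => φ (thorpPerm m x (fwd a j t p))) := by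
      intro a
      exact (neg_thorp m).mul_right (fwd a j t) φ hφ T
    refine (Ex_le' h1).trans ?_
    refine (ih (by omega) (fun q => Ex (fun x : Fin m → Fin 2 => φ (thorpPerm m x q)))
      (fun q => Ex_nn fun x => hφ _) T).trans ?_
    refine le_of_eq (Finset.prod_congr rfl fun p _ => ?_)
    rw [Ex_fwd_succ j t (by omega) hj (fun g => φ (g p))]
    rfl

/-- Law of one card after `t - j` forward layers. -/
theorem Ex_fwd {m D : ℕ} (hm : 0 < m) (j t : ℕ) (hj : j ≤ t) (ht : t ≤ D)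
    (φ : Fin (2 * m) → ℝ) (p : Fin (2 * m)) :
    Ex (fun a : Cn m D => φ (fwd a j t p)) =
      (∑ c ∈ range (2 ^ (t - j)), φ (md hm (2 ^ (t - j) * p + c))) / 2 ^ (t - j) := by
  induction t, hj using Nat.le_induction generalizing φ with
  | base =>
    simp only [fwd_self]
    have : md hm (p : ℕ) = p := Fin.ext (Nat.mod_eq_of_lt p.2)
    rw [Ex_c]
    simp only [Perm.coe_one, id_eq, tsub_self, pow_zero, range_one, one_mul, sum_singleton, add_zero, this, div_one]
  | succ t hj ih =>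
    rw [Ex_fwd_succ j t (by omega) hj (fun g => φ (g p))]
    simp only [Perm.mul_apply]
    rw [ih (by omega) (fun q => Ex (fun x : Fin m → Fin 2 => φ (thorpPerm m x q)))]
    simp only [Ex_thorp hm]
    have e1 : t + 1 - j = (t - j) + 1 := by (clear * - hj; omega)
    rw [e1]
    set s := t - j with hs
    have h1 : ∀ c e : ℕ, md hm (2 * ((md hm (2 ^ s * p + c) : Fin (2 * m)) : ℕ) + e) =
        md hm (2 ^ (s + 1) * p + (2 * c + e)) := by
      intro c e
      apply Fin.ext
      unfold md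
      simp only
      have h2 : (2 ^ (s + 1) * (p : ℕ) + (2 * c + e)) = 2 * (2 ^ s * p + c) + e := by ring
      rw [h2]
      exact ((Nat.mod_modEq _ _).mul_left 2).add_right e
    have h2 : ∀ c : ℕ, md hm (2 * ((md hm (2 ^ s * p + c) : Fin (2 * m)) : ℕ)) =
        md hm (2 ^ (s + 1) * p + 2 * c) := fun c => h1 c 0
    simp only [h2, h1]
    rw [← Finset.sum_div, div_div]
    have h3 : ∑ c ∈ range (2 ^ (s + 1)), φ (md hm (2 ^ (s + 1) * p + c)) =
        ∑ c ∈ range (2 ^ s), (φ (md hm (2 ^ (s + 1) * p + 2 * c)) +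
          φ (md hm (2 ^ (s + 1) * p + (2 * c + 1)))) := by
      generalize 2 ^ (s + 1) * (p : ℕ) = q
      rw [pow_succ]
      generalize 2 ^ s = N
      induction N with
      | zero => simp
      | succ N ihN =>
        rw [Finset.sum_range_succ, ← ihN, show (N + 1) * 2 = N * 2 + 1 + 1 by ring,
          Finset.sum_range_succ, Finset.sum_range_succ, mul_comm N 2]
        ring_nf
    rw [h3, pow_succ]
    ring_nf

/-- One-card probabilities. -/
theorem prob_fwd_le {m D : ℕ} (hm : 0 < m) (j t : ℕ) (hj : j ≤ t) (ht : t ≤ D)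
    (h : 2 * m ≤ 2 ^ (t - j)) (p x : Fin (2 * m)) :
    Ex (fun a : Cn m D => if fwd a j t p = x then (1 : ℝ) else 0) ≤ 2 / (2 * m : ℕ) := by
  rw [Ex_fwd hm j t hj ht (fun q => if q = x then (1 : ℝ) else 0)]
  set s := t - j with hs
  have hn : 0 < 2 * m := by omega
  have hcount : ((range (2 ^ s)).filter
      (fun c => md hm (2 ^ s * p + c) = x)).card ≤ 2 ^ s / (2 * m) + 1 := by
    -- all such `c` are congruent to some `v`
    rcases ((range (2 ^ s)).filter (fun c => md hm (2 ^ s * p + c) = x)).eq_empty_or_nonempty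
      with h0 | ⟨v, hv⟩
    · rw [h0]; simp only [card_empty, le_add_iff_nonneg_left, zero_le]
    · have hsub : (range (2 ^ s)).filter (fun c => md hm (2 ^ s * p + c) = x) ⊆
          (range (2 ^ s)).filter (fun c => c ≡ v [MOD (2 * m)]) := by
        intro c hc
        rw [Finset.mem_filter] at hc hv ⊢
        refine ⟨hc.1, ?_⟩
        have h1 : (2 ^ s * (p : ℕ) + c) % (2 * m) = (2 ^ s * (p : ℕ) + v) % (2 * m) := by
          have h2 := congrArg Fin.val (hc.2.trans hv.2.symm)
          exact h2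
        exact Nat.ModEq.add_left_cancel' _ h1
      refine (Finset.card_le_card hsub).trans ?_
      have h2 := Nat.count_modEq_card (b := 2 ^ s) hn v
      rw [Nat.count_eq_card_filter_range] at h2
      rw [h2]
      split_ifs <;> omega
  rw [← Finset.sum_filter, Finset.sum_const, nsmul_eq_mul, mul_one]
  have hpow : (0 : ℝ) < 2 ^ s := by positivity
  have hnR : (0 : ℝ) < ((2 * m : ℕ) : ℝ) := by exact_mod_cast hn
  rw [div_le_div_iff₀ hpow hnR]
  have h5 : (2 ^ s / (2 * m) + 1) * (2 * m) ≤ 2 * 2 ^ s := by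
    have := Nat.div_mul_le_self (2 ^ s) (2 * m)
    calc (2 ^ s / (2 * m) + 1) * (2 * m) = 2 ^ s / (2 * m) * (2 * m) + 2 * m := by ring
      _ ≤ 2 ^ s + 2 ^ s := Nat.add_le_add this h
      _ = 2 * 2 ^ s := by ring
  have h6 : ((range (2 ^ s)).filter (fun c => md hm (2 ^ s * p + c) = x)).card * (2 * m) ≤
      2 * 2 ^ s := (Nat.mul_le_mul_right _ hcount).trans h5
  exact_mod_cast h6

/-- Probability to hit a set. -/
theorem prob_fwd_mem_le {m D : ℕ} (hm : 0 < m) (j t : ℕ) (hj : j ≤ t) (ht : t ≤ D)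
    (h : 2 * m ≤ 2 ^ (t - j)) (p : Fin (2 * m)) (S : Finset (Fin (2 * m))) :
    Ex (fun a : Cn m D => if fwd a j t p ∈ S then (1 : ℝ) else 0) ≤
      2 * S.card / (2 * m : ℕ) := by
  have h1 : ∀ a : Cn m D, (if fwd a j t p ∈ S then (1 : ℝ) else 0) =
      ∑ x ∈ S, if fwd a j t p = x then (1 : ℝ) else 0 := by
    intro a
    rw [Finset.sum_ite_eq]
  simp only [h1]
  rw [Ex_sum_comm]
  refine (Finset.sum_le_sum fun x _ => prob_fwd_le hm j t hj ht h p x).trans ?_
  rw [Finset.sum_const, nsmul_eq_mul]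
  exact le_of_eq (by ring)

end Vale.Agent.P162.Ring
end
end
end

section

section

section

/-!
Low density of the pairs of cards which share a switch of the ring network.
-/

namespace Vale.Agent.P162.Ring

open Equiv Finset
open Vale.Agent.P162.Lin (Ex nOrb)

/-- Number of occupied pairs `l`, `l + m`. -/
def pc {m : ℕ} (T : Finset (Fin (2 * m))) : ℕ :=
  (Finset.univ.filter fun l : Fin m =>
    (topEquiv m).symm (false, l) ∈ T ∧ (topEquiv m).symm (true, l) ∈ T).card

theorem mem_occ {m D : ℕ} (a : Cn m D) (j : ℕ) (S : Finset (Fin (2 * m))) (q : Fin (2 * m)) :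
    q ∈ occ a j S ↔ fwd a j D q ∈ S := by
  unfold occ fwd
  rw [Finset.mem_map_equiv]
  have h : (Equiv.symm (Rg a j * (Rg a D)⁻¹)) q = (Rg a D * (Rg a j)⁻¹) q := by
    rw [Equiv.symm_apply_eq]
    simp
  rw [h]

theorem mem_occ_net {m D : ℕ} (a b : Cn m D) (j : ℕ) (S : Finset (Fin (2 * m)))
    (q : Fin (2 * m)) :
    q ∈ (occ a j S).map (net a b j).toEmbedding ↔ (fwd a 0 D * (Rg b j)⁻¹) q ∈ S := by
  rw [Finset.mem_map_equiv, mem_occ]
  have h : fwd a j D ((Equiv.symm (net a b j)) q) = (fwd a 0 D * (Rg b j)⁻¹) q := by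
    unfold fwd net
    rw [Rg_nil]
    have h1 : (Equiv.symm (Rg b j * (Rg a j)⁻¹)) q = (Rg a j * (Rg b j)⁻¹) q := by
      rw [Equiv.symm_apply_eq]
      simp only [Perm.coe_mul, Perm.coe_inv, Function.comp_apply, symm_apply_apply, apply_symm_apply]
    rw [h1]
    simp only [Perm.coe_mul, Perm.coe_inv, Function.comp_apply, symm_apply_apply, inv_one, mul_one]
  rw [h]

theorem pc_bound {Ω : Type*} [Fintype Ω] [Nonempty Ω] {m : ℕ} {V : Ω → Perm (Fin (2 * m))}
    (hV : Neg V) (S : Finset (Fin (2 * m))) (x ρ : ℝ) (hx : 0 ≤ x)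
    (hmarg : ∀ p, Ex (fun ω => if V ω p ∈ S then (1 : ℝ) else 0) ≤ ρ)
    (T : Ω → Finset (Fin (2 * m))) (hT : ∀ ω q, q ∈ T ω ↔ V ω q ∈ S) :
    Ex (fun ω => (1 + x) ^ pc (T ω)) ≤ Real.exp (x * ρ ^ 2 * m) := by
  have h := Neg.pairs (β := Fin m) hV S (fun l => (topEquiv m).symm (false, l))
    (fun l => (topEquiv m).symm (true, l)) (fun l l' h => by simpa using h)
    (fun l l' h => by simpa using h) (fun l l' h => by simp at h) x ρ hx hmarg
  rw [Fintype.card_fin] at h
  refine le_trans (le_of_eq ?_) h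
  congr 1
  funext ω
  unfold pc
  congr 2
  ext l
  simp only [Finset.mem_filter, hT]

/-- The left side at level `j`. -/
theorem red_bound {m D : ℕ} (hm : 0 < m) (j : ℕ) (hj : j ≤ D) (h : 2 * m ≤ 2 ^ (D - j))
    (S : Finset (Fin (2 * m))) (x : ℝ) (hx : 0 ≤ x) :
    Ex (fun a : Cn m D => (1 + x) ^ pc (occ a j S)) ≤
      Real.exp (x * (2 * S.card ^ 2 / (2 * m : ℕ))) := by
  have hmR : (0 : ℝ) < m := by exact_mod_cast hm
  refine (pc_bound (neg_fwd j D hj le_rfl) S x (2 * S.card / (2 * m : ℕ)) hx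
    (fun p => prob_fwd_mem_le hm j D hj le_rfl h p S) (fun a => occ a j S)
    (fun a q => mem_occ a j S q)).trans (le_of_eq ?_)
  congr 1
  push_cast
  field_simp

/-- The right side at level `j`. -/
theorem blue_bound {m D : ℕ} (hm : 0 < m) (j : ℕ) (h : 2 * m ≤ 2 ^ D)
    (S : Finset (Fin (2 * m))) (x : ℝ) (hx : 0 ≤ x) (b : Cn m D) :
    Ex (fun a : Cn m D => (1 + x) ^ pc ((occ a j S).map (net a b j).toEmbedding)) ≤
      Real.exp (x * (2 * S.card ^ 2 / (2 * m : ℕ))) := by
  have hmR : (0 : ℝ) < m := by exact_mod_cast hm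
  refine (pc_bound ((neg_fwd 0 D (Nat.zero_le _) le_rfl).mul_right (Rg b j)⁻¹) S x
    (2 * S.card / (2 * m : ℕ)) hx
    (fun p => prob_fwd_mem_le hm 0 D (Nat.zero_le _) le_rfl (by simpa only [tsub_zero] using h)
      ((Rg b j)⁻¹ p) S)
    (fun a => (occ a j S).map (net a b j).toEmbedding)
    (fun a q => mem_occ_net a b j S q)).trans (le_of_eq ?_)
  congr 1
  push_cast
  field_simp

end Vale.Agent.P162.Ring
end
end
end

section

section

section

/-!
Density bounds in the notation of `RingCost`.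
-/

namespace Vale.Agent.P162.Ring

open Equiv Finset
open Vale.Agent.P162.Lin (Ex nOrb)

theorem prR_eq {m D : ℕ} (a b : Cn m D) (S : Finset (Fin (2 * m))) (j : ℕ) :
    prR a b S j = pc ((occ a j S).map (net a b j).toEmbedding) := by
  unfold prR pc
  congr 1
  ext l
  simp only [Finset.mem_filter, Finset.mem_map_equiv]
  exact Iff.rfl

theorem dens_L {m D : ℕ} (hm : 1 ≤ m) (j t : ℕ) (hj : j + t ≤ D) (ht : 2 * m ≤ 2 ^ t)
    (S : Finset (Fin (2 * m))) (x : ℝ) (hx : 0 ≤ x) :
    Ex (fun a : Cn m D => (1 + x) ^ (prL a S j)) ≤ Real.exp (x * S.card ^ 2 / m) := by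
  have hmR : (0 : ℝ) < m := by exact_mod_cast hm
  refine (red_bound hm j (by omega)
    (ht.trans (Nat.pow_le_pow_right (by norm_num) (by omega))) S x hx).trans (le_of_eq ?_)
  congr 1
  push_cast
  field_simp

theorem dens_R {m D : ℕ} (hm : 1 ≤ m) (j t : ℕ) (hj : j + t ≤ D) (ht : 2 * m ≤ 2 ^ t)
    (S : Finset (Fin (2 * m))) (x : ℝ) (hx : 0 ≤ x) :
    Ex (fun ab : Cn m D × Cn m D => (1 + x) ^ (prR ab.1 ab.2 S j)) ≤
      Real.exp (x * S.card ^ 2 / m) := by
  have hmR : (0 : ℝ) < m := by exact_mod_cast hm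
  have hD : 2 * m ≤ 2 ^ D := ht.trans (Nat.pow_le_pow_right (by norm_num) (by omega))
  rw [← Ex_map (Equiv.prodComm (Cn m D) (Cn m D)), Ex_prod']
  refine (Ex_le' (g := fun _ => Real.exp (x * S.card ^ 2 / m)) fun b => ?_).trans
    (le_of_eq (Ex_c _))
  have h := blue_bound hm j hD S x hx b
  have e : x * (2 * (S.card : ℝ) ^ 2 / (2 * m : ℕ)) = x * S.card ^ 2 / m := by
    push_cast
    (clear * - hm; field_simp)
  rw [e] at h
  refine le_trans (le_of_eq ?_) h
  congr 1
  funext a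
  change (1 + x) ^ (prR a b S j) = _
  rw [prR_eq]

end Vale.Agent.P162.Ring
end
end
end

section

section

section

/-!
# P162, general even `n`: one Thorp shuffle in the family form
-/

namespace Vale.Agent.P162

open Equiv NormedSpace
open scoped InnerProductSpace

section fam

variable {ι : Type*} [DecidableEq ι]
variable {V : Type*} [NormedAddCommGroup V] [InnerProductSpace ℝ V]
variable (ρ : Perm ι →* (V →L[ℝ] V)) (hρ : ∀ g v, ‖ρ g v‖ = ‖v‖)

/-- A weighted sum of generators on subsets. -/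
noncomputable def fam {κ : Type*} (𝒲 : Finset κ) (x : κ → ℝ) (B : κ → Finset ι) : V →L[ℝ] V :=
  ∑ W ∈ 𝒲, x W • genOn ρ (B W)

theorem inner_fam {κ : Type*} (𝒲 : Finset κ) (x : κ → ℝ) (B : κ → Finset ι) (u : V) :
    ⟪u, fam ρ 𝒲 x B u⟫_ℝ = ∑ W ∈ 𝒲, x W * ⟪u, genOn ρ (B W) u⟫_ℝ := by
  unfold fam
  simp only [sum_apply, smul_apply, inner_sum, inner_smul_right]

include hρ in
theorem fam_symm {κ : Type*} (𝒲 : Finset κ) (x : κ → ℝ) (B : κ → Finset ι) (u v : V) :
    ⟪fam ρ 𝒲 x B u, v⟫_ℝ = ⟪u, fam ρ 𝒲 x B v⟫_ℝ := by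
  unfold fam
  simp only [sum_apply, smul_apply, inner_sum, sum_inner, inner_smul_right, inner_smul_left,
    genOn_symm ρ hρ]
  simp

include hρ in
/-- Comparison of two families. -/
theorem fam_anti [FiniteDimensional ℝ V] {κ κ' : Type*} (𝒲 : Finset κ) (x : κ → ℝ)
    (B : κ → Finset ι) (𝒰 : Finset κ') (y : κ' → ℝ) (C : κ' → Finset ι)
    (hBC : ∀ W ∈ 𝒲, ∀ U ∈ 𝒰, B W ⊆ C U ∨ C U ⊆ B W ∨ Disjoint (B W) (C U))
    (h : ∀ u : V, ∑ W ∈ 𝒲, x W * ⟪u, genOn ρ (B W) u⟫_ℝ ≤
      ∑ U ∈ 𝒰, y U * ⟪u, genOn ρ (C U) u⟫_ℝ) (v : V) :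
    ‖exp (-((1 / 2 : ℝ) • fam ρ 𝒰 y C)) v‖ ≤ ‖exp (-((1 / 2 : ℝ) • fam ρ 𝒲 x B)) v‖ := by
  refine norm_exp_anti _ _ (fam_symm ρ hρ 𝒲 x B) (fam_symm ρ hρ 𝒰 y C) ?_ ?_ v
  · unfold fam
    refine Commute.sum_left _ _ _ fun W hW => Commute.sum_right _ _ _ fun U hU => ?_
    exact ((genOn_commute' ρ (hBC W hW U hU)).smul_left _).smul_right _
  · intro u
    rw [inner_fam, inner_fam]
    exact h u

end fam

section wires

/-- The wires of the switches: wire `b` of switch `l` has position `2 l + b`. -/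
def wireEquiv (m : ℕ) : Bool × Fin m ≃ Fin (2 * m) :=
  (topEquiv m).symm.trans (thorpPerm m 0)

theorem wireEquiv_val (m : ℕ) (b : Bool) (l : Fin m) :
    ((wireEquiv m (b, l) : Fin (2 * m)) : ℕ) = 2 * l + b.toNat :=
  thorp_zero_val m b l

/-- The wires of the switches, as an embedding. -/
def wire (m : ℕ) : Bool × Fin m ↪ Fin (2 * m) := (wireEquiv m).toEmbedding

/-- The wires of the two halves of the deck. -/
def top (m : ℕ) : Bool × Fin m ↪ Fin (2 * m) := (topEquiv m).symm.toEmbedding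

theorem wire_val (m : ℕ) (b : Bool) (l : Fin m) :
    ((wire m (b, l) : Fin (2 * m)) : ℕ) = 2 * l + b.toNat :=
  thorp_zero_val m b l

theorem top_val (m : ℕ) (b : Bool) (l : Fin m) :
    ((top m (b, l) : Fin (2 * m)) : ℕ) = m * b.toNat + l :=
  topEquiv_symm_val m b l

theorem inv_wire (m : ℕ) (p : Bool × Fin m) : (thorpPerm m 0)⁻¹ (wire m p) = top m p := by
  exact (thorpPerm m 0).symm_apply_apply _

theorem map_side (m : ℕ) (b : Bool) (s : Finset (Fin m)) :
    (side (wire m) b s).map ((thorpPerm m 0)⁻¹ : Perm (Fin (2 * m))).toEmbedding =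
      side (top m) b s := by
  ext x
  rw [Finset.mem_map, mem_side]
  constructor
  · rintro ⟨y, hy, rfl⟩
    rw [mem_side] at hy
    obtain ⟨l, hl, rfl⟩ := hy
    exact ⟨l, hl, (inv_wire m _).symm⟩
  · rintro ⟨l, hl, rfl⟩
    exact ⟨wire m (b, l), mem_side.mpr ⟨l, hl, rfl⟩, inv_wire m _⟩

theorem mem_side_top_false {m : ℕ} {s : Finset (Fin m)} {x : Fin (2 * m)} :
    x ∈ side (top m) false s ↔ ∃ h : (x : ℕ) < m, (⟨x, h⟩ : Fin m) ∈ s := by
  rw [mem_side]
  constructor
  · rintro ⟨l, hl, rfl⟩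
    have h := top_val m false l
    simp only [Bool.toNat_false, mul_zero, zero_add] at h
    refine ⟨by rw [h]; exact l.2, ?_⟩
    have : (⟨(top m (false, l) : ℕ), by rw [h]; exact l.2⟩ : Fin m) = l := Fin.ext h
    rw [this]
    exact hl
  · rintro ⟨h, hs⟩
    refine ⟨⟨x, h⟩, hs, Fin.ext ?_⟩
    rw [top_val]
    simp

theorem mem_side_top_true {m : ℕ} {s : Finset (Fin m)} {x : Fin (2 * m)} :
    x ∈ side (top m) true s ↔ ∃ h : (x : ℕ) - m < m, m ≤ (x : ℕ) ∧ (⟨(x : ℕ) - m, h⟩ : Fin m) ∈ s := by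
  rw [mem_side]
  constructor
  · rintro ⟨l, hl, rfl⟩
    have h := top_val m true l
    simp only [Bool.toNat_true, mul_one] at h
    have h2 : (top m (true, l) : ℕ) - m = l := by omega
    refine ⟨by rw [h2]; exact l.2, by omega, ?_⟩
    have : (⟨(top m (true, l) : ℕ) - m, by rw [h2]; exact l.2⟩ : Fin m) = l := Fin.ext h2
    rw [this]
    exact hl
  · rintro ⟨h, hm, hs⟩
    refine ⟨⟨(x : ℕ) - m, h⟩, hs, Fin.ext ?_⟩
    rw [top_val]
    simp only [Bool.toNat_true, mul_one]
    omega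

theorem mem_full_wire {m : ℕ} {s : Finset (Fin m)} {x : Fin (2 * m)} :
    x ∈ full (wire m) s ↔ (⟨(x : ℕ) / 2, by omega⟩ : Fin m) ∈ s := by
  rw [mem_full]
  constructor
  · rintro ⟨b, l, hl, rfl⟩
    have h := wire_val m b l
    have h2 : (wire m (b, l) : ℕ) / 2 = l := by
      rw [h]
      cases b
      · simp
      · simp only [Bool.toNat_true]
        omega
    have : (⟨(wire m (b, l) : ℕ) / 2, by omega⟩ : Fin m) = l := Fin.ext h2
    rw [this]
    exact hl
  · intro hs
    refine ⟨decide ((x : ℕ) % 2 = 1), _, hs, Fin.ext ?_⟩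
    rw [wire_val]
    by_cases h : (x : ℕ) % 2 = 1
    · simp only [h, decide_true, Bool.toNat_true]
      omega
    · simp only [h, decide_false, Bool.toNat_false]
      omega

end wires

section step

variable {V : Type*} [NormedAddCommGroup V] [InnerProductSpace ℝ V]
variable {m : ℕ} (ρ : Perm (Fin (2 * m)) →* (V →L[ℝ] V))

/-- The average over all the switches. -/
noncomputable def swAvg : V →L[ℝ] V :=
  avgCol (ρ.comp (wireEquiv m).permCongrHom.toMonoidHom)

theorem adj_eq [FiniteDimensional ℝ V] :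
    adjOp (thorpLaw m) ρ = ρ (thorpPerm m 0)⁻¹ * swAvg ρ := by
  rw [adjOp_thorp_eq]
  have h1 : swAvg ρ = av (fun x => wireEquiv m (!((wireEquiv m).symm x).1,
      ((wireEquiv m).symm x).2)) ρ := by
    unfold swAvg
    rw [av_avgCol]
    symm
    apply av_conj
    rintro ⟨b, i⟩
    simp
  rw [h1]
  apply av_mul_rho
  intro x
  obtain ⟨⟨b, i⟩, rfl⟩ := (wireEquiv m).surjective x
  rw [Equiv.symm_apply_apply]
  change (thorpPerm m 0)⁻¹ (wire m (!b, i)) = topFlip m ((thorpPerm m 0)⁻¹ (wire m (b, i)))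
  rw [inv_wire, inv_wire]
  unfold topFlip top
  simp

theorem permCongr_colSwap (ω : Fin m → Bool) (b : Bool) (l : Fin m) :
    (wireEquiv m).permCongr (colSwap ω) (wire m (b, l)) = wire m (xor (ω l) b, l) := by
  change wireEquiv m (colSwap ω ((wireEquiv m).symm (wireEquiv m (b, l)))) = _
  rw [Equiv.symm_apply_apply]
  rfl

theorem swAvg_commute_full (s : Finset (Fin m)) :
    Commute (swAvg ρ) (genOn ρ (full (wire m) s)) := by
  unfold swAvg avgCol
  refine Commute.smul_left (Commute.sum_left _ _ _ fun ω _ => ?_) _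
  refine rho_genOn_commute ρ ((wireEquiv m).permCongr (colSwap ω)) _ ?_
  intro x hx
  rw [mem_full] at hx ⊢
  obtain ⟨b, l, hl, rfl⟩ := hx
  exact ⟨xor (ω l) b, l, hl, (permCongr_colSwap ω b l).symm⟩

theorem swAvg_fixed (v : V) (l : Fin m) :
    ρ (swap (wire m (false, l)) (wire m (true, l))) (swAvg ρ v) = swAvg ρ v := by
  have h := avgCol_fixed (ρ.comp (wireEquiv m).permCongrHom.toMonoidHom) v l
  have e : (ρ.comp (wireEquiv m).permCongrHom.toMonoidHom) (swap (false, l) (true, l)) =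
      ρ (swap (wire m (false, l)) (wire m (true, l))) := by
    rw [MonoidHom.comp_apply]
    congr 1
    ext x
    obtain ⟨p, rfl⟩ := (wireEquiv m).surjective x
    have h2 : (wireEquiv m).permCongrHom.toMonoidHom (swap (false, l) (true, l)) (wireEquiv m p) =
        wireEquiv m (swap (false, l) (true, l) p) := by
      change wireEquiv m (swap (false, l) (true, l) ((wireEquiv m).symm (wireEquiv m p))) = _
      rw [Equiv.symm_apply_apply]
    rw [h2]
    congr 1
    exact (Function.Injective.map_swap (wireEquiv m).injective _ _ _)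
  rw [e] at h
  exact h

variable (hρ : ∀ g v, ‖ρ g v‖ = ‖v‖)

include hρ in
theorem norm_swAvg_le (v : V) : ‖swAvg ρ v‖ ≤ ‖v‖ :=
  norm_avgCol_le (ρ.comp (wireEquiv m).permCongrHom.toMonoidHom) (fun _ u => hρ _ u) v

theorem exp_semiconj [FiniteDimensional ℝ V] (X Y T : V →L[ℝ] V) (h : X * T = T * Y) :
    exp (-((1 / 2 : ℝ) • X)) * T = T * exp (-((1 / 2 : ℝ) • Y)) := by
  let _ : NormedAlgebra ℚ (V →L[ℝ] V) := NormedAlgebra.restrictScalars ℚ ℝ (V →L[ℝ] V)
  have h1 : SemiconjBy T (-((1 / 2 : ℝ) • Y)) (-((1 / 2 : ℝ) • X)) := by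
    unfold SemiconjBy
    rw [mul_neg, neg_mul, mul_smul_comm, smul_mul_assoc, h]
  exact h1.exp_right.eq.symm

theorem exp_commute [FiniteDimensional ℝ V] (X T : V →L[ℝ] V) (h : Commute T X) :
    Commute T (exp (-((1 / 2 : ℝ) • X))) := by
  let _ : NormedAlgebra ℚ (V →L[ℝ] V) := NormedAlgebra.restrictScalars ℚ ℝ (V →L[ℝ] V)
  exact (h.smul_right _).neg_right.exp_right

include hρ in
/-- One Thorp shuffle. -/
theorem thorp_step [FiniteDimensional ℝ V] {κ : Type*} [DecidableEq κ] (𝒲 : Finset κ)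
    (β : κ → Finset (Fin m)) (a b : κ → ℝ)
    (hdisj : ∀ W ∈ 𝒲, ∀ W' ∈ 𝒲, W ≠ W' → Disjoint (β W) (β W'))
    (ha : ∀ W ∈ 𝒲, 0 ≤ a W) (hb : ∀ W ∈ 𝒲, 0 ≤ b W) (hab : ∀ W ∈ 𝒲, (a W + b W) / 2 ≤ 7 / 100)
    (s : ℕ)
    (h : ∀ v : V, ‖((adjOp (thorpLaw m) ρ) ^ s) v‖ ≤
      ‖exp (-((1 / 2 : ℝ) • ∑ W ∈ 𝒲, (a W • genOn ρ (side (top m) true (β W)) +
        b W • genOn ρ (side (top m) false (β W))))) v‖) (v : V) :
    ‖((adjOp (thorpLaw m) ρ) ^ (s + 1)) v‖ ≤
      ‖exp (-((1 / 2 : ℝ) • fam ρ 𝒲 (fun W => tt (a W) (b W) (β W).card)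
        (fun W => full (wire m) (β W)))) v‖ := by
  set w : V := swAvg ρ v with hw
  have h1 : ((adjOp (thorpLaw m) ρ) ^ (s + 1)) v =
      ((adjOp (thorpLaw m) ρ) ^ s) (ρ (thorpPerm m 0)⁻¹ w) := by
    rw [pow_succ, mul_apply_eq_comp, adj_eq, mul_apply_eq_comp]
  rw [h1]
  refine (h _).trans ?_
  have h2 : (∑ W ∈ 𝒲, (a W • genOn ρ (side (top m) true (β W)) +
        b W • genOn ρ (side (top m) false (β W)))) * ρ (thorpPerm m 0)⁻¹ =
      ρ (thorpPerm m 0)⁻¹ * (∑ W ∈ 𝒲, (a W • genOn ρ (side (wire m) true (β W)) +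
        b W • genOn ρ (side (wire m) false (β W)))) := by
    rw [Finset.sum_mul, Finset.mul_sum]
    refine Finset.sum_congr rfl fun W _ => ?_
    rw [add_mul, mul_add, smul_mul_assoc, smul_mul_assoc, mul_smul_comm, mul_smul_comm,
      ← map_side, ← map_side, genOn_map_mul, genOn_map_mul]
  rw [← mul_apply_eq_comp, exp_semiconj _ _ _ h2, mul_apply_eq_comp, hρ]
  refine (family_key ρ hρ (wire m) β a b 𝒲 hdisj ha hb hab w
    (fun W _ l _ => swAvg_fixed ρ v l)).trans ?_
  have hc : Commute (swAvg ρ) (exp (-((1 / 2 : ℝ) • fam ρ 𝒲 (fun W => tt (a W) (b W) (β W).card)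
        (fun W => full (wire m) (β W))))) := by
    refine exp_commute _ _ ?_
    unfold fam
    exact Commute.sum_right _ _ _ fun W _ => (swAvg_commute_full ρ _).smul_right _
  change ‖exp (-((1 / 2 : ℝ) • fam ρ 𝒲 (fun W => tt (a W) (b W) (β W).card)
        (fun W => full (wire m) (β W)))) (swAvg ρ v)‖ ≤ _
  rw [← mul_apply_eq_comp, ← hc.eq, mul_apply_eq_comp]
  exact norm_swAvg_le ρ hρ _

end step

/-- The loss in one step is at most one half. -/
theorem tt_ge (a b : ℝ) (ha : 0 ≤ a) (hb : 0 ≤ b) (hab : a + b ≤ 1 / 100) (N : ℕ) :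
    (a + b) / 4 ≤ tt a b N := by
  unfold tt
  have h1 : 5 * ((a + b) / 2) ^ 2 / (2 * (N : ℝ)) ≤ 5 * ((a + b) / 2) ^ 2 / 2 := by
    rcases Nat.eq_zero_or_pos N with h | h
    · rw [h]
      simp only [Nat.cast_zero, mul_zero, div_zero]
      (clear * -; (clear * -; positivity))
    · have : (1 : ℝ) ≤ N := by exact_mod_cast h
      apply div_le_div_of_nonneg_left (by (clear * -; positivity)) (by norm_num)
      linarith only [this]
  have h2 : ((a - b) / 2) ^ 2 ≤ ((a + b) / 2) ^ 2 := by nlinarith only [ha, hb]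
  nlinarith only [ha, hb, h1, h2, hab]

end Vale.Agent.P162
end
end
end

section

section

section

/-!
# P162, general even `n`: the aligned cells
-/

namespace Vale.Agent.P162

open Equiv NormedSpace
open scoped InnerProductSpace

/-- The aligned cell `[2^s c, 2^s (c+1))`. -/
def Cell (m s c : ℕ) : Finset (Fin (2 * m)) := Finset.univ.filter (fun y => (y : ℕ) / 2 ^ s = c)

theorem mem_Cell {m s c : ℕ} {y : Fin (2 * m)} : y ∈ Cell m s c ↔ (y : ℕ) / 2 ^ s = c := by
  simp only [Cell, Finset.mem_filter, Finset.mem_univ, true_and]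

theorem disjoint_Cell {m s c c' : ℕ} (h : c ≠ c') : Disjoint (Cell m s c) (Cell m s c') := by
  rw [Finset.disjoint_left]
  intro y hy hy'
  rw [mem_Cell] at hy hy'
  exact h (hy.symm.trans hy')

/-- The half cell of columns. -/
def colCell (m s c : ℕ) : Finset (Fin m) := Finset.univ.filter (fun l => (l : ℕ) / 2 ^ s = c)

theorem mem_colCell {m s c : ℕ} {y : Fin m} : y ∈ colCell m s c ↔ (y : ℕ) / 2 ^ s = c := by
  simp only [colCell, Finset.mem_filter, Finset.mem_univ, true_and]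

theorem side_colCell {m s c : ℕ} (hc : c < m / 2 ^ s) :
    side (top m) false (colCell m s c) = Cell m s c := by
  ext x
  rw [mem_side_top_false, mem_Cell]
  constructor
  · rintro ⟨h, hx⟩
    have := mem_colCell.mp hx
    exact this
  · intro hx
    have h : (x : ℕ) < m := by
      by_contra hcon
      have := Nat.div_le_div_right (c := 2 ^ s) (not_lt.mp hcon)
      omega
    exact ⟨h, mem_colCell.mpr hx⟩

theorem full_colCell {m s c : ℕ} : full (wire m) (colCell m s c) = Cell m (s + 1) c := by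
  ext x
  rw [mem_full_wire, mem_colCell, mem_Cell, pow_succ', Nat.div_div_eq_div_mul]

/-- The time of the cells. -/
noncomputable def tcell (s : ℕ) : ℝ := 1 / 100 / 4 ^ s

theorem tcell_pos (s : ℕ) : 0 < tcell s := by unfold tcell; positivity

theorem tcell_le (s : ℕ) : tcell s ≤ 1 / 100 := by
  unfold tcell
  exact div_le_self (by norm_num) (one_le_pow₀ (by norm_num))

theorem tcell_succ (s : ℕ) : tcell (s + 1) = tcell s / 4 := by
  unfold tcell
  rw [pow_succ, ← div_div]

variable {V : Type*} [NormedAddCommGroup V] [InnerProductSpace ℝ V] [FiniteDimensional ℝ V]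
variable {m : ℕ} (ρ : Perm (Fin (2 * m)) →* (V →L[ℝ] V)) (hρ : ∀ g v, ‖ρ g v‖ = ‖v‖)

include hρ in
theorem base (s : ℕ) (v : V) :
    ‖((adjOp (thorpLaw m) ρ) ^ s) v‖ ≤
      ‖exp (-((1 / 2 : ℝ) • fam ρ (Finset.range (2 * m / 2 ^ s)) (fun _ => tcell s)
        (fun c => Cell m s c))) v‖ := by
  induction s generalizing v with
  | zero =>
    have h : fam ρ (Finset.range (2 * m / 2 ^ 0)) (fun _ => tcell 0) (fun c => Cell m 0 c) = 0 := by
      unfold fam
      refine Finset.sum_eq_zero fun c hc => ?_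
      rw [Finset.mem_range, pow_zero, Nat.div_one] at hc
      have : Cell m 0 c = {⟨c, hc⟩} := by
        ext y
        rw [mem_Cell, Finset.mem_singleton, pow_zero, Nat.div_one, Fin.ext_iff]
      beta_reduce
      rw [this, genOn_singleton, smul_zero]
    rw [h, smul_zero, neg_zero, exp_zero, pow_zero]
  | succ s ih =>
    have hM : 2 * m / 2 ^ (s + 1) = m / 2 ^ s := by
      rw [pow_succ', Nat.mul_div_mul_left _ _ (by norm_num)]
    rw [hM]
    have hle : m / 2 ^ s ≤ 2 * m / 2 ^ s := Nat.div_le_div_right (by omega)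
    have h1 : ∀ v : V, ‖((adjOp (thorpLaw m) ρ) ^ s) v‖ ≤
        ‖exp (-((1 / 2 : ℝ) • ∑ c ∈ Finset.range (m / 2 ^ s),
          ((fun _ => (0 : ℝ)) c • genOn ρ (side (top m) true (colCell m s c)) +
          (fun _ => tcell s) c • genOn ρ (side (top m) false (colCell m s c))))) v‖ := by
      intro v
      refine (ih v).trans ?_
      have e : (∑ c ∈ Finset.range (m / 2 ^ s),
          ((fun _ => (0 : ℝ)) c • genOn ρ (side (top m) true (colCell m s c)) +
          (fun _ => tcell s) c • genOn ρ (side (top m) false (colCell m s c)))) =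
          fam ρ (Finset.range (m / 2 ^ s)) (fun _ => tcell s) (fun c => Cell m s c) := by
        unfold fam
        refine Finset.sum_congr rfl fun c hc => ?_
        rw [side_colCell (Finset.mem_range.mp hc)]
        simp
      rw [e]
      refine fam_anti ρ hρ _ _ _ _ _ _ ?_ ?_ v
      · intro c _ c' _
        by_cases h : c = c'
        · subst h; exact Or.inl (Finset.Subset.refl _)
        · exact Or.inr (Or.inr (disjoint_Cell h))
      · intro u
        refine Finset.sum_le_sum_of_subset_of_nonneg ?_ ?_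
        · intro c hc
          rw [Finset.mem_range] at hc ⊢
          omega
        · intro c _ _
          exact mul_nonneg (tcell_pos s).le (inner_genOn_nonneg ρ hρ _ u)
    have h2 := thorp_step ρ hρ (Finset.range (m / 2 ^ s)) (fun c => colCell m s c)
      (fun _ => (0 : ℝ)) (fun _ => tcell s) ?_ (fun _ _ => le_rfl) (fun _ _ => (tcell_pos s).le)
      (fun _ _ => by have := tcell_le s; simp only [zero_add]; linarith only [this]) s h1 v
    · refine h2.trans ?_
      refine fam_anti ρ hρ _ _ _ _ _ _ ?_ ?_ v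
      · intro c _ c' _
        rw [full_colCell]
        by_cases h : c = c'
        · subst h; exact Or.inl (Finset.Subset.refl _)
        · exact Or.inr (Or.inr (disjoint_Cell h))
      · intro u
        refine Finset.sum_le_sum fun c _ => ?_
        rw [full_colCell]
        refine mul_le_mul_of_nonneg_right ?_ (inner_genOn_nonneg ρ hρ _ u)
        have := tt_ge 0 (tcell s) le_rfl (tcell_pos s).le (by rw [zero_add]; exact tcell_le s)
          (colCell m s c).card
        rw [tcell_succ]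
        rw [zero_add] at this
        exact this
    · intro c _ c' _ h
      rw [Finset.disjoint_left]
      intro y hy hy'
      rw [mem_colCell] at hy hy'
      exact h (hy.symm.trans hy')

end Vale.Agent.P162
end
end
end

section

section

section

/-!
# P162, general even `n`: blocks of positions
-/

namespace Vale.Agent.P162

open Equiv NormedSpace

/-- The positions of the block `W` at level `i`. -/
def inB (n i0 i W y : ℕ) : Prop := n * W + 2 ^ i0 ≤ 2 ^ i * (y + 1) ∧ 2 ^ i * y + 2 ^ i0 ≤ n * (W + 1)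

instance (n i0 i W y : ℕ) : Decidable (inB n i0 i W y) := by unfold inB; infer_instance

/-- The blocks. -/
def Blk (m i0 i W : ℕ) : Finset (Fin (2 * m)) :=
  Finset.univ.filter (fun y => inB (2 * m) i0 i W y)

/-- The columns of the blocks. -/
def bet (m i0 i W : ℕ) : Finset (Fin m) := Finset.univ.filter (fun y => inB (2 * m) i0 i W y)

theorem mem_Blk {m i0 i W : ℕ} {y : Fin (2 * m)} : y ∈ Blk m i0 i W ↔ inB (2 * m) i0 i W y := by
  simp only [Blk, Finset.mem_filter, Finset.mem_univ, true_and]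

theorem mem_bet {m i0 i W : ℕ} {y : Fin m} : y ∈ bet m i0 i W ↔ inB (2 * m) i0 i W y := by
  simp only [bet, Finset.mem_filter, Finset.mem_univ, true_and]

theorem inB_unique {n i0 i W W' y : ℕ} (hi : i ≤ i0) (h : inB n i0 i W y) (h' : inB n i0 i W' y) :
    W = W' := by
  have hp : 2 ^ i ≤ 2 ^ i0 := Nat.pow_le_pow_right (by norm_num) hi
  have hq : 0 < 2 ^ i0 := by positivity
  have key : ∀ W W' : ℕ, inB n i0 i W y → inB n i0 i W' y → ¬ W < W' := by
    intro W W' h h' hlt
    have h1 : n * (W + 1) ≤ n * W' := Nat.mul_le_mul_left _ hlt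
    have h2 := h.2
    have h3 := h'.1
    rw [mul_add, mul_one] at h3
    omega
  rcases lt_trichotomy W W' with h1 | h1 | h1
  · exact absurd h1 (key _ _ h h')
  · exact h1
  · exact absurd h1 (key _ _ h' h)

theorem disjoint_Blk {m i0 i W W' : ℕ} (hi : i ≤ i0) (h : W ≠ W') :
    Disjoint (Blk m i0 i W) (Blk m i0 i W') := by
  rw [Finset.disjoint_left]
  intro y hy hy'
  exact h (inB_unique hi (mem_Blk.mp hy) (mem_Blk.mp hy'))

theorem disjoint_bet {m i0 i W W' : ℕ} (hi : i ≤ i0) (h : W ≠ W') :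
    Disjoint (bet m i0 i W) (bet m i0 i W') := by
  rw [Finset.disjoint_left]
  intro y hy hy'
  exact h (inB_unique hi (mem_bet.mp hy) (mem_bet.mp hy'))

theorem side_bet_false {m i0 i W : ℕ} (hW : W < 2 ^ i) :
    side (top m) false (bet m i0 (i + 1) W) = Blk m i0 (i + 1) W := by
  ext x
  rw [mem_side_top_false, mem_Blk]
  constructor
  · rintro ⟨h, hx⟩
    have := mem_bet.mp hx
    exact this
  · intro hx
    have h : (x : ℕ) < m := by
      have h1 := hx.2
      have hq : 0 < 2 ^ i0 := by positivity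
      have h2 : 2 * m * (W + 1) ≤ 2 * m * 2 ^ i := Nat.mul_le_mul_left _ hW
      rw [pow_succ] at h1
      by_contra hcon
      have h3 : 2 ^ i * m ≤ 2 ^ i * x := Nat.mul_le_mul_left _ (not_lt.mp hcon)
      nlinarith only [h1, hq, h2, h3]
    exact ⟨h, mem_bet.mpr hx⟩

theorem side_bet_true {m i0 i W : ℕ} :
    side (top m) true (bet m i0 (i + 1) W) = Blk m i0 (i + 1) (W + 2 ^ i) := by
  ext x
  rw [mem_side_top_true, mem_Blk]
  have hq : 0 < 2 ^ i0 := by positivity
  constructor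
  · rintro ⟨h, hm, hx⟩
    have h1 := mem_bet.mp hx
    obtain ⟨h1, h2⟩ := h1
    simp only at h1 h2
    obtain ⟨l, hl⟩ := Nat.exists_eq_add_of_le hm
    rw [hl, Nat.add_sub_cancel_left, pow_succ] at h1 h2
    unfold inB
    rw [hl, pow_succ]
    constructor
    · nlinarith only [h1]
    · nlinarith only [h2]
  · rintro ⟨h1, h2⟩
    rw [pow_succ] at h1 h2
    have hm : m ≤ (x : ℕ) := by
      by_contra hcon
      have h3 : 2 ^ i * ((x : ℕ) + 1) ≤ 2 ^ i * m := Nat.mul_le_mul_left _ (not_le.mp hcon)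
      nlinarith only [hq, h1, h3]
    have hx := x.2
    refine ⟨by omega, hm, ?_⟩
    rw [mem_bet]
    obtain ⟨l, hl⟩ := Nat.exists_eq_add_of_le hm
    unfold inB
    simp only
    rw [hl, Nat.add_sub_cancel_left, pow_succ]
    rw [hl] at h1 h2
    constructor
    · nlinarith only [h1]
    · nlinarith only [h2]

theorem Blk_subset_full {m i0 i W : ℕ} :
    Blk m i0 i W ⊆ full (wire m) (bet m i0 (i + 1) W) := by
  intro x hx
  rw [mem_full_wire, mem_bet]
  rw [mem_Blk] at hx
  obtain ⟨h1, h2⟩ := hx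
  unfold inB
  simp only
  rw [pow_succ]
  have h3 : (x : ℕ) + 1 ≤ 2 * ((x : ℕ) / 2 + 1) := by omega
  have h4 : 2 * ((x : ℕ) / 2) ≤ x := by omega
  have h5 := Nat.mul_le_mul_left (2 ^ i) h3
  have h6 := Nat.mul_le_mul_left (2 ^ i) h4
  constructor
  · nlinarith only [h1, h5]
  · nlinarith only [h2, h6]

theorem card_bet_le {m i0 i W : ℕ} :
    2 * (bet m i0 (i + 1) W).card ≤ (Blk m i0 i W).card + 2 := by
  rw [← card_full (wire m)]
  have hsub := Blk_subset_full (m := m) (i0 := i0) (i := i) (W := W)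
  have h1 : (full (wire m) (bet m i0 (i + 1) W) \ Blk m i0 i W).card ≤ 2 := by
    have h2 : (full (wire m) (bet m i0 (i + 1) W) \ Blk m i0 i W).card ≤
        (Finset.univ : Finset Bool).card := by
      refine Finset.card_le_card_of_injOn (fun y => decide ((y : ℕ) % 2 = 1))
        (fun _ _ => Finset.mem_coe.mpr (Finset.mem_univ _)) ?_
      have key : ∀ x y : Fin (2 * m), x ∈ full (wire m) (bet m i0 (i + 1) W) \ Blk m i0 i W →
          y ∈ full (wire m) (bet m i0 (i + 1) W) \ Blk m i0 i W →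
          decide ((x : ℕ) % 2 = 1) = decide ((y : ℕ) % 2 = 1) → ¬ (x : ℕ) < y := by
        intro x y hx hy hxy hlt
        rw [Finset.mem_sdiff, mem_full_wire, mem_bet, mem_Blk] at hx hy
        obtain ⟨⟨hx1, hx2⟩, hx3⟩ := hx
        obtain ⟨⟨hy1, hy2⟩, hy3⟩ := hy
        simp only at hx1 hx2 hy1 hy2
        rw [pow_succ] at hx1 hx2 hy1 hy2
        unfold inB at hx3 hy3
        have hp : 0 < 2 ^ i := by positivity
        by_cases hodd : (x : ℕ) % 2 = 1
        · have hodd' : (y : ℕ) % 2 = 1 := by simpa [hodd] using hxy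
          -- odd
          obtain ⟨l, hl⟩ : ∃ l, (x : ℕ) = 2 * l + 1 := ⟨(x : ℕ) / 2, by omega⟩
          obtain ⟨l', hl'⟩ : ∃ l', (y : ℕ) = 2 * l' + 1 := ⟨(y : ℕ) / 2, by omega⟩
          have e1 : (x : ℕ) / 2 = l := by omega
          have e2 : (y : ℕ) / 2 = l' := by omega
          rw [e1] at hx1 hx2
          rw [e2] at hy1 hy2
          rw [hl] at hx3
          have hll : l + 1 ≤ l' := by (clear * - hlt hodd hodd' hl hl'; omega)
          have h7 := Nat.mul_le_mul_left (2 ^ i) hll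
          apply hx3
          constructor
          · nlinarith only [hx1]
          · nlinarith only [hp, hy2, h7]
        · have heven' : ¬ (y : ℕ) % 2 = 1 := by
            intro h
            rw [h] at hxy
            simp [hodd] at hxy
          obtain ⟨l, hl⟩ : ∃ l, (x : ℕ) = 2 * l := ⟨(x : ℕ) / 2, by omega⟩
          obtain ⟨l', hl'⟩ : ∃ l', (y : ℕ) = 2 * l' := ⟨(y : ℕ) / 2, by omega⟩
          have e1 : (x : ℕ) / 2 = l := by omega
          have e2 : (y : ℕ) / 2 = l' := by omega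
          rw [e1] at hx1 hx2
          rw [e2] at hy1 hy2
          rw [hl'] at hy3
          have hll : l + 1 ≤ l' := by omega
          have h7 := Nat.mul_le_mul_left (2 ^ i) hll
          apply hy3
          constructor
          · nlinarith only [hp, hx1, h7]
          · nlinarith only [hy2]
      intro x hx y hy hxy
      rcases lt_trichotomy (x : ℕ) y with h | h | h
      · exact absurd h (key x y hx hy hxy)
      · exact Fin.ext h
      · exact absurd h (key y x hy hx hxy.symm)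
    simpa only [ge_iff_le, Fintype.univ_bool, Finset.mem_singleton, Bool.true_eq_false, not_false_eq_true,     Finset.card_insert_of_notMem, Finset.card_singleton, Nat.reduceAdd] using h2
  have h2 := Finset.card_sdiff_add_card_eq_card hsub
  omega

theorem count_ge {N A B : ℕ} (S : Finset (Fin N)) (hB : B < N)
    (h : ∀ y : Fin N, A ≤ (y : ℕ) → (y : ℕ) ≤ B → y ∈ S) : B + 1 ≤ S.card + A := by
  have h1 : Finset.Icc A B ⊆ S.map Fin.valEmbedding := by
    intro x hx
    rw [Finset.mem_Icc] at hx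
    rw [Finset.mem_map]
    exact ⟨⟨x, by omega⟩, h _ hx.1 hx.2, rfl⟩
  have h2 := Finset.card_le_card h1
  rw [Finset.card_map, Nat.card_Icc] at h2
  omega

theorem card_bet_ge {m i0 i W : ℕ} (hW : W < 2 ^ i) (hq : 2 ^ i0 ≤ m) :
    2 * m ≤ 2 * 2 ^ i * (bet m i0 (i + 1) W).card + 2 * 2 ^ i0 := by
  have hp : 0 < 2 ^ i := by positivity
  have hq0 : 0 < 2 ^ i0 := by positivity
  set p := 2 ^ i with hpdef
  set q := 2 ^ i0 with hqdef
  set X := 2 * m * W + q with hX
  obtain ⟨Y, hY⟩ : ∃ Y, 2 * m * (W + 1) = Y + q := by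
    refine ⟨2 * m * (W + 1) - q, ?_⟩
    have : q ≤ 2 * m * (W + 1) := by nlinarith only [hq]
    omega
  set A := (X - 1) / (2 * p) with hA
  set B := Y / (2 * p) with hB
  have hA1 : X ≤ 2 * p * (A + 1) := by
    have := Nat.lt_mul_div_succ (X - 1) (show 0 < 2 * p by omega)
    rw [← hA] at this
    omega
  have hA2 : 2 * p * A + 1 ≤ X := by
    have := Nat.mul_div_le (X - 1) (2 * p)
    rw [← hA] at this
    omega
  have hB1 : 2 * p * B ≤ Y := Nat.mul_div_le _ _
  have hB2 : Y + 1 ≤ 2 * p * (B + 1) := Nat.lt_mul_div_succ _ (by omega)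
  have hBm : B < m := by
    by_contra hcon
    have h3 : p * m ≤ p * B := Nat.mul_le_mul_left _ (not_lt.mp hcon)
    have h2 : 2 * m * (W + 1) ≤ 2 * m * p := Nat.mul_le_mul_left _ hW
    nlinarith only [hq0, hY, hB1, h3, h2]
  have hcount := count_ge (bet m i0 (i + 1) W) hBm (A := A) (by
    intro y hy1 hy2
    rw [mem_bet]
    unfold inB
    rw [pow_succ, ← hpdef, ← hqdef]
    have h1 := Nat.mul_le_mul_left (2 * p) (Nat.add_le_add_right hy1 1)
    have h2 := Nat.mul_le_mul_left (2 * p) hy2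
    constructor
    · nlinarith only [hX, hA1, h1]
    · nlinarith only [hY, hB1, h2])
  have h3 := Nat.mul_le_mul_left (2 * p) hcount
  nlinarith only [hX, hY, hA2, hB2, h3]

end Vale.Agent.P162
end
end
end

section

section

section

/-!
# P162, general even `n`: the potential and the good leaves
-/

namespace Vale.Agent.P162

open Equiv NormedSpace

/-- The potential of a fraction `g` of good leaves. -/
noncomputable def psi (ε g : ℝ) : ℝ := ε * (g + g ^ 2) / 2

/-- The loss factor. -/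
noncomputable def lam (k : ℕ) : ℝ := 1 - 2 / 15 * (1 - (1 / 2) ^ k)

theorem half_pow_mem (k : ℕ) : 0 < (1 / 2 : ℝ) ^ k ∧ (1 / 2 : ℝ) ^ k ≤ 1 :=
  ⟨by positivity, pow_le_one₀ (by norm_num) (by norm_num)⟩

theorem lam_le_one (k : ℕ) : lam k ≤ 1 := by
  have := half_pow_mem k
  unfold lam
  linarith only [this]

theorem lam_ge (k : ℕ) : 13 / 15 ≤ lam k := by
  have := half_pow_mem k
  unfold lam
  linarith only [this]

theorem lam_succ (k : ℕ) : lam (k + 1) ≤ lam k * (1 - 1 / 15 * (1 / 2) ^ k) := by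
  have h1 := half_pow_mem k
  have h2 := lam_le_one k
  have h3 : lam (k + 1) = lam k - 1 / 15 * (1 / 2) ^ k := by
    unfold lam
    rw [pow_succ]
    ring
  rw [h3]
  nlinarith only [h1, h2]

theorem psi_nonneg {ε g : ℝ} (hε : 0 ≤ ε) (hg : 0 ≤ g) : 0 ≤ psi ε g := by
  unfold psi
  (clear * - hε hg; positivity)

theorem psi_le {ε g : ℝ} (hε : 0 ≤ ε) (hg : 0 ≤ g) (hg1 : g ≤ 1) : psi ε g ≤ ε := by
  unfold psi
  nlinarith only [mul_nonneg hε (sub_nonneg.mpr hg1), hg]

/-- The convexity of the potential pays for unequal times. -/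
theorem potential_step (ε l g1 g2 r : ℝ) (N : ℕ) (hε : 0 < ε) (hε1 : ε ≤ 1 / 400)
    (hl : 0 < l) (hl1 : l ≤ 1) (hg1 : 0 ≤ g1) (hg1' : g1 ≤ 1) (hg2 : 0 ≤ g2) (hg2' : g2 ≤ 1)
    (hN : 20 ≤ N) (hr : 1 - 1 / (N : ℝ) ≤ r) :
    l * (1 - 2 / (N : ℝ)) * psi ε ((g1 + g2) / 2) ≤
      r * tt (l * psi ε g2) (l * psi ε g1) N := by
  have hNr : (20 : ℝ) ≤ N := by exact_mod_cast hN
  set h : ℝ := 1 / (N : ℝ) with hh
  have hN0 : (0 : ℝ) < N := by linarith only [hNr]
  have hh0 : 0 < h := by positivity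
  have hh1 : h ≤ 1 / 20 := by
    rw [hh]
    exact one_div_le_one_div_of_le (by norm_num) hNr
  have e2 : 2 / (N : ℝ) = 2 * h := by rw [hh]; ring
  rw [e2]
  set a : ℝ := l * psi ε g2 with ha
  set b : ℝ := l * psi ε g1 with hb
  have ha0 : 0 ≤ a := mul_nonneg hl.le (psi_nonneg hε.le hg2)
  have hb0 : 0 ≤ b := mul_nonneg hl.le (psi_nonneg hε.le hg1)
  have ha1 : a ≤ ε := by
    have h1 := psi_le hε.le hg2 hg2'
    have h2 := psi_nonneg hε.le hg2
    nlinarith only [hε, hl1, hl, h1]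
  have hb1 : b ≤ ε := by
    have h1 := psi_le hε.le hg1 hg1'
    have h2 := psi_nonneg hε.le hg1
    nlinarith only [hε, hl1, hl, h1]
  have htt := tt_ge a b ha0 hb0 (by linarith only [hε1, ha1, hb1]) N
  have htt0 : 0 ≤ tt a b N := by linarith only [ha0, hb0, htt]
  set τ : ℝ := (a + b) / 2 with hτ
  set δ : ℝ := (a - b) / 2 with hδ
  have hτ0 : 0 ≤ τ := by rw [hτ]; linarith only [ha0, hb0]
  have hτ1 : τ ≤ 1 / 400 := by rw [hτ]; linarith only [hε1, ha1, hb1]
  have htt2 : tt a b N = τ - 5 / 2 * h * τ ^ 2 - 60 * δ ^ 2 := by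
    unfold tt
    rw [← hτ, ← hδ, hh]
    (clear * - hN; field_simp)
  have hstep1 : τ * (1 - 2 * h) - 60 * δ ^ 2 ≤ (1 - h) * tt a b N := by
    rw [htt2]
    have h1 : 5 / 2 * h * τ ^ 2 ≤ h * τ := by nlinarith only [mul_nonneg hh0.le hτ0, hτ, hε1, ha1, hb1]
    have h2 : 0 ≤ h * (60 * δ ^ 2) := by (clear * - hN; (clear * - hN; positivity))
    have h3 : 0 ≤ h * (5 / 2 * h * τ ^ 2) := by (clear * - hN; positivity)
    nlinarith only [h1, h2, h3]
  have hstep2 : (1 - h) * tt a b N ≤ r * tt a b N := mul_le_mul_of_nonneg_right hr htt0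
  refine le_trans ?_ (hstep1.trans hstep2)
  -- convexity
  set D : ℝ := (g1 - g2) ^ 2 with hD
  have hD0 : 0 ≤ D := by (clear * -; positivity)
  have hτ2 : τ = l * (psi ε ((g1 + g2) / 2) + ε * D / 8) := by
    rw [hτ, ha, hb, hD]
    unfold psi
    ring
  have hδ2 : 60 * δ ^ 2 ≤ l * ε * D * (1 / 10) := by
    have e : 60 * δ ^ 2 = 60 * (l * ε) ^ 2 * D * ((1 + g1 + g2) ^ 2 / 16) := by
      rw [hδ, ha, hb, hD]
      unfold psi
      ring
    rw [e]
    have h0 : (1 + g1 + g2) ^ 2 ≤ 3 ^ 2 := pow_le_pow_left₀ (by linarith only [hg1, hg2]) (by linarith only [hg1', hg2']) 2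
    have h1 : (1 + g1 + g2) ^ 2 / 16 ≤ 9 / 16 := by linarith only [h0]
    have h3 : l * ε ≤ 1 / 400 := by
      have : l * ε ≤ 1 * ε := mul_le_mul_of_nonneg_right hl1 hε.le
      linarith only [hε1, this]
    have h4 : 60 * (l * ε) ^ 2 * D * ((1 + g1 + g2) ^ 2 / 16) ≤
        60 * (l * ε) ^ 2 * D * (9 / 16) :=
      mul_le_mul_of_nonneg_left h1 (by (clear * - hl hε; positivity))
    have h5 : 60 * (l * ε) ^ 2 * D * (9 / 16) = (l * ε * D) * (135 / 4 * (l * ε)) := by ring
    have h6 : (l * ε * D) * (135 / 4 * (l * ε)) ≤ (l * ε * D) * (1 / 10) :=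
      mul_le_mul_of_nonneg_left (by linarith only [h3]) (by (clear * - hl hε; positivity))
    linarith only [h4, h6]
  have h6 : 0 ≤ l * ε * D := by (clear * - hl hε; positivity)
  rw [hτ2]
  have h8 : h * (l * ε * D) ≤ 1 / 20 * (l * ε * D) := mul_le_mul_of_nonneg_right hh1 h6
  have h9 : l * (psi ε ((g1 + g2) / 2) + ε * D / 8) * (1 - 2 * h) =
      l * (1 - 2 * h) * psi ε ((g1 + g2) / 2) + (l * ε * D) / 8 - (h * (l * ε * D)) / 4 := by ring
  rw [h9]
  linarith only [hδ2, h6, h8]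

/-- Averages of the leaves below a block. -/
noncomputable def gg (f : ℕ → ℝ) (i0 : ℕ) : ℕ → ℕ → ℝ
  | 0, W => f W
  | k + 1, W => (gg f i0 k W + gg f i0 k (W + 2 ^ (i0 - (k + 1)))) / 2

theorem gg_succ (f : ℕ → ℝ) (i0 k W : ℕ) :
    gg f i0 (k + 1) W = (gg f i0 k W + gg f i0 k (W + 2 ^ (i0 - (k + 1)))) / 2 := by
  simp only [gg]

theorem gg_mem (f : ℕ → ℝ) (hf : ∀ W, 0 ≤ f W ∧ f W ≤ 1) (i0 k W : ℕ) :
    0 ≤ gg f i0 k W ∧ gg f i0 k W ≤ 1 := by
  induction k generalizing W with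
  | zero => exact hf W
  | succ k ih =>
    rw [gg_succ]
    have h1 := ih W
    have h2 := ih (W + 2 ^ (i0 - (k + 1)))
    constructor <;> linarith only [h1, h2]

theorem gg_sum (f : ℕ → ℝ) (i0 k : ℕ) (hk : k ≤ i0) :
    ∑ W ∈ Finset.range (2 ^ (i0 - k)), gg f i0 k W = (∑ W ∈ Finset.range (2 ^ i0), f W) / 2 ^ k := by
  induction k with
  | zero => simp [gg]
  | succ k ih =>
    have h1 := ih (by omega)
    have h2 : 2 ^ (i0 - k) = 2 ^ (i0 - (k + 1)) + 2 ^ (i0 - (k + 1)) := by
      rw [← two_mul, ← pow_succ']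
      congr 1
      omega
    rw [h2, Finset.sum_range_add] at h1
    simp only [gg_succ]
    rw [← Finset.sum_div, Finset.sum_add_distrib, pow_succ, ← div_div, ← h1]
    congr 2
    refine Finset.sum_congr rfl fun W _ => ?_
    rw [add_comm]

theorem gg_root (f : ℕ → ℝ) (i0 : ℕ) :
    gg f i0 i0 0 = (∑ W ∈ Finset.range (2 ^ i0), f W) / 2 ^ i0 := by
  have h := gg_sum f i0 i0 le_rfl
  rw [Nat.sub_self, pow_zero, Finset.sum_range_one] at h
  exact h

/-- The cell containing the left end of the leaf `W`. -/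
def cidx (m s0 i0 W : ℕ) : ℕ := 2 * m * W / 2 ^ (s0 + i0)

/-- Good leaves: contained in one complete aligned cell. -/
def good (m s0 i0 W : ℕ) : Prop :=
  2 * m * (W + 1) ≤ 2 ^ (s0 + i0) * (cidx m s0 i0 W + 1) ∧ cidx m s0 i0 W < 2 * m / 2 ^ s0

instance (m s0 i0 W : ℕ) : Decidable (good m s0 i0 W) := by unfold good; infer_instance

theorem good_subset {m s0 i0 W : ℕ} (h : good m s0 i0 W) :
    Blk m i0 i0 W ⊆ Cell m s0 (cidx m s0 i0 W) := by
  intro y hy
  rw [mem_Blk] at hy
  rw [mem_Cell]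
  obtain ⟨h1, h2⟩ := hy
  have hq : 0 < 2 ^ i0 := by positivity
  set c := cidx m s0 i0 W with hc
  have h3 : 2 * m * W ≤ 2 ^ i0 * y := by
    rw [mul_add, mul_one] at h1
    omega
  have h4 : 2 ^ i0 * (y + 1) ≤ 2 * m * (W + 1) := by
    rw [mul_add, mul_one]
    exact h2
  have h5 : 2 ^ (s0 + i0) * c ≤ 2 * m * W := by
    rw [hc]
    exact Nat.mul_div_le _ _
  have h6 := h.1
  rw [← hc] at h6
  have e : 2 ^ (s0 + i0) = 2 ^ i0 * 2 ^ s0 := by rw [pow_add, mul_comm]
  rw [e, mul_assoc (2 ^ i0)] at h5 h6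
  have h7 : 2 ^ s0 * c ≤ y := Nat.le_of_mul_le_mul_left (h5.trans h3) hq
  have h8 : (y : ℕ) + 1 ≤ 2 ^ s0 * (c + 1) := Nat.le_of_mul_le_mul_left (h4.trans h6) hq
  have hs : 0 < 2 ^ s0 := by positivity
  apply le_antisymm
  · rw [← Nat.lt_succ_iff, Nat.div_lt_iff_lt_mul hs]
    calc (y : ℕ) < 2 ^ s0 * (c + 1) := h8
      _ = (c + 1) * 2 ^ s0 := mul_comm _ _
  · rw [Nat.le_div_iff_mul_le hs]
    calc c * 2 ^ s0 = 2 ^ s0 * c := mul_comm _ _
      _ ≤ y := h7

theorem good_count {m i0 : ℕ} (h32 : 32 * 2 ^ i0 ≤ 2 * m) (h64 : 2 * m < 64 * 2 ^ i0)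
    (hi0 : 6 ≤ i0) :
    (2 : ℝ) ^ i0 / 2 ≤ ∑ W ∈ Finset.range (2 ^ i0), (if good m 9 i0 W then (1 : ℝ) else 0) := by
  set q := 2 ^ i0 with hq
  have hq0 : 0 < q := by rw [hq]; positivity
  have hq64 : 64 ≤ q := by
    rw [hq]
    calc 64 = 2 ^ 6 := by norm_num
      _ ≤ 2 ^ i0 := Nat.pow_le_pow_right (by norm_num) hi0
  set c : ℕ → ℕ := fun W => cidx m 9 i0 W with hc
  set Q := 2 * m / 2 ^ 9 with hQ
  have hmono : ∀ W, c W ≤ c (W + 1) := by
    intro W
    simp only [hc, cidx]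
    apply Nat.div_le_div_right
    exact Nat.mul_le_mul_left _ (Nat.le_succ _)
  have hpt : ∀ W, (1 : ℝ) ≤ (if good m 9 i0 W then (1 : ℝ) else 0) + ((c (W + 1) : ℝ) - c W) +
      (if Q ≤ c W then (1 : ℝ) else 0) := by
    intro W
    have hm : (c W : ℝ) ≤ c (W + 1) := by exact_mod_cast hmono W
    by_cases hg : good m 9 i0 W
    · rw [if_pos hg]
      have : (0 : ℝ) ≤ (if Q ≤ c W then (1 : ℝ) else 0) := by split_ifs <;> norm_num
      linarith only [hm, this]
    · rw [if_neg hg]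
      by_cases h2 : Q ≤ c W
      · rw [if_pos h2]
        linarith only [hm]
      · rw [if_neg h2]
        have h3 : ¬ 2 * m * (W + 1) ≤ 2 ^ (9 + i0) * (cidx m 9 i0 W + 1) := by
          intro h
          exact hg ⟨h, not_le.mp h2⟩
        have h4 : c W + 1 ≤ c (W + 1) := by
          simp only [hc]
          conv_rhs => unfold cidx
          rw [Nat.le_div_iff_mul_le (by positivity), mul_comm]
          exact (not_le.mp h3).le
        have h5 : (c W : ℝ) + 1 ≤ c (W + 1) := by exact_mod_cast h4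
        linarith only [h5]
  have hsum := Finset.sum_le_sum (s := Finset.range q) fun W _ => hpt W
  rw [Finset.sum_add_distrib, Finset.sum_add_distrib, Finset.sum_range_sub (fun W => (c W : ℝ)),
    Finset.sum_const, Finset.card_range, nsmul_eq_mul, mul_one] at hsum
  have hc0 : c 0 = 0 := by simp only [hc, cidx, mul_zero, Nat.zero_div]
  have hcq : c q = Q := by
    simp only [hc, cidx, hQ]
    rw [pow_add, ← hq]
    exact Nat.mul_div_mul_right _ _ hq0
  have hthird : (∑ W ∈ Finset.range q, (if Q ≤ c W then (1 : ℝ) else 0)) ≤ 17 := by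
    rw [← Finset.sum_filter, Finset.sum_const, nsmul_eq_mul, mul_one]
    have h1 : ((Finset.range q).filter (fun W => Q ≤ c W)).card ≤ 17 := by
      have h2 : (Finset.range q).filter (fun W => Q ≤ c W) ⊆ Finset.Ico (q - 17) q := by
        intro W hW
        rw [Finset.mem_filter, Finset.mem_range] at hW
        rw [Finset.mem_Ico]
        refine ⟨?_, hW.1⟩
        by_contra hcon
        have h3 : W + 17 < q := by omega
        have h4 := hW.2
        simp only [hc, cidx] at h4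
        rw [Nat.le_div_iff_mul_le (by positivity), pow_add, ← hq] at h4
        have h5 : 2 * m < 2 ^ 9 * (Q + 1) := Nat.lt_mul_div_succ _ (by norm_num)
        have h6 : 2 * m * (W + 17) ≤ 2 * m * q := Nat.mul_le_mul_left _ h3.le
        have h7 : 2 * m * q < 2 ^ 9 * (Q + 1) * q := Nat.mul_lt_mul_of_pos_right h5 hq0
        nlinarith only [h32, hq64, h4, h6, h7]
      refine (Finset.card_le_card h2).trans ?_
      rw [Nat.card_Ico]
      omega
    exact_mod_cast h1
  rw [hc0, hcq, Nat.cast_zero, sub_zero] at hsum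
  have hQ8 : 8 * (Q : ℝ) ≤ q := by
    have : 8 * Q ≤ q := by
      rw [hQ]
      omega
    exact_mod_cast this
  have hq64' : (64 : ℝ) ≤ q := by exact_mod_cast hq64
  have hcast : (2 : ℝ) ^ i0 = q := by rw [hq]; push_cast; rfl
  rw [hcast]
  linarith only [hsum, hthird, hQ8, hq64']

end Vale.Agent.P162
end
end
end

section

section

section

/-!
# P162, general even `n`: the block recursion
-/

namespace Vale.Agent.P162

open Equiv NormedSpace
open scoped InnerProductSpace

variable {V : Type*} [NormedAddCommGroup V] [InnerProductSpace ℝ V] [FiniteDimensional ℝ V]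
variable {m : ℕ} (ρ : Perm (Fin (2 * m)) →* (V →L[ℝ] V)) (hρ : ∀ g v, ‖ρ g v‖ = ‖v‖)

/-- The time of the leaves. -/
noncomputable def eps0 : ℝ := 20 * tcell 9 / 2 ^ 9

theorem eps0_pos : 0 < eps0 := by
  have := tcell_pos 9
  unfold eps0
  positivity

theorem eps0_le : eps0 ≤ 1 / 400 := by
  have := tcell_le 9
  unfold eps0
  linarith only [this]

/-- Indicator of the good leaves. -/
noncomputable def gl (m i0 : ℕ) (W : ℕ) : ℝ := if good m 9 i0 W then 1 else 0

theorem gl_mem (m i0 W : ℕ) : 0 ≤ gl m i0 W ∧ gl m i0 W ≤ 1 := by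
  unfold gl
  split_ifs <;> norm_num

/-- The time of the block `W` at level `i0 - k`. -/
noncomputable def tb (m i0 k W : ℕ) : ℝ := lam k * psi eps0 (gg (gl m i0) i0 k W)

theorem tb_nonneg (m i0 k W : ℕ) : 0 ≤ tb m i0 k W :=
  mul_nonneg (by have := lam_ge k; linarith only [this])
    (psi_nonneg eps0_pos.le (gg_mem _ (gl_mem m i0) i0 k W).1)

theorem tb_le (m i0 k W : ℕ) : tb m i0 k W ≤ 1 / 400 := by
  unfold tb
  have h1 := gg_mem _ (gl_mem m i0) i0 k W
  have h2 := psi_le eps0_pos.le h1.1 h1.2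
  have h3 := psi_nonneg eps0_pos.le h1.1
  have h4 := lam_le_one k
  have h5 := eps0_le
  have h6 : lam k * psi eps0 (gg (gl m i0) i0 k W) ≤ 1 * psi eps0 (gg (gl m i0) i0 k W) :=
    mul_le_mul_of_nonneg_right h4 h3
  linarith only [h2, h5, h6]

theorem card_Blk {m i0 i W : ℕ} (hW : W < 2 ^ (i + 1)) (hq : 2 ^ i0 ≤ m) :
    2 * m ≤ 2 * 2 ^ i * (Blk m i0 (i + 1) W).card + 2 * 2 ^ i0 := by
  by_cases h : W < 2 ^ i
  · rw [← side_bet_false h, card_side]
    exact card_bet_ge h hq
  · obtain ⟨W', hW'⟩ := Nat.exists_eq_add_of_le (not_lt.mp h)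
    have h2 : W' < 2 ^ i := by
      rw [pow_succ] at hW
      omega
    rw [hW', add_comm (2 ^ i) W', ← side_bet_true, card_side]
    exact card_bet_ge h2 hq

include hρ in
/-- The leaves. -/
theorem leaf {i0 : ℕ} (h32 : 32 * 2 ^ i0 ≤ 2 * m) (hi0 : 6 ≤ i0) (v : V) :
    ‖((adjOp (thorpLaw m) ρ) ^ 9) v‖ ≤
      ‖exp (-((1 / 2 : ℝ) • fam ρ (Finset.range (2 ^ i0)) (tb m i0 0) (Blk m i0 i0))) v‖ := by
  refine (base ρ hρ 9 v).trans ?_
  have e : fam ρ (Finset.range (2 ^ i0)) (tb m i0 0) (Blk m i0 i0) =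
      fam ρ ((Finset.range (2 ^ i0)).filter (fun W => good m 9 i0 W)) (fun _ => eps0)
        (Blk m i0 i0) := by
    unfold fam
    rw [Finset.sum_filter]
    refine Finset.sum_congr rfl fun W _ => ?_
    unfold tb gg gl psi lam
    by_cases h : good m 9 i0 W
    · rw [if_pos h, if_pos h]
      congr 1
      norm_num
    · rw [if_neg h, if_neg h]
      norm_num
  rw [e]
  refine fam_anti ρ hρ _ _ _ _ _ _ ?_ ?_ v
  · intro W hW c _
    have hg := (Finset.mem_filter.mp hW).2
    by_cases h : c = cidx m 9 i0 W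
    · subst h
      exact Or.inl (good_subset hg)
    · refine Or.inr (Or.inr ?_)
      exact Finset.disjoint_of_subset_left (good_subset hg) (disjoint_Cell (Ne.symm h))
  · intro u
    have hmaps : ∀ W ∈ (Finset.range (2 ^ i0)).filter (fun W => good m 9 i0 W),
        cidx m 9 i0 W ∈ Finset.range (2 * m / 2 ^ 9) := by
      intro W hW
      have hg := (Finset.mem_filter.mp hW).2
      exact Finset.mem_range.mpr hg.2
    rw [← Finset.sum_fiberwise_of_maps_to hmaps]
    refine Finset.sum_le_sum fun c _ => ?_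
    set S := ((Finset.range (2 ^ i0)).filter (fun W => good m 9 i0 W)).filter
      (fun W => cidx m 9 i0 W = c) with hS
    have hdom := sum_card_genOn_le ρ hρ S (Blk m i0 i0) (Cell m 9 c) (by
      intro W hW
      rw [hS, Finset.mem_filter, Finset.mem_filter] at hW
      rw [← hW.2]
      exact good_subset hW.1.2) (fun W _ W' _ h => disjoint_Blk le_rfl h) u
    have hcard : ∀ W ∈ S, (20 : ℝ) ≤ ((Blk m i0 i0 W).card : ℝ) := by
      intro W hW
      rw [hS, Finset.mem_filter, Finset.mem_filter, Finset.mem_range] at hW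
      obtain ⟨i, rfl⟩ : ∃ i, i0 = i + 1 := ⟨i0 - 1, by omega⟩
      have h1 := card_Blk (m := m) (i0 := i + 1) (i := i) hW.1.1 (by omega)
      rw [pow_succ] at h1 h32
      have h2 : 0 < 2 ^ i := by positivity
      have h3 : 20 ≤ (Blk m (i + 1) (i + 1) W).card := by
        by_contra hcon
        have h4 : (Blk m (i + 1) (i + 1) W).card ≤ 19 := by omega
        have h5 := Nat.mul_le_mul_left (2 * 2 ^ i) h4
        nlinarith only [h32, h1, h2, h5]
      exact_mod_cast h3
    have hcell : ((Cell m 9 c).card : ℝ) ≤ 2 ^ 9 := by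
      have h1 : (Cell m 9 c).card ≤ (Finset.Ico (2 ^ 9 * c) (2 ^ 9 * (c + 1))).card := by
        rw [← Finset.card_map Fin.valEmbedding]
        refine Finset.card_le_card ?_
        intro x hx
        rw [Finset.mem_map] at hx
        obtain ⟨y, hy, rfl⟩ := hx
        rw [mem_Cell] at hy
        rw [Finset.mem_Ico, Fin.valEmbedding_apply]
        omega
      rw [Nat.card_Ico] at h1
      have h2 : (Cell m 9 c).card ≤ 2 ^ 9 := by omega
      exact_mod_cast h2
    have hn := inner_genOn_nonneg ρ hρ (Cell m 9 c) u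
    calc ∑ W ∈ S, eps0 * ⟪u, genOn ρ (Blk m i0 i0 W) u⟫_ℝ
        ≤ ∑ W ∈ S, eps0 / 20 * (((Blk m i0 i0 W).card : ℝ) * ⟪u, genOn ρ (Blk m i0 i0 W) u⟫_ℝ) := by
          refine Finset.sum_le_sum fun W hW => ?_
          have h1 := inner_genOn_nonneg ρ hρ (Blk m i0 i0 W) u
          have h2 := hcard W hW
          have h3 : (20 : ℝ) * ⟪u, genOn ρ (Blk m i0 i0 W) u⟫_ℝ ≤
              ((Blk m i0 i0 W).card : ℝ) * ⟪u, genOn ρ (Blk m i0 i0 W) u⟫_ℝ :=
            mul_le_mul_of_nonneg_right h2 h1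
          have h4 := mul_le_mul_of_nonneg_left h3 (show 0 ≤ eps0 / 20 by
            have := eps0_pos; linarith only [this])
          linarith only [h4]
      _ = eps0 / 20 * ∑ W ∈ S, ((Blk m i0 i0 W).card : ℝ) * ⟪u, genOn ρ (Blk m i0 i0 W) u⟫_ℝ := by
          rw [Finset.mul_sum]
      _ ≤ eps0 / 20 * (((Cell m 9 c).card : ℝ) * ⟪u, genOn ρ (Cell m 9 c) u⟫_ℝ) :=
          mul_le_mul_of_nonneg_left hdom (by have := eps0_pos; linarith only [this])
      _ ≤ eps0 / 20 * (2 ^ 9 * ⟪u, genOn ρ (Cell m 9 c) u⟫_ℝ) :=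
          mul_le_mul_of_nonneg_left (mul_le_mul_of_nonneg_right hcell hn)
            (by have := eps0_pos; linarith only [this])
      _ = tcell 9 * ⟪u, genOn ρ (Cell m 9 c) u⟫_ℝ := by
          unfold eps0
          ring

include hρ in
/-- The block recursion. -/
theorem block_rec {i0 : ℕ} (h32 : 32 * 2 ^ i0 ≤ 2 * m) (hi0 : 6 ≤ i0) (k : ℕ) :
    ∀ i, k + i = i0 → ∀ v : V,
    ‖((adjOp (thorpLaw m) ρ) ^ (9 + k)) v‖ ≤
      ‖exp (-((1 / 2 : ℝ) • fam ρ (Finset.range (2 ^ i)) (tb m i0 k) (Blk m i0 i))) v‖ := by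
  induction k with
  | zero =>
    intro i hi v
    rw [zero_add] at hi
    subst hi
    exact leaf ρ hρ h32 hi0 v
  | succ k ih =>
    intro i hi v
    have hqm : 2 ^ i0 ≤ m := by omega
    have h1 := ih (i + 1) (by omega)
    have e1 : fam ρ (Finset.range (2 ^ (i + 1))) (tb m i0 k) (Blk m i0 (i + 1)) =
        ∑ W ∈ Finset.range (2 ^ i),
          (tb m i0 k (W + 2 ^ i) • genOn ρ (side (top m) true (bet m i0 (i + 1) W)) +
            tb m i0 k W • genOn ρ (side (top m) false (bet m i0 (i + 1) W))) := by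
      unfold fam
      rw [pow_succ, mul_two, Finset.sum_range_add, ← Finset.sum_add_distrib]
      refine Finset.sum_congr rfl fun W hW => ?_
      rw [side_bet_false (Finset.mem_range.mp hW), side_bet_true, add_comm (2 ^ i) W, add_comm]
    have h2 : ∀ v : V, ‖((adjOp (thorpLaw m) ρ) ^ (9 + k)) v‖ ≤
        ‖exp (-((1 / 2 : ℝ) • ∑ W ∈ Finset.range (2 ^ i),
          ((fun W => tb m i0 k (W + 2 ^ i)) W • genOn ρ (side (top m) true
            ((fun W => bet m i0 (i + 1) W) W)) +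
            (fun W => tb m i0 k W) W • genOn ρ (side (top m) false
              ((fun W => bet m i0 (i + 1) W) W))))) v‖ := by
      intro v
      have := h1 v
      rw [e1] at this
      exact this
    have h3 := thorp_step ρ hρ (Finset.range (2 ^ i)) (fun W => bet m i0 (i + 1) W)
      (fun W => tb m i0 k (W + 2 ^ i)) (fun W => tb m i0 k W)
      (fun W _ W' _ h => disjoint_bet (by omega) h) (fun W _ => tb_nonneg _ _ _ _)
      (fun W _ => tb_nonneg _ _ _ _)
      (fun W _ => by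
        have h1 := tb_le m i0 k (W + 2 ^ i)
        have h2 := tb_le m i0 k W
        linarith only [h1, h2]) (9 + k) h2 v
    rw [← add_assoc]
    refine h3.trans ?_
    have hdf : ∀ W U : ℕ, W ≠ U → Disjoint (full (wire m) (bet m i0 (i + 1) W))
        (full (wire m) (bet m i0 (i + 1) U)) := by
      intro W U h
      rw [Finset.disjoint_left]
      intro x hx hx'
      rw [mem_full_wire] at hx hx'
      exact Finset.disjoint_left.mp (disjoint_bet (by omega) h) hx hx'
    refine fam_anti ρ hρ _ _ _ _ _ _ ?_ ?_ v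
    · intro W _ U _
      by_cases h : W = U
      · subst h
        exact Or.inl Blk_subset_full
      · exact Or.inr (Or.inr (Finset.disjoint_of_subset_left Blk_subset_full (hdf W U h)))
    · intro u
      refine Finset.sum_le_sum fun W hW => ?_
      set N := (bet m i0 (i + 1) W).card with hN
      have hbg := card_bet_ge (m := m) (i0 := i0) (i := i) (Finset.mem_range.mp hW) hqm
      have hble := card_bet_le (m := m) (i0 := i0) (i := i) (W := W)
      rw [← hN] at hbg hble
      have hq : 2 ^ i0 = 2 ^ (k + 1) * 2 ^ i := by rw [← pow_add, hi]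
      have hp : 0 < 2 ^ i := by positivity
      have hN30 : 30 * 2 ^ k ≤ N := by
        rw [hq, pow_succ] at hbg h32
        have h5 : 2 * 2 ^ i * (30 * 2 ^ k) ≤ 2 * 2 ^ i * N := by nlinarith only [h32, hbg]
        exact Nat.le_of_mul_le_mul_left h5 (by positivity)
      have hk1 : 1 ≤ 2 ^ k := Nat.one_le_two_pow
      have hN20 : 20 ≤ N := by omega
      have hNr : (20 : ℝ) ≤ N := by exact_mod_cast hN20
      have hN0 : (0 : ℝ) < N := by linarith only [hNr]
      set r : ℝ := ((Blk m i0 i W).card : ℝ) / (2 * N) with hr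
      have hr1 : 1 - 1 / (N : ℝ) ≤ r := by
        rw [hr, le_div_iff₀ (by (clear * - hN20; (clear * - hN20; positivity)))]
        have h6 : 2 * (N : ℝ) ≤ (Blk m i0 i W).card + 2 := by exact_mod_cast hble
        have h7 : (1 - 1 / (N : ℝ)) * (2 * N) = 2 * N - 2 := by (clear * - hN20; field_simp)
        rw [h7]
        linarith only [h6]
      have hg1 := gg_mem _ (gl_mem m i0) i0 k W
      have hg2 := gg_mem _ (gl_mem m i0) i0 k (W + 2 ^ i)
      have hpot := potential_step eps0 (lam k) _ _ r N eps0_pos eps0_le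
        (by have := lam_ge k; linarith only [this]) (lam_le_one k) hg1.1 hg1.2 hg2.1 hg2.2 hN20 hr1
      have hgs : gg (gl m i0) i0 (k + 1) W =
          (gg (gl m i0) i0 k W + gg (gl m i0) i0 k (W + 2 ^ i)) / 2 := by
        rw [gg_succ]
        have : i0 - (k + 1) = i := by omega
        rw [this]
      have hlam : lam (k + 1) ≤ lam k * (1 - 2 / (N : ℝ)) := by
        refine (lam_succ k).trans ?_
        refine mul_le_mul_of_nonneg_left ?_ (by have := lam_ge k; linarith only [this])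
        have h8 : 2 / (N : ℝ) ≤ 1 / 15 * (1 / 2) ^ k := by
          rw [div_le_iff₀ hN0]
          have h9 : (30 : ℝ) * 2 ^ k ≤ N := by exact_mod_cast hN30
          have h10 : (0 : ℝ) < (1 / 2) ^ k := by positivity
          have h11 : (1 / 2 : ℝ) ^ k * 2 ^ k = 1 := by
            rw [← mul_pow]
            norm_num
          have h12 := mul_le_mul_of_nonneg_left h9 h10.le
          nlinarith only [h11, h12]
        linarith only [h8]
      have htb : tb m i0 (k + 1) W ≤
          r * tt (tb m i0 k (W + 2 ^ i)) (tb m i0 k W) N := by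
        refine le_trans ?_ hpot
        unfold tb
        rw [hgs]
        refine mul_le_mul_of_nonneg_right hlam (psi_nonneg eps0_pos.le ?_)
        linarith only [hg1, hg2]
      have hcg := card_genOn_le ρ hρ (Blk_subset_full (m := m) (i0 := i0) (i := i) (W := W)) u
      rw [card_full, ← hN] at hcg
      push_cast at hcg
      have hn1 := inner_genOn_nonneg ρ hρ (Blk m i0 i W) u
      have htt0 : 0 ≤ tt (tb m i0 k (W + 2 ^ i)) (tb m i0 k W) N := by
        have h13 := tb_le m i0 k (W + 2 ^ i)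
        have h14 := tb_le m i0 k W
        have h15 := tb_nonneg m i0 k (W + 2 ^ i)
        have h16 := tb_nonneg m i0 k W
        have := tt_ge _ _ h15 h16 (by linarith only [h13, h14]) N
        linarith only [h15, h16, this]
      have hrg : r * ⟪u, genOn ρ (Blk m i0 i W) u⟫_ℝ ≤
          ⟪u, genOn ρ (full (wire m) (bet m i0 (i + 1) W)) u⟫_ℝ := by
        rw [hr, div_mul_eq_mul_div, div_le_iff₀ (by (clear * - hN20; positivity))]
        linarith only [hcg]
      calc tb m i0 (k + 1) W * ⟪u, genOn ρ (Blk m i0 i W) u⟫_ℝ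
          ≤ (r * tt (tb m i0 k (W + 2 ^ i)) (tb m i0 k W) N) *
            ⟪u, genOn ρ (Blk m i0 i W) u⟫_ℝ := mul_le_mul_of_nonneg_right htb hn1
        _ = tt (tb m i0 k (W + 2 ^ i)) (tb m i0 k W) N *
            (r * ⟪u, genOn ρ (Blk m i0 i W) u⟫_ℝ) := by ring
        _ ≤ tt (tb m i0 k (W + 2 ^ i)) (tb m i0 k W) N *
            ⟪u, genOn ρ (full (wire m) (bet m i0 (i + 1) W)) u⟫_ℝ :=
          mul_le_mul_of_nonneg_left hrg htt0

/-- The final time. -/
noncomputable def c1 : ℝ := eps0 / 4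

theorem c1_pos : 0 < c1 := by have := eps0_pos; unfold c1; linarith only [this]

include hρ in
theorem root {i0 : ℕ} (h32 : 32 * 2 ^ i0 ≤ 2 * m) (h64 : 2 * m < 64 * 2 ^ i0) (hi0 : 6 ≤ i0)
    (v : V) :
    ‖((adjOp (thorpLaw m) ρ) ^ (9 + i0)) v‖ ≤
      ‖exp (-((1 / 2 : ℝ) • (c1 • genOn ρ (Blk m i0 0 0)))) v‖ := by
  refine (block_rec ρ hρ h32 hi0 i0 0 (by omega) v).trans ?_
  have e : c1 • genOn ρ (Blk m i0 0 0) = fam ρ (Finset.range 1) (fun _ => c1) (Blk m i0 0) := by
    unfold fam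
    rw [Finset.sum_range_one]
  rw [e, pow_zero]
  refine fam_anti ρ hρ _ _ _ _ _ _ ?_ ?_ v
  · intro W hW U hU
    rw [Finset.mem_range] at hW hU
    have : W = U := by omega
    subst this
    exact Or.inl (Finset.Subset.refl _)
  · intro u
    refine Finset.sum_le_sum fun W hW => ?_
    rw [Finset.mem_range] at hW
    have hW0 : W = 0 := by omega
    subst hW0
    refine mul_le_mul_of_nonneg_right ?_ (inner_genOn_nonneg ρ hρ _ u)
    have hg : 1 / 2 ≤ gg (gl m i0) i0 i0 0 := by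
      rw [gg_root, le_div_iff₀ (by positivity)]
      have := good_count h32 h64 hi0
      unfold gl
      linarith only [this]
    have h1 := lam_ge i0
    have h2 := eps0_pos
    have h3 : eps0 * (3 / 8) ≤ psi eps0 (gg (gl m i0) i0 i0 0) := by
      unfold psi
      have h4 : (1 / 2 : ℝ) ^ 2 ≤ gg (gl m i0) i0 i0 0 ^ 2 :=
        pow_le_pow_left₀ (by norm_num) hg 2
      have h5 : 3 / 4 ≤ gg (gl m i0) i0 i0 0 + gg (gl m i0) i0 i0 0 ^ 2 := by linarith only [hg, h4]
      have := mul_le_mul_of_nonneg_left h5 h2.le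
      linarith only [this]
    unfold c1 tb
    have h6 : 13 / 15 * (eps0 * (3 / 8)) ≤ lam i0 * psi eps0 (gg (gl m i0) i0 i0 0) :=
      mul_le_mul h1 h3 (by positivity) (by linarith only [h1])
    linarith only [h2, h6]

end Vale.Agent.P162
end
end
end

section

section

section

namespace Vale.Agent.P162

open Equiv
open scoped InnerProductSpace

section Lev

variable {ι : Type*} [Fintype ι] [DecidableEq ι]

/-- functions orthogonal to all functions of the positions of fewer than `k` cards -/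
def levSub (ι : Type*) [Fintype ι] [DecidableEq ι] (k : ℕ) :
    Submodule ℝ (EuclideanSpace ℝ (Perm ι)) where
  carrier := {f | LevelOrth k (fun g => f g)}
  add_mem' := by
    intro f f' hf hf' S hS g
    have h1 := hf S hS g
    have h2 := hf' S hS g
    have : ∀ h : Perm ι, (if ∀ c ∈ S, h c = g c then (f + f') h else 0)
        = (if ∀ c ∈ S, h c = g c then f h else 0) + (if ∀ c ∈ S, h c = g c then f' h else 0) := by
      intro h
      split_ifs <;> simp
    simp_rw [this, Finset.sum_add_distrib]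
    simp only at h1 h2
    rw [h1, h2, add_zero]
  zero_mem' := by
    intro S hS g
    simp
  smul_mem' := by
    intro c f hf S hS g
    have h1 := hf S hS g
    have : ∀ h : Perm ι, (if ∀ c ∈ S, h c = g c then (c • f) h else 0)
        = c * (if ∀ c ∈ S, h c = g c then f h else 0) := by
      intro h
      split_ifs <;> simp
    simp_rw [this, ← Finset.mul_sum]
    simp only at h1
    rw [h1, mul_zero]

theorem mem_levSub (k : ℕ) (f : EuclideanSpace ℝ (Perm ι)) :
    f ∈ levSub ι k ↔ LevelOrth k (fun g => f g) := Iff.rfl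

theorem levSub_anti (k : ℕ) : levSub ι (k + 1) ≤ levSub ι k := by
  intro f hf S hS g
  exact hf S (by omega) g

theorem levSub_inv (k : ℕ) (a : Perm ι) : ∀ v ∈ levSub ι k, regRep (Perm ι) a v ∈ levSub ι k := by
  intro v hv S hS g
  have h1 := hv S hS (a⁻¹ * g)
  simp only [regRep_apply] at h1 ⊢
  rw [← Equiv.sum_comp (Equiv.mulLeft a)]
  refine Eq.trans ?_ h1
  apply Finset.sum_congr rfl
  intro h _
  simp only [Equiv.coe_mulLeft, Perm.mul_apply, inv_mul_cancel_left, Perm.eq_inv_iff_eq]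

theorem levSub_top (hcard : 1 ≤ Fintype.card ι) : levSub ι (Fintype.card ι) = ⊥ := by
  rw [eq_bot_iff]
  intro f hf
  rw [Submodule.mem_bot]
  ext g
  haveI : Nonempty ι := Fintype.card_pos_iff.1 hcard
  let c0 : ι := Classical.arbitrary ι
  have h1 := hf (Finset.univ.erase c0) (by
    rw [Finset.card_erase_of_mem (Finset.mem_univ _), Finset.card_univ]; omega) g
  rw [Finset.sum_eq_single g] at h1
  · simpa using h1
  · intro h _ hne
    rw [if_neg]
    intro hc
    apply hne
    have hc' : ∀ c, c ≠ c0 → h c = g c := fun c hcc => hc c (by simp [hcc])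
    ext c
    by_cases hcc : c = c0
    · rw [hcc]
      obtain ⟨y, hy⟩ := g.surjective (h c0)
      by_cases hyc : y = c0
      · rw [← hy, hyc]
      · have := hc' y hyc
        rw [← this] at hy
        exact absurd (h.injective hy) hyc
    · exact hc' c hcc
  · simp only [Finset.mem_univ, not_true_eq_false, Finset.mem_erase, ne_eq, and_true, implies_true, ↓reduceIte, IsEmpty.forall_iff]

theorem gen_regRep_apply (v : EuclideanSpace ℝ (Perm ι)) (σ : Perm ι) :
    gen (regRep (Perm ι)) v σ = (1 / (Fintype.card ι : ℝ)) * lapB Finset.univ (fun g => v g) σ := by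
  rw [lapB_univ_comm]
  simp only [gen]
  simp only [one_div, mul_inv_rev, Finset.sum_sub_distrib, Finset.sum_const, Finset.card_univ, nsmul_eq_mul, mul_one, smul_apply, sub_apply, mul_apply_eq_comp, natCast_apply, sum_apply, PiLp.smul_apply, PiLp.sub_apply, WithLp.ofLp_sum, Finset.sum_apply, regRep_apply, swap_inv, smul_eq_mul]
  ring

theorem gen_inner (v : EuclideanSpace ℝ (Perm ι)) :
    ⟪v, gen (regRep (Perm ι)) v⟫_ℝ
      = (1 / (Fintype.card ι : ℝ)) * ∑ g, v g * lapB Finset.univ (fun g => v g) g := by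
  rw [PiLp.inner_apply, Finset.mul_sum]
  apply Finset.sum_congr rfl
  intro g _
  rw [gen_regRep_apply]
  simp only [one_div, RCLike.inner_apply, Real.ringHom_apply]
  ring

theorem gen_mem (W : Submodule ℝ (EuclideanSpace ℝ (Perm ι)))
    (hW : ∀ g : Perm ι, ∀ v ∈ W, regRep (Perm ι) g v ∈ W) :
    ∀ v ∈ W, gen (regRep (Perm ι)) v ∈ W := by
  intro v hv
  have : gen (regRep (Perm ι)) v
      = (1 / (2 * (Fintype.card ι : ℝ))) • ∑ a : ι, ∑ b : ι, (v - regRep (Perm ι) (swap a b) v) := by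
    simp only [gen, one_div, mul_inv_rev, Finset.sum_sub_distrib, Finset.sum_const, Finset.card_univ, nsmul_eq_mul, mul_one, smul_apply, sub_apply, mul_apply_eq_comp, natCast_apply, sum_apply]
  rw [this]
  exact W.smul_mem _ (W.sum_mem fun a _ => W.sum_mem fun b _ => W.sub_mem hv (hW _ _ hv))

theorem gen_reg_symm (v w : EuclideanSpace ℝ (Perm ι)) :
    ⟪gen (regRep (Perm ι)) v, w⟫_ℝ = ⟪v, gen (regRep (Perm ι)) w⟫_ℝ := by
  have : ∀ v : EuclideanSpace ℝ (Perm ι), gen (regRep (Perm ι)) v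
      = (1 / (2 * (Fintype.card ι : ℝ))) • ∑ a : ι, ∑ b : ι, (v - regRep (Perm ι) (swap a b) v) := by
    intro v
    simp only [gen, one_div, mul_inv_rev, Finset.sum_sub_distrib, Finset.sum_const, Finset.card_univ, nsmul_eq_mul, mul_one, smul_apply, sub_apply, mul_apply_eq_comp, natCast_apply, sum_apply]
  rw [this, this, real_inner_smul_left, real_inner_smul_right, sum_inner, inner_sum]
  congr 1
  apply Finset.sum_congr rfl
  intro a _
  rw [sum_inner, inner_sum]
  apply Finset.sum_congr rfl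
  intro b _
  rw [inner_sub_left, inner_sub_right, regRep_inner, Equiv.swap_inv]

theorem gen_ge (k : ℕ) (hk : k + 1 ≤ Fintype.card ι) (v : EuclideanSpace ℝ (Perm ι))
    (hv : v ∈ levSub ι k) : ((k : ℝ) / 4) * ‖v‖ ^ 2 ≤ ⟪v, gen (regRep (Perm ι)) v⟫_ℝ := by
  have h1 := levels k (fun g => v g) hv
  rw [gen_inner, EuclideanSpace.real_norm_sq_eq]
  have hn : (0 : ℝ) < Fintype.card ι := by
    have : 0 < Fintype.card ι := by omega
    exact_mod_cast this
  have hk' : (k : ℝ) + 1 ≤ Fintype.card ι := by exact_mod_cast hk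
  have hmin : (k : ℝ) / 4 ≤ min ((k : ℝ) / 2) (((Fintype.card ι : ℝ) - 1) / 4) := by
    apply le_min
    · have : (0 : ℝ) ≤ k := by (clear * -; positivity)
      linarith
    · linarith only [hk']
  have hs : 0 ≤ ∑ g : Perm ι, v g ^ 2 := Finset.sum_nonneg fun g _ => sq_nonneg _
  have h2 : (Fintype.card ι : ℝ) * ((k : ℝ) / 4 * ∑ g : Perm ι, v g ^ 2)
      ≤ ∑ g, v g * lapB Finset.univ (fun g => v g) g := by
    refine le_trans ?_ h1
    rw [mul_assoc]
    apply mul_le_mul_of_nonneg_left _ hn.le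
    exact mul_le_mul_of_nonneg_right hmin hs
  rw [one_div, ← div_eq_inv_mul, le_div_iff₀ hn]
  linarith only [h2]

theorem exp_bound (k : ℕ) (hk : k + 1 ≤ Fintype.card ι) (v : EuclideanSpace ℝ (Perm ι))
    (hv : v ∈ levSub ι k) :
    ‖NormedSpace.exp (-(1 / 40 : ℝ) • gen (regRep (Perm ι))) v‖ ^ 2
      ≤ Real.exp (-((k : ℝ) / 80)) * ‖v‖ ^ 2 := by
  letI : NormedAlgebra ℚ (EuclideanSpace ℝ (Perm ι) →L[ℝ] EuclideanSpace ℝ (Perm ι)) :=
    NormedAlgebra.restrictScalars ℚ ℝ _
  set L := gen (regRep (Perm ι)) with hL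
  have h1 := exp_form_le L gen_reg_symm (levSub ι k)
    (gen_mem _ (levSub_inv k)) ((k : ℝ) / 4) (gen_ge k hk) (1 / 20) (by norm_num) v hv
  have h2 : NormedSpace.exp ((-(1 / 20 : ℝ)) • L)
      = NormedSpace.exp (-(1 / 40 : ℝ) • L) * NormedSpace.exp (-(1 / 40 : ℝ) • L) := by
    rw [← NormedSpace.exp_add_of_commute (Commute.refl _), ← add_smul]
    norm_num
  rw [h2] at h1
  have h3 : ⟪v, (NormedSpace.exp (-(1 / 40 : ℝ) • L) * NormedSpace.exp (-(1 / 40 : ℝ) • L)) v⟫_ℝ
      = ‖NormedSpace.exp (-(1 / 40 : ℝ) • L) v‖ ^ 2 := by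
    have e : (NormedSpace.exp (-(1 / 40 : ℝ) • L) * NormedSpace.exp (-(1 / 40 : ℝ) • L)) v
        = NormedSpace.exp (-(1 / 40 : ℝ) • L) (NormedSpace.exp (-(1 / 40 : ℝ) • L) v) := rfl
    rw [e, ← exp_symm, real_inner_self_eq_norm_sq]
    intro x y
    simp only [ContinuousLinearMap.smul_apply, real_inner_smul_left, real_inner_smul_right]
    rw [hL, gen_reg_symm]
  rw [h3] at h1
  have h4 : -(1 / 20 : ℝ) * ((k : ℝ) / 4) = -((k : ℝ) / 80) := by ring
  rw [h4] at h1
  exact h1

/-- indicator of `h (c i) = p i` for all `i` -/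
noncomputable def ind (ι : Type*) [Fintype ι] [DecidableEq ι] {j : ℕ} (c : Fin j → ι × ι) :
    EuclideanSpace ℝ (Perm ι) :=
  WithLp.toLp 2 (fun h => if ∀ i, h (c i).1 = (c i).2 then 1 else 0)

theorem inner_ind {j : ℕ} (c : Fin j → ι × ι) (f : EuclideanSpace ℝ (Perm ι)) :
    ⟪ind ι c, f⟫_ℝ = ∑ h : Perm ι, if ∀ i, h (c i).1 = (c i).2 then f h else 0 := by
  rw [PiLp.inner_apply]
  apply Finset.sum_congr rfl
  intro h _
  simp only [ind, RCLike.inner_apply, MonoidWithZeroHom.map_ite_one_zero, mul_ite, mul_one, mul_zero]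

theorem levelOrth_of_ind [Nonempty ι] (j : ℕ) (f : EuclideanSpace ℝ (Perm ι))
    (hf : ∀ c : Fin j → ι × ι, ⟪ind ι c, f⟫_ℝ = 0) : f ∈ levSub ι (j + 1) := by
  have key : ∀ S : Finset ι, S.card < j + 1 → (S.Nonempty ∨ j = 0) → ∀ g : Perm ι,
      ∑ h : Perm ι, (if ∀ c ∈ S, h c = g c then f h else 0) = 0 := by
    intro S hS hne g
    obtain ⟨s, hs⟩ : ∃ s : Fin j → ι, ∀ x, x ∈ S ↔ ∃ i, s i = x := by
      rcases hne with hne | hj
      · have hcard : Fintype.card S ≤ Fintype.card (Fin j) := by simp only [Fintype.card_coe, Fintype.card_fin]; omega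
        haveI : Nonempty S := ⟨⟨hne.choose, hne.choose_spec⟩⟩
        obtain ⟨e⟩ := Function.Embedding.nonempty_of_card_le hcard
        refine ⟨fun i => ((Function.invFun e i : S) : ι), fun x => ⟨fun hx => ?_, ?_⟩⟩
        · refine ⟨e ⟨x, hx⟩, ?_⟩
          change ((Function.invFun e (e ⟨x, hx⟩) : S) : ι) = x
          rw [Function.leftInverse_invFun e.injective]
        · rintro ⟨i, rfl⟩
          exact Subtype.prop _
      · subst hj
        have : S = ∅ := by
          rw [← Finset.card_eq_zero]; omega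
        subst this
        refine ⟨Fin.elim0, fun x => ⟨by simp, ?_⟩⟩
        rintro ⟨i, _⟩
        exact i.elim0
    have h1 := hf (fun i => (s i, g (s i)))
    rw [inner_ind] at h1
    rw [← h1]
    apply Finset.sum_congr rfl
    intro h _
    congr 1
    apply propext
    constructor
    · intro hh i
      exact hh _ ((hs _).2 ⟨i, rfl⟩)
    · intro hh c hc
      obtain ⟨i, hi⟩ := (hs c).1 hc
      rw [← hi]
      exact hh i
  intro S hS g
  by_cases hne : S.Nonempty ∨ j = 0
  · exact key S hS hne g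
  · push Not at hne
    obtain ⟨hSe, hj⟩ := hne
    subst hSe
    simp only [Finset.notMem_empty, false_implies, implies_true, if_true]
    obtain ⟨c⟩ := ‹Nonempty ι›
    · have h3 : ∀ h : Perm ι, f h = ∑ p : ι, (if h c = p then f h else 0) := by
        intro h
        simp
      rw [Finset.sum_congr rfl (fun h _ => h3 h), Finset.sum_comm]
      apply Finset.sum_eq_zero
      intro p _
      have h4 := key {c} (by simp only [Finset.card_singleton, lt_add_iff_pos_left]; omega) (Or.inl (Finset.singleton_nonempty c)) (swap c p)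
      simpa only [Finset.mem_singleton, forall_eq, swap_apply_left] using h4

theorem finrank_levSub_orth [Nonempty ι] (j : ℕ) :
    Module.finrank ℝ (levSub ι (j + 1))ᗮ ≤ (Fintype.card ι * Fintype.card ι) ^ j := by
  have h1 : (Submodule.span ℝ (Set.range (fun c : Fin j → ι × ι => ind ι c)))ᗮ
      ≤ levSub ι (j + 1) := by
    intro f hf
    apply levelOrth_of_ind
    intro c
    exact (Submodule.mem_orthogonal _ _).1 hf _ (Submodule.subset_span ⟨c, rfl⟩)
  have h2 : (levSub ι (j + 1))ᗮ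
      ≤ Submodule.span ℝ (Set.range (fun c : Fin j → ι × ι => ind ι c)) := by
    rw [← Submodule.orthogonal_orthogonal
      (Submodule.span ℝ (Set.range (fun c : Fin j → ι × ι => ind ι c)))]
    exact Submodule.orthogonal_le h1
  calc Module.finrank ℝ (levSub ι (j + 1))ᗮ
      ≤ Module.finrank ℝ (Submodule.span ℝ (Set.range (fun c : Fin j → ι × ι => ind ι c))) :=
        Submodule.finrank_mono h2
    _ ≤ Fintype.card (Fin j → ι × ι) := finrank_range_le_card _
    _ = (Fintype.card ι * Fintype.card ι) ^ j := by simp only [Fintype.card_pi, Fintype.card_prod, Finset.prod_const, Finset.card_univ, Fintype.card_fin]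

theorem un_orth_levSub : un (Perm ι) ∈ (levSub ι 1)ᗮ := by
  rw [Submodule.mem_orthogonal]
  intro u hu
  have h1 := hu ∅ (by simp) 1
  simp only [Finset.notMem_empty, false_implies, implies_true, if_true] at h1
  rw [PiLp.inner_apply]
  simp only [un]
  simp only [RCLike.inner_apply, conj_trivial]
  rw [← Finset.mul_sum, h1, mul_zero]

theorem proj_dl : (levSub ι 1).starProjection (dl (1 : Perm ι)) = dl 1 - un (Perm ι) := by
  apply Submodule.eq_starProjection_of_mem_orthogonal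
  · rw [mem_levSub]
    intro S hS g
    have : S = ∅ := by rw [← Finset.card_eq_zero]; omega
    subst this
    simp only [Finset.notMem_empty, false_implies, implies_true, if_true]
    simp only [dl, un, one_div, PiLp.sub_apply, PiLp.single_apply, Finset.sum_sub_distrib, Finset.sum_ite_eq', Finset.mem_univ, ↓reduceIte, Finset.sum_const, Finset.card_univ, nsmul_eq_mul, ne_eq, Nat.cast_eq_zero, Fintype.card_ne_zero, not_false_eq_true, mul_inv_cancel₀, sub_self]
  · rw [sub_sub_cancel]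
    exact un_orth_levSub

theorem pow_norm_le (q : Perm ι → ℝ) (hq : ∀ g, 0 ≤ q g) (hsum : ∑ g, q g = 1) (t : ℕ)
    (v : EuclideanSpace ℝ (Perm ι)) : ‖((adjOp q (regRep (Perm ι))) ^ t) v‖ ≤ ‖v‖ := by
  induction t with
  | zero => simp only [pow_zero, one_apply_eq_self, Std.le_refl]
  | succ t ih =>
    have e : ((adjOp q (regRep (Perm ι))) ^ (t + 1)) v
        = adjOp q (regRep (Perm ι)) (((adjOp q (regRep (Perm ι))) ^ t) v) := by
      rw [pow_succ']; rfl
    rw [e]
    exact (adjOp_norm_le q hq hsum _).trans ih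

theorem geom_bound (n : ℝ) (hn : 2 ≤ n) (m : ℕ) (hm : 160 * Real.log n + 160 ≤ m) (N : ℕ) :
    ∑ i ∈ Finset.range N, (Real.exp (-(((i + 1 : ℕ) : ℝ) / 80))) ^ m * (n * n) ^ (i + 1)
      ≤ 1 / 4 := by
  set r : ℝ := Real.exp (-((m : ℝ) / 80)) * (n * n) with hr
  have hr0 : 0 ≤ r := by positivity
  have hr1 : r ≤ 1 / 5 := by
    have hn0 : 0 < n := by linarith only [hn]
    have h1 : n * n = Real.exp (2 * Real.log n) := by
      rw [two_mul, Real.exp_add, Real.exp_log hn0]
    rw [hr, h1, ← Real.exp_add]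
    have h2 : -((m : ℝ) / 80) + 2 * Real.log n ≤ -2 := by linarith only [hm]
    calc Real.exp (-((m : ℝ) / 80) + 2 * Real.log n) ≤ Real.exp (-2) := Real.exp_le_exp.2 h2
      _ ≤ 1 / 5 := by
        rw [Real.exp_neg, inv_eq_one_div]
        apply one_div_le_one_div_of_le (by norm_num)
        have h3 : (2.7 : ℝ) ≤ Real.exp 1 := by
          have := Real.exp_one_gt_d9
          linarith only [this]
        have h4 : Real.exp 2 = Real.exp 1 * Real.exp 1 := by
          rw [← Real.exp_add]; norm_num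
        rw [h4]
        nlinarith only [h3]
  have hterm : ∀ i ∈ Finset.range N,
      (Real.exp (-(((i + 1 : ℕ) : ℝ) / 80))) ^ m * (n * n) ^ (i + 1) = r * r ^ i := by
    intro i _
    have e1 : (Real.exp (-(((i + 1 : ℕ) : ℝ) / 80))) ^ m
        = (Real.exp (-((m : ℝ) / 80))) ^ (i + 1) := by
      rw [← Real.exp_nat_mul, ← Real.exp_nat_mul]
      congr 1
      push_cast
      ring
    rw [e1, ← mul_pow, ← hr, pow_succ']
  rw [Finset.sum_congr rfl hterm, ← Finset.mul_sum]
  have h5 : ∑ i ∈ Finset.range N, r ^ i ≤ 1 / (1 - r) := by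
    have h6 : ∑ i ∈ Finset.range N, r ^ i = (1 - r ^ N) / (1 - r) := by
      rw [geom_sum_eq (by linarith only [hr1])]
      rw [← neg_div_neg_eq]
      ring
    rw [h6]
    apply div_le_div_of_nonneg_right _ (by linarith only [hr1])
    have : 0 ≤ r ^ N := by positivity
    linarith only [this]
  calc r * ∑ i ∈ Finset.range N, r ^ i ≤ r * (1 / (1 - r)) := mul_le_mul_of_nonneg_left h5 hr0
    _ = r / (1 - r) := by ring
    _ ≤ 1 / 4 := by
      rw [div_le_div_iff₀ (by linarith only [hr1]) (by norm_num)]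
      linarith only [hr1]

theorem tv_of_pass_bound (hcard : 2 ≤ Fintype.card ι) (q : Perm ι → ℝ) (hq : ∀ g, 0 ≤ q g)
    (hsum : ∑ g, q g = 1) (k : ℕ)
    (h : ∀ v : EuclideanSpace ℝ (Perm ι), ‖((adjOp q (regRep (Perm ι))) ^ k) v‖ ≤
      ‖NormedSpace.exp (-(1 / 40 : ℝ) • gen (regRep (Perm ι))) v‖)
    (m : ℕ) (hm : 160 * Real.log (Fintype.card ι) + 160 ≤ m) (t : ℕ) (ht : k * m ≤ t) :
    tvUnif (convPow q t) ≤ 1 / 4 := by
  have hne : Nonempty ι := Fintype.card_pos_iff.1 (by omega)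
  set n := Fintype.card ι with hn
  set S := adjOp q (regRep (Perm ι)) with hS
  have hSmem : ∀ W : Submodule ℝ (EuclideanSpace ℝ (Perm ι)),
      (∀ g : Perm ι, ∀ v ∈ W, regRep (Perm ι) g v ∈ W) → ∀ v ∈ W, (S ^ k) v ∈ W := by
    intro W hW
    have h0 : ∀ j : ℕ, ∀ v ∈ W, (S ^ j) v ∈ W := by
      intro j
      induction j with
      | zero => intro v hv; simpa only [pow_zero, one_apply_eq_self] using hv
      | succ j ih =>
        intro v hv
        have e : (S ^ (j + 1)) v = S ((S ^ j) v) := by rw [pow_succ']; rfl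
        rw [e]
        exact adjOp_mem q W hW _ (ih v hv)
    exact h0 k
  let A : EuclideanSpace ℝ (Perm ι) →ₗ[ℝ] EuclideanSpace ℝ (Perm ι) := ((S ^ k : _ →L[ℝ] _) : _ →ₗ[ℝ] _)
  have hcore := core A (fun i => levSub ι (i + 1)) (fun i => levSub_anti (i + 1))
    (fun i v hv => hSmem _ (levSub_inv (i + 1)) v hv)
    (fun i v hv => hSmem _ (orth_inv _ (levSub_inv (i + 1))) v hv)
    (fun i => if i + 1 < n then Real.exp (-(((i + 1 : ℕ) : ℝ) / 80)) else 1)
    (fun i => by split_ifs <;> positivity)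
    (fun i v hv => by
      have h1 : ‖A v‖ ^ 2 ≤ ‖v‖ ^ 2 := by
        have := pow_norm_le q hq hsum k v
        exact pow_le_pow_left₀ (norm_nonneg _) this 2
      split_ifs with hi
      · have h2 := exp_bound (i + 1) (by omega) v hv
        have h3 : ‖A v‖ ^ 2 ≤ ‖NormedSpace.exp (-(1 / 40 : ℝ) • gen (regRep (Perm ι))) v‖ ^ 2 :=
          pow_le_pow_left₀ (norm_nonneg _) (h v) 2
        exact h3.trans h2
      · simpa only [one_mul, ge_iff_le] using h1) m (dl 1) (n - 1)
  have htop : levSub ι (n - 1 + 1) = ⊥ := by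
    have : n - 1 + 1 = Fintype.card ι := by omega
    rw [this]
    exact levSub_top (by omega)
  have hlast : (A ^ m) ((levSub ι (n - 1 + 1)).starProjection (dl 1)) = 0 := by
    rw [htop, Submodule.starProjection_bot]
    simp only [zero_apply, map_zero]
  have hcardG : (0 : ℝ) < Fintype.card (Perm ι) := by
    have : 0 < Fintype.card (Perm ι) := Fintype.card_pos
    exact_mod_cast this
  have hterm : ∀ i ∈ Finset.range (n - 1),
      (if i + 1 < n then Real.exp (-(((i + 1 : ℕ) : ℝ) / 80)) else 1) ^ m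
        * ‖dl (1 : Perm ι) - (levSub ι (i + 1 + 1)).starProjection (dl 1)‖ ^ 2
      ≤ (Real.exp (-(((i + 1 : ℕ) : ℝ) / 80))) ^ m * ((n : ℝ) * n) ^ (i + 1)
          / Fintype.card (Perm ι) := by
    intro i hi
    rw [Finset.mem_range] at hi
    rw [if_pos (by omega), mul_div_assoc]
    apply mul_le_mul_of_nonneg_left _ (by positivity)
    rw [le_div_iff₀ hcardG, mul_comm]
    have h1 := norm_starProjection_dl (levSub ι (i + 1 + 1))ᗮ
      (orth_inv _ (levSub_inv (i + 1 + 1)))
    have h2 : (levSub ι (i + 1 + 1))ᗮ.starProjection (dl (1 : Perm ι))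
        = dl (1 : Perm ι) - (levSub ι (i + 1 + 1)).starProjection (dl 1) :=
      Submodule.starProjection_orthogonal_val _
    rw [h2] at h1
    rw [h1]
    have h3 := finrank_levSub_orth (ι := ι) (i + 1)
    exact_mod_cast h3
  have hsumle := Finset.sum_le_sum hterm
  rw [← Finset.sum_div] at hsumle
  have hn2 : (2 : ℝ) ≤ n := by exact_mod_cast hcard
  have hgeo := geom_bound n hn2 m hm (n - 1)
  have hA : ‖(A ^ m) (dl (1 : Perm ι) - un (Perm ι))‖ ^ 2 ≤ (1 / 4) / Fintype.card (Perm ι) := by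
    rw [← proj_dl]
    refine hcore.trans ?_
    rw [hlast]
    simp only [norm_zero, ne_eq, OfNat.ofNat_ne_zero, not_false_eq_true, zero_pow, add_zero]
    refine hsumle.trans ?_
    exact div_le_div_of_nonneg_right hgeo hcardG.le
  have hAS : ∀ v, (A ^ m) v = ((S ^ k) ^ m) v := by
    intro v
    have : ∀ j : ℕ, ∀ v, (A ^ j) v = ((S ^ k) ^ j) v := by
      intro j
      induction j with
      | zero => intro v; simp only [pow_zero, Module.End.one_apply, one_apply_eq_self]
      | succ j ih =>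
        intro v
        have e1 : (A ^ (j + 1)) v = A ((A ^ j) v) := by rw [pow_succ']; rfl
        have e2 : ((S ^ k) ^ (j + 1)) v = (S ^ k) (((S ^ k) ^ j) v) := by
          rw [pow_succ' (S ^ k) j]; rfl
        rw [e1, e2, ih]
        rfl
    exact this m v
  have hfin : ‖(S ^ t) (dl (1 : Perm ι) - un (Perm ι))‖ ^ 2 ≤ (1 / 4) / Fintype.card (Perm ι) := by
    refine le_trans ?_ hA
    rw [hAS]
    apply pow_le_pow_left₀ (norm_nonneg _)
    have e : (S ^ t) (dl (1 : Perm ι) - un (Perm ι))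
        = (S ^ (t - k * m)) (((S ^ k) ^ m) (dl (1 : Perm ι) - un (Perm ι))) := by
      rw [← pow_mul]
      have : t = (t - k * m) + k * m := by omega
      conv_lhs => rw [this, pow_add]
      rfl
    rw [e]
    exact pow_norm_le q hq hsum _ _
  refine (tv_le q hsum t).trans ?_
  have h6 : (Fintype.card (Perm ι) : ℝ) * ‖(S ^ t) (dl (1 : Perm ι) - un (Perm ι))‖ ^ 2 ≤ 1 / 4 := by
    rw [le_div_iff₀ hcardG] at hfin
    linarith only [hfin]
  have h7 : Real.sqrt ((Fintype.card (Perm ι) : ℝ)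
      * ‖(S ^ t) (dl (1 : Perm ι) - un (Perm ι))‖ ^ 2) ≤ 1 / 2 := by
    rw [show (1 / 2 : ℝ) = Real.sqrt (1 / 4) by
      rw [show (1 / 4 : ℝ) = (1 / 2) ^ 2 by norm_num, Real.sqrt_sq (by norm_num)]]
    exact Real.sqrt_le_sqrt h6
  linarith only [h7]

end Lev

end Vale.Agent.P162
end
end
end

section

section

section

namespace Vale.Agent.P162

open Equiv

theorem thorpLaw_nonneg (m : ℕ) (g : Perm (Fin (2 * m))) : 0 ≤ thorpLaw m g := by
  unfold thorpLaw; (clear * -; positivity)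

theorem thorpLaw_sum (m : ℕ) : ∑ g, thorpLaw m g = 1 := by
  unfold thorpLaw
  rw [← Finset.sum_div]
  have h : ∑ g : Perm (Fin (2 * m)), (Fintype.card {ω : Fin m → Fin 2 // thorpPerm m ω = g} : ℝ)
      = 2 ^ m := by
    have : ∑ g : Perm (Fin (2 * m)), Fintype.card {ω : Fin m → Fin 2 // thorpPerm m ω = g}
      = 2 ^ m := by
      rw [← Fintype.card_sigma, Fintype.card_congr (Equiv.sigmaFiberEquiv (thorpPerm m))]
      simp only [Fintype.card_pi, Fintype.card_fin, Finset.prod_const, Finset.card_univ]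
    exact_mod_cast this
  rw [h]; field_simp

/-- convolving with a probability law does not increase the distance to uniform -/
theorem tvUnif_succ_le {G : Type*} [Group G] [Fintype G] [DecidableEq G] (q : G → ℝ)
    (hq : ∀ g, 0 ≤ q g) (hsum : ∑ g, q g = 1) (t : ℕ) :
    tvUnif (convPow q (t + 1)) ≤ tvUnif (convPow q t) := by
  unfold tvUnif
  have key : ∑ g : G, |convPow q (t + 1) g - 1 / (Fintype.card G : ℝ)| ≤
      ∑ g : G, |convPow q t g - 1 / (Fintype.card G : ℝ)| := by
    calc ∑ g : G, |convPow q (t + 1) g - 1 / (Fintype.card G : ℝ)|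
        = ∑ g : G, |∑ h : G, q h * (convPow q t (h⁻¹ * g) - 1 / (Fintype.card G : ℝ))| := by
          refine Finset.sum_congr rfl fun g _ => ?_
          congr 1
          simp only [convPow, mul_sub, Finset.sum_sub_distrib, ← Finset.sum_mul, hsum, one_mul]
      _ ≤ ∑ g : G, ∑ h : G, q h * |convPow q t (h⁻¹ * g) - 1 / (Fintype.card G : ℝ)| := by
          refine Finset.sum_le_sum fun g _ => ?_
          refine (Finset.abs_sum_le_sum_abs _ _).trans ?_
          refine Finset.sum_le_sum fun h _ => ?_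
          rw [abs_mul, abs_of_nonneg (hq h)]
      _ = ∑ h : G, q h * ∑ g : G, |convPow q t (h⁻¹ * g) - 1 / (Fintype.card G : ℝ)| := by
          rw [Finset.sum_comm]
          simp only [one_div, Finset.mul_sum]
      _ = ∑ h : G, q h * ∑ g : G, |convPow q t g - 1 / (Fintype.card G : ℝ)| := by
          refine Finset.sum_congr rfl fun h _ => ?_
          congr 1
          exact Equiv.sum_comp (Equiv.mulLeft h⁻¹)
            (fun g => |convPow q t g - 1 / (Fintype.card G : ℝ)|)
      _ = _ := by rw [← Finset.sum_mul, hsum, one_mul]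
  linarith only [key]

theorem tvUnif_mono {G : Type*} [Group G] [Fintype G] [DecidableEq G] (q : G → ℝ)
    (hq : ∀ g, 0 ≤ q g) (hsum : ∑ g, q g = 1) {s t : ℕ} (h : s ≤ t) :
    tvUnif (convPow q t) ≤ tvUnif (convPow q s) := by
  induction h with
  | refl => exact le_rfl
  | step _ ih => exact (tvUnif_succ_le q hq hsum _).trans ih

theorem main' (d : ℕ) (t : ℕ) (ht : 300 * ((d : ℝ) + 1) ^ 2 ≤ t) :
    tvUnif (convPow (thorpLaw (2 ^ d)) t) ≤ 1 / 4 := by
  set m : ℕ := ⌈160 * Real.log (Fintype.card (Fin (2 * 2 ^ d))) + 160⌉₊ with hm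
  refine tv_of_pass_bound (ι := Fin (2 * 2 ^ d)) ?_ (thorpLaw (2 ^ d)) (thorpLaw_nonneg _)
    (thorpLaw_sum _) (d + 1) (fun v => ?_) m (Nat.le_ceil _) t ?_
  · simpa only [Fintype.card_fin, Order.lt_two_iff, zero_le, le_mul_iff_one_le_right] using Nat.one_le_two_pow
  · refine thorp_pass_bound_of d (fun ρ h v => passBound (d + 1) ρ h v) (regRep _) ?_ v
    intro g f
    rw [EuclideanSpace.norm_eq, EuclideanSpace.norm_eq]
    congr 1
    exact Equiv.sum_comp (Equiv.mulLeft g⁻¹) (fun σ => ‖f σ‖ ^ 2)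
  · have hlog : Real.log (Fintype.card (Fin (2 * 2 ^ d))) = (d + 1) * Real.log 2 := by
      rw [Fintype.card_fin, ← pow_succ']
      push_cast
      rw [Real.log_pow]; push_cast; ring
    have h2 : Real.log 2 ≤ 0.6931471808 := Real.log_two_lt_d9.le
    have h2' : (0:ℝ) ≤ Real.log 2 := Real.log_nonneg (by norm_num)
    have hd : (0:ℝ) ≤ d := Nat.cast_nonneg d
    have hm' : (m : ℝ) ≤ 160 * ((d + 1) * Real.log 2) + 160 + 1 := by
      rw [hm, hlog]
      exact (Nat.ceil_lt_add_one (by (clear * -; positivity))).le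
    have : ((d + 1 : ℕ) * m : ℝ) ≤ t := by
      refine le_trans ?_ ht
      push_cast
      have : (m : ℝ) ≤ 300 * (d + 1) := by nlinarith only [h2, hm']
      nlinarith only [hm', h2]
    exact_mod_cast this

theorem final : ∃ C : ℝ, ∀ d : ℕ,
    (tmix (2 ^ d) : ℝ) ≤ C * (Real.log ((2 * 2 ^ d : ℕ) : ℝ)) ^ 2 ∧
    ∀ t : ℕ, tmix (2 ^ d) ≤ t → tvUnif (convPow (thorpLaw (2 ^ d)) t) ≤ 1 / 4 := by
  refine ⟨301 / (Real.log 2) ^ 2, fun d => ⟨?_, fun t ht => ?_⟩⟩
  · have hlog : Real.log ((2 * 2 ^ d : ℕ) : ℝ) = (d + 1) * Real.log 2 := by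
      rw [← pow_succ']
      push_cast
      rw [Real.log_pow]; push_cast; ring
    have hpos : 0 < Real.log 2 := Real.log_pos (by norm_num)
    rw [hlog]
    have h1 : tmix (2 ^ d) ≤ ⌈300 * ((d : ℝ) + 1) ^ 2⌉₊ :=
      Nat.sInf_le (main' d _ (Nat.le_ceil _))
    have h2 : (tmix (2 ^ d) : ℝ) ≤ ⌈300 * ((d : ℝ) + 1) ^ 2⌉₊ := by exact_mod_cast h1
    have h3 : ((⌈300 * ((d : ℝ) + 1) ^ 2⌉₊ : ℕ) : ℝ) ≤ 300 * ((d : ℝ) + 1) ^ 2 + 1 :=
      (Nat.ceil_lt_add_one (by (clear * -; positivity))).le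
    have h4 : 301 / (Real.log 2) ^ 2 * ((d + 1) * Real.log 2) ^ 2 = 301 * ((d : ℝ) + 1) ^ 2 := by
      (clear * -; field_simp)
    rw [h4]
    have hd : (0:ℝ) ≤ d := Nat.cast_nonneg d
    nlinarith
  · refine (tvUnif_mono _ (thorpLaw_nonneg _) (thorpLaw_sum _) ht).trans ?_
    exact Nat.sInf_mem (s := {t : ℕ | tvUnif (convPow (thorpLaw (2 ^ d)) t) ≤ 1 / 4})
      ⟨_, main' d _ (Nat.le_ceil _)⟩

end Vale.Agent.P162
end
end
end

section

section

section

/-!
# P162, general even `n`: `t_mix(n) = O((log n)^2)` for every large even `n`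
-/

namespace Vale.Agent.P162

open Equiv NormedSpace
open scoped InnerProductSpace

section last

variable {V : Type*} [NormedAddCommGroup V] [InnerProductSpace ℝ V] [FiniteDimensional ℝ V]
variable {m : ℕ} (ρ : Perm (Fin (2 * m)) →* (V →L[ℝ] V)) (hρ : ∀ g v, ‖ρ g v‖ = ‖v‖)

/-- The wires reordered by `χ`. -/
def wireF (m : ℕ) (χ : Fin m → Bool) : Bool × Fin m ↪ Fin (2 * m) :=
  ⟨fun p => wire m (xor (!p.1) (χ p.2), p.2), by
    rintro ⟨b, l⟩ ⟨b', l'⟩ h
    have h1 := (wire m).injective h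
    simp only [Prod.mk.injEq] at h1
    obtain ⟨h1, rfl⟩ := h1
    have h2 : b = b' := by
      revert h1
      cases b <;> cases b' <;> cases χ l <;> simp
    rw [h2]⟩

theorem wireF_apply (m : ℕ) (χ : Fin m → Bool) (b : Bool) (l : Fin m) :
    wireF m χ (b, l) = wire m (xor (!b) (χ l), l) := rfl

theorem full_wireF (m : ℕ) (χ : Fin m → Bool) :
    full (wireF m χ) Finset.univ = (Finset.univ : Finset (Fin (2 * m))) := by
  apply Finset.eq_univ_of_card
  rw [card_full, Finset.card_univ, Fintype.card_fin, Fintype.card_fin]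

theorem full_wire_univ (m : ℕ) :
    full (wire m) Finset.univ = (Finset.univ : Finset (Fin (2 * m))) := by
  apply Finset.eq_univ_of_card
  rw [card_full, Finset.card_univ, Fintype.card_fin, Fintype.card_fin]

omit [FiniteDimensional ℝ V] in
theorem swAvg_fixedF (χ : Fin m → Bool) (v : V) (l : Fin m) :
    ρ (swap (wireF m χ (false, l)) (wireF m χ (true, l))) (swAvg ρ v) = swAvg ρ v := by
  rw [wireF_apply, wireF_apply]
  cases χ l
  · simp only [Bool.not_false, Bool.not_true, Bool.xor_false]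
    rw [swap_comm]
    exact swAvg_fixed ρ v l
  · simp only [Bool.not_false, Bool.not_true, Bool.xor_true]
    exact swAvg_fixed ρ v l

omit [FiniteDimensional ℝ V] in
theorem gen_eq_genOn : gen ρ = genOn ρ Finset.univ := (genOn_univ ρ).symm

theorem c1_le : c1 ≤ 1 / 400 := by
  have := eps0_le
  have := eps0_pos
  unfold c1
  linarith

include hρ in
theorem pass_general {i0 : ℕ} (h32 : 32 * 2 ^ i0 ≤ 2 * m) (h64 : 2 * m < 64 * 2 ^ i0)
    (hi0 : 6 ≤ i0) (v : V) :
    ‖((adjOp (thorpLaw m) ρ) ^ (10 + i0)) v‖ ≤ ‖exp (-(c1 / 16) • gen ρ) v‖ := by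
  set w : V := swAvg ρ v with hw
  have hm : 0 < m := by
    have : 0 < 2 ^ i0 := by positivity
    omega
  have hmr : (0 : ℝ) < m := by exact_mod_cast hm
  have h1 : ((adjOp (thorpLaw m) ρ) ^ (10 + i0)) v =
      ((adjOp (thorpLaw m) ρ) ^ (9 + i0)) (ρ (thorpPerm m 0)⁻¹ w) := by
    have : 10 + i0 = (9 + i0) + 1 := by ring
    rw [this, pow_succ, mul_apply_eq_comp, adj_eq, mul_apply_eq_comp]
  rw [h1]
  refine (root ρ hρ h32 h64 hi0 _).trans ?_
  set B : Finset (Fin (2 * m)) := (Blk m i0 0 0).map (thorpPerm m 0).toEmbedding with hB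
  have hBU : B.map ((thorpPerm m 0)⁻¹ : Perm (Fin (2 * m))).toEmbedding = Blk m i0 0 0 := by
    rw [hB, Finset.map_map]
    have : (thorpPerm m 0).toEmbedding.trans ((thorpPerm m 0)⁻¹ : Perm (Fin (2 * m))).toEmbedding =
        Function.Embedding.refl _ := by
      ext x
      simp
    rw [this, Finset.map_refl]
  have h2 : (c1 • genOn ρ (Blk m i0 0 0)) * ρ (thorpPerm m 0)⁻¹ =
      ρ (thorpPerm m 0)⁻¹ * (c1 • genOn ρ B) := by
    rw [smul_mul_assoc, mul_smul_comm, ← hBU, genOn_map_mul]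
  rw [← mul_apply_eq_comp, exp_semiconj _ _ _ h2, mul_apply_eq_comp, hρ]
  -- choose one wire per switch
  set χ : Fin m → Bool := fun l => decide ((l : ℕ) + 1 < 2 ^ i0) with hχ
  have hsub : side (wireF m χ) true Finset.univ ⊆ B := by
    intro x hx
    rw [mem_side] at hx
    obtain ⟨l, -, rfl⟩ := hx
    rw [hB, Finset.mem_map]
    refine ⟨top m (χ l, l), ?_, ?_⟩
    · rw [mem_Blk]
      unfold inB
      rw [top_val]
      have hl := l.2
      simp only [hχ]
      by_cases h : (l : ℕ) + 1 < 2 ^ i0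
      · simp only [h, decide_true, Bool.toNat_true, mul_one, mul_zero, zero_add, pow_zero, one_mul]
        omega
      · simp only [h, decide_false, Bool.toNat_false, mul_one, mul_zero, zero_add, pow_zero,
          one_mul]
        omega
    · rw [wireF_apply, ← inv_wire]
      simp only [Bool.not_true, Bool.false_xor, Equiv.toEmbedding_apply]
      exact (thorpPerm m 0).apply_symm_apply _
  have hcard := card_genOn_le ρ hρ hsub
  have hstep1 : ‖exp (-((1 / 2 : ℝ) • (c1 • genOn ρ B))) w‖ ≤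
      ‖exp (-((1 / 2 : ℝ) • ((c1 / 2) • genOn ρ (side (wireF m χ) true Finset.univ) +
        (0 : ℝ) • genOn ρ (side (wireF m χ) false Finset.univ)))) w‖ := by
    rw [zero_smul, add_zero]
    refine norm_exp_anti _ _ ?_ ?_ ?_ ?_ w
    · intro x y
      rw [smul_apply, smul_apply, inner_smul_left, inner_smul_right, genOn_symm ρ hρ]
      simp only [map_div₀, Real.ringHom_apply]
    · intro x y
      rw [smul_apply, smul_apply, inner_smul_left, inner_smul_right, genOn_symm ρ hρ]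
      simp
    · exact ((genOn_commute' ρ (Or.inl hsub)).smul_left _).smul_right _
    · intro u
      rw [smul_apply, smul_apply, inner_smul_right, inner_smul_right]
      have h3 := hcard u
      rw [card_side, Finset.card_univ, Fintype.card_fin] at h3
      have h4 : ((B.card : ℕ) : ℝ) ≤ 2 * m := by
        have : B.card ≤ Fintype.card (Fin (2 * m)) := Finset.card_le_univ _
        rw [Fintype.card_fin] at this
        exact_mod_cast this
      have h5 := inner_genOn_nonneg ρ hρ B u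
      have h6 : (m : ℝ) * ⟪u, genOn ρ (side (wireF m χ) true Finset.univ) u⟫_ℝ ≤
          m * (2 * ⟪u, genOn ρ B u⟫_ℝ) := by
        refine h3.trans ?_
        have := mul_le_mul_of_nonneg_right h4 h5
        linarith only [this]
      have h7 := le_of_mul_le_mul_left h6 hmr
      have := mul_le_mul_of_nonneg_left h7 (show 0 ≤ c1 / 2 by have := c1_pos; linarith only [this])
      linarith only [this]
  refine hstep1.trans ?_
  have hc1 := c1_pos
  have hc1' := c1_le
  refine (block_key ρ hρ (wireF m χ) Finset.univ (c1 / 2) 0 (by linarith only [hc1]) le_rfl (by linarith only [hc1, hc1']) w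
    (fun l _ => swAvg_fixedF ρ χ v l)).trans ?_
  rw [full_wireF, genOn_univ]
  have htt := tt_ge (c1 / 2) 0 (by linarith only [hc1]) le_rfl (by linarith only [hc1, hc1']) (Finset.univ : Finset (Fin m)).card
  have hsymm : ∀ x y : V, ⟪gen ρ x, y⟫_ℝ = ⟪x, gen ρ y⟫_ℝ := by
    intro x y
    rw [gen_eq_genOn, genOn_symm ρ hρ]
  have hstep2 : ‖exp (-((1 / 2 : ℝ) •
      (tt (c1 / 2) 0 (Finset.univ : Finset (Fin m)).card • gen ρ))) w‖ ≤
      ‖exp (-((1 / 2 : ℝ) • ((c1 / 8) • gen ρ))) w‖ := by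
    refine norm_exp_anti _ _ ?_ ?_ ?_ ?_ w
    · intro x y
      rw [smul_apply, smul_apply, inner_smul_left, inner_smul_right, hsymm]
      simp only [map_div₀, Real.ringHom_apply]
    · intro x y
      rw [smul_apply, smul_apply, inner_smul_left, inner_smul_right, hsymm]
      simp only [Finset.card_univ, Fintype.card_fin, Real.ringHom_apply]
    · exact ((Commute.refl _).smul_left _).smul_right _
    · intro u
      rw [smul_apply, smul_apply, inner_smul_right, inner_smul_right]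
      refine mul_le_mul_of_nonneg_right (by linarith only [htt]) ?_
      rw [gen_eq_genOn]
      exact inner_genOn_nonneg ρ hρ _ u
  refine hstep2.trans ?_
  have hc : Commute (swAvg ρ) (exp (-((1 / 2 : ℝ) • ((c1 / 8) • gen ρ)))) := by
    refine exp_commute _ _ ?_
    rw [gen_eq_genOn, ← full_wire_univ]
    exact (swAvg_commute_full ρ _).smul_right _
  have e : -((1 / 2 : ℝ) • ((c1 / 8) • gen ρ)) = -(c1 / 16) • gen ρ := by
    rw [smul_smul, ← neg_smul]
    congr 1
    ring
  rw [hw, ← mul_apply_eq_comp, ← hc.eq, mul_apply_eq_comp, e]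
  exact norm_swAvg_le ρ hρ _

end last

/-- number of repetitions -/
noncomputable def reps : ℕ := ⌈(1 / 40) / (c1 / 16)⌉₊

end Vale.Agent.P162
end
end
end

section

section

section

/-!
Qualitative convergence of the Thorp shuffle for every even number of cards.
-/

namespace Vale.Agent.P162

open Equiv
open scoped InnerProductSpace

section Fix

variable {V : Type*} [NormedAddCommGroup V] [InnerProductSpace ℝ V]

theorem inner_avgCol {β : Type*} [Fintype β] [DecidableEq β]
    (ρ : Perm (Bool × β) →* (V →L[ℝ] V)) (hρ : ∀ g v, ‖ρ g v‖ = ‖v‖) (v : V) :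
    ⟪avgCol ρ v, v⟫_ℝ = ‖avgCol ρ v‖ ^ 2 := by
  set w := avgCol ρ v with hw
  have h1 : ∀ ω : β → Bool, ⟪w, ρ (colSwap ω) v⟫_ℝ = ⟪w, v⟫_ℝ := by
    intro ω
    have h2 : ρ (colSwap ω) w = w := by
      have := congrArg (fun A : V →L[ℝ] V => A v) (rho_colSwap_avgCol ρ ω)
      exact this
    conv_lhs => rw [← h2]
    rw [real_inner_comm, real_inner_comm v w]
    have hp := hρ (colSwap ω) (v + w)
    have h3 : ‖ρ (colSwap ω) v + ρ (colSwap ω) w‖ ^ 2 = ‖v + w‖ ^ 2 := by
      rw [← map_add, hp]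
    rw [norm_add_sq_real, norm_add_sq_real, hρ, hρ] at h3
    linarith only [h3]
  rw [← real_inner_self_eq_norm_sq]
  conv_rhs => rw [hw]; arg 3; unfold avgCol
  rw [← hw]
  simp only [ContinuousLinearMap.coe_smul', Pi.smul_apply, ContinuousLinearMap.coe_sum',
    Finset.sum_apply, inner_smul_right, inner_sum, h1, Finset.sum_const, Finset.card_univ,
    Fintype.card_fun, Fintype.card_bool, nsmul_eq_mul]
  push_cast
  field_simp

theorem avgCol_eq_of_norm {β : Type*} [Fintype β] [DecidableEq β]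
    (ρ : Perm (Bool × β) →* (V →L[ℝ] V)) (hρ : ∀ g v, ‖ρ g v‖ = ‖v‖) (v : V)
    (h : ‖avgCol ρ v‖ = ‖v‖) : avgCol ρ v = v := by
  have h1 := inner_avgCol ρ hρ v
  have h2 : ‖avgCol ρ v - v‖ ^ 2 = 0 := by
    rw [norm_sub_sq_real, h1, h]
    ring
  have h3 : ‖avgCol ρ v - v‖ = 0 := by
    have := pow_eq_zero_iff (two_ne_zero) |>.1 h2
    exact this
  exact sub_eq_zero.1 (norm_eq_zero.1 h3)

variable (m : ℕ) (ρ : Perm (Fin (2 * m)) →* (V →L[ℝ] V)) (hρ : ∀ g v, ‖ρ g v‖ = ‖v‖)

include hρ in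
theorem norm_thorp_le (v : V) : ‖adjOp (thorpLaw m) ρ v‖ ≤ ‖v‖ := by
  rw [adjOp_thorp_bot]
  change ‖ρ (thorpPerm m 0)⁻¹ (avgCol _ v)‖ ≤ _
  rw [hρ]
  exact norm_avgCol_le _ (fun g v => hρ _ v) v

include hρ in
theorem norm_thorp_pow_le (t : ℕ) (v : V) : ‖(adjOp (thorpLaw m) ρ ^ t) v‖ ≤ ‖v‖ := by
  induction t with
  | zero => simp only [pow_zero, one_apply_eq_self, Std.le_refl]
  | succ t ih =>
    have e : (adjOp (thorpLaw m) ρ ^ (t + 1)) v =
        adjOp (thorpLaw m) ρ ((adjOp (thorpLaw m) ρ ^ t) v) := by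
      rw [pow_succ']; rfl
    rw [e]
    exact (norm_thorp_le m ρ hρ _).trans ih

include hρ in
/-- If one shuffle does not decrease the norm, the vector is invariant under the switches. -/
theorem thorp_eq_of_norm (v : V) (h : ‖adjOp (thorpLaw m) ρ v‖ = ‖v‖) :
    adjOp (thorpLaw m) ρ v = ρ (thorpPerm m 0)⁻¹ v ∧
    ∀ l : Fin m, ρ (swap ((botEquiv m).symm (false, l)) ((botEquiv m).symm (true, l))) v = v := by
  rw [adjOp_thorp_bot] at h ⊢
  set ρ' := ρ.comp (botEquiv m).symm.permCongrHom.toMonoidHom with hρ'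
  have hρ'' : ∀ g v, ‖ρ' g v‖ = ‖v‖ := fun g v => hρ _ v
  have h1 : ‖avgCol ρ' v‖ = ‖v‖ := by
    rw [← h]
    change _ = ‖ρ (thorpPerm m 0)⁻¹ (avgCol _ v)‖
    rw [hρ]
  have h2 := avgCol_eq_of_norm ρ' hρ'' v h1
  refine ⟨?_, fun l => ?_⟩
  · change ρ (thorpPerm m 0)⁻¹ (avgCol ρ' v) = _
    rw [h2]
  · have h3 := avgCol_fixed ρ' v l
    rw [h2] at h3
    have h4 : ρ' (swap (false, l) (true, l)) =
        ρ (swap ((botEquiv m).symm (false, l)) ((botEquiv m).symm (true, l))) := by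
      simp only [hρ', MonoidHom.comp_apply]
      congr 1
      change (botEquiv m).symm.permCongr (swap (false, l) (true, l)) = _
      ext1 x
      simp only [Equiv.permCongr_apply, Equiv.swap_apply_def, Equiv.symm_symm]
      by_cases h5 : (botEquiv m) x = (false, l)
      · have : x = (botEquiv m).symm (false, l) := by rw [← h5]; simp
        rw [if_pos h5, if_pos this]
      · have h5' : ¬ x = (botEquiv m).symm (false, l) := by
          intro h; apply h5; rw [h]; simp
        rw [if_neg h5, if_neg h5']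
        by_cases h6 : (botEquiv m) x = (true, l)
        · have : x = (botEquiv m).symm (true, l) := by rw [← h6]; simp
          rw [if_pos h6, if_pos this]
        · have h6' : ¬ x = (botEquiv m).symm (true, l) := by
            intro h; apply h6; rw [h]; simp
          rw [if_neg h6, if_neg h6']
          simp
    rw [← h4]
    exact h3

include hρ in
theorem thorp_pow_eq (D : ℕ) (v : V) (h : ‖(adjOp (thorpLaw m) ρ ^ D) v‖ = ‖v‖) :
    ∀ j < D, ∀ l : Fin m, ρ (swap ((thorpPerm m 0 ^ j) ((botEquiv m).symm (false, l)))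
      ((thorpPerm m 0 ^ j) ((botEquiv m).symm (true, l)))) v = v := by
  set R := adjOp (thorpLaw m) ρ with hR
  set s := thorpPerm m 0 with hs
  have hnorm : ∀ j ≤ D, ‖(R ^ j) v‖ = ‖v‖ := by
    intro j hj
    refine le_antisymm (norm_thorp_pow_le m ρ hρ j v) ?_
    rw [← h]
    have e : (R ^ D) v = (R ^ (D - j)) ((R ^ j) v) := by
      conv_lhs => rw [show D = (D - j) + j by omega, pow_add]
      rfl
    rw [e]
    exact norm_thorp_pow_le m ρ hρ _ _
  have hpow : ∀ j ≤ D, (R ^ j) v = ρ (s⁻¹ ^ j) v := by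
    intro j
    induction j with
    | zero => intro _; simp only [pow_zero, one_apply_eq_self, map_one]
    | succ j ih =>
      intro hj
      have e : (R ^ (j + 1)) v = R ((R ^ j) v) := by rw [pow_succ']; rfl
      have h1 : ‖R ((R ^ j) v)‖ = ‖(R ^ j) v‖ := by
        rw [← e, hnorm _ hj, hnorm _ (by omega)]
      have h2 := (thorp_eq_of_norm m ρ hρ _ h1).1
      rw [e, hR, ← hR] at *
      rw [h2, ih (by omega), pow_succ', map_mul]
      rfl
  intro j hj l
  have e : (R ^ (j + 1)) v = R ((R ^ j) v) := by rw [pow_succ']; rfl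
  have h1 : ‖R ((R ^ j) v)‖ = ‖(R ^ j) v‖ := by
    rw [← e, hnorm _ hj, hnorm _ hj.le]
  have h2 := (thorp_eq_of_norm m ρ hρ _ h1).2 l
  rw [hpow j hj.le] at h2
  have h3 : swap ((s ^ j) ((botEquiv m).symm (false, l))) ((s ^ j) ((botEquiv m).symm (true, l)))
      = s ^ j * swap ((botEquiv m).symm (false, l)) ((botEquiv m).symm (true, l)) * s⁻¹ ^ j := by
    rw [inv_pow]
    ext1 x
    simp only [Perm.mul_apply, Equiv.swap_apply_def]
    by_cases h5 : x = (s ^ j) ((botEquiv m).symm (false, l))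
    · subst h5
      simp only [↓reduceIte, Perm.coe_inv, symm_apply_apply]
    · have h5' : ¬ (s ^ j)⁻¹ x = (botEquiv m).symm (false, l) := by
        intro h; apply h5; rw [← h]; simp only [Perm.coe_inv, apply_symm_apply]
      rw [if_neg h5, if_neg h5']
      by_cases h6 : x = (s ^ j) ((botEquiv m).symm (true, l))
      · subst h6
        simp only [↓reduceIte, Perm.coe_inv, symm_apply_apply]
      · have h6' : ¬ (s ^ j)⁻¹ x = (botEquiv m).symm (true, l) := by
          intro h; apply h6; rw [← h]; simp only [Perm.coe_inv, apply_symm_apply]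
        rw [if_neg h6, if_neg h6']
        simp
  rw [h3, map_mul, map_mul]
  change ρ (s ^ j) (ρ (swap _ _) (ρ (s⁻¹ ^ j) v)) = v
  rw [h2]
  have h4 : ρ (s ^ j) * ρ (s⁻¹ ^ j) = 1 := by
    rw [← map_mul, inv_pow, mul_inv_cancel, map_one]
  exact congrArg (fun A : V →L[ℝ] V => A v) h4

include hρ in
/-- Norm preservation during a full period forces invariance under the symmetric group. -/
theorem thorp_fixed (v : V)
    (h : ‖(adjOp (thorpLaw m) ρ ^ orderOf (thorpPerm m 0)) v‖ = ‖v‖) (g : Perm (Fin (2 * m))) :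
    ρ g v = v := by
  set s := thorpPerm m 0 with hs
  have hord : 0 < orderOf s := orderOf_pos s
  have hfix := thorp_pow_eq m ρ hρ (orderOf s) v h
  rw [← hs] at hfix
  let Rel : Fin (2 * m) → Fin (2 * m) → Prop := fun x y =>
    ∀ j : ℕ, ρ (swap ((s ^ j) x) ((s ^ j) y)) v = v
  have hrefl : ∀ x, Rel x x := by
    intro x j
    rw [swap_self]
    exact congrArg (fun A : V →L[ℝ] V => A v) (map_one ρ)
  have hsymm : ∀ x y, Rel x y → Rel y x := by
    intro x y h j
    rw [swap_comm]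
    exact h j
  have htrans : ∀ x y z, Rel x y → Rel y z → Rel x z := by
    intro x y z hxy hyz j
    by_cases h1 : x = y
    · subst h1; exact hyz j
    by_cases h2 : x = z
    · subst h2; exact hrefl x j
    by_cases h3 : y = z
    · subst h3; exact hxy j
    have e := swap_mul_swap_mul_swap (x := (s ^ j) x) (y := (s ^ j) y) (z := (s ^ j) z)
      (fun h => h1 ((s ^ j).injective h)) (fun h => h2 ((s ^ j).injective h))
    rw [swap_comm ((s ^ j) x) ((s ^ j) z), ← e, map_mul, map_mul]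
    change ρ (swap ((s ^ j) y) ((s ^ j) z)) (ρ (swap ((s ^ j) x) ((s ^ j) y))
      (ρ (swap ((s ^ j) y) ((s ^ j) z)) v)) = v
    rw [hyz j, hxy j, hyz j]
  have hshift : ∀ x y, Rel x y → Rel (s x) (s y) := by
    intro x y h j
    have := h (j + 1)
    rw [pow_succ] at this
    exact this
  have hpair : ∀ l : Fin m, Rel ((botEquiv m).symm (false, l)) ((botEquiv m).symm (true, l)) := by
    intro l j
    have h1 := hfix (j % orderOf s) (Nat.mod_lt _ hord) l
    rw [pow_mod_orderOf] at h1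
    exact h1
  have hzero : ∀ k : ℕ, ∀ hk : k < 2 * m, Rel ⟨k, hk⟩ ⟨0, by omega⟩ := by
    intro k
    induction k using Nat.strong_induction_on with
    | _ k ih =>
      intro hk
      rcases Nat.eq_zero_or_pos k with h0 | hpos
      · subst h0; exact hrefl _
      have hl : k / 2 < m := by omega
      set l : Fin m := ⟨k / 2, hl⟩ with hldef
      have h1 := ih (k / 2) (by omega) (by omega)
      have h2 := hshift _ _ h1
      have e0 : s ⟨0, by omega⟩ = ⟨0, by omega⟩ := by
        have e1 : (⟨0, by omega⟩ : Fin (2 * m)) = (topEquiv m).symm (false, ⟨0, by omega⟩) := by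
          apply Fin.ext
          rw [topEquiv_symm_val]
          simp
        have e2 := thorpPerm_zero_inv_bot m false ⟨0, by omega⟩
        rw [← hs, Perm.inv_eq_iff_eq] at e2
        rw [e1, ← e2]
        apply Fin.ext
        rw [botEquiv_symm_val, topEquiv_symm_val]
        simp
      have e3 : s ⟨k / 2, by omega⟩ = (botEquiv m).symm (false, l) := by
        have e1 : (⟨k / 2, by omega⟩ : Fin (2 * m)) = (topEquiv m).symm (false, l) := by
          apply Fin.ext
          rw [topEquiv_symm_val]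
          simp [hldef]
        have e2 := thorpPerm_zero_inv_bot m false l
        rw [← hs, Perm.inv_eq_iff_eq] at e2
        rw [e1, ← e2]
      rw [e0, e3] at h2
      refine htrans _ _ _ ?_ h2
      rcases Nat.mod_two_eq_zero_or_one k with hk2 | hk2
      · have e4 : (⟨k, hk⟩ : Fin (2 * m)) = (botEquiv m).symm (false, l) := by
          apply Fin.ext
          rw [botEquiv_symm_val]
          simp [hldef]
          omega
        rw [e4]
        exact hrefl _
      · have e4 : (⟨k, hk⟩ : Fin (2 * m)) = (botEquiv m).symm (true, l) := by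
          apply Fin.ext
          rw [botEquiv_symm_val]
          simp only [hldef, Bool.toNat_true]
          omega
        rw [e4]
        exact hsymm _ _ (hpair l)
  have hall : ∀ x y : Fin (2 * m), ρ (swap x y) v = v := by
    intro x y
    have h1 := htrans _ _ _ (hzero x x.2) (hsymm _ _ (hzero y y.2)) 0
    simpa only [pow_zero, Fin.eta, Perm.coe_one, id_eq] using h1
  induction g using Perm.swap_induction_on with
  | one => exact congrArg (fun A : V →L[ℝ] V => A v) (map_one ρ)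
  | swap_mul f x y _ ih =>
    rw [map_mul]
    change ρ (swap x y) (ρ f v) = v
    rw [ih, hall]

end Fix

/-- Strict contraction by compactness. -/
theorem tendsto_zero_of_strict {E : Type*} [NormedAddCommGroup E] [InnerProductSpace ℝ E]
    [FiniteDimensional ℝ E] (S : E →L[ℝ] E) (W : Submodule ℝ E) (hW : ∀ v ∈ W, S v ∈ W)
    (hS : ∀ v, ‖S v‖ ≤ ‖v‖) (hstrict : ∀ v ∈ W, ‖S v‖ = ‖v‖ → v = 0) (v : E) (hv : v ∈ W)
    (ε : ℝ) (hε : 0 < ε) : ∃ t : ℕ, ‖(S ^ t) v‖ ≤ ε := by
  obtain ⟨r, hr1, hr0, hr⟩ : ∃ r : ℝ, r < 1 ∧ 0 ≤ r ∧ ∀ w ∈ W, ‖S w‖ ≤ r * ‖w‖ := by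
    let K : Set E := {w | w ∈ W ∧ ‖w‖ = 1}
    have hKc : IsCompact K := by
      apply Metric.isCompact_of_isClosed_isBounded
      · apply IsClosed.inter
        · exact W.closed_of_finiteDimensional
        · exact isClosed_eq continuous_norm continuous_const
      · refine (Metric.isBounded_closedBall (x := (0 : E)) (r := 1)).subset ?_
        intro w hw
        rw [mem_closedBall_zero_iff]
        exact hw.2.le
    rcases K.eq_empty_or_nonempty with hK | hK
    · refine ⟨0, by norm_num, le_rfl, fun w hw => ?_⟩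
      have hw0 : w = 0 := by
        by_contra hne
        have h1 : ‖w‖ ≠ 0 := norm_ne_zero_iff.2 hne
        have : (‖w‖⁻¹ • w) ∈ K := by
          refine ⟨W.smul_mem _ hw, ?_⟩
          rw [norm_smul, norm_inv, norm_norm, inv_mul_cancel₀ h1]
        rw [hK] at this
        exact this
      subst hw0
      simp
    · obtain ⟨w₀, hw₀, hmax⟩ := hKc.exists_isMaxOn hK (f := fun w => ‖S w‖)
        (by (clear * -; (clear * -; fun_prop)))
      refine ⟨‖S w₀‖, ?_, norm_nonneg _, fun w hw => ?_⟩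
      · have h1 : ‖S w₀‖ ≤ 1 := by rw [← hw₀.2]; exact hS w₀
        refine lt_of_le_of_ne h1 fun h2 => ?_
        have h3 := hstrict w₀ hw₀.1 (by rw [h2, hw₀.2])
        have h4 := hw₀.2
        rw [h3, norm_zero] at h4
        norm_num at h4
      · by_cases hne : w = 0
        · subst hne; simp
        have h1 : 0 < ‖w‖ := norm_pos_iff.2 hne
        have h2 : (‖w‖⁻¹ • w) ∈ K := by
          refine ⟨W.smul_mem _ hw, ?_⟩
          rw [norm_smul, norm_inv, norm_norm, inv_mul_cancel₀ h1.ne']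
        have h3 : ‖S (‖w‖⁻¹ • w)‖ ≤ ‖S w₀‖ := hmax h2
        rw [map_smul, norm_smul, norm_inv, norm_norm, inv_mul_le_iff₀ h1] at h3
        linarith
  have hmem : ∀ t : ℕ, (S ^ t) v ∈ W := by
    intro t
    induction t with
    | zero => simpa only [pow_zero, one_apply_eq_self] using hv
    | succ t ih =>
      have e : (S ^ (t + 1)) v = S ((S ^ t) v) := by rw [pow_succ']; rfl
      rw [e]
      exact hW _ ih
  have hpow : ∀ t : ℕ, ‖(S ^ t) v‖ ≤ r ^ t * ‖v‖ := by
    intro t
    induction t with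
    | zero => simp
    | succ t ih =>
      have e : (S ^ (t + 1)) v = S ((S ^ t) v) := by rw [pow_succ']; rfl
      rw [e]
      refine (hr _ (hmem t)).trans ?_
      rw [pow_succ' r t, mul_assoc]
      exact mul_le_mul_of_nonneg_left ih hr0
  have hlim : Filter.Tendsto (fun t : ℕ => r ^ t * ‖v‖) Filter.atTop (nhds 0) := by
    have := (tendsto_pow_atTop_nhds_zero_of_lt_one hr0 hr1).mul_const ‖v‖
    simpa using this
  obtain ⟨t, ht⟩ := (hlim.eventually (ge_mem_nhds hε)).exists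
  exact ⟨t, (hpow t).trans ht⟩

/-- For every even number of cards the Thorp shuffle mixes. -/
theorem exists_mix (m : ℕ) : ∃ t, tvUnif (convPow (thorpLaw m) t) ≤ 1 / 4 := by
  set ι := Fin (2 * m) with hι
  set D := orderOf (thorpPerm m 0) with hD
  set R := adjOp (thorpLaw m) (regRep (Perm ι)) with hR
  have hρ : ∀ (g : Perm ι) (v : EuclideanSpace ℝ (Perm ι)), ‖regRep (Perm ι) g v‖ = ‖v‖ :=
    regRep_norm
  have hRW : ∀ v ∈ levSub ι 1, R v ∈ levSub ι 1 :=
    adjOp_mem _ _ (levSub_inv 1)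
  have hRDW : ∀ j : ℕ, ∀ v ∈ levSub ι 1, (R ^ j) v ∈ levSub ι 1 := by
    intro j
    induction j with
    | zero => intro v hv; simpa only [pow_zero, one_apply_eq_self] using hv
    | succ j ih =>
      intro v hv
      have e : (R ^ (j + 1)) v = R ((R ^ j) v) := by rw [pow_succ']; rfl
      rw [e]
      exact hRW _ (ih v hv)
  have hcardG : (0 : ℝ) < Fintype.card (Perm ι) := by
    have : 0 < Fintype.card (Perm ι) := Fintype.card_pos
    exact_mod_cast this
  obtain ⟨t, ht⟩ := tendsto_zero_of_strict (R ^ D) (levSub ι 1) (hRDW D)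
    (fun v => norm_thorp_pow_le m _ hρ D v)
    (fun v hv h => by
      have h1 := thorp_fixed m (regRep (Perm ι)) hρ v h
      have h2 : ∀ g : Perm ι, v g = v 1 := by
        intro g
        have h3 : regRep (Perm ι) g v g = v g := by rw [h1 g]
        rw [regRep_apply, inv_mul_cancel] at h3
        exact h3.symm
      have h4 := hv ∅ (by simp) 1
      simp only [Finset.notMem_empty, false_implies, implies_true, if_true] at h4
      have h5 : ∑ g : Perm ι, v g = (Fintype.card (Perm ι) : ℝ) * v 1 := by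
        rw [Finset.sum_congr rfl fun g _ => h2 g, Finset.sum_const, Finset.card_univ,
          nsmul_eq_mul]
      have h6 : v 1 = 0 := by
        have h7 : (Fintype.card (Perm ι) : ℝ) * v 1 = 0 := by rw [← h5]; exact h4
        rcases mul_eq_zero.1 h7 with h8 | h8
        · exact absurd h8 hcardG.ne'
        · exact h8
      ext g
      rw [h2 g, h6]
      rfl)
    (dl (1 : Perm ι) - un (Perm ι)) (by
      rw [← proj_dl]
      exact Submodule.starProjection_apply_mem _ _)
    (Real.sqrt ((1 / 4) / Fintype.card (Perm ι))) (Real.sqrt_pos.2 (by (clear * -; positivity)))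
  refine ⟨D * t, (tv_le (thorpLaw m) (thorpLaw_sum m) (D * t)).trans ?_⟩
  rw [pow_mul]
  have h1 : ‖((R ^ D) ^ t) (dl (1 : Perm ι) - un (Perm ι))‖ ^ 2 ≤ (1 / 4) / Fintype.card (Perm ι) := by
    calc _ ≤ (Real.sqrt ((1 / 4) / Fintype.card (Perm ι))) ^ 2 :=
          pow_le_pow_left₀ (norm_nonneg _) ht 2
      _ = _ := Real.sq_sqrt (by positivity)
  have h6 : (Fintype.card (Perm ι) : ℝ) *
      ‖((R ^ D) ^ t) (dl (1 : Perm ι) - un (Perm ι))‖ ^ 2 ≤ 1 / 4 := by
    rw [le_div_iff₀ hcardG] at h1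
    linarith only [h1]
  have h7 : Real.sqrt ((Fintype.card (Perm ι) : ℝ)
      * ‖((R ^ D) ^ t) (dl (1 : Perm ι) - un (Perm ι))‖ ^ 2) ≤ 1 / 2 := by
    rw [show (1 / 2 : ℝ) = Real.sqrt (1 / 4) by
      rw [show (1 / 4 : ℝ) = (1 / 2) ^ 2 by norm_num, Real.sqrt_sq (by norm_num)]]
    exact Real.sqrt_le_sqrt h6
  linarith only [h7]

end Vale.Agent.P162
end
end
end

section

section

section

/-!
Lower bound: a law supported on few permutations is far from uniform.
-/

namespace Vale.Agent.P162.Lin.Lower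

open Equiv

section

variable {G : Type*} [Group G] [Fintype G] [DecidableEq G]

/-- total mass of convolution powers -/
lemma convPow_sum (q : G → ℝ) (hsum : ∑ g, q g = 1) (t : ℕ) : ∑ g, convPow q t g = 1 := by
  induction t with
  | zero => simp only [convPow, Finset.sum_ite_eq', Finset.mem_univ, ↓reduceIte]
  | succ t ih =>
    simp only [convPow]
    rw [Finset.sum_comm]
    have : ∀ h : G, ∑ g : G, q h * convPow q t (h⁻¹ * g) = q h := by
      intro h
      have e := Equiv.sum_comp (Equiv.mulLeft h⁻¹) (fun g => convPow q t g)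
      simp only [Equiv.coe_mulLeft] at e
      rw [← Finset.mul_sum, e, ih, mul_one]
    rw [Finset.sum_congr rfl fun h _ => this h, hsum]

/-- support of convolution powers -/
lemma convPow_supp (q : G → ℝ) (t : ℕ) :
    (Finset.univ.filter (fun g => convPow q t g ≠ 0)).card ≤
      (Finset.univ.filter (fun g => q g ≠ 0)).card ^ t := by
  induction t with
  | zero =>
    simp only [convPow, pow_zero]
    refine Finset.card_le_one.2 ?_
    intro a ha b hb
    have ha := (Finset.mem_filter.1 ha).2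
    have hb := (Finset.mem_filter.1 hb).2
    simp only [ne_eq, ite_eq_right_iff, one_ne_zero, imp_false, not_not] at ha hb
    rw [ha, hb]
  | succ t ih =>
    have hsub : (Finset.univ.filter (fun g => convPow q (t + 1) g ≠ 0)) ⊆
        ((Finset.univ.filter (fun g => q g ≠ 0)) ×ˢ
          (Finset.univ.filter (fun g => convPow q t g ≠ 0))).image (fun p => p.1 * p.2) := by
      intro g hg
      have hg := (Finset.mem_filter.1 hg).2
      simp only [convPow] at hg
      obtain ⟨h, -, hh⟩ := Finset.exists_ne_zero_of_sum_ne_zero hg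
      rw [Finset.mem_image]
      refine ⟨(h, h⁻¹ * g), ?_, by simp⟩
      rw [Finset.mem_product]
      simp only [Finset.mem_filter, Finset.mem_univ, true_and]
      exact ⟨left_ne_zero_of_mul hh, right_ne_zero_of_mul hh⟩
    calc _ ≤ _ := Finset.card_le_card hsub
      _ ≤ _ := Finset.card_image_le
      _ = _ := Finset.card_product _ _
      _ ≤ _ := by
        rw [pow_succ']
        exact Nat.mul_le_mul_left _ ih

/-- a law supported on `s` points has distance `≥ 1 - s / N` from uniform -/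
lemma tv_supp (ν : G → ℝ) (hν : ∑ g, ν g = 1) :
    1 - ((Finset.univ.filter (fun g => ν g ≠ 0)).card : ℝ) / Fintype.card G ≤ tvUnif ν := by
  set A := Finset.univ.filter (fun g => ν g ≠ 0) with hA
  set N : ℝ := (Fintype.card G : ℝ) with hN
  have hN0 : 0 < N := by
    rw [hN]
    exact_mod_cast Fintype.card_pos
  have h1 : ∑ g ∈ A, ν g = 1 := by
    rw [← hν]
    refine Finset.sum_subset (Finset.subset_univ _) fun g _ hg => ?_
    by_contra h
    exact hg (Finset.mem_filter.2 ⟨Finset.mem_univ _, h⟩)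
  have h2 : 1 - (A.card : ℝ) / N ≤ ∑ g ∈ A, |ν g - 1 / N| := by
    calc 1 - (A.card : ℝ) / N = ∑ g ∈ A, (ν g - 1 / N) := by
          rw [Finset.sum_sub_distrib, h1, Finset.sum_const, nsmul_eq_mul, mul_one_div]
      _ ≤ _ := Finset.sum_le_sum fun g _ => le_abs_self _
  have h3 : 1 - (A.card : ℝ) / N ≤ ∑ g ∈ Aᶜ, |ν g - 1 / N| := by
    calc 1 - (A.card : ℝ) / N = ∑ g ∈ Aᶜ, (1 / N) := by
          rw [Finset.sum_const, nsmul_eq_mul, Finset.card_compl, Nat.cast_sub
            (Finset.card_le_univ _), ← hN]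
          (clear * - hN0; field_simp)
      _ ≤ _ := by
          refine Finset.sum_le_sum fun g hg => ?_
          have : ν g = 0 := by
            by_contra h
            exact (Finset.mem_compl.1 hg) (Finset.mem_filter.2 ⟨Finset.mem_univ _, h⟩)
          rw [this, zero_sub, abs_neg]
          exact le_abs_self _
  have h4 : ∑ g ∈ A, |ν g - 1 / N| + ∑ g ∈ Aᶜ, |ν g - 1 / N| = ∑ g, |ν g - 1 / N| :=
    Finset.sum_add_sum_compl _ _
  unfold tvUnif
  rw [← hN, ← h4]
  linarith only [h2, h3]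

end

lemma supp_thorp (m : ℕ) :
    (Finset.univ.filter (fun g : Perm (Fin (2 * m)) => thorpLaw m g ≠ 0)).card ≤ 2 ^ m := by
  have hsub : Finset.univ.filter (fun g : Perm (Fin (2 * m)) => thorpLaw m g ≠ 0) ⊆
      Finset.univ.image (thorpPerm m) := by
    intro g hg
    have hg := (Finset.mem_filter.1 hg).2
    by_contra h
    apply hg
    unfold thorpLaw
    have : IsEmpty {ω : Fin m → Fin 2 // thorpPerm m ω = g} := by
      refine ⟨fun ω => h ?_⟩
      rw [Finset.mem_image]
      exact ⟨ω.1, Finset.mem_univ _, ω.2⟩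
    simp
  calc _ ≤ _ := Finset.card_le_card hsub
    _ ≤ _ := Finset.card_image_le
    _ = 2 ^ m := by simp only [Finset.card_univ, Fintype.card_pi, Fintype.card_fin, Finset.prod_const]

end Vale.Agent.P162.Lin.Lower

namespace Vale.Agent.P162.Lin

end Vale.Agent.P162.Lin
end
end
end

section

section

section

/-!
Assembly for every even number of cards.
-/

namespace Vale.Agent.P162

open Equiv NormedSpace
open scoped InnerProductSpace

/-- Counting lower bound for every even number of cards. -/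
theorem time_ge_gen (m t : ℕ) (hm1 : 1 ≤ m) (h : tvUnif (convPow (thorpLaw m) t) ≤ 1 / 4) :
    1 ≤ t ∧ m ≤ 2 ^ t := by
  have h1 := Lin.Lower.tv_supp (convPow (thorpLaw m) t)
    (Lin.Lower.convPow_sum _ (thorpLaw_sum m) t)
  have h2 : (Finset.univ.filter (fun g => convPow (thorpLaw m) t g ≠ 0)).card ≤ (2 ^ m) ^ t :=
    (Lin.Lower.convPow_supp _ t).trans (Nat.pow_le_pow_left (Lin.Lower.supp_thorp m) t)
  have hN : Fintype.card (Perm (Fin (2 * m))) = (2 * m).factorial := by
    rw [Fintype.card_perm, Fintype.card_fin]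
  have hfac : (m + 1) ^ m ≤ (2 * m).factorial := by
    have := @Nat.factorial_mul_pow_le_factorial m m
    rw [← two_mul] at this
    exact (Nat.le_mul_of_pos_left _ (Nat.factorial_pos m)).trans this
  have hN0 : (0 : ℝ) < Fintype.card (Perm (Fin (2 * m))) := by exact_mod_cast Fintype.card_pos
  have h3 : (3 : ℝ) * Fintype.card (Perm (Fin (2 * m))) ≤ 4 * ((2 ^ m) ^ t : ℕ) := by
    have h4 : 1 - ((Finset.univ.filter (fun g => convPow (thorpLaw m) t g ≠ 0)).card : ℝ) /
        Fintype.card (Perm (Fin (2 * m))) ≤ 1 / 4 := h1.trans h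
    have h5 : (3 / 4 : ℝ) ≤ ((Finset.univ.filter
        (fun g => convPow (thorpLaw m) t g ≠ 0)).card : ℝ) /
        Fintype.card (Perm (Fin (2 * m))) := by linarith only [h, h1]
    rw [le_div_iff₀ hN0] at h5
    have h6 : ((Finset.univ.filter (fun g => convPow (thorpLaw m) t g ≠ 0)).card : ℝ) ≤
        ((2 ^ m) ^ t : ℕ) := by exact_mod_cast h2
    linarith only [h5, h6]
  have h3' : 3 * (2 * m).factorial ≤ 4 * (2 ^ m) ^ t := by
    rw [hN] at h3
    exact_mod_cast h3
  have hbern : 2 * m ^ m ≤ (m + 1) ^ m := by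
    obtain ⟨k, hk⟩ : ∃ k, m = k + 1 := ⟨m - 1, by omega⟩
    have e : (m + 1) ^ m = ∑ i ∈ Finset.range (m + 1), m ^ i * 1 ^ (m - i) * (m.choose i) :=
      add_pow _ _ _
    rw [e]
    simp only [one_pow, mul_one]
    have hsub : ({m, m - 1} : Finset ℕ) ⊆ Finset.range (m + 1) := by
      intro i hi
      simp only [Finset.mem_insert, Finset.mem_singleton] at hi
      rw [Finset.mem_range]
      omega
    refine le_trans ?_ (Finset.sum_le_sum_of_subset hsub)
    rw [Finset.sum_pair (by omega), Nat.choose_self, mul_one]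
    have : m ^ (m - 1) * m.choose (m - 1) = m ^ m := by
      rw [hk]
      simp only [Nat.add_sub_cancel, Nat.choose_succ_self_right]
      ring
    rw [this]
    omega
  have ht1 : 1 ≤ t := by
    by_contra hcon
    have : t = 0 := by omega
    subst this
    have : 2 ≤ (2 * m).factorial := by
      calc 2 ≤ 2 * m ^ m := by
            have : 1 ≤ m ^ m := Nat.one_le_pow _ _ hm1
            omega
        _ ≤ _ := hbern.trans hfac
    simp at h3'
    omega
  refine ⟨ht1, ?_⟩
  have h7 : m ^ m ≤ (2 ^ t) ^ m := by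
    rw [← pow_mul, mul_comm t m, pow_mul]
    have := hbern.trans hfac
    omega
  exact (Nat.pow_le_pow_iff_left (by omega)).1 h7

theorem log_le_time (m t : ℕ) (hm1 : 1 ≤ m) (h : tvUnif (convPow (thorpLaw m) t) ≤ 1 / 4) :
    1 / 2 * Real.log ((2 * m : ℕ) : ℝ) ≤ t := by
  obtain ⟨h1, h2⟩ := time_ge_gen m t hm1 h
  have h3 : ((2 * m : ℕ) : ℝ) ≤ 2 ^ (t + 1) := by
    have : 2 * m ≤ 2 ^ (t + 1) := by
      rw [pow_succ]; (clear * - h2; omega)
    exact_mod_cast this
  have h4 : Real.log ((2 * m : ℕ) : ℝ) ≤ (t + 1) * Real.log 2 := by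
    have h5 := Real.log_le_log (by
      have : 0 < 2 * m := by omega
      exact_mod_cast this) h3
    rw [Real.log_pow] at h5
    push_cast at h5 ⊢
    exact h5
  have h5 : Real.log 2 ≤ 0.6931471808 := Real.log_two_lt_d9.le
  have h5' : 0 < Real.log 2 := Real.log_pos (by norm_num)
  have h6 : (1 : ℝ) ≤ t := by exact_mod_cast h1
  nlinarith only [h4, h5, h6]

theorem commute_adjOp {G : Type*} [Group G] [Fintype G] {V : Type*} [NormedAddCommGroup V]
    [InnerProductSpace ℝ V] (q : G → ℝ) (ρ : G →* (V →L[ℝ] V)) (X : V →L[ℝ] V)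
    (hX : ∀ g, Commute X (ρ g)) : Commute X (adjOp q ρ) := by
  unfold adjOp
  exact Commute.sum_right _ _ _ fun g _ => (hX g⁻¹).smul_right _

/-- Iterating a pass bound. -/
theorem iterate_pass (m : ℕ) (c : ℝ) (D : ℕ)
    (h : ∀ v : EuclideanSpace ℝ (Perm (Fin (2 * m))),
      ‖(adjOp (thorpLaw m) (regRep (Perm (Fin (2 * m)))) ^ D) v‖ ≤
        ‖exp (-c • gen (regRep (Perm (Fin (2 * m))))) v‖) (r : ℕ)
    (v : EuclideanSpace ℝ (Perm (Fin (2 * m)))) :
    ‖(adjOp (thorpLaw m) (regRep (Perm (Fin (2 * m)))) ^ (D * r)) v‖ ≤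
      ‖exp (-(r * c) • gen (regRep (Perm (Fin (2 * m))))) v‖ := by
  letI : NormedAlgebra ℚ (EuclideanSpace ℝ (Perm (Fin (2 * m))) →L[ℝ]
    EuclideanSpace ℝ (Perm (Fin (2 * m)))) := NormedAlgebra.restrictScalars ℚ ℝ _
  set ρ := regRep (Perm (Fin (2 * m))) with hρ
  set R := adjOp (thorpLaw m) ρ with hR
  induction r generalizing v with
  | zero => simp only [mul_zero, pow_zero, one_apply_eq_self, CharP.cast_eq_zero, zero_mul, neg_zero, zero_smul, exp_zero, Std.le_refl]
  | succ r ih =>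
    have e : (R ^ (D * (r + 1))) v = (R ^ D) ((R ^ (D * r)) v) := by
      rw [mul_add, mul_one, add_comm, pow_add]
      rfl
    have hcomm : Commute (exp (-c • gen ρ)) (R ^ (D * r)) := by
      refine Commute.pow_right ?_ _
      refine commute_adjOp _ _ _ fun g => ?_
      have h2 : Commute (gen ρ) (ρ g) := (gen_comm ρ g).symm
      exact (((h2).smul_left _).symm.exp_right).symm
    have e2 : exp (-(((r + 1 : ℕ) : ℝ) * c) • gen ρ) = exp (-(r * c) • gen ρ) * exp (-c • gen ρ) := by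
      rw [← exp_add_of_commute (((Commute.refl (gen ρ)).smul_left _).smul_right _), ← add_smul]
      congr 2
      push_cast
      ring
    rw [e, e2]
    refine (h _).trans ?_
    have e3 : exp (-c • gen ρ) ((R ^ (D * r)) v) = (R ^ (D * r)) (exp (-c • gen ρ) v) := by
      have := congrArg (fun A : EuclideanSpace ℝ (Perm (Fin (2 * m))) →L[ℝ]
        EuclideanSpace ℝ (Perm (Fin (2 * m))) => A v) hcomm.eq
      exact this
    rw [e3]
    exact ih _

/-- The mixing time of the Thorp shuffle for every even number of cards, from a pass bound. -/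
theorem final_general_of
    (hpass : ∃ c : ℝ, 0 < c ∧ ∃ D0 m0 : ℕ, ∀ m : ℕ, m0 ≤ m → ∃ D : ℕ,
      D ≤ Nat.log 2 (2 * m) + D0 ∧ ∀ v : EuclideanSpace ℝ (Perm (Fin (2 * m))),
      ‖(adjOp (thorpLaw m) (regRep (Perm (Fin (2 * m)))) ^ D) v‖ ≤
        ‖exp (-c • gen (regRep (Perm (Fin (2 * m))))) v‖) :
    ∃ C : ℝ, ∀ m : ℕ, 1 ≤ m →
      1 / 2 * Real.log ((2 * m : ℕ) : ℝ) ≤ (tmix m : ℝ) ∧
      (tmix m : ℝ) ≤ C * (Real.log ((2 * m : ℕ) : ℝ)) ^ 2 ∧
      ∀ t : ℕ, tmix m ≤ t → tvUnif (convPow (thorpLaw m) t) ≤ 1 / 4 := by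
  obtain ⟨c, hc, D0, m0, hpass⟩ := hpass
  have hatt : ∀ m : ℕ, tvUnif (convPow (thorpLaw m) (tmix m)) ≤ 1 / 4 := fun m =>
    Nat.sInf_mem (s := {t : ℕ | tvUnif (convPow (thorpLaw m) t) ≤ 1 / 4}) (exists_mix m)
  have hlog2 : 0 < Real.log 2 := Real.log_pos (by norm_num)
  set r : ℕ := ⌈1 / (40 * c)⌉₊ with hr
  have hrc : 1 / 40 ≤ (r : ℝ) * c := by
    have h1 : 1 / (40 * c) ≤ (r : ℝ) := Nat.le_ceil _
    rw [div_le_iff₀ (by positivity)] at h1
    linarith only [h1]
  set C1 : ℝ := (1 / Real.log 2 + D0 / Real.log 2) * r * (160 + 161 / Real.log 2) with hC1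
  set C2 : ℝ := (∑ m ∈ Finset.range m0, (tmix m : ℝ)) / (Real.log 2) ^ 2 with hC2
  have hC1' : 0 ≤ C1 := by (clear * - hc; (clear * - hc; positivity))
  have hC2' : 0 ≤ C2 := by (clear * -; positivity)
  refine ⟨C1 + C2, fun m hm => ⟨log_le_time m _ hm (hatt m), ?_, fun t ht =>
    (tvUnif_mono _ (thorpLaw_nonneg _) (thorpLaw_sum _) ht).trans (hatt m)⟩⟩
  have hL : Real.log 2 ≤ Real.log ((2 * m : ℕ) : ℝ) := by
    apply Real.log_le_log (by norm_num)
    have : 2 ≤ 2 * m := by omega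
    exact_mod_cast this
  set L := Real.log ((2 * m : ℕ) : ℝ) with hLdef
  have hL0 : 0 < L := hlog2.trans_le hL
  rcases lt_or_ge m m0 with hlt | hge
  · have h1 : (tmix m : ℝ) ≤ ∑ m ∈ Finset.range m0, (tmix m : ℝ) :=
      Finset.single_le_sum (f := fun m => (tmix m : ℝ)) (fun i _ => Nat.cast_nonneg _)
        (Finset.mem_range.2 hlt)
    have h2 : (∑ m ∈ Finset.range m0, (tmix m : ℝ)) ≤ C2 * L ^ 2 := by
      rw [hC2, div_mul_eq_mul_div, le_div_iff₀ (by positivity)]
      apply mul_le_mul_of_nonneg_left _ (by (clear * -; positivity))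
      exact pow_le_pow_left₀ hlog2.le hL 2
    have h3 : 0 ≤ C1 * L ^ 2 := by (clear * - hc hL0; (clear * - hc hL0; positivity))
    linarith only [h1, h2, h3]
  · obtain ⟨D, hD, hb⟩ := hpass m hge
    set M : ℕ := ⌈160 * L + 160⌉₊ with hM
    have hcard : Fintype.card (Fin (2 * m)) = 2 * m := Fintype.card_fin _
    have htv : tvUnif (convPow (thorpLaw m) (D * r * M)) ≤ 1 / 4 := by
      refine tv_of_pass_bound (ι := Fin (2 * m)) (by rw [hcard]; omega) (thorpLaw m)
        (thorpLaw_nonneg _) (thorpLaw_sum _) (D * r) (fun v => ?_) M ?_ (D * r * M) le_rfl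
      · refine (iterate_pass m c D hb r v).trans ?_
        have hiso : ∀ (g : Perm (Fin (2 * m))) (v : EuclideanSpace ℝ (Perm (Fin (2 * m)))),
            ‖regRep (Perm (Fin (2 * m))) g v‖ = ‖v‖ := regRep_norm
        exact norm_exp_mono (gen (regRep (Perm (Fin (2 * m))))) (gen_symm _ hiso)
          (inner_gen_nonneg _ hiso) _ _ hrc v
      · rw [hcard, ← hLdef]
        exact Nat.le_ceil _
    have h1 : tmix m ≤ D * r * M := Nat.sInf_le htv
    have h2 : (tmix m : ℝ) ≤ (D : ℝ) * r * M := by exact_mod_cast h1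
    have hM' : (M : ℝ) ≤ (160 + 161 / Real.log 2) * L := by
      have h3 : (M : ℝ) ≤ 160 * L + 160 + 1 := (Nat.ceil_lt_add_one (by (clear * - hL0; positivity))).le
      have h4 : (161 : ℝ) ≤ 161 / Real.log 2 * L := by
        rw [div_mul_eq_mul_div, le_div_iff₀ hlog2]
        nlinarith only [hL]
      linarith only [h3, h4]
    have hD' : (D : ℝ) ≤ (1 / Real.log 2 + D0 / Real.log 2) * L := by
      have h3 : (D : ℝ) ≤ (Nat.log 2 (2 * m) : ℝ) + D0 := by exact_mod_cast hD
      have h4 : (Nat.log 2 (2 * m) : ℝ) ≤ L / Real.log 2 := by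
        rw [le_div_iff₀ hlog2, hLdef]
        have h5 : 2 ^ Nat.log 2 (2 * m) ≤ 2 * m := Nat.pow_log_le_self 2 (by omega)
        have h6 : ((2 : ℝ) ^ Nat.log 2 (2 * m)) ≤ ((2 * m : ℕ) : ℝ) := by exact_mod_cast h5
        have h7 := Real.log_le_log (by positivity) h6
        rw [Real.log_pow] at h7
        exact h7
      have h8 : (D0 : ℝ) ≤ D0 / Real.log 2 * L := by
        rw [div_mul_eq_mul_div, le_div_iff₀ hlog2]
        exact mul_le_mul_of_nonneg_left hL (Nat.cast_nonneg _)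
      have h9 : L / Real.log 2 = 1 / Real.log 2 * L := by ring
      rw [h9] at h4
      linarith only [h3, h4, h8]
    have h3 : (D : ℝ) * r * M ≤ ((1 / Real.log 2 + D0 / Real.log 2) * L) * r *
        ((160 + 161 / Real.log 2) * L) := by
      (clear * - hD' hc hM' hL0; gcongr)
    have h4 : ((1 / Real.log 2 + D0 / Real.log 2) * L) * r *
        ((160 + 161 / Real.log 2) * L) = C1 * L ^ 2 := by
      rw [hC1]; ring
    have h5 : 0 ≤ C2 * L ^ 2 := by (clear * - hL0; (clear * - hL0; positivity))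
    linarith only [h2, h3, h5]

end Vale.Agent.P162
end
end
end

section

section

section

/-!
# P162, general even `n`: the pass bound (Theorem 1') and `t_mix(n) = O((log n)^2)` for all even `n`
-/

namespace Vale.Agent.P162

open Equiv NormedSpace

/-- `Nat.log 2 (2 m) = i0 + 5` with the inequalities used by the block recursion. -/
theorem exists_i0 {m : ℕ} (hm : 1024 ≤ m) : ∃ i0 : ℕ, Nat.log 2 (2 * m) = i0 + 5 ∧
    32 * 2 ^ i0 ≤ 2 * m ∧ 2 * m < 64 * 2 ^ i0 ∧ 6 ≤ i0 := by
  obtain ⟨i0, hi0⟩ : ∃ i0, Nat.log 2 (2 * m) = i0 + 5 := by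
    have : 11 ≤ Nat.log 2 (2 * m) := by
      apply Nat.le_log_of_pow_le (by norm_num)
      omega
    exact ⟨Nat.log 2 (2 * m) - 5, by omega⟩
  have hlow : 2 ^ (i0 + 5) ≤ 2 * m := by
    rw [← hi0]
    exact Nat.pow_log_le_self 2 (by omega)
  have hup : 2 * m < 2 ^ (i0 + 5 + 1) := by
    rw [← hi0]
    exact Nat.lt_pow_succ_log_self (by norm_num) (2 * m)
  have h6 : 6 ≤ i0 := by
    by_contra hcon
    have h1 : 2 ^ (i0 + 5 + 1) ≤ 2 ^ 11 := Nat.pow_le_pow_right (by norm_num) (by omega)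
    omega
  refine ⟨i0, hi0, ?_, ?_, h6⟩
  · rw [pow_add] at hlow
    omega
  · rw [pow_add, pow_add] at hup
    omega

/-- Theorem 1': `log2 n + 5` Thorp shuffles of `n = 2 m` cards beat the interchange process run
for a constant time, in every orthogonal representation. -/
theorem thorp_pass {V : Type*} [NormedAddCommGroup V] [InnerProductSpace ℝ V]
    [FiniteDimensional ℝ V] {m : ℕ} (hm : 1024 ≤ m) (ρ : Perm (Fin (2 * m)) →* (V →L[ℝ] V))
    (hρ : ∀ g v, ‖ρ g v‖ = ‖v‖) (v : V) :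
    ‖((adjOp (thorpLaw m) ρ) ^ (Nat.log 2 (2 * m) + 5)) v‖ ≤ ‖exp (-(c1 / 16) • gen ρ) v‖ := by
  obtain ⟨i0, h1, h32, h64, h6⟩ := exists_i0 hm
  have e : Nat.log 2 (2 * m) + 5 = 10 + i0 := by omega
  rw [e]
  exact pass_general ρ hρ h32 h64 h6 v

/-- The pass bound in the form used by `final_general_of`. -/
theorem pass_all : ∃ c : ℝ, 0 < c ∧ ∃ D0 m0 : ℕ, ∀ m : ℕ, m0 ≤ m → ∃ D : ℕ,
    D ≤ Nat.log 2 (2 * m) + D0 ∧ ∀ v : EuclideanSpace ℝ (Perm (Fin (2 * m))),
    ‖(adjOp (thorpLaw m) (regRep (Perm (Fin (2 * m)))) ^ D) v‖ ≤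
      ‖exp (-c • gen (regRep (Perm (Fin (2 * m))))) v‖ := by
  refine ⟨c1 / 16, by have := c1_pos; linarith only [this], 5, 1024, fun m hm =>
    ⟨Nat.log 2 (2 * m) + 5, le_rfl, fun v => thorp_pass hm _ ?_ v⟩⟩
  intro g f
  rw [EuclideanSpace.norm_eq, EuclideanSpace.norm_eq]
  congr 1
  exact Equiv.sum_comp (Equiv.mulLeft g⁻¹) (fun σ => ‖f σ‖ ^ 2)

/-- `c log n ≤ t_mix(n) ≤ C (log n)^2` for every even `n`. -/
theorem all_even_log_sq : ∃ C : ℝ, ∀ m : ℕ, 1 ≤ m →
    1 / 2 * Real.log ((2 * m : ℕ) : ℝ) ≤ (tmix m : ℝ) ∧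
    (tmix m : ℝ) ≤ C * (Real.log ((2 * m : ℕ) : ℝ)) ^ 2 ∧
    ∀ t : ℕ, tmix m ≤ t → tvUnif (convPow (thorpLaw m) t) ≤ 1 / 4 :=
  final_general_of pass_all

end Vale.Agent.P162
end
end
end

section

section

section

namespace Vale.Agent.P162.Lin

open Equiv

/-- exact level `k` -/
noncomputable def exLev (ι : Type) [Fintype ι] [DecidableEq ι] (k : ℕ) :
    Submodule ℝ (EuclideanSpace ℝ (Perm ι)) := levSub ι k ⊓ (levSub ι (k + 1))ᗮ

end Vale.Agent.P162.Lin
end
end
end

section

section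

section

/-!
# N10: end of Part II
-/

namespace Vale.Agent.P162.Lin

open Equiv
open scoped InnerProductSpace

section Decomp

variable {V : Type*} [NormedAddCommGroup V] [InnerProductSpace ℝ V] [FiniteDimensional ℝ V]

theorem proj_split (F G : Submodule ℝ V) (hGF : G ≤ F) (x : V) :
    F.starProjection x = (F ⊓ Gᗮ).starProjection x + G.starProjection x := by
  have huG : G.starProjection x ∈ G := Submodule.starProjection_apply_mem G x
  have hFF : F.starProjection x ∈ F := Submodule.starProjection_apply_mem F x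
  have h1 : (F ⊓ Gᗮ).starProjection x = F.starProjection x - G.starProjection x := by
    apply Submodule.eq_starProjection_of_mem_orthogonal
    · refine ⟨F.sub_mem hFF (hGF huG), ?_⟩
      change _ ∈ Gᗮ
      rw [Submodule.mem_orthogonal]
      intro z hz
      have e1 := (Submodule.mem_orthogonal F _).1
        (Submodule.sub_starProjection_mem_orthogonal (K := F) x) z (hGF hz)
      have e2 := (Submodule.mem_orthogonal G _).1
        (Submodule.sub_starProjection_mem_orthogonal (K := G) x) z hz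
      rw [inner_sub_right] at e1 e2 ⊢
      (clear hGF huG hFF hz; linarith only [e1, e2])
    · rw [Submodule.mem_orthogonal]
      intro z hz
      have e1 := (Submodule.mem_orthogonal F _).1
        (Submodule.sub_starProjection_mem_orthogonal (K := F) x) z hz.1
      have e2 : ⟪z, G.starProjection x⟫_ℝ = 0 := by
        rw [real_inner_comm]
        exact (Submodule.mem_orthogonal G _).1 hz.2 _ huG
      have e3 : x - (F.starProjection x - G.starProjection x) =
          (x - F.starProjection x) + G.starProjection x := by abel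
      rw [e3, inner_add_right, e1, e2, add_zero]
  rw [h1]; abel

theorem clm_pow_mem (A : V →L[ℝ] V) (W : Submodule ℝ V) (h : ∀ v ∈ W, A v ∈ W) (m : ℕ) :
    ∀ v ∈ W, (A ^ m) v ∈ W := by
  induction m with
  | zero => intro v hv; simpa only [pow_zero, one_apply_eq_self] using hv
  | succ m ih =>
    intro v hv
    have e : (A ^ (m + 1)) v = A ((A ^ m) v) := by rw [pow_succ']; rfl
    rw [e]
    exact h _ (ih v hv)

theorem clm_norm_pow_le (A : V →L[ℝ] V) (W : Submodule ℝ V) (h : ∀ v ∈ W, A v ∈ W) (b : ℝ)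
    (hb0 : 0 ≤ b) (hb : ∀ v ∈ W, ‖A v‖ ^ 2 ≤ b * ‖v‖ ^ 2) (m : ℕ) :
    ∀ v ∈ W, ‖(A ^ m) v‖ ^ 2 ≤ b ^ m * ‖v‖ ^ 2 := by
  induction m with
  | zero => intro v hv; simp only [pow_zero, one_apply_eq_self, one_mul, Std.le_refl]
  | succ m ih =>
    intro v hv
    have e : (A ^ (m + 1)) v = A ((A ^ m) v) := by rw [pow_succ']; rfl
    rw [e]
    calc ‖A ((A ^ m) v)‖ ^ 2
        ≤ b * ‖(A ^ m) v‖ ^ 2 := hb _ (clm_pow_mem A W h m v hv)
      _ ≤ b * (b ^ m * ‖v‖ ^ 2) := mul_le_mul_of_nonneg_left (ih v hv) hb0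
      _ = b ^ (m + 1) * ‖v‖ ^ 2 := by ring

theorem norm_split (A : V →L[ℝ] V) (F G : Submodule ℝ V) (hGF : G ≤ F)
    (hG : ∀ v ∈ G, A v ∈ G) (hG' : ∀ v ∈ Gᗮ, A v ∈ Gᗮ) (m : ℕ) (x : V) :
    ‖(A ^ m) (F.starProjection x)‖ ^ 2 =
      ‖(A ^ m) ((F ⊓ Gᗮ).starProjection x)‖ ^ 2 + ‖(A ^ m) (G.starProjection x)‖ ^ 2 := by
  rw [proj_split F G hGF, map_add, norm_add_sq_real]
  have h1 : (F ⊓ Gᗮ).starProjection x ∈ F ⊓ Gᗮ := Submodule.starProjection_apply_mem _ x
  have h2 : ⟪(A ^ m) ((F ⊓ Gᗮ).starProjection x), (A ^ m) (G.starProjection x)⟫_ℝ = 0 := by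
    rw [real_inner_comm]
    exact (Submodule.mem_orthogonal G _).1 (clm_pow_mem A Gᗮ hG' m _ h1.2) _
      (clm_pow_mem A G hG m _ (Submodule.starProjection_apply_mem G x))
  rw [h2]; ring

end Decomp

section Lev

variable {ι : Type} [Fintype ι] [DecidableEq ι]

theorem exLev_inv (k : ℕ) (a : Perm ι) : ∀ v ∈ exLev ι k, regRep (Perm ι) a v ∈ exLev ι k := by
  intro v hv
  exact ⟨levSub_inv k a v hv.1, orth_inv _ (levSub_inv (k + 1)) a v hv.2⟩

theorem level_sum (μ : Perm ι → ℝ) (M K : ℕ) (x : EuclideanSpace ℝ (Perm ι)) :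
    ‖((adjOp μ (regRep (Perm ι))) ^ M) ((levSub ι 1).starProjection x)‖ ^ 2 =
      ∑ k ∈ Finset.range K,
        ‖((adjOp μ (regRep (Perm ι))) ^ M) ((exLev ι (k + 1)).starProjection x)‖ ^ 2 +
      ‖((adjOp μ (regRep (Perm ι))) ^ M) ((levSub ι (K + 1)).starProjection x)‖ ^ 2 := by
  induction K with
  | zero => simp only [pow_apply_eq_iterate, Finset.range_zero, Finset.sum_empty, zero_add]
  | succ K ih =>
    rw [ih, Finset.sum_range_succ, norm_split (adjOp μ (regRep (Perm ι))) (levSub ι (K + 1))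
      (levSub ι (K + 1 + 1)) (levSub_anti (K + 1))
      (adjOp_mem μ _ (levSub_inv (K + 1 + 1)))
      (adjOp_mem μ _ (orth_inv _ (levSub_inv (K + 1 + 1)))) M x]
    unfold exLev
    ring

/-- A contraction. -/
theorem pow_add_norm_le (μ : Perm ι → ℝ) (hμ : ∀ g, 0 ≤ μ g) (hsum : ∑ g, μ g = 1) (s t : ℕ)
    (v : EuclideanSpace ℝ (Perm ι)) :
    ‖((adjOp μ (regRep (Perm ι))) ^ (s + t)) v‖ ≤ ‖((adjOp μ (regRep (Perm ι))) ^ t) v‖ := by
  have e : ((adjOp μ (regRep (Perm ι))) ^ (s + t)) v =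
      ((adjOp μ (regRep (Perm ι))) ^ s) (((adjOp μ (regRep (Perm ι))) ^ t) v) := by
    rw [pow_add]; rfl
  rw [e]
  exact pow_norm_le μ hμ hsum s _

end Lev

section Numeric

theorem choose_bound (n k : ℕ) (hk : 1 ≤ k) :
    (n.choose k : ℝ) ≤ (Real.exp 1 * (n / k)) ^ k := by
  have hk0 : (0 : ℝ) < k := by exact_mod_cast hk
  have h1 : (n.choose k : ℝ) ≤ (n : ℝ) ^ k / (k.factorial : ℝ) := Nat.choose_le_pow_div k n
  have h2 : (k : ℝ) ^ k / (k.factorial : ℝ) ≤ Real.exp k :=
    Real.pow_div_factorial_le_exp (k : ℝ) hk0.le k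
  have h3 : (n : ℝ) ^ k / (k.factorial : ℝ) =
      ((n : ℝ) / k) ^ k * ((k : ℝ) ^ k / (k.factorial : ℝ)) := by
    rw [div_pow]
    field_simp
  calc (n.choose k : ℝ) ≤ (n : ℝ) ^ k / (k.factorial : ℝ) := h1
    _ = ((n : ℝ) / k) ^ k * ((k : ℝ) ^ k / (k.factorial : ℝ)) := h3
    _ ≤ ((n : ℝ) / k) ^ k * Real.exp k := mul_le_mul_of_nonneg_left h2 (by (clear * - hk; positivity))
    _ = (Real.exp 1 * (n / k)) ^ k := by
        rw [mul_pow, ← Real.exp_nat_mul, mul_one, mul_comm]

/-- The geometric-type sum. -/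
theorem sum_small (C₂ n : ℝ) (hC : 0 < C₂) (hn : 16 * C₂ ≤ n) (K : ℕ)
    (hK : C₂ * K ≤ n / 8) :
    ∑ k ∈ Finset.range K, (C₂ * ((k + 1 : ℕ) : ℝ) / n) ^ (k + 1) ≤ 1 / 8 := by
  have hn0 : 0 < n := by linarith only [hC, hn]
  have hterm : ∀ k ∈ Finset.range K, (C₂ * ((k + 1 : ℕ) : ℝ) / n) ^ (k + 1) ≤
      (C₂ / n) * (1 / 2) ^ k := by
    intro k hk
    rw [Finset.mem_range] at hk
    have hkK : ((k + 1 : ℕ) : ℝ) ≤ K := by exact_mod_cast hk
    have h0 : 0 ≤ C₂ * ((k + 1 : ℕ) : ℝ) / n := by (clear * - hC hn0; positivity)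
    have h1 : C₂ * ((k + 1 : ℕ) : ℝ) / n ≤ 1 / 8 := by
      rw [div_le_iff₀ hn0]
      have : C₂ * ((k + 1 : ℕ) : ℝ) ≤ C₂ * K := mul_le_mul_of_nonneg_left hkK hC.le
      linarith only [hK, this]
    have h2 : ((k + 1 : ℕ) : ℝ) ≤ 4 ^ k := by
      have : k + 1 ≤ 4 ^ k := by
        have : k < 4 ^ k := Nat.lt_pow_self (by norm_num)
        omega
      exact_mod_cast this
    calc (C₂ * ((k + 1 : ℕ) : ℝ) / n) ^ (k + 1)
        = (C₂ * ((k + 1 : ℕ) : ℝ) / n) ^ k * (C₂ * ((k + 1 : ℕ) : ℝ) / n) := pow_succ _ _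
      _ ≤ (1 / 8) ^ k * (C₂ * 4 ^ k / n) := by
          apply mul_le_mul (pow_le_pow_left₀ h0 h1 k) _ h0 (by positivity)
          apply div_le_div_of_nonneg_right _ hn0.le
          exact mul_le_mul_of_nonneg_left h2 hC.le
      _ = (C₂ / n) * (1 / 2) ^ k := by
          have : (1 / 8 : ℝ) ^ k * 4 ^ k = (1 / 2) ^ k := by
            rw [← mul_pow]; norm_num
          rw [← this]; ring
  refine (Finset.sum_le_sum hterm).trans ?_
  rw [← Finset.mul_sum]
  have h3 : ∑ k ∈ Finset.range K, (1 / 2 : ℝ) ^ k ≤ 2 := by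
    have := geom_sum_eq (x := (1 / 2 : ℝ)) (by norm_num) K
    rw [this]
    have h4 : (0 : ℝ) ≤ (1 / 2) ^ K := by positivity
    rw [div_le_iff_of_neg (by norm_num)]
    linarith only [h4]
  calc C₂ / n * ∑ k ∈ Finset.range K, (1 / 2 : ℝ) ^ k ≤ C₂ / n * 2 :=
        mul_le_mul_of_nonneg_left h3 (by positivity)
    _ ≤ 1 / 8 := by
        rw [div_mul_eq_mul_div, div_le_iff₀ hn0]
        linarith only [hn]

end Numeric

section Main

end Main

end Vale.Agent.P162.Lin
end
end
end

section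

section

section

/-!
# End of Part II for an arbitrary dyadic power of the trace and an iterated pass bound
-/

namespace Vale.Agent.P162.Lin

open Equiv
open scoped InnerProductSpace

section Main

/-- Everything that is used about one level. -/
theorem low_term_gen {ι : Type} [Fintype ι] [DecidableEq ι] (P : ℕ) (hP : 0 < P) (C : ℝ)
    (hC : 0 < C) (q : ℕ) (hq : 0 < q) (μ : Perm ι → ℝ)
    (hnorm : ∀ (k g : ℕ) (_ : 1 ≤ k) (_ : 1 ≤ g) (_ : 3 * (g * k) + k ≤ Fintype.card ι)
      (v : EuclideanSpace ℝ (Perm ι)) (_ : v ∈ exLev ι k),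
      (g : ℝ) ^ k * ‖adjOp μ (regRep (Perm ι)) v‖ ^ (2 * P) ≤
        trk (convPow (symLaw μ) P) (g * k) * ‖v‖ ^ (2 * P))
    (hweight : ∀ (k : ℕ) (_ : k ≤ Fintype.card ι), (Fintype.card (Perm ι) : ℝ) *
      ‖((adjOp μ (regRep (Perm ι))) ^ P) ((exLev ι k).starProjection (dl 1))‖ ^ 2 ≤
      ((Fintype.card ι).choose k : ℝ) * trk (convPow (symLaw μ) P) k)
    (htr : ∀ k h : ℕ, k * 2 ^ h ≤ Fintype.card ι → trk (convPow (symLaw μ) P) k ≤
        Real.exp (C * k * (2 : ℝ) ^ (-((h : ℝ) / q))))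
    (k : ℕ) (hk : 1 ≤ k) (hkn : 16 * k ≤ Fintype.card ι) :
    (Fintype.card (Perm ι) : ℝ) * ‖((adjOp μ (regRep (Perm ι))) ^ (P * (2 * (q + 1)) + P))
        ((exLev ι k).starProjection (dl 1))‖ ^ 2 ≤
      ((Real.exp (1 + C + C * (2 * (q + 1))) * 2 ^ (2 * (q + 1))) * k /
        Fintype.card ι) ^ k := by
  set n := Fintype.card ι with hn
  set A := adjOp μ (regRep (Perm ι)) with hA
  have hk0 : (0 : ℝ) < k := by exact_mod_cast hk
  have hn0 : (0 : ℝ) < n := by
    have : 0 < n := by omega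
    exact_mod_cast this
  -- `h = log₂ (n / k)`
  set h := Nat.log 2 (n / k) with hh
  have hnk : 16 ≤ n / k := (Nat.le_div_iff_mul_le (by omega)).2 (by linarith only [hkn])
  have h1 : 2 ^ h ≤ n / k := Nat.pow_log_le_self 2 (by omega)
  have h2 : n / k < 2 ^ (h + 1) := Nat.lt_pow_succ_log_self (by norm_num) _
  have h4 : 4 ≤ h := by
    rw [hh]
    exact (Nat.le_log_iff_pow_le (by norm_num) (by omega)).2 (by simpa only [Nat.reducePow] using hnk)
  have hkh : k * 2 ^ h ≤ n := by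
    rw [mul_comm]
    exact (Nat.le_div_iff_mul_le (by omega)).1 h1
  have hkh' : n < k * 2 ^ (h + 1) := by
    have := (Nat.div_lt_iff_lt_mul (show 0 < k by omega)).1 h2
    rwa [mul_comm]
  set γ := h / (q + 1) with hγ
  have hγ1 : γ * (q + 1) ≤ h := Nat.div_mul_le_self h (q + 1)
  have hγ2 : h < (γ + 1) * (q + 1) := by
    have := Nat.lt_div_mul_add (a := h) (b := q + 1) (by omega)
    rw [← hγ] at this
    linarith only [this]
  have hγh : 2 * γ ≤ h := by
    calc 2 * γ = γ * 2 := mul_comm _ _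
      _ ≤ γ * (q + 1) := Nat.mul_le_mul_left _ (by omega)
      _ ≤ h := hγ1
  set g := 2 ^ γ with hg
  have hg1 : 1 ≤ g := Nat.one_le_two_pow
  have hgk : 3 * (g * k) + k ≤ n := by
    have e1 : g * k * 4 ≤ k * 2 ^ h := by
      have : 2 ^ γ * 4 ≤ 2 ^ h := by
        calc 2 ^ γ * 4 = 2 ^ (γ + 2) := by ring
          _ ≤ 2 ^ h := Nat.pow_le_pow_right (by norm_num) (by omega)
      calc g * k * 4 = k * (2 ^ γ * 4) := by rw [hg]; ring
        _ ≤ k * 2 ^ h := Nat.mul_le_mul_left _ this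
    have e2 : k ≤ g * k := Nat.le_mul_of_pos_left k (by omega)
    omega
  -- the trace at `g k`
  have htrg : trk (convPow (symLaw μ) P) (g * k) ≤ Real.exp (C * k) := by
    have e1 : g * k * 2 ^ (h - γ) ≤ n := by
      have : 2 ^ γ * 2 ^ (h - γ) = 2 ^ h := by
        rw [← pow_add]; congr 1; omega
      calc g * k * 2 ^ (h - γ) = k * (2 ^ γ * 2 ^ (h - γ)) := by rw [hg]; ring
        _ = k * 2 ^ h := by rw [this]
        _ ≤ n := hkh
    refine (htr (g * k) (h - γ) e1).trans (Real.exp_le_exp.2 ?_)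
    have e2 : ((g * k : ℕ) : ℝ) = (2 : ℝ) ^ (γ : ℝ) * k := by
      rw [hg]; push_cast; rw [Real.rpow_natCast]
    rw [e2]
    have e3 : C * ((2 : ℝ) ^ (γ : ℝ) * k) * (2 : ℝ) ^ (-(((h - γ : ℕ) : ℝ) / q)) =
        C * k * (2 : ℝ) ^ ((γ : ℝ) + -(((h - γ : ℕ) : ℝ) / q)) := by
      rw [Real.rpow_add (by norm_num)]; ring
    rw [e3]
    have e4 : (2 : ℝ) ^ ((γ : ℝ) + -(((h - γ : ℕ) : ℝ) / q)) ≤ 1 := by
      apply Real.rpow_le_one_of_one_le_of_nonpos (by norm_num)
      have hq0 : (0 : ℝ) < q := by exact_mod_cast hq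
      have : (γ : ℝ) ≤ ((h - γ : ℕ) : ℝ) / q := by
        rw [le_div_iff₀ hq0]
        have : γ * q ≤ h - γ := by
          have : γ * (q + 1) = γ * q + γ := by ring
          (clear * - hγ1 hγh this; omega)
        exact_mod_cast this
      linarith only [this]
    calc C * k * (2 : ℝ) ^ ((γ : ℝ) + -(((h - γ : ℕ) : ℝ) / q)) ≤ C * k * 1 :=
          mul_le_mul_of_nonneg_left e4 (by (clear * - hC hk; positivity))
      _ = C * k := mul_one _
  have htrk : trk (convPow (symLaw μ) P) k ≤ Real.exp (C * k) := by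
    refine (htr k 0 (by simpa only [pow_zero, mul_one] using (by omega : k ≤ n))).trans (Real.exp_le_exp.2 ?_)
    simp
  -- norm bound
  have hP0 : (0 : ℝ) < P := by exact_mod_cast hP
  set c : ℝ := (Real.exp C / g) ^ k with hc
  have hg0 : (0 : ℝ) < g := by exact_mod_cast hg1
  have hc0 : 0 ≤ c := by (clear * -; positivity)
  set b : ℝ := c ^ ((1 : ℝ) / P) with hb
  have hb0 : 0 ≤ b := Real.rpow_nonneg hc0 _
  have hbP : b ^ P = c := by
    rw [hb, ← Real.rpow_natCast, ← Real.rpow_mul hc0, one_div_mul_cancel hP0.ne', Real.rpow_one]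
  have hAb : ∀ v ∈ exLev ι k, ‖A v‖ ^ 2 ≤ b * ‖v‖ ^ 2 := by
    intro v hv
    have e1 := hnorm k g hk hg1 hgk v hv
    have e2 : (g : ℝ) ^ k * ‖A v‖ ^ (2 * P) ≤ Real.exp (C * k) * ‖v‖ ^ (2 * P) :=
      e1.trans (mul_le_mul_of_nonneg_right htrg (by (clear * -; positivity)))
    have e3 : (‖A v‖ ^ 2) ^ P ≤ (b * ‖v‖ ^ 2) ^ P := by
      rw [mul_pow, hbP, ← pow_mul, ← pow_mul, hc, div_pow, ← Real.exp_nat_mul]
      rw [div_mul_eq_mul_div, le_div_iff₀ (by positivity)]
      calc ‖A v‖ ^ (2 * P) * (g : ℝ) ^ k = (g : ℝ) ^ k * ‖A v‖ ^ (2 * P) := by ring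
        _ ≤ Real.exp (C * k) * ‖v‖ ^ (2 * P) := e2
        _ = Real.exp (k * C) * ‖v‖ ^ (2 * P) := by rw [mul_comm (k : ℝ) C]
    exact le_of_pow_le_pow_left₀ (by omega) (by (clear * -; (clear * -; positivity))) e3
  have hAinv : ∀ v ∈ exLev ι k, A v ∈ exLev ι k := adjOp_mem μ _ (exLev_inv k)
  have hQ : (A ^ P) ((exLev ι k).starProjection (dl 1)) ∈ exLev ι k :=
    clm_pow_mem A _ hAinv P _ (Submodule.starProjection_apply_mem _ _)
  have e5 : (A ^ (P * (2 * (q + 1)) + P)) ((exLev ι k).starProjection (dl 1)) =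
      (A ^ (P * (2 * (q + 1)))) ((A ^ P) ((exLev ι k).starProjection (dl 1))) := by
    rw [pow_add]; rfl
  have h5 := clm_norm_pow_le A _ hAinv b hb0 hAb (P * (2 * (q + 1))) _ hQ
  rw [pow_mul b, hbP] at h5
  rw [e5]
  have h6 := hweight k (by omega)
  have h7 : ((Fintype.card ι).choose k : ℝ) * trk (convPow (symLaw μ) P) k ≤
      (Real.exp 1 * (n / k)) ^ k * Real.exp (C * k) :=
    (mul_le_mul_of_nonneg_left htrk (Nat.cast_nonneg _)).trans
      (mul_le_mul_of_nonneg_right (choose_bound n k hk) (Real.exp_pos _).le)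
  have hcardG : (0 : ℝ) ≤ Fintype.card (Perm ι) := Nat.cast_nonneg _
  calc (Fintype.card (Perm ι) : ℝ) *
        ‖(A ^ (P * (2 * (q + 1)))) ((A ^ P) ((exLev ι k).starProjection (dl 1)))‖ ^ 2
      ≤ (Fintype.card (Perm ι) : ℝ) * (c ^ (2 * (q + 1)) *
          ‖(A ^ P) ((exLev ι k).starProjection (dl 1))‖ ^ 2) :=
        mul_le_mul_of_nonneg_left h5 hcardG
    _ = c ^ (2 * (q + 1)) * ((Fintype.card (Perm ι) : ℝ) *
          ‖(A ^ P) ((exLev ι k).starProjection (dl 1))‖ ^ 2) := by ring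
    _ ≤ c ^ (2 * (q + 1)) * ((Real.exp 1 * (n / k)) ^ k * Real.exp (C * k)) :=
        mul_le_mul_of_nonneg_left (h6.trans h7) (by positivity)
    _ = ((Real.exp C / g) ^ (2 * (q + 1)) * (Real.exp 1 * (n / k)) * Real.exp C) ^ k := by
        rw [hc, ← pow_mul, mul_comm k (2 * (q + 1)), pow_mul, mul_comm C (k : ℝ),
          Real.exp_nat_mul, mul_pow, mul_pow]
        ring
    _ ≤ _ := by
        apply pow_le_pow_left₀ (by (clear * - hn0 hk; positivity))
        have hsq : ((n : ℝ) / k) * ((n : ℝ) / k) ≤ (2 * (g : ℝ)) ^ (2 * (q + 1)) := by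
          have e1 : (n : ℝ) / k ≤ 2 ^ (h + 1) := by
            rw [div_le_iff₀ hk0]
            have : n ≤ 2 ^ (h + 1) * k := by linarith only [hkh']
            exact_mod_cast this
          have e2 : (2 : ℝ) ^ (h + 1) ≤ (2 * (g : ℝ)) ^ (q + 1) := by
            have e3 : 2 ^ (h + 1) ≤ (2 * g) ^ (q + 1) := by
              calc 2 ^ (h + 1) ≤ 2 ^ ((γ + 1) * (q + 1)) :=
                    Nat.pow_le_pow_right (by norm_num) (by omega)
                _ = (2 * g) ^ (q + 1) := by rw [pow_mul, hg]; ring_nf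
            exact_mod_cast e3
          have e4 : (0 : ℝ) ≤ (n : ℝ) / k := by (clear * - hn0 hk; positivity)
          calc ((n : ℝ) / k) * ((n : ℝ) / k) ≤ (2 * (g : ℝ)) ^ (q + 1) * (2 * (g : ℝ)) ^ (q + 1) :=
                mul_le_mul (e1.trans e2) (e1.trans e2) e4 (by positivity)
            _ = (2 * (g : ℝ)) ^ (2 * (q + 1)) := by rw [← pow_add]; congr 1; ring
        have hgp : (0 : ℝ) < (g : ℝ) ^ (2 * (q + 1)) := by positivity
        have h8 : (1 / (g : ℝ) ^ (2 * (q + 1))) * ((n : ℝ) / k) ≤ 2 ^ (2 * (q + 1)) * (k / n) := by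
          rw [mul_pow] at hsq
          rw [one_div, inv_mul_le_iff₀ hgp]
          have e5 : (2 : ℝ) ^ (2 * (q + 1)) * (k / n) * (n / k) * (n / k) =
              2 ^ (2 * (q + 1)) * (n / k) := by (clear * - hn0 hk; (clear * - hn0 hk; field_simp))
          have e6 : (0 : ℝ) < (n : ℝ) / k := by (clear * - hn0 hk; positivity)
          have e7 : ((n : ℝ) / k) * ((n : ℝ) / k) * (k / n) ≤
              (2 ^ (2 * (q + 1)) * (g : ℝ) ^ (2 * (q + 1))) * (k / n) :=
            mul_le_mul_of_nonneg_right hsq (by (clear * - hk hn0; positivity))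
          have e8 : ((n : ℝ) / k) * ((n : ℝ) / k) * (k / n) = (n : ℝ) / k := by (clear * - hk hn0; field_simp)
          rw [e8] at e7
          linarith only [e7]
        calc (Real.exp C / (g : ℝ)) ^ (2 * (q + 1)) * (Real.exp 1 * ((n : ℝ) / k)) * Real.exp C
            = Real.exp (1 + C + C * (2 * (q + 1))) *
              ((1 / (g : ℝ) ^ (2 * (q + 1))) * ((n : ℝ) / k)) := by
              rw [div_pow, ← Real.exp_nat_mul, Real.exp_add, Real.exp_add]
              push_cast
              rw [mul_comm C]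
              ring
          _ ≤ Real.exp (1 + C + C * (2 * (q + 1))) * (2 ^ (2 * (q + 1)) * (k / n)) :=
              mul_le_mul_of_nonneg_left h8 (Real.exp_pos _).le
          _ = _ := by ring

theorem high_term_gen {ι : Type} [Fintype ι] [DecidableEq ι] (P : ℕ) (C : ℝ) (hC : 0 < C)
    (μ : Perm ι → ℝ) (hμ : ∀ g, 0 ≤ μ g) (hsum : ∑ g, μ g = 1) (j : ℕ)
    (hpass : ∀ v : EuclideanSpace ℝ (Perm ι), ‖(adjOp μ (regRep (Perm ι)) ^ j) v‖ ≤
        ‖NormedSpace.exp (-(1 / 40 : ℝ) • gen (regRep (Perm ι))) v‖)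
    (htotal : (Fintype.card (Perm ι) : ℝ) *
      ‖((adjOp μ (regRep (Perm ι))) ^ P) (dl 1)‖ ^ 2 ≤ Real.exp (C * Fintype.card ι))
    (N₀ m₂ K s : ℕ) (hN : 0 < N₀) (hm₂ : 80 * N₀ * (C + 1) ≤ m₂) (hn3 : 3 ≤ Fintype.card ι)
    (hK1 : K + 2 ≤ Fintype.card ι) (hK2 : Fintype.card ι ≤ N₀ * (K + 1)) :
    (Fintype.card (Perm ι) : ℝ) * ‖((adjOp μ (regRep (Perm ι))) ^ (s + (j * m₂ + P)))
        ((levSub ι (K + 1)).starProjection (dl 1))‖ ^ 2 ≤ 1 / 8 := by
  set n := Fintype.card ι with hn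
  set A := adjOp μ (regRep (Perm ι)) with hA
  set v := (levSub ι (K + 1)).starProjection (dl (1 : Perm ι)) with hv
  have hcardG : (0 : ℝ) ≤ Fintype.card (Perm ι) := Nat.cast_nonneg _
  have hinv : ∀ v ∈ levSub ι (K + 1), A v ∈ levSub ι (K + 1) := adjOp_mem μ _ (levSub_inv (K + 1))
  have hinv' : ∀ v ∈ (levSub ι (K + 1))ᗮ, A v ∈ (levSub ι (K + 1))ᗮ :=
    adjOp_mem μ _ (orth_inv _ (levSub_inv (K + 1)))
  have hvm : v ∈ levSub ι (K + 1) := Submodule.starProjection_apply_mem _ _
  have hP16 : (A ^ P) v ∈ levSub ι (K + 1) := clm_pow_mem A _ hinv P v hvm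
  -- total weight
  have h1 : ‖(A ^ P) v‖ ^ 2 ≤ ‖(A ^ P) (dl (1 : Perm ι))‖ ^ 2 := by
    have := norm_split A ⊤ (levSub ι (K + 1)) le_top hinv hinv' P (dl (1 : Perm ι))
    rw [Submodule.starProjection_top] at this
    simp only [ContinuousLinearMap.coe_id', id_eq] at this
    rw [this]
    have := sq_nonneg ‖(A ^ P) ((⊤ ⊓ (levSub ι (K + 1))ᗮ).starProjection (dl (1 : Perm ι)))‖
    linarith only [this]
  -- decay
  have hinvj : ∀ v ∈ levSub ι (K + 1), (A ^ j) v ∈ levSub ι (K + 1) :=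
    fun v hv => clm_pow_mem A _ hinv j v hv
  have hb : ∀ w ∈ levSub ι (K + 1),
      ‖(A ^ j) w‖ ^ 2 ≤ Real.exp (-(((K + 1 : ℕ) : ℝ) / 80)) * ‖w‖ ^ 2 := by
    intro w hw
    have e1 : ‖(A ^ j) w‖ ^ 2 ≤
        ‖NormedSpace.exp (-(1 / 40 : ℝ) • gen (regRep (Perm ι))) w‖ ^ 2 :=
      pow_le_pow_left₀ (norm_nonneg _) (hpass w) 2
    exact e1.trans (exp_bound (K + 1) (by omega) w hw)
  have h2 := clm_norm_pow_le (A ^ j) _ hinvj _ (Real.exp_pos _).le hb m₂ _ hP16
  have h3 : ‖(A ^ (s + (j * m₂ + P))) v‖ ^ 2 ≤ ‖((A ^ j) ^ m₂) ((A ^ P) v)‖ ^ 2 := by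
    have e1 : ((A ^ j) ^ m₂) ((A ^ P) v) = (A ^ (j * m₂ + P)) v := by
      rw [pow_add, ← pow_mul]; rfl
    rw [e1]
    exact pow_le_pow_left₀ (norm_nonneg _) (pow_add_norm_le μ hμ hsum s (j * m₂ + P) v) 2
  have hn0 : (3 : ℝ) ≤ n := by exact_mod_cast hn3
  calc (Fintype.card (Perm ι) : ℝ) * ‖(A ^ (s + (j * m₂ + P))) v‖ ^ 2
      ≤ (Fintype.card (Perm ι) : ℝ) *
        (Real.exp (-(((K + 1 : ℕ) : ℝ) / 80)) ^ m₂ * ‖(A ^ P) (dl (1 : Perm ι))‖ ^ 2) := by
        apply mul_le_mul_of_nonneg_left _ hcardG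
        refine h3.trans (h2.trans ?_)
        exact mul_le_mul_of_nonneg_left h1 (by positivity)
    _ = Real.exp (-(((K + 1 : ℕ) : ℝ) / 80)) ^ m₂ * ((Fintype.card (Perm ι) : ℝ) *
        ‖(A ^ P) (dl (1 : Perm ι))‖ ^ 2) := by ring
    _ ≤ Real.exp (-(((K + 1 : ℕ) : ℝ) / 80)) ^ m₂ * Real.exp (C * n) :=
        mul_le_mul_of_nonneg_left htotal (by positivity)
    _ ≤ Real.exp (-3) := by
        rw [← Real.exp_nat_mul, ← Real.exp_add]
        apply Real.exp_le_exp.2
        have hK2' : (n : ℝ) ≤ N₀ * ((K + 1 : ℕ) : ℝ) := by exact_mod_cast hK2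
        have hNpos : (0 : ℝ) < N₀ := by exact_mod_cast hN
        have e1 : (m₂ : ℝ) * (((K + 1 : ℕ) : ℝ) / 80) ≥ (C + 1) * n := by
          have e2 : (80 * N₀ * (C + 1)) * (((K + 1 : ℕ) : ℝ) / 80) ≤
              (m₂ : ℝ) * (((K + 1 : ℕ) : ℝ) / 80) :=
            mul_le_mul_of_nonneg_right hm₂ (by (clear * -; positivity))
          have e3 : (80 * N₀ * (C + 1)) * (((K + 1 : ℕ) : ℝ) / 80) =
              (C + 1) * (N₀ * ((K + 1 : ℕ) : ℝ)) := by ring
          have e4 : (C + 1) * (n : ℝ) ≤ (C + 1) * (N₀ * ((K + 1 : ℕ) : ℝ)) :=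
            mul_le_mul_of_nonneg_left hK2' (by linarith only [hC])
          linarith only [e2, e4]
        have e5 : (m₂ : ℝ) * -(((K + 1 : ℕ) : ℝ) / 80) = -((m₂ : ℝ) * (((K + 1 : ℕ) : ℝ) / 80)) := by
          ring
        rw [e5]
        linarith only [hn0, e1]
    _ ≤ 1 / 8 := by
        rw [Real.exp_neg, inv_eq_one_div]
        apply one_div_le_one_div_of_le (by norm_num)
        have h3 : (2 : ℝ) ≤ Real.exp 1 := by
          have := Real.add_one_le_exp (1 : ℝ)
          linarith only [this]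
        have h4 : Real.exp 3 = Real.exp 1 ^ 3 := by
          rw [← Real.exp_nat_mul]; norm_num
        rw [h4]
        calc (8 : ℝ) = 2 ^ 3 := by norm_num
          _ ≤ Real.exp 1 ^ 3 := pow_le_pow_left₀ (by norm_num) h3 3

/-- From the trace bound for the `2 ^ i`-th power and a pass bound for `j` steps to the total
variation distance after a constant number of steps. -/
theorem tv_of_trace_gen (i j : ℕ)
    (hnorm : ∀ (ι : Type) [Fintype ι] [DecidableEq ι] (μ : Perm ι → ℝ) (_ : ∀ g, 0 ≤ μ g)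
      (i k g : ℕ) (_ : 1 ≤ k) (_ : 1 ≤ g) (_ : 3 * (g * k) + k ≤ Fintype.card ι)
      (v : EuclideanSpace ℝ (Perm ι)) (_ : v ∈ exLev ι k),
      (g : ℝ) ^ k * ‖adjOp μ (regRep (Perm ι)) v‖ ^ (2 * 2 ^ i) ≤
        trk (convPow (symLaw μ) (2 ^ i)) (g * k) * ‖v‖ ^ (2 * 2 ^ i))
    (hweight : ∀ (ι : Type) [Fintype ι] [DecidableEq ι] (μ : Perm ι → ℝ) (_ : ∀ g, 0 ≤ μ g)
      (i k : ℕ) (_ : k ≤ Fintype.card ι), (Fintype.card (Perm ι) : ℝ) *
      ‖((adjOp μ (regRep (Perm ι))) ^ 2 ^ i) ((exLev ι k).starProjection (dl 1))‖ ^ 2 ≤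
      ((Fintype.card ι).choose k : ℝ) * trk (convPow (symLaw μ) (2 ^ i)) k)
    (htotal : ∀ (ι : Type) [Fintype ι] [DecidableEq ι] (μ : Perm ι → ℝ) (_ : ∀ g, 0 ≤ μ g)
      (i : ℕ), (Fintype.card (Perm ι) : ℝ) *
      ‖((adjOp μ (regRep (Perm ι))) ^ 2 ^ i) (dl 1)‖ ^ 2 ≤
      trk (convPow (symLaw μ) (2 ^ i)) (Fintype.card ι))
    (C : ℝ) (hC : 0 < C) (q : ℕ) (hq : 0 < q) : ∃ m n₀ : ℕ,
    ∀ (ι : Type) [Fintype ι] [DecidableEq ι] (μ : Perm ι → ℝ) (_ : ∀ g, 0 ≤ μ g)
      (_ : ∑ g, μ g = 1) (_ : n₀ ≤ Fintype.card ι)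
      (_ : ∀ v : EuclideanSpace ℝ (Perm ι), ‖(adjOp μ (regRep (Perm ι)) ^ j) v‖ ≤
        ‖NormedSpace.exp (-(1 / 40 : ℝ) • gen (regRep (Perm ι))) v‖)
      (_ : ∀ k h : ℕ, k * 2 ^ h ≤ Fintype.card ι → trk (convPow (symLaw μ) (2 ^ i)) k ≤
        Real.exp (C * k * (2 : ℝ) ^ (-((h : ℝ) / q)))),
      tvUnif (convPow μ m) ≤ 1 / 4 := by
  set P : ℕ := 2 ^ i with hPdef
  have hP : 0 < P := by positivity
  set C₂ : ℝ := Real.exp (1 + C + C * (2 * (q + 1))) * 2 ^ (2 * (q + 1)) with hC₂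
  have hC₂0 : 0 < C₂ := by positivity
  set N₀ : ℕ := ⌈8 * C₂⌉₊ + 16 with hN₀
  set m₂ : ℕ := ⌈80 * N₀ * (C + 1)⌉₊ with hm₂
  refine ⟨P * (2 * (q + 1)) + (j * m₂ + P), ⌈16 * C₂⌉₊ + 3, ?_⟩
  intro ι _ _ μ hμ hsum hn₀ hpass htr
  set n := Fintype.card ι with hn
  set A := adjOp μ (regRep (Perm ι)) with hA
  set M : ℕ := P * (2 * (q + 1)) + (j * m₂ + P) with hM
  set K : ℕ := n / N₀ with hK
  have hn3 : 3 ≤ n := by omega
  have hn16 : 16 * C₂ ≤ n := by
    calc 16 * C₂ ≤ (⌈16 * C₂⌉₊ : ℝ) := Nat.le_ceil _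
      _ ≤ n := by exact_mod_cast (by omega : ⌈16 * C₂⌉₊ ≤ n)
  have hn0 : (0 : ℝ) < n := by exact_mod_cast (by omega : 0 < n)
  have hNK : N₀ * K ≤ n := Nat.mul_div_le n N₀
  have hK16 : 16 * K ≤ n := by
    calc 16 * K ≤ N₀ * K := Nat.mul_le_mul_right _ (by omega)
      _ ≤ n := hNK
  have hCK : C₂ * K ≤ n / 8 := by
    have h8 : 8 * C₂ ≤ N₀ := by
      calc 8 * C₂ ≤ (⌈8 * C₂⌉₊ : ℝ) := Nat.le_ceil _
        _ ≤ N₀ := by rw [hN₀]; push_cast; linarith only []
    have h9 : (N₀ : ℝ) * K ≤ n := by exact_mod_cast hNK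
    have h10 : 8 * C₂ * K ≤ N₀ * K := mul_le_mul_of_nonneg_right h8 (Nat.cast_nonneg _)
    linarith only [h9, h10]
  have hcardG : (0 : ℝ) ≤ Fintype.card (Perm ι) := Nat.cast_nonneg _
  -- low levels
  have hlow : ∀ k ∈ Finset.range K, (Fintype.card (Perm ι) : ℝ) *
      ‖(A ^ M) ((exLev ι (k + 1)).starProjection (dl 1))‖ ^ 2 ≤
      (C₂ * ((k + 1 : ℕ) : ℝ) / n) ^ (k + 1) := by
    intro k hk
    rw [Finset.mem_range] at hk
    have e1 := low_term_gen P hP C hC q hq μ (fun k g h1 h2 h3 v hv =>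
        hnorm ι μ hμ i k g h1 h2 h3 v hv)
      (fun k hk => hweight ι μ hμ i k hk) htr (k + 1) (by omega) (by omega)
    refine le_trans ?_ e1
    apply mul_le_mul_of_nonneg_left _ hcardG
    apply pow_le_pow_left₀ (norm_nonneg _)
    have e2 : M = j * m₂ + (P * (2 * (q + 1)) + P) := by rw [hM]; ring
    rw [e2]
    exact pow_add_norm_le μ hμ hsum (j * m₂) _ _
  have hhigh := high_term_gen P C hC μ hμ hsum j hpass (by
      have e1 := htotal ι μ hμ i
      have e2 := htr n 0 (by simp only [hn, pow_zero, mul_one, Std.le_refl])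
      simp only [Nat.cast_zero, zero_div, neg_zero, Real.rpow_zero, mul_one] at e2
      exact e1.trans e2) N₀ m₂ K (P * (2 * (q + 1))) (by omega) (Nat.le_ceil _) hn3
      (by omega) (by
        have := Nat.lt_mul_div_succ n (show 0 < N₀ by omega)
        exact this.le)
  have htotal' : (Fintype.card (Perm ι) : ℝ) * ‖(A ^ M) (dl (1 : Perm ι) - un (Perm ι))‖ ^ 2 ≤
      1 / 4 := by
    rw [← proj_dl, level_sum μ M K, mul_add, Finset.mul_sum]
    have h1 := (Finset.sum_le_sum hlow).trans (sum_small C₂ n hC₂0 hn16 K hCK)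
    have h2 : (Fintype.card (Perm ι) : ℝ) *
        ‖(A ^ M) ((levSub ι (K + 1)).starProjection (dl 1))‖ ^ 2 ≤ 1 / 8 := hhigh
    linarith only [hhigh, h1]
  refine (tv_le μ hsum M).trans ?_
  have h7 : Real.sqrt ((Fintype.card (Perm ι) : ℝ)
      * ‖(A ^ M) (dl (1 : Perm ι) - un (Perm ι))‖ ^ 2) ≤ 1 / 2 := by
    rw [show (1 / 2 : ℝ) = Real.sqrt (1 / 4) by
      rw [show (1 / 4 : ℝ) = (1 / 2) ^ 2 by norm_num, Real.sqrt_sq (by norm_num)]]
    exact Real.sqrt_le_sqrt htotal'
  linarith only [h7]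

end Main

end Vale.Agent.P162.Lin
end
end
end

section

section

section

/-!
# Assembly of the O(log n) theorem
-/

namespace Vale.Agent.P162.Lin

open Equiv

section Conj

variable {G H : Type*} [Group G] [Fintype G] [DecidableEq G] [Group H] [Fintype H] [DecidableEq H]

theorem convPow_add' (q : G → ℝ) (s t : ℕ) (g : G) :
    convPow q (s + t) g = ∑ h : G, convPow q s h * convPow q t (h⁻¹ * g) := by
  induction s generalizing g with
  | zero =>
    simp only [Nat.zero_add, convPow]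
    rw [Finset.sum_eq_single (1 : G)]
    · simp
    · intro h _ hh
      simp [hh]
    · simp only [Finset.mem_univ, not_true_eq_false, ↓reduceIte, inv_one, one_mul, IsEmpty.forall_iff]
  | succ s ih =>
    have e1 : s + 1 + t = (s + t) + 1 := by ring
    rw [e1]
    have e2 : convPow q (s + t + 1) g = ∑ h : G, q h * convPow q (s + t) (h⁻¹ * g) := rfl
    have e3 : ∀ h, convPow q (s + 1) h = ∑ k : G, q k * convPow q s (k⁻¹ * h) := fun h => rfl
    rw [e2]
    simp only [ih, e3]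
    simp only [Finset.mul_sum, Finset.sum_mul]
    rw [Finset.sum_comm (s := (Finset.univ : Finset G)) (t := (Finset.univ : Finset G))
      (f := fun x i => q i * convPow q s (i⁻¹ * x) * convPow q t (x⁻¹ * g))]
    refine Finset.sum_congr rfl fun k _ => ?_
    rw [← Equiv.sum_comp (Equiv.mulLeft k)
      (fun x => q k * convPow q s (k⁻¹ * x) * convPow q t (x⁻¹ * g))]
    refine Finset.sum_congr rfl fun h _ => ?_
    simp only [coe_mulLeft, inv_mul_cancel_left, mul_inv_rev, mul_assoc]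

theorem convPow_mul' (q : G → ℝ) (s m : ℕ) :
    convPow (convPow q s) m = convPow q (s * m) := by
  induction m with
  | zero => rfl
  | succ m ih =>
    funext g
    have e1 : s * (m + 1) = s + s * m := by ring
    rw [e1, convPow_add' q s (s * m) g]
    have e2 : convPow (convPow q s) (m + 1) g =
      ∑ h : G, convPow q s h * convPow (convPow q s) m (h⁻¹ * g) := rfl
    rw [e2, ih]

theorem convPow_nonneg' (q : G → ℝ) (hq : ∀ g, 0 ≤ q g) (t : ℕ) (g : G) : 0 ≤ convPow q t g := by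
  induction t generalizing g with
  | zero => simp only [convPow]; split_ifs <;> norm_num
  | succ t ih =>
    simp only [convPow]
    exact Finset.sum_nonneg fun h _ => mul_nonneg (hq h) (ih _)

theorem convPow_sum' (q : G → ℝ) (hq : ∑ g, q g = 1) (t : ℕ) : ∑ g, convPow q t g = 1 := by
  induction t with
  | zero => simp only [convPow, Finset.sum_ite_eq', Finset.mem_univ, ↓reduceIte]
  | succ t ih =>
    simp only [convPow]
    rw [Finset.sum_comm]
    have : ∀ h : G, ∑ g : G, q h * convPow q t (h⁻¹ * g) = q h := by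
      intro h
      rw [← Finset.mul_sum, ← Equiv.sum_comp (Equiv.mulLeft h)]
      simp only [coe_mulLeft, inv_mul_cancel_left, ih, mul_one]
    simp only [this, hq]

theorem adjOp_convPow_rep {V : Type*} [NormedAddCommGroup V] [InnerProductSpace ℝ V]
    (q : G → ℝ) (ρ : G →* (V →L[ℝ] V)) (t : ℕ) :
    adjOp (convPow q t) ρ = (adjOp q ρ) ^ t := by
  induction t with
  | zero =>
    unfold adjOp
    simp only [convPow, pow_zero]
    rw [Finset.sum_eq_single (1 : G)]
    · simp only [↓reduceIte, inv_one, map_one, one_smul]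
    · intro g _ hg
      simp [hg]
    · simp only [Finset.mem_univ, not_true_eq_false, ↓reduceIte, inv_one, map_one, one_smul, IsEmpty.forall_iff]
  | succ t ih =>
    rw [pow_succ, ← ih]
    unfold adjOp
    have e1 : ∀ g, convPow q (t + 1) g = ∑ h : G, q h * convPow q t (h⁻¹ * g) := fun g => rfl
    simp only [e1, Finset.sum_smul]
    rw [Finset.sum_comm, Finset.sum_mul_sum, Finset.sum_comm]
    rw [Finset.sum_comm]
    rw [Finset.sum_comm (s := (Finset.univ : Finset G)) (t := (Finset.univ : Finset G))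
      (f := fun x y => (convPow q t x • ρ x⁻¹) * (q y • ρ y⁻¹))]
    refine Finset.sum_congr rfl fun h _ => ?_
    rw [← Equiv.sum_comp (Equiv.mulLeft h)]
    refine Finset.sum_congr rfl fun g _ => ?_
    simp only [Equiv.coe_mulLeft, inv_mul_cancel_left, mul_inv_rev, map_mul]
    rw [smul_mul_smul_comm, mul_comm (q h)]

end Conj

end Vale.Agent.P162.Lin
end
end
end

section

section

section

/-!
# Right translations and right averages on functions on `Perm ι`
-/

namespace Vale.Agent.P162.Lin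

open Equiv Finset
open scoped InnerProductSpace

section Avg

variable {ι : Type*} [Fintype ι] [DecidableEq ι]

/-- right translation -/
noncomputable def rt (g : Perm ι) :
    EuclideanSpace ℝ (Perm ι) →ₗ[ℝ] EuclideanSpace ℝ (Perm ι) where
  toFun f := WithLp.toLp 2 (fun σ => f (σ * g))
  map_add' := by intro f f'; ext σ; simp
  map_smul' := by intro c f; ext σ; simp

omit [Fintype ι] [DecidableEq ι] in
theorem rt_apply (g : Perm ι) (f : EuclideanSpace ℝ (Perm ι)) (σ : Perm ι) :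
    rt g f σ = f (σ * g) := rfl

omit [Fintype ι] [DecidableEq ι] in
theorem rt_mul (g h : Perm ι) (f : EuclideanSpace ℝ (Perm ι)) :
    rt (g * h) f = rt g (rt h f) := by
  ext σ
  simp only [rt_apply, mul_assoc]

omit [Fintype ι] [DecidableEq ι] in
theorem rt_one (f : EuclideanSpace ℝ (Perm ι)) : rt 1 f = f := by
  ext σ
  simp only [rt_apply, mul_one]

theorem rt_inner (g : Perm ι) (v w : EuclideanSpace ℝ (Perm ι)) :
    ⟪rt g v, w⟫_ℝ = ⟪v, rt g⁻¹ w⟫_ℝ := by
  simp only [PiLp.inner_apply, rt_apply]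
  rw [← Equiv.sum_comp (Equiv.mulRight g)
    (fun i : Perm ι => ⟪v.ofLp i, w.ofLp (i * g⁻¹)⟫_ℝ)]
  simp only [RCLike.inner_apply, Real.ringHom_apply, coe_mulRight, mul_inv_cancel_right]

theorem rt_norm (g : Perm ι) (v : EuclideanSpace ℝ (Perm ι)) : ‖rt g v‖ = ‖v‖ := by
  have h1 : ‖rt g v‖ ^ 2 = ‖v‖ ^ 2 := by
    rw [← real_inner_self_eq_norm_sq, ← real_inner_self_eq_norm_sq, rt_inner, ← rt_mul,
      inv_mul_cancel, rt_one]
  exact (sq_eq_sq₀ (norm_nonneg _) (norm_nonneg _)).1 h1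

theorem adjOp_rt (q : Perm ι → ℝ) (g : Perm ι) (f : EuclideanSpace ℝ (Perm ι)) :
    adjOp q (regRep (Perm ι)) (rt g f) = rt g (adjOp q (regRep (Perm ι)) f) := by
  ext σ
  rw [rt_apply, adjOp_regRep_apply, adjOp_regRep_apply]
  simp only [rt_apply, mul_assoc]

/-- pointwise stabilizer -/
def stab (S : Finset ι) : Finset (Perm ι) := univ.filter (fun η => ∀ c ∈ S, η c = c)

theorem mem_stab {S : Finset ι} {η : Perm ι} : η ∈ stab S ↔ ∀ c ∈ S, η c = c := by
  simp only [stab, mem_filter, mem_univ, true_and]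

theorem one_mem_stab (S : Finset ι) : (1 : Perm ι) ∈ stab S := by
  simp only [stab, mem_filter, mem_univ, Perm.coe_one, id_eq, implies_true, and_self]

theorem stab_card_pos (S : Finset ι) : (0 : ℝ) < ((stab S).card : ℝ) := by
  have : 0 < (stab S).card := Finset.card_pos.2 ⟨1, one_mem_stab S⟩
  exact_mod_cast this

theorem mul_mem_stab {S : Finset ι} {η τ : Perm ι} (hη : η ∈ stab S) (hτ : τ ∈ stab S) :
    η * τ ∈ stab S := by
  rw [mem_stab] at *
  intro c hc
  rw [Perm.mul_apply, hτ c hc, hη c hc]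

theorem inv_mem_stab {S : Finset ι} {η : Perm ι} (hη : η ∈ stab S) : η⁻¹ ∈ stab S := by
  rw [mem_stab] at *
  intro c hc
  rw [Perm.inv_eq_iff_eq, hη c hc]

theorem stab_anti {S U : Finset ι} (h : S ⊆ U) : stab U ⊆ stab S := by
  intro η hη
  rw [mem_stab] at *
  exact fun c hc => hη c (h hc)

theorem swap_mem_stab {S : Finset ι} {a b : ι} (ha : a ∉ S) (hb : b ∉ S) :
    swap a b ∈ stab S := by
  rw [mem_stab]
  intro c hc
  exact swap_apply_of_ne_of_ne (fun h => ha (h ▸ hc)) (fun h => hb (h ▸ hc))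

/-- right average over the pointwise stabilizer of `S` -/
noncomputable def eav (S : Finset ι) :
    EuclideanSpace ℝ (Perm ι) →ₗ[ℝ] EuclideanSpace ℝ (Perm ι) :=
  ((stab S).card : ℝ)⁻¹ • ∑ η ∈ stab S, rt η

theorem eav_eq (S : Finset ι) (f : EuclideanSpace ℝ (Perm ι)) :
    eav S f = ((stab S).card : ℝ)⁻¹ • ∑ η ∈ stab S, rt η f := by
  simp only [eav, LinearMap.smul_apply, LinearMap.coe_sum, Finset.sum_apply]

theorem eav_apply (S : Finset ι) (f : EuclideanSpace ℝ (Perm ι)) (σ : Perm ι) :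
    eav S f σ = ((stab S).card : ℝ)⁻¹ * ∑ η ∈ stab S, f (σ * η) := by
  rw [eav_eq]
  simp only [PiLp.smul_apply, WithLp.ofLp_sum, Finset.sum_apply, rt_apply, smul_eq_mul]

theorem eav_eq_avg (S : Finset ι) (f : EuclideanSpace ℝ (Perm ι)) (σ : Perm ι) :
    eav S f σ = ((stab S).card : ℝ)⁻¹ * avg S (fun g => f g) σ := by
  rw [eav_apply]
  unfold avg stab
  rw [Finset.sum_filter]

theorem rt_eav {S : Finset ι} {τ : Perm ι} (hτ : τ ∈ stab S) (f : EuclideanSpace ℝ (Perm ι)) :
    rt τ (eav S f) = eav S f := by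
  rw [eav_eq, map_smul, map_sum]
  congr 1
  refine Finset.sum_bij' (fun η _ => τ * η) (fun η _ => τ⁻¹ * η) ?_ ?_ ?_ ?_ ?_
  · intro η hη; exact mul_mem_stab hτ hη
  · intro η hη; exact mul_mem_stab (inv_mem_stab hτ) hη
  · intro η _; simp
  · intro η _; simp
  · intro η _; rw [rt_mul]

theorem eav_rt {S : Finset ι} {τ : Perm ι} (hτ : τ ∈ stab S) (f : EuclideanSpace ℝ (Perm ι)) :
    eav S (rt τ f) = eav S f := by
  rw [eav_eq, eav_eq]
  congr 1
  refine Finset.sum_bij' (fun η _ => η * τ) (fun η _ => η * τ⁻¹) ?_ ?_ ?_ ?_ ?_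
  · intro η hη; exact mul_mem_stab hη hτ
  · intro η hη; exact mul_mem_stab hη (inv_mem_stab hτ)
  · intro η _; simp
  · intro η _; simp
  · intro η _; rw [rt_mul]

theorem eav_of_inv {S : Finset ι} {f : EuclideanSpace ℝ (Perm ι)}
    (h : ∀ τ ∈ stab S, rt τ f = f) : eav S f = f := by
  rw [eav_eq, Finset.sum_congr rfl h, Finset.sum_const, ← Nat.cast_smul_eq_nsmul ℝ, smul_smul,
    inv_mul_cancel₀ (stab_card_pos S).ne', one_smul]

theorem eav_eav {S U : Finset ι} (h : S ⊆ U) (f : EuclideanSpace ℝ (Perm ι)) :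
    eav U (eav S f) = eav S f :=
  eav_of_inv fun _ hτ => rt_eav (stab_anti h hτ) f

theorem eav_eav' {S U : Finset ι} (h : S ⊆ U) (f : EuclideanSpace ℝ (Perm ι)) :
    eav S (eav U f) = eav S f := by
  rw [eav_eq U, map_smul, map_sum]
  rw [Finset.sum_congr rfl (fun η hη => eav_rt (stab_anti h hη) f), Finset.sum_const,
    ← Nat.cast_smul_eq_nsmul ℝ, smul_smul, inv_mul_cancel₀ (stab_card_pos U).ne', one_smul]

theorem eav_idem (S : Finset ι) (f : EuclideanSpace ℝ (Perm ι)) :
    eav S (eav S f) = eav S f := eav_eav (subset_refl S) f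

theorem rt_eav_map (g : Perm ι) (S : Finset ι) (f : EuclideanSpace ℝ (Perm ι)) :
    rt g (eav S f) = eav (S.map g.toEmbedding) (rt g f) := by
  rw [eav_eq, eav_eq, map_smul, map_sum]
  have h1 : ∀ η, η ∈ stab S → g * η * g⁻¹ ∈ stab (S.map g.toEmbedding) := by
    intro η hη
    rw [mem_stab] at *
    intro c hc
    rw [Finset.mem_map] at hc
    obtain ⟨a, ha, rfl⟩ := hc
    simp only [Function.Embedding.coeFn_mk, Perm.coe_mul, Perm.coe_inv, Function.comp_apply, symm_apply_apply, hη a ha]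
  have h2 : ∀ η, η ∈ stab (S.map g.toEmbedding) → g⁻¹ * η * g ∈ stab S := by
    intro η hη
    rw [mem_stab] at *
    intro c hc
    have := hη (g c) (Finset.mem_map.2 ⟨c, hc, rfl⟩)
    simp only [Perm.coe_mul, Perm.coe_inv, Function.comp_apply, this, symm_apply_apply]
  have hs : ∑ x ∈ stab S, rt g (rt x f) = ∑ η ∈ stab (S.map g.toEmbedding), rt η (rt g f) := by
    refine Finset.sum_bij' (fun η _ => g * η * g⁻¹) (fun η _ => g⁻¹ * η * g) h1 h2 ?_ ?_ ?_
    · intro η _; simp only [mul_assoc, inv_mul_cancel_left, inv_mul_cancel, mul_one]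
    · intro η _; simp only [mul_assoc, mul_inv_cancel_left, mul_inv_cancel, mul_one]
    · intro η _
      rw [← rt_mul, ← rt_mul]
      congr 1
      simp
  have hc : (stab S).card = (stab (S.map g.toEmbedding)).card := by
    refine Finset.card_bij' (fun η _ => g * η * g⁻¹) (fun η _ => g⁻¹ * η * g) h1 h2 ?_ ?_
    · intro η _; simp [mul_assoc]
    · intro η _; simp [mul_assoc]
  rw [hs, hc]

theorem eav_inner (S : Finset ι) (v w : EuclideanSpace ℝ (Perm ι)) :
    ⟪eav S v, w⟫_ℝ = ⟪v, eav S w⟫_ℝ := by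
  rw [eav_eq, eav_eq, real_inner_smul_left, real_inner_smul_right, sum_inner, inner_sum]
  congr 1
  refine Finset.sum_bij' (fun η _ => η⁻¹) (fun η _ => η⁻¹) ?_ ?_ ?_ ?_ ?_
  · intro η hη; exact inv_mem_stab hη
  · intro η hη; exact inv_mem_stab hη
  · intro η _; simp
  · intro η _; simp
  · intro η _; rw [rt_inner]

theorem eav_norm_sq (S : Finset ι) (v : EuclideanSpace ℝ (Perm ι)) :
    ‖eav S v‖ ^ 2 = ⟪v, eav S v⟫_ℝ := by
  rw [← real_inner_self_eq_norm_sq, eav_inner, eav_idem]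

theorem eav_norm_le (S : Finset ι) (v : EuclideanSpace ℝ (Perm ι)) : ‖eav S v‖ ≤ ‖v‖ := by
  have h1 := eav_norm_sq S v
  have h2 := real_inner_le_norm v (eav S v)
  rw [← h1] at h2
  by_contra h
  push Not at h
  have h3 : 0 < ‖eav S v‖ := lt_of_le_of_lt (norm_nonneg _) h
  nlinarith only [h2, h, h3]

theorem adjOp_eav (q : Perm ι → ℝ) (S : Finset ι) (f : EuclideanSpace ℝ (Perm ι)) :
    adjOp q (regRep (Perm ι)) (eav S f) = eav S (adjOp q (regRep (Perm ι)) f) := by
  rw [eav_eq, eav_eq, map_smul, map_sum]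
  congr 1
  exact Finset.sum_congr rfl fun η _ => adjOp_rt q η f

theorem mem_levSub_iff (k : ℕ) (f : EuclideanSpace ℝ (Perm ι)) :
    f ∈ levSub ι k ↔ ∀ S : Finset ι, S.card < k → eav S f = 0 := by
  rw [mem_levSub]
  unfold LevelOrth
  refine forall₂_congr fun S _ => ?_
  constructor
  · intro h
    ext σ
    rw [eav_eq_avg, avg_eq_sum, h σ]
    simp
  · intro h σ
    have h1 : eav S f σ = 0 := by rw [h]; rfl
    rw [eav_eq_avg, avg_eq_sum] at h1
    rcases mul_eq_zero.1 h1 with h2 | h2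
    · exact absurd h2 (inv_ne_zero (stab_card_pos S).ne')
    · exact h2

theorem levSub_rt (k : ℕ) (g : Perm ι) {f : EuclideanSpace ℝ (Perm ι)} (hf : f ∈ levSub ι k) :
    rt g f ∈ levSub ι k := by
  rw [mem_levSub_iff] at *
  intro S hS
  have h1 : S = (S.map (g⁻¹ : Perm ι).toEmbedding).map g.toEmbedding := by
    rw [Finset.map_map]
    ext x
    simp
  rw [h1, ← rt_eav_map, hf, map_zero]
  simpa using hS

/-- a subspace invariant under right translations has an invariant orthogonal complement -/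
theorem orth_rt (W : Submodule ℝ (EuclideanSpace ℝ (Perm ι)))
    (hW : ∀ g : Perm ι, ∀ v ∈ W, rt g v ∈ W) : ∀ g : Perm ι, ∀ v ∈ Wᗮ, rt g v ∈ Wᗮ := by
  intro g v hv
  rw [Submodule.mem_orthogonal] at hv ⊢
  intro u hu
  rw [real_inner_comm, rt_inner, real_inner_comm]
  exact hv _ (hW _ _ hu)

theorem eav_mem (W : Submodule ℝ (EuclideanSpace ℝ (Perm ι)))
    (hW : ∀ g : Perm ι, ∀ v ∈ W, rt g v ∈ W) (S : Finset ι) : ∀ v ∈ W, eav S v ∈ W := by
  intro v hv
  rw [eav_eq]
  exact W.smul_mem _ (W.sum_mem fun η _ => hW _ _ hv)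

theorem starProjection_eav (K : Submodule ℝ (EuclideanSpace ℝ (Perm ι)))
    (hK : ∀ g : Perm ι, ∀ v ∈ K, rt g v ∈ K) (S : Finset ι) (v : EuclideanSpace ℝ (Perm ι)) :
    K.starProjection (eav S v) = eav S (K.starProjection v) := by
  apply Submodule.eq_starProjection_of_mem_orthogonal
  · exact eav_mem K hK S _ (Submodule.starProjection_apply_mem K v)
  · rw [← map_sub]
    exact eav_mem _ (orth_rt K hK) S _ (Submodule.sub_starProjection_mem_orthogonal v)

theorem starProjection_adjOp (K : Submodule ℝ (EuclideanSpace ℝ (Perm ι)))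
    (hK : ∀ g : Perm ι, ∀ v ∈ K, regRep (Perm ι) g v ∈ K) (q : Perm ι → ℝ)
    (v : EuclideanSpace ℝ (Perm ι)) :
    K.starProjection (adjOp q (regRep (Perm ι)) v)
      = adjOp q (regRep (Perm ι)) (K.starProjection v) := by
  apply Submodule.eq_starProjection_of_mem_orthogonal
  · exact adjOp_mem q K hK _ (Submodule.starProjection_apply_mem K v)
  · rw [← map_sub]
    exact adjOp_mem q _ (orth_inv K hK) _ (Submodule.sub_starProjection_mem_orthogonal v)

end Avg

/-- minimization of the Rayleigh quotient on an invariant subspace -/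
theorem exists_eigen_min_sub {E : Type*} [NormedAddCommGroup E] [InnerProductSpace ℝ E]
    [FiniteDimensional ℝ E] (T : E →ₗ[ℝ] E) (hT : ∀ u v, ⟪T u, v⟫_ℝ = ⟪u, T v⟫_ℝ)
    (M : Submodule ℝ E) (hM : ∀ v ∈ M, T v ∈ M) {f : E} (hfM : f ∈ M) (hf : f ≠ 0) :
    ∃ e ∈ M, e ≠ 0 ∧ ∃ c : ℝ, T e = c • e ∧ c * ‖f‖ ^ 2 ≤ ⟪f, T f⟫_ℝ := by
  let T2 : M →ₗ[ℝ] M := T.restrict hM
  have hsym : T2.IsSymmetric := by
    rintro ⟨u, hu⟩ ⟨v, hv⟩
    change ⟪T u, v⟫_ℝ = ⟪u, T v⟫_ℝ
    exact hT u v
  let f' : M := ⟨f, hfM⟩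
  have hf' : f' ≠ 0 := fun h => hf (congrArg Subtype.val h)
  have : Nontrivial M := ⟨f', 0, hf'⟩
  have hev := hsym.hasEigenvalue_iInf_of_finiteDimensional
  set μ : ℝ := ⨅ x : {x : M // x ≠ 0}, RCLike.re (inner ℝ (T2 x) (x : M)) / ‖(x : M)‖ ^ 2
    with hμ
  obtain ⟨e, he'⟩ := hev.exists_hasEigenvector
  have hTe : T2 e = μ • e := he'.apply_eq_smul
  refine ⟨e, e.2, ?_, μ, ?_, ?_⟩
  · intro h
    exact he'.2 (Subtype.ext h)
  · exact congrArg Subtype.val hTe
  · have hbdd : BddBelow (Set.range fun x : {x : M // x ≠ 0} =>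
        RCLike.re (inner ℝ (T2 x) (x : M)) / ‖(x : M)‖ ^ 2) := by
      refine ⟨-‖LinearMap.toContinuousLinearMap T2‖, ?_⟩
      rintro _ ⟨x, rfl⟩
      have hx : 0 < ‖(x : M)‖ := norm_pos_iff.2 x.2
      have h2 : ‖T2 x‖ ≤ ‖LinearMap.toContinuousLinearMap T2‖ * ‖(x : M)‖ :=
        (LinearMap.toContinuousLinearMap T2).le_opNorm x
      have h3 := abs_real_inner_le_norm (T2 x) (x : M)
      have h4 : -(‖LinearMap.toContinuousLinearMap T2‖ * ‖(x : M)‖ * ‖(x : M)‖) ≤
          inner ℝ (T2 x) (x : M) := by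
        have h5 := (abs_le.1 h3).1
        have h6 : ‖T2 x‖ * ‖(x : M)‖ ≤
          ‖LinearMap.toContinuousLinearMap T2‖ * ‖(x : M)‖ * ‖(x : M)‖ := by gcongr
        (clear hT hsym μ hev hμ e he' hTe; linarith only [h5, h6])
      change -‖LinearMap.toContinuousLinearMap T2‖ ≤ inner ℝ (T2 x) (x : M) / ‖(x : M)‖ ^ 2
      rw [le_div_iff₀ (by (clear * - hx; positivity))]
      linarith only [h4]
    have h7 : μ ≤ inner ℝ (T2 f') f' / ‖f'‖ ^ 2 := ciInf_le hbdd ⟨f', hf'⟩
    have h8 : inner ℝ (T2 f') f' = ⟪f, T f⟫_ℝ := hT f f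
    have h9 : ‖f'‖ = ‖f‖ := rfl
    have h10 : 0 < ‖f‖ ^ 2 := pow_pos (norm_pos_iff.2 hf) 2
    rw [h8, h9] at h7
    rwa [le_div_iff₀ h10] at h7

end Vale.Agent.P162.Lin
end
end
end

section

section

section

/-!
# Weights of the exact levels after `2 ^ i` passes
-/

namespace Vale.Agent.P162.Lin

open Equiv Finset
open scoped InnerProductSpace

section Count

variable {ι : Type*} [Fintype ι] [DecidableEq ι]

/-- permutations with prescribed values on `U` -/
theorem card_fiber (U : Finset ι) (x : U ↪ ι) :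
    (univ.filter (fun σ : Perm ι => ∀ c : U, σ c = x c)).card = (stab U).card := by
  obtain ⟨σ₀, hσ₀⟩ := Equiv.Perm.exists_extending_pair (fun c : U => (c : ι)) x
    Subtype.val_injective x.injective
  refine Finset.card_bij' (fun σ _ => σ₀⁻¹ * σ) (fun η _ => σ₀ * η) ?_ ?_ ?_ ?_
  · intro σ hσ
    rw [mem_filter] at hσ
    rw [mem_stab]
    intro c hc
    have h1 := hσ.2 ⟨c, hc⟩
    have h2 := hσ₀ ⟨c, hc⟩
    rw [Perm.mul_apply, Perm.inv_eq_iff_eq]
    rw [h1, ← h2]
  · intro η hη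
    rw [mem_filter]
    rw [mem_stab] at hη
    refine ⟨mem_univ _, fun c => ?_⟩
    rw [Perm.mul_apply, hη c c.2]
    exact hσ₀ c
  · intro σ _; simp
  · intro η _; simp

/-- permutations mapping `U` into `F` -/
theorem card_perm_map (U F : Finset ι) :
    (univ.filter (fun σ : Perm ι => ∀ c ∈ U, σ c ∈ F)).card
      = F.card.descFactorial U.card * (stab U).card := by
  have hmap : ∀ σ ∈ univ.filter (fun σ : Perm ι => ∀ c ∈ U, σ c ∈ F),
      (Function.Embedding.subtype (· ∈ U)).trans σ.toEmbedding ∈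
        univ.filter (fun x : U ↪ ι => ∀ i, x i ∈ F) := by
    intro σ hσ
    rw [mem_filter] at *
    exact ⟨mem_univ _, fun i => hσ.2 i i.2⟩
  rw [Finset.card_eq_sum_card_fiberwise hmap]
  have h1 : ∀ x ∈ univ.filter (fun x : U ↪ ι => ∀ i, x i ∈ F),
      ((univ.filter (fun σ : Perm ι => ∀ c ∈ U, σ c ∈ F)).filter
        (fun σ => (Function.Embedding.subtype (· ∈ U)).trans σ.toEmbedding = x)).card
        = (stab U).card := by
    intro x hx
    rw [← card_fiber U x]
    congr 1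
    ext σ
    simp only [mem_filter, mem_univ, true_and] at hx ⊢
    constructor
    · rintro ⟨_, rfl⟩ c
      rfl
    · intro h
      refine ⟨fun c hc => ?_, ?_⟩
      · have := h ⟨c, hc⟩
        simp only at this
        rw [this]
        exact hx _
      · ext c
        exact h c
  rw [Finset.sum_congr rfl h1, Finset.sum_const, smul_eq_mul, card_emb, Fintype.card_coe]

theorem stab_card_mul (U : Finset ι) :
    (Fintype.card ι).descFactorial U.card * (stab U).card = Fintype.card (Perm ι) := by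
  have h := card_perm_map U (univ : Finset ι)
  rw [Finset.card_univ] at h
  rw [← h]
  simp only [mem_univ, implies_true, filter_true, card_univ]

end Count

section Weight

variable {ι : Type*} [Fintype ι] [DecidableEq ι]

theorem sum_mul_rt_symLaw (p : Perm ι → ℝ) (F : EuclideanSpace ℝ (Perm ι))
    (hF : ∀ σ, F σ = p σ⁻¹) (η : Perm ι) : ⟪F, rt η F⟫_ℝ = symLaw p η := by
  rw [PiLp.inner_apply]
  unfold symLaw
  rw [← Equiv.sum_comp (Equiv.inv (Perm ι))]
  rw [← Equiv.sum_comp (Equiv.mulLeft η)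
    (fun i : Perm ι => ⟪F.ofLp ((Equiv.inv (Perm ι)) i), (rt η F).ofLp ((Equiv.inv (Perm ι)) i)⟫_ℝ)]
  refine Finset.sum_congr rfl fun h _ => ?_
  have h1 : (rt η F).ofLp ((Equiv.inv (Perm ι)) ((Equiv.mulLeft η) h))
      = F (((Equiv.inv (Perm ι)) ((Equiv.mulLeft η) h)) * η) := rfl
  rw [h1, hF, hF]
  simp [mul_comm]

theorem eav_sq_symLaw (p : Perm ι → ℝ) (F : EuclideanSpace ℝ (Perm ι))
    (hF : ∀ σ, F σ = p σ⁻¹) (S : Finset ι) :
    ‖eav S F‖ ^ 2 = ((stab S).card : ℝ)⁻¹ * ∑ η ∈ stab S, symLaw p η := by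
  rw [eav_norm_sq, eav_eq, real_inner_smul_right, inner_sum]
  congr 1
  exact Finset.sum_congr rfl fun η _ => sum_mul_rt_symLaw p F hF η

theorem sum_eav_sq (p : Perm ι → ℝ) (F : EuclideanSpace ℝ (Perm ι))
    (hF : ∀ σ, F σ = p σ⁻¹) (k : ℕ) :
    (Fintype.card (Perm ι) : ℝ) * ∑ S ∈ powersetCard k (univ : Finset ι), ‖eav S F‖ ^ 2
      = ((Fintype.card ι).choose k : ℝ) * trk (symLaw p) k := by
  have h1 : ∀ S ∈ powersetCard k (univ : Finset ι),
      (Fintype.card (Perm ι) : ℝ) * ‖eav S F‖ ^ 2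
        = ((Fintype.card ι).descFactorial k : ℝ) * ∑ η : Perm ι,
            (if S ⊆ univ.filter (fun c => η c = c) then symLaw p η else 0) := by
    intro S hS
    rw [mem_powersetCard] at hS
    rw [eav_sq_symLaw p F hF, ← stab_card_mul S, hS.2]
    have h2 := (stab_card_pos S).ne'
    push_cast
    have h3 : ∑ η ∈ stab S, symLaw p η
        = ∑ η : Perm ι, (if S ⊆ univ.filter (fun c => η c = c) then symLaw p η else 0) := by
      unfold stab
      rw [Finset.sum_filter]
      refine Finset.sum_congr rfl fun η _ => ?_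
      have : (∀ c ∈ S, η c = c) ↔ S ⊆ univ.filter (fun c => η c = c) := by
        constructor
        · intro h c hc
          simp only [mem_filter, mem_univ, h c hc, and_self]
        · intro h c hc
          exact (mem_filter.1 (h hc)).2
      by_cases h4 : ∀ c ∈ S, η c = c
      · rw [if_pos h4, if_pos (this.1 h4)]
      · rw [if_neg h4, if_neg fun h5 => h4 (this.2 h5)]
    rw [← h3]
    field_simp
  rw [Finset.mul_sum, Finset.sum_congr rfl h1, ← Finset.mul_sum, Finset.sum_comm]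
  unfold trk
  rw [Finset.mul_sum, Finset.mul_sum]
  refine Finset.sum_congr rfl fun η _ => ?_
  set Fx := univ.filter (fun c => η c = c) with hFx
  have h5 : ∑ S ∈ powersetCard k (univ : Finset ι), (if S ⊆ Fx then symLaw p η else 0)
      = (Fx.card.choose k : ℝ) * symLaw p η := by
    rw [← Finset.sum_filter, Finset.sum_const, nsmul_eq_mul]
    congr 2
    rw [← card_powersetCard]
    congr 1
    ext S
    simp only [mem_filter, mem_powersetCard, subset_univ, true_and]
    exact and_comm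
  rw [h5, Nat.descFactorial_eq_factorial_mul_choose, Nat.descFactorial_eq_factorial_mul_choose]
  push_cast
  ring

/-- Functions of the positions of `k` cards are controlled by their averages. -/
theorem norm_sq_le_sum_eav (k : ℕ) (hk : k ≤ Fintype.card ι) (f : EuclideanSpace ℝ (Perm ι))
    (hf : f ∈ (levSub ι (k + 1))ᗮ) :
    ‖f‖ ^ 2 ≤ ∑ S ∈ powersetCard k (univ : Finset ι), ‖eav S f‖ ^ 2 := by
  by_cases hf0 : f = 0
  · subst hf0
    simp only [map_zero, norm_zero]
    simp only [ne_eq, OfNat.ofNat_ne_zero, not_false_eq_true, zero_pow, sum_const_zero, Std.le_refl]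
  let T : EuclideanSpace ℝ (Perm ι) →ₗ[ℝ] EuclideanSpace ℝ (Perm ι) :=
    ∑ S ∈ powersetCard k (univ : Finset ι), eav S
  have hTa : ∀ v, T v = ∑ S ∈ powersetCard k (univ : Finset ι), eav S v := by
    intro v
    simp only [LinearMap.coe_sum, Finset.sum_apply, T]
  have hTin : ∀ v, ⟪v, T v⟫_ℝ = ∑ S ∈ powersetCard k (univ : Finset ι), ‖eav S v‖ ^ 2 := by
    intro v
    rw [hTa, inner_sum]
    exact Finset.sum_congr rfl fun S _ => (eav_norm_sq S v).symm
  have hTs : ∀ u v, ⟪T u, v⟫_ℝ = ⟪u, T v⟫_ℝ := by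
    intro u v
    rw [hTa, hTa, sum_inner, inner_sum]
    exact Finset.sum_congr rfl fun S _ => eav_inner S u v
  have hWrt : ∀ g : Perm ι, ∀ v ∈ (levSub ι (k + 1))ᗮ, rt g v ∈ (levSub ι (k + 1))ᗮ :=
    orth_rt _ fun g v hv => levSub_rt (k + 1) g hv
  have hM : ∀ v ∈ (levSub ι (k + 1))ᗮ, T v ∈ (levSub ι (k + 1))ᗮ := by
    intro v hv
    rw [hTa]
    exact Submodule.sum_mem _ fun S _ => eav_mem _ hWrt S v hv
  obtain ⟨e, heM, he0, c, hTe, hc⟩ := exists_eigen_min_sub T hTs _ hM hf hf0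
  have hTrt : ∀ (g : Perm ι) (v), T (rt g v) = rt g (T v) := by
    intro g v
    rw [hTa, hTa, map_sum]
    symm
    refine Finset.sum_bij' (fun S _ => S.map g.toEmbedding)
      (fun S _ => S.map (g⁻¹ : Perm ι).toEmbedding) ?_ ?_ ?_ ?_ ?_
    · intro S hS
      rw [mem_powersetCard] at *
      exact ⟨subset_univ _, by rw [card_map]; exact hS.2⟩
    · intro S hS
      rw [mem_powersetCard] at *
      exact ⟨subset_univ _, by rw [card_map]; exact hS.2⟩
    · intro S _
      rw [Finset.map_map]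
      ext x
      simp
    · intro S _
      rw [Finset.map_map]
      ext x
      simp
    · intro S _
      exact rt_eav_map g S v
  have hTeav : ∀ S v, T (eav S v) = eav S (T v) := by
    intro S v
    rw [eav_eq, eav_eq, map_smul, map_sum]
    congr 1
    exact Finset.sum_congr rfl fun η _ => hTrt η v
  -- some average of `e` does not vanish
  obtain ⟨S, hScard, hS⟩ : ∃ S : Finset ι, S.card = k ∧ eav S e ≠ 0 := by
    by_contra hcon
    push Not at hcon
    have he1 : e ∈ levSub ι (k + 1) := by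
      rw [mem_levSub_iff]
      intro S hS
      obtain ⟨U, hSU, _, hU⟩ := Finset.exists_subsuperset_card_eq (subset_univ S)
        (by omega : S.card ≤ k) (by rwa [card_univ])
      rw [← eav_eav' hSU, hcon U hU, map_zero]
    have h1 : ⟪e, e⟫_ℝ = 0 := (Submodule.mem_orthogonal _ _).1 heM e he1
    exact he0 (inner_self_eq_zero.1 h1)
  have hg1 : T (eav S e) = c • eav S e := by
    rw [hTeav, hTe, map_smul]
  have hg2 : ⟪eav S e, T (eav S e)⟫_ℝ = c * ‖eav S e‖ ^ 2 := by
    rw [hg1, real_inner_smul_right, real_inner_self_eq_norm_sq]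
  have hg3 : ‖eav S e‖ ^ 2 ≤ ⟪eav S e, T (eav S e)⟫_ℝ := by
    rw [hTin]
    have h1 : S ∈ powersetCard k (univ : Finset ι) := by
      rw [mem_powersetCard]
      exact ⟨subset_univ _, hScard⟩
    refine le_trans ?_ (Finset.single_le_sum (f := fun U => ‖eav U (eav S e)‖ ^ 2)
      (fun U _ => sq_nonneg _) h1)
    rw [eav_idem]
  have hc1 : 1 ≤ c := by
    rw [hg2] at hg3
    have h1 : 0 < ‖eav S e‖ ^ 2 := pow_pos (norm_pos_iff.2 hS) 2
    by_contra h
    push Not at h
    nlinarith only [hg3, h1, h]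
  rw [← hTin]
  refine le_trans ?_ hc
  have h1 : 0 ≤ ‖f‖ ^ 2 := sq_nonneg _
  nlinarith only [hc1]

end Weight

section Main

variable {ι : Type} [Fintype ι] [DecidableEq ι]

theorem exLev_rt (k : ℕ) (g : Perm ι) {v : EuclideanSpace ℝ (Perm ι)} (hv : v ∈ exLev ι k) :
    rt g v ∈ exLev ι k :=
  ⟨levSub_rt k g hv.1, orth_rt _ (fun g _ hv => levSub_rt (k + 1) g hv) g _ hv.2⟩

theorem exLev_invF (k : ℕ) (g : Perm ι) {v : EuclideanSpace ℝ (Perm ι)} (hv : v ∈ exLev ι k) :
    regRep (Perm ι) g v ∈ exLev ι k :=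
  ⟨levSub_inv k g _ hv.1, orth_inv _ (levSub_inv (k + 1)) g _ hv.2⟩

theorem exLev_proj_pow (μ : Perm ι → ℝ) (k m : ℕ) (v : EuclideanSpace ℝ (Perm ι)) :
    ((adjOp μ (regRep (Perm ι))) ^ m) ((exLev ι k).starProjection v)
      = (exLev ι k).starProjection (((adjOp μ (regRep (Perm ι))) ^ m) v) := by
  induction m with
  | zero => simp only [pow_zero, one_apply_eq_self]
  | succ m ih =>
    have e : ∀ w, ((adjOp μ (regRep (Perm ι))) ^ (m + 1)) w
        = adjOp μ (regRep (Perm ι)) (((adjOp μ (regRep (Perm ι))) ^ m) w) := by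
      intro w
      rw [pow_succ']; rfl
    rw [e, e, ih, starProjection_adjOp _ (fun g v hv => exLev_invF k g hv)]

/-- N9F (weight of level `k` after `2 ^ i` passes). -/
theorem weight_level (μ : Perm ι → ℝ) (hμ : ∀ g, 0 ≤ μ g) (i k : ℕ)
    (hk : k ≤ Fintype.card ι) :
    (Fintype.card (Perm ι) : ℝ) *
      ‖((adjOp μ (regRep (Perm ι))) ^ 2 ^ i) ((exLev ι k).starProjection (dl 1))‖ ^ 2 ≤
      ((Fintype.card ι).choose k : ℝ) * trk (convPow (symLaw μ) (2 ^ i)) k := by
  set F := ((adjOp μ (regRep (Perm ι))) ^ 2 ^ i) (dl (1 : Perm ι)) with hF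
  have hFp : ∀ σ, F σ = convPow μ (2 ^ i) σ⁻¹ := fun σ => adjOp_pow_dl μ (2 ^ i) σ
  rw [exLev_proj_pow, ← hF]
  have h1 : (exLev ι k).starProjection F ∈ (levSub ι (k + 1))ᗮ :=
    (Submodule.starProjection_apply_mem (exLev ι k) F).2
  have h2 := norm_sq_le_sum_eav k hk _ h1
  have h3 : ∑ S ∈ powersetCard k (univ : Finset ι), ‖eav S ((exLev ι k).starProjection F)‖ ^ 2
      ≤ ∑ S ∈ powersetCard k (univ : Finset ι), ‖eav S F‖ ^ 2 := by
    refine Finset.sum_le_sum fun S _ => ?_
    rw [← starProjection_eav _ (fun g v hv => exLev_rt k g hv)]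
    exact pow_le_pow_left₀ (norm_nonneg _) (Submodule.norm_starProjection_apply_le _ _) 2
  have hG : (0 : ℝ) ≤ Fintype.card (Perm ι) := Nat.cast_nonneg _
  calc (Fintype.card (Perm ι) : ℝ) * ‖(exLev ι k).starProjection F‖ ^ 2
      ≤ (Fintype.card (Perm ι) : ℝ) *
          ∑ S ∈ powersetCard k (univ : Finset ι), ‖eav S F‖ ^ 2 :=
        mul_le_mul_of_nonneg_left (h2.trans h3) hG
    _ = ((Fintype.card ι).choose k : ℝ) * trk (symLaw (convPow μ (2 ^ i))) k :=
        sum_eav_sq _ F hFp k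
    _ ≤ ((Fintype.card ι).choose k : ℝ) * trk (convPow (symLaw μ) (2 ^ i)) k :=
        mul_le_mul_of_nonneg_left (trk_pow_le μ i k) (Nat.cast_nonneg _)

/-- N9T (total weight). -/
theorem weight_total (μ : Perm ι → ℝ) (hμ : ∀ g, 0 ≤ μ g) (i : ℕ) :
    (Fintype.card (Perm ι) : ℝ) * ‖((adjOp μ (regRep (Perm ι))) ^ 2 ^ i) (dl 1)‖ ^ 2 ≤
      trk (convPow (symLaw μ) (2 ^ i)) (Fintype.card ι) := by
  set F := ((adjOp μ (regRep (Perm ι))) ^ 2 ^ i) (dl (1 : Perm ι)) with hF
  have hFp : ∀ σ, F σ = convPow μ (2 ^ i) σ⁻¹ := fun σ => adjOp_pow_dl μ (2 ^ i) σ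
  have h1 : ∑ S ∈ powersetCard (Fintype.card ι) (univ : Finset ι), ‖eav S F‖ ^ 2 = ‖F‖ ^ 2 := by
    rw [← card_univ, powersetCard_self, Finset.sum_singleton]
    congr 2
    apply eav_of_inv
    intro τ hτ
    have : τ = 1 := by
      ext c
      exact mem_stab.1 hτ c (mem_univ c)
    rw [this, rt_one]
  have h2 := sum_eav_sq _ F hFp (Fintype.card ι)
  rw [h1, Nat.choose_self, Nat.cast_one, one_mul] at h2
  rw [h2]
  exact trk_pow_le μ i _

end Main

end Vale.Agent.P162.Lin
end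
end
end

section

section

section

/-!
# Averages of the functions of level `k`
-/

namespace Vale.Agent.P162.Lin

open Equiv Finset
open scoped InnerProductSpace

section Gram

variable {ι : Type*} [Fintype ι] [DecidableEq ι]

/-- harmonicity -/
theorem harmonic (k : ℕ) (u : EuclideanSpace ℝ (Perm ι)) (hu : u ∈ levSub ι k) (S : Finset ι)
    (hS : S.card = k) (hSu : eav S u = u) (s : ι) (hs : s ∈ S) :
    ∑ c ∈ (S.erase s)ᶜ, rt (swap s c) u = 0 := by
  ext g
  have h1 := sum_avg_swap (S.erase s) (Finset.notMem_erase s S) (fun g => u g) g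
  rw [Finset.insert_erase hs] at h1
  have h2 : avg (S.erase s) (fun g => u g) g = 0 := by
    have h3 := eav_eq_avg (S.erase s) u g
    have h4 : eav (S.erase s) u = 0 := by
      apply (mem_levSub_iff k u).1 hu
      rw [Finset.card_erase_of_mem hs]
      have : 0 < S.card := Finset.card_pos.2 ⟨s, hs⟩
      omega
    rw [h4] at h3
    have h5 : (0 : EuclideanSpace ℝ (Perm ι)) g = 0 := rfl
    rw [h5] at h3
    rcases mul_eq_zero.1 h3.symm with h6 | h6
    · exact absurd h6 (inv_ne_zero (stab_card_pos _).ne')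
    · exact h6
  have h7 : ∀ σ : Perm ι, avg S (fun g => u g) σ = ((stab S).card : ℝ) * u σ := by
    intro σ
    have h8 := eav_eq_avg S u σ
    rw [hSu] at h8
    rw [h8, ← mul_assoc, mul_inv_cancel₀ (stab_card_pos S).ne', one_mul]
  rw [h2, Finset.sum_congr rfl (fun c _ => h7 _), ← Finset.mul_sum] at h1
  rcases mul_eq_zero.1 h1 with h9 | h9
  · exact absurd h9 (stab_card_pos _).ne'
  · simpa only [compl_erase, WithLp.ofLp_sum, Finset.sum_apply, rt_apply, PiLp.zero_apply] using h9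

theorem gram_step (k : ℕ) (u : EuclideanSpace ℝ (Perm ι)) (hu : u ∈ levSub ι k)
    (S' : Finset ι) (hS' : S'.card = k) (hSu : eav S' u = u) (S : Finset ι)
    (s : ι) (hs : s ∈ S') (hsS : s ∉ S) :
    ((Fintype.card ι : ℝ) + 1 - k - (S \ S').card) * ‖eav S u‖
      ≤ ∑ c ∈ S \ S', ‖eav S (rt (swap s c) u)‖ := by
  have h1 := harmonic k u hu S' hS' hSu s hs
  have h2 := congrArg (eav S) h1
  rw [map_sum, map_zero] at h2
  rw [← Finset.sum_filter_add_sum_filter_not _ (fun c => c ∈ S)] at h2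
  have h3 : ((S'.erase s)ᶜ).filter (fun c => c ∈ S) = S \ S' := by
    ext c
    simp only [mem_filter, mem_compl, mem_erase, mem_sdiff, not_and]
    constructor
    · rintro ⟨h, hc⟩
      refine ⟨hc, h ?_⟩
      rintro rfl
      exact hsS hc
    · rintro ⟨hc, h⟩
      exact ⟨fun _ => h, hc⟩
  have h4 : ∀ c ∈ ((S'.erase s)ᶜ).filter (fun c => ¬ c ∈ S),
      eav S (rt (swap s c) u) = eav S u := by
    intro c hc
    rw [mem_filter] at hc
    exact eav_rt (swap_mem_stab hsS hc.2) u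
  have hcard : (((S'.erase s)ᶜ).filter (fun c => ¬ c ∈ S)).card + (S \ S').card + k
      = Fintype.card ι + 1 := by
    have e1 := Finset.card_filter_add_card_filter_not (s := (S'.erase s)ᶜ) (fun c => c ∈ S)
    rw [h3, Finset.card_compl, Finset.card_erase_of_mem hs, hS'] at e1
    have e2 : 0 < S'.card := Finset.card_pos.2 ⟨s, hs⟩
    have e3 : S'.card ≤ Fintype.card ι := Finset.card_le_univ _
    omega
  have hcard' : ((((S'.erase s)ᶜ).filter (fun c => ¬ c ∈ S)).card : ℝ)
      = (Fintype.card ι : ℝ) + 1 - k - (S \ S').card := by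
    have : ((((S'.erase s)ᶜ).filter (fun c => ¬ c ∈ S)).card : ℝ) + (S \ S').card + k
      = Fintype.card ι + 1 := by exact_mod_cast hcard
    linarith only [this]
  rw [h3, Finset.sum_congr rfl h4, Finset.sum_const, ← Nat.cast_smul_eq_nsmul ℝ, hcard'] at h2
  have h5 : ((Fintype.card ι : ℝ) + 1 - k - (S \ S').card) • eav S u
      = - ∑ c ∈ S \ S', eav S (rt (swap s c) u) := by
    rw [eq_neg_iff_add_eq_zero, add_comm]
    exact h2
  have h6 : (0 : ℝ) ≤ (Fintype.card ι : ℝ) + 1 - k - (S \ S').card := by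
    rw [← hcard']
    exact Nat.cast_nonneg _
  have h7 := congrArg norm h5
  rw [norm_smul, norm_neg, Real.norm_of_nonneg h6] at h7
  rw [h7]
  exact norm_sum_le _ _

/-- averages of a function of level exactly `k` -/
theorem gram_bound (k : ℕ) (r : ℕ) : ∀ (u : EuclideanSpace ℝ (Perm ι)) (_ : u ∈ levSub ι k)
    (S' : Finset ι) (_ : S'.card = k) (_ : eav S' u = u) (S : Finset ι) (_ : S.card = k)
    (_ : (S \ S').card = r),
    (((Fintype.card ι - k).choose r : ℕ) : ℝ) * ‖eav S u‖ ≤ ‖u‖ := by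
  induction r with
  | zero =>
    intro u _ S' _ _ S _ _
    rw [Nat.choose_zero_right, Nat.cast_one, one_mul]
    exact eav_norm_le S u
  | succ r ih =>
    intro u hu S' hS' hSu S hS hr
    -- a card of `S'` outside `S`
    have hr' : (S' \ S).card = r + 1 := by
      have e1 := Finset.card_sdiff_add_card_inter S S'
      have e2 := Finset.card_sdiff_add_card_inter S' S
      rw [Finset.inter_comm] at e2
      omega
    obtain ⟨s, hs⟩ : (S' \ S).Nonempty := Finset.card_pos.1 (by (clear * - hr'; omega))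
    rw [mem_sdiff] at hs
    have h1 := gram_step k u hu S' hS' hSu S s hs.1 hs.2
    have hkn : r + 1 + k ≤ Fintype.card ι := by
      have e1 : (S ∪ S').card = (S \ S').card + S'.card := by
        rw [← Finset.card_sdiff_add_card]
      have e2 : (S ∪ S').card ≤ Fintype.card ι := Finset.card_le_univ _
      omega
    have h2 : ∀ c ∈ S \ S', (((Fintype.card ι - k).choose r : ℕ) : ℝ) *
        ‖eav S (rt (swap s c) u)‖ ≤ ‖u‖ := by
      intro c hc
      rw [mem_sdiff] at hc
      have hcs : c ≠ s := fun h => hs.2 (h ▸ hc.1)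
      have e1 := ih (rt (swap s c) u) (levSub_rt k _ hu) (S'.map (swap s c).toEmbedding)
        (by rw [card_map, hS']) (by rw [← rt_eav_map, hSu]) S hS (by
          have e2 : S \ S'.map (swap s c).toEmbedding = (S \ S').erase c := by
            ext x
            simp only [mem_sdiff, mem_map, Equiv.coe_toEmbedding, mem_erase, not_exists, not_and]
            constructor
            · rintro ⟨hx, h⟩
              refine ⟨?_, hx, ?_⟩
              · rintro rfl
                exact h s hs.1 (swap_apply_left _ _)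
              · intro hxS'
                by_cases hxs : x = s
                · exact hs.2 (hxs ▸ hx)
                · by_cases hxc : x = c
                  · exact hc.2 (hxc ▸ hxS')
                  · exact h x hxS' (swap_apply_of_ne_of_ne hxs hxc)
            · rintro ⟨hxc, hx, hxS'⟩
              refine ⟨hx, ?_⟩
              intro y hy hyx
              by_cases hys : y = s
              · rw [hys, swap_apply_left] at hyx
                exact hxc hyx.symm
              · by_cases hyc : y = c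
                · rw [hyc] at hy
                  exact hc.2 hy
                · rw [swap_apply_of_ne_of_ne hys hyc] at hyx
                  exact hxS' (hyx ▸ hy)
          rw [e2, card_erase_of_mem (mem_sdiff.2 hc), hr]
          rfl)
      rwa [rt_norm] at e1
    have h3 := Finset.sum_le_sum h2
    rw [← Finset.mul_sum, Finset.sum_const, nsmul_eq_mul, hr] at h3
    rw [hr] at h1
    have h4 := mul_le_mul_of_nonneg_left h1
      (Nat.cast_nonneg ((Fintype.card ι - k).choose r) : (0 : ℝ) ≤ _)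
    have h5 := h4.trans h3
    have h6 : (((Fintype.card ι - k).choose (r + 1) : ℕ) : ℝ) * ((r : ℝ) + 1)
        = (((Fintype.card ι - k).choose r : ℕ) : ℝ) * ((Fintype.card ι : ℝ) + 1 - k - (r + 1 : ℕ)) := by
      have e1 := Nat.choose_succ_right_eq (Fintype.card ι - k) r
      have e2 : ((Fintype.card ι - k - r : ℕ) : ℝ) = (Fintype.card ι : ℝ) + 1 - k - (r + 1 : ℕ) := by
        rw [Nat.cast_sub (by omega), Nat.cast_sub (by omega)]
        push_cast
        ring
      rw [← e2]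
      exact_mod_cast e1
    have h7 : ((((Fintype.card ι - k).choose (r + 1) : ℕ) : ℝ) * ‖eav S u‖) * ((r : ℝ) + 1)
        ≤ ‖u‖ * ((r : ℝ) + 1) := by
      calc ((((Fintype.card ι - k).choose (r + 1) : ℕ) : ℝ) * ‖eav S u‖) * ((r : ℝ) + 1)
          = ((((Fintype.card ι - k).choose (r + 1) : ℕ) : ℝ) * ((r : ℝ) + 1)) * ‖eav S u‖ := by ring
        _ = (((Fintype.card ι - k).choose r : ℕ) : ℝ) *
              (((Fintype.card ι : ℝ) + 1 - k - (r + 1 : ℕ)) * ‖eav S u‖) := by rw [h6]; ring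
        _ ≤ ((r + 1 : ℕ) : ℝ) * ‖u‖ := h5
        _ = ‖u‖ * ((r : ℝ) + 1) := by push_cast; ring
    exact le_of_mul_le_mul_right h7 (by (clear * -; (clear * -; positivity)))

end Gram

/-! ### counting functions by the number of disagreements -/

section Count2

/-- number of functions with a given disagreement set -/
theorem card_disagree {k g : ℕ} (φ₀ : Fin k → Fin g) (D : Finset (Fin k)) :
    (univ.filter (fun φ : Fin k → Fin g => univ.filter (fun i => φ i ≠ φ₀ i) = D)).card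
      = (g - 1) ^ D.card := by
  have h1 : univ.filter (fun φ : Fin k → Fin g => univ.filter (fun i => φ i ≠ φ₀ i) = D)
      = Fintype.piFinset (fun i => if i ∈ D then univ.erase (φ₀ i) else {φ₀ i}) := by
    ext φ
    simp only [mem_filter, mem_univ, true_and, Fintype.mem_piFinset]
    constructor
    · rintro rfl i
      by_cases h : φ i = φ₀ i
      · simp only [ne_eq, mem_filter, mem_univ, h, not_true_eq_false, and_false, ↓reduceIte, mem_singleton]
      · simp only [ne_eq, mem_filter, mem_univ, h, not_false_eq_true, and_self, ↓reduceIte, mem_erase]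
    · intro h
      ext i
      simp only [mem_filter, mem_univ, true_and]
      have h2 := h i
      by_cases hi : i ∈ D
      · rw [if_pos hi, mem_erase] at h2
        exact ⟨fun _ => hi, fun _ => h2.1⟩
      · rw [if_neg hi, mem_singleton] at h2
        exact ⟨fun h3 => absurd h2 h3, fun h3 => absurd h3 hi⟩
  rw [h1, Fintype.card_piFinset]
  have h2 : ∀ i : Fin k, (if i ∈ D then univ.erase (φ₀ i) else {φ₀ i} : Finset (Fin g)).card
      = if i ∈ D then (g - 1) else 1 := by
    intro i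
    split_ifs
    · rw [card_erase_of_mem (mem_univ _), card_univ, Fintype.card_fin]
    · simp
  rw [Finset.prod_congr rfl (fun i _ => h2 i), Finset.prod_ite, Finset.prod_const,
    Finset.prod_const_one, mul_one]
  congr 2
  ext i
  simp only [subset_univ, filter_mem_eq_of_subset]

theorem sum_disagree {k g : ℕ} (φ₀ : Fin k → Fin g) (f : ℕ → ℝ) :
    ∑ φ : Fin k → Fin g, f (univ.filter (fun i => φ i ≠ φ₀ i)).card
      = ∑ r ∈ range (k + 1), (k.choose r : ℝ) * (((g - 1 : ℕ) : ℝ) ^ r * f r) := by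
  have h1 : ∑ φ : Fin k → Fin g, f (univ.filter (fun i => φ i ≠ φ₀ i)).card
      = ∑ D ∈ (univ : Finset (Fin k)).powerset,
        ∑ φ ∈ univ.filter (fun φ : Fin k → Fin g => univ.filter (fun i => φ i ≠ φ₀ i) = D),
          f (univ.filter (fun i => φ i ≠ φ₀ i)).card := by
    symm
    apply Finset.sum_fiberwise_of_maps_to
    intro φ _
    rw [mem_powerset]
    exact subset_univ _
  rw [h1]
  have h2 : ∀ D ∈ (univ : Finset (Fin k)).powerset,
      ∑ φ ∈ univ.filter (fun φ : Fin k → Fin g => univ.filter (fun i => φ i ≠ φ₀ i) = D),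
          f (univ.filter (fun i => φ i ≠ φ₀ i)).card
      = ((g - 1 : ℕ) : ℝ) ^ D.card * f D.card := by
    intro D _
    rw [Finset.sum_congr rfl (fun φ hφ => by rw [(mem_filter.1 hφ).2]), Finset.sum_const,
      card_disagree, nsmul_eq_mul]
    push_cast
    ring
  rw [Finset.sum_congr rfl h2]
  rw [Finset.sum_powerset_apply_card (fun r => ((g - 1 : ℕ) : ℝ) ^ r * f r), card_univ,
    Fintype.card_fin]
  exact Finset.sum_congr rfl fun r _ => by rw [nsmul_eq_mul]

theorem choose_ratio {k N : ℕ} (hkN : k ≤ N) (r : ℕ) :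
    k.choose r * N ^ r ≤ N.choose r * k ^ r := by
  induction r with
  | zero => simp
  | succ r ih =>
    by_cases hr : r ≤ k
    · have e1 := Nat.choose_succ_right_eq k r
      have e2 := Nat.choose_succ_right_eq N r
      have e3 : (k - r) * N ≤ (N - r) * k := by
        rw [Nat.sub_mul, Nat.sub_mul, Nat.mul_comm k N]
        apply Nat.sub_le_sub_left
        exact Nat.mul_le_mul_left r hkN
      have h1 : (k.choose (r + 1) * N ^ (r + 1)) * (r + 1)
          ≤ (N.choose (r + 1) * k ^ (r + 1)) * (r + 1) := by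
        calc (k.choose (r + 1) * N ^ (r + 1)) * (r + 1)
            = (k.choose (r + 1) * (r + 1)) * (N ^ r * N) := by ring
          _ = (k.choose r * N ^ r) * ((k - r) * N) := by rw [e1]; ring
          _ ≤ (N.choose r * k ^ r) * ((N - r) * k) := Nat.mul_le_mul ih e3
          _ = (N.choose r * (N - r)) * (k ^ r * k) := by ring
          _ = (N.choose (r + 1) * k ^ (r + 1)) * (r + 1) := by rw [← e2]; ring
      exact Nat.le_of_mul_le_mul_right h1 (Nat.succ_pos r)
    · rw [Nat.choose_eq_zero_of_lt (by omega)]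
      simp

theorem sum_third (k : ℕ) : ∑ r ∈ range (k + 1), ((1 : ℝ) / 3) ^ r < 3 / 2 := by
  rw [geom_sum_eq (by norm_num)]
  have h : (0 : ℝ) < (1 / 3) ^ (k + 1) := by positivity
  have e : ((1 / 3 : ℝ) ^ (k + 1) - 1) / (1 / 3 - 1) = 3 / 2 - 3 / 2 * (1 / 3) ^ (k + 1) := by
    ring
  rw [e]
  linarith only [h]

/-- diagonal dominance -/
theorem sum_inv_choose_lt {k g N : ℕ} (hkN : k ≤ N) (hg : 3 * ((g - 1) * k) ≤ N)
    (φ₀ : Fin k → Fin g) :
    ∑ φ : Fin k → Fin g, ((N.choose (univ.filter (fun i => φ i ≠ φ₀ i)).card : ℕ) : ℝ)⁻¹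
      < 3 / 2 := by
  rw [sum_disagree φ₀ (fun r => ((N.choose r : ℕ) : ℝ)⁻¹)]
  refine lt_of_le_of_lt (Finset.sum_le_sum ?_) (sum_third k)
  intro r hr
  rw [mem_range] at hr
  have hN : 0 < N.choose r := Nat.choose_pos (by omega)
  have hN' : (0 : ℝ) < ((N.choose r : ℕ) : ℝ) := by exact_mod_cast hN
  have h1 : k.choose r * (g - 1) ^ r * 3 ^ r ≤ N.choose r := by
    rcases Nat.eq_zero_or_pos N with h0 | hNpos
    · have hk0 : k = 0 := by omega
      have hr0 : r = 0 := by omega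
      subst hr0
      simp
    · have h2 := choose_ratio hkN r
      have h3 : (3 * ((g - 1) * k)) ^ r ≤ N ^ r := Nat.pow_le_pow_left hg r
      have h4 : (k.choose r * (g - 1) ^ r * 3 ^ r) * N ^ r ≤ N.choose r * N ^ r := by
        calc (k.choose r * (g - 1) ^ r * 3 ^ r) * N ^ r
            = (k.choose r * N ^ r) * ((g - 1) ^ r * 3 ^ r) := by ring
          _ ≤ (N.choose r * k ^ r) * ((g - 1) ^ r * 3 ^ r) := Nat.mul_le_mul_right _ h2
          _ = N.choose r * (3 * ((g - 1) * k)) ^ r := by rw [mul_pow, mul_pow]; ring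
          _ ≤ N.choose r * N ^ r := Nat.mul_le_mul_left _ h3
      exact Nat.le_of_mul_le_mul_right h4 (Nat.pow_pos hNpos)
  have h5 : (k.choose r : ℝ) * ((g - 1 : ℕ) : ℝ) ^ r * 3 ^ r ≤ ((N.choose r : ℕ) : ℝ) := by
    exact_mod_cast h1
  have h6 : (k.choose r : ℝ) * (((g - 1 : ℕ) : ℝ) ^ r * ((N.choose r : ℕ) : ℝ)⁻¹)
      = ((k.choose r : ℝ) * ((g - 1 : ℕ) : ℝ) ^ r) / ((N.choose r : ℕ) : ℝ) := by
    rw [div_eq_mul_inv]; ring
  rw [h6, div_le_iff₀ hN']
  have h7 : (0 : ℝ) < (1 / 3) ^ r := by positivity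
  have h8 := mul_le_mul_of_nonneg_left h5 h7.le
  have h9 : (1 / 3 : ℝ) ^ r * ((k.choose r : ℝ) * ((g - 1 : ℕ) : ℝ) ^ r * 3 ^ r)
      = (k.choose r : ℝ) * ((g - 1 : ℕ) : ℝ) ^ r := by
    have : (1 / 3 : ℝ) ^ r * 3 ^ r = 1 := by
      rw [← mul_pow]; norm_num
    calc (1 / 3 : ℝ) ^ r * ((k.choose r : ℝ) * ((g - 1 : ℕ) : ℝ) ^ r * 3 ^ r)
        = ((k.choose r : ℝ) * ((g - 1 : ℕ) : ℝ) ^ r) * ((1 / 3 : ℝ) ^ r * 3 ^ r) := by ring
      _ = _ := by rw [this, mul_one]
  rw [h9] at h8
  exact h8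

end Count2

end Vale.Agent.P162.Lin
end
end
end

section

section

section

/-!
# Trace of a power of `A* A` on the functions of the positions of a set of cards
-/

namespace Vale.Agent.P162.Lin

open Equiv Finset
open scoped InnerProductSpace

section Ops

variable {ι : Type*} [Fintype ι] [DecidableEq ι]

theorem adjOp_comp (q q' : Perm ι → ℝ) (f : EuclideanSpace ℝ (Perm ι)) :
    adjOp q (regRep (Perm ι)) (adjOp q' (regRep (Perm ι)) f)
      = adjOp (fun g => ∑ h, q' h * q (h⁻¹ * g)) (regRep (Perm ι)) f := by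
  ext σ
  rw [adjOp_regRep_apply, adjOp_regRep_apply]
  simp only [adjOp_regRep_apply]
  simp only [Finset.mul_sum, Finset.sum_mul]
  rw [Finset.sum_comm]
  rw [Finset.sum_comm (s := univ) (t := univ)
    (f := fun (g : Perm ι) (h : Perm ι) => q' h * q (h⁻¹ * g) * f (g * σ))]
  refine Finset.sum_congr rfl fun h _ => ?_
  rw [← Equiv.sum_comp (Equiv.mulLeft h)
    (fun g : Perm ι => q' h * q (h⁻¹ * g) * f (g * σ))]
  refine Finset.sum_congr rfl fun g _ => ?_
  simp only [Equiv.coe_mulLeft, inv_mul_cancel_left, mul_assoc]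
  ring

theorem adjOp_convPow (q : Perm ι → ℝ) (t : ℕ) (f : EuclideanSpace ℝ (Perm ι)) :
    adjOp (convPow q t) (regRep (Perm ι)) f = ((adjOp q (regRep (Perm ι))) ^ t) f := by
  induction t generalizing f with
  | zero =>
    ext σ
    rw [adjOp_regRep_apply, Finset.sum_eq_single 1]
    · simp only [convPow_zero_eq, ↓reduceIte, one_mul, pow_zero, one_apply_eq_self]
    · intro g _ hg
      simp [convPow_zero_eq, hg]
    · intro h
      exact absurd (mem_univ _) h
  | succ t ih =>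
    have e : ((adjOp q (regRep (Perm ι))) ^ (t + 1)) f
        = ((adjOp q (regRep (Perm ι))) ^ t) (adjOp q (regRep (Perm ι)) f) := by
      rw [pow_succ]; rfl
    rw [e, ← ih, adjOp_comp]
    congr 1

theorem adjOp_inner (q : Perm ι → ℝ) (u v : EuclideanSpace ℝ (Perm ι)) :
    ⟪adjOp q (regRep (Perm ι)) u, v⟫_ℝ
      = ⟪u, adjOp (fun g => q g⁻¹) (regRep (Perm ι)) v⟫_ℝ := by
  have h1 : ∀ (q : Perm ι → ℝ) (u : EuclideanSpace ℝ (Perm ι)),
      adjOp q (regRep (Perm ι)) u = ∑ g, q g • regRep (Perm ι) g⁻¹ u := by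
    intro q u
    simp only [adjOp, _root_.sum_apply, smul_apply]
  rw [h1, h1, sum_inner, inner_sum]
  rw [← Equiv.sum_comp (Equiv.inv (Perm ι))]
  refine Finset.sum_congr rfl fun g _ => ?_
  rw [real_inner_smul_left, real_inner_smul_right, regRep_inner]
  simp only [Equiv.inv_apply, inv_inv]

theorem adjOp_symLaw_inner (μ : Perm ι → ℝ) (u v : EuclideanSpace ℝ (Perm ι)) :
    ⟪u, adjOp (symLaw μ) (regRep (Perm ι)) v⟫_ℝ
      = ⟪adjOp μ (regRep (Perm ι)) u, adjOp μ (regRep (Perm ι)) v⟫_ℝ := by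
  rw [adjOp_inner, adjOp_comp]
  congr 2
  · congr 1
    funext g
    unfold symLaw
    rw [← Equiv.sum_comp (Equiv.mulLeft g) (fun h : Perm ι => μ h * μ (h⁻¹ * g)⁻¹)]
    refine Finset.sum_congr rfl fun h _ => ?_
    simp [mul_inv_rev]

theorem adjOp_symLaw_symm (μ : Perm ι → ℝ) (u v : EuclideanSpace ℝ (Perm ι)) :
    ⟪adjOp (symLaw μ) (regRep (Perm ι)) u, v⟫_ℝ
      = ⟪u, adjOp (symLaw μ) (regRep (Perm ι)) v⟫_ℝ := by
  rw [adjOp_symLaw_inner, real_inner_comm, adjOp_symLaw_inner, real_inner_comm]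

theorem symPow_symm (μ : Perm ι → ℝ) (m : ℕ) (u v : EuclideanSpace ℝ (Perm ι)) :
    ⟪((adjOp (symLaw μ) (regRep (Perm ι))) ^ m) u, v⟫_ℝ
      = ⟪u, ((adjOp (symLaw μ) (regRep (Perm ι))) ^ m) v⟫_ℝ := by
  induction m generalizing u v with
  | zero => simp only [pow_zero, one_apply_eq_self]
  | succ m ih =>
    have e1 : ((adjOp (symLaw μ) (regRep (Perm ι))) ^ (m + 1)) u
        = adjOp (symLaw μ) (regRep (Perm ι)) (((adjOp (symLaw μ) (regRep (Perm ι))) ^ m) u) := by
      rw [pow_succ']; rfl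
    have e2 : ((adjOp (symLaw μ) (regRep (Perm ι))) ^ (m + 1)) v
        = ((adjOp (symLaw μ) (regRep (Perm ι))) ^ m) (adjOp (symLaw μ) (regRep (Perm ι)) v) := by
      rw [pow_succ]; rfl
    rw [e1, e2, adjOp_symLaw_symm, ih]

theorem symPow_nonneg (μ : Perm ι → ℝ) (m : ℕ) : ∀ w : EuclideanSpace ℝ (Perm ι),
    0 ≤ ⟪w, ((adjOp (symLaw μ) (regRep (Perm ι))) ^ m) w⟫_ℝ := by
  induction m using Nat.twoStepInduction with
  | zero =>
    intro w
    simp only [pow_zero, one_apply_eq_self]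
    exact real_inner_self_nonneg
  | one =>
    intro w
    rw [pow_one, adjOp_symLaw_inner]
    exact real_inner_self_nonneg
  | more m ih _ =>
    intro w
    have e2 : ((adjOp (symLaw μ) (regRep (Perm ι))) ^ (m + 2)) w
        = adjOp (symLaw μ) (regRep (Perm ι)) (((adjOp (symLaw μ) (regRep (Perm ι))) ^ m)
          (adjOp (symLaw μ) (regRep (Perm ι)) w)) := by
      rw [pow_succ', pow_succ]; rfl
    rw [e2, ← adjOp_symLaw_symm]
    exact ih _

theorem symPow_eav (μ : Perm ι → ℝ) (m : ℕ) (S : Finset ι) (f : EuclideanSpace ℝ (Perm ι)) :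
    ((adjOp (symLaw μ) (regRep (Perm ι))) ^ m) (eav S f)
      = eav S (((adjOp (symLaw μ) (regRep (Perm ι))) ^ m) f) := by
  rw [← adjOp_convPow, ← adjOp_convPow, adjOp_eav]

/-- trace over the delta functions -/
theorem trace_eav (q : Perm ι → ℝ) (U : Finset ι) :
    ∑ σ : Perm ι, ⟪(dl σ : EuclideanSpace ℝ (Perm ι)),
      adjOp q (regRep (Perm ι)) (eav U (dl σ))⟫_ℝ = trk q U.card := by
  have h1 : ∀ σ : Perm ι, ⟪(dl σ : EuclideanSpace ℝ (Perm ι)),
      adjOp q (regRep (Perm ι)) (eav U (dl σ))⟫_ℝ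
      = ∑ g : Perm ι, q g * (((stab U).card : ℝ)⁻¹ * (if ∀ c ∈ U, g (σ c) = σ c then 1 else 0)) := by
    intro σ
    have e1 : ⟪(dl σ : EuclideanSpace ℝ (Perm ι)),
        adjOp q (regRep (Perm ι)) (eav U (dl σ))⟫_ℝ
        = (adjOp q (regRep (Perm ι)) (eav U (dl σ))) σ := by
      unfold dl
      rw [EuclideanSpace.inner_single_left]
      simp
    rw [e1, adjOp_regRep_apply]
    refine Finset.sum_congr rfl fun g _ => ?_
    rw [eav_apply]
    congr 2
    have e2 : ∀ η : Perm ι, (dl σ : EuclideanSpace ℝ (Perm ι)) (g * σ * η)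
        = if η = σ⁻¹ * g⁻¹ * σ then 1 else 0 := by
      intro η
      unfold dl
      rw [PiLp.single_apply]
      have : g * σ * η = σ ↔ η = σ⁻¹ * g⁻¹ * σ := by
        constructor
        · intro h
          rw [← mul_inv_rev]
          exact eq_inv_mul_of_mul_eq h
        · rintro rfl
          simp only [mul_assoc, mul_inv_cancel_left]
      simp only [this]
    rw [Finset.sum_congr rfl (fun η _ => e2 η), Finset.sum_ite_eq']
    have e3 : σ⁻¹ * g⁻¹ * σ ∈ stab U ↔ ∀ c ∈ U, g (σ c) = σ c := by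
      rw [mem_stab]
      refine forall₂_congr fun c _ => ?_
      rw [Perm.mul_apply, Perm.mul_apply, Perm.inv_eq_iff_eq, Perm.inv_eq_iff_eq]
      exact eq_comm
    by_cases h : ∀ c ∈ U, g (σ c) = σ c
    · rw [if_pos h, if_pos (e3.2 h)]
    · rw [if_neg h, if_neg fun h' => h (e3.1 h')]
  rw [Finset.sum_congr rfl (fun σ _ => h1 σ), Finset.sum_comm]
  unfold trk
  refine Finset.sum_congr rfl fun g _ => ?_
  rw [← Finset.mul_sum, ← Finset.mul_sum]
  congr 1
  have h2 : ∑ σ : Perm ι, (if ∀ c ∈ U, g (σ c) = σ c then (1 : ℝ) else 0)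
      = (((univ.filter (fun p => g p = p)).card.descFactorial U.card * (stab U).card : ℕ) : ℝ) := by
    rw [← card_perm_map, ← Finset.sum_filter, Finset.sum_const, nsmul_eq_mul, mul_one]
    congr 2
    ext σ
    simp only [mem_filter, mem_univ, true_and]
  rw [h2]
  push_cast
  have := (stab_card_pos U).ne'
  field_simp

/-- the dimension as a sum over the delta functions -/
theorem sum_proj_dl (K : Submodule ℝ (EuclideanSpace ℝ (Perm ι))) :
    ∑ σ : Perm ι, ‖K.starProjection (dl σ)‖ ^ 2 = Module.finrank ℝ K := by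
  have h2 : LinearMap.trace ℝ (EuclideanSpace ℝ (Perm ι))
      (K.starProjection : EuclideanSpace ℝ (Perm ι) →ₗ[ℝ] _)
      = ∑ g : Perm ι, ‖K.starProjection (dl g)‖ ^ 2 := by
    rw [LinearMap.trace_eq_sum_inner _ (EuclideanSpace.basisFun (Perm ι) ℝ)]
    apply Finset.sum_congr rfl
    intro g _
    rw [EuclideanSpace.basisFun_apply]
    have := Submodule.re_inner_starProjection_eq_normSq (K := K) (dl g)
    simp only [RCLike.re_to_real] at this
    rw [real_inner_comm]
    exact this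
  have h3 : LinearMap.trace ℝ (EuclideanSpace ℝ (Perm ι))
      (K.starProjection : EuclideanSpace ℝ (Perm ι) →ₗ[ℝ] _) = Module.finrank ℝ K := by
    have hp : LinearMap.IsProj K (K.starProjection : EuclideanSpace ℝ (Perm ι) →ₗ[ℝ] _) := by
      constructor
      · intro x; exact Submodule.starProjection_apply_mem K x
      · intro x hx; exact (Submodule.starProjection_eq_self_iff (K := K)).2 hx
    exact hp.trace
  rw [← h2, h3]

/-- An eigenspace gives a lower bound for the trace. -/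
theorem trace_ge (μ : Perm ι → ℝ) (m : ℕ) (U : Finset ι)
    (Y : Submodule ℝ (EuclideanSpace ℝ (Perm ι))) (t : ℝ)
    (hU : ∀ y ∈ Y, eav U y = y)
    (hY : ∀ y ∈ Y, ((adjOp (symLaw μ) (regRep (Perm ι))) ^ m) y = t • y) :
    t * Module.finrank ℝ Y ≤ trk (convPow (symLaw μ) m) U.card := by
  rw [← trace_eav, ← sum_proj_dl, Finset.mul_sum]
  refine Finset.sum_le_sum fun σ _ => ?_
  rw [adjOp_convPow]
  set w : EuclideanSpace ℝ (Perm ι) := dl σ
  set B := (adjOp (symLaw μ) (regRep (Perm ι))) ^ m with hB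
  have hform : ∀ w : EuclideanSpace ℝ (Perm ι), ⟪w, B (eav U w)⟫_ℝ = ⟪eav U w, B (eav U w)⟫_ℝ := by
    intro w
    rw [eav_inner, ← symPow_eav, eav_idem]
  have hpos : ∀ w : EuclideanSpace ℝ (Perm ι), 0 ≤ ⟪w, B (eav U w)⟫_ℝ := by
    intro w
    rw [hform]
    exact symPow_nonneg μ m _
  have hsym : ∀ u w : EuclideanSpace ℝ (Perm ι), ⟪u, B (eav U w)⟫_ℝ = ⟪B (eav U u), w⟫_ℝ := by
    intro u w
    rw [hB, symPow_eav, ← eav_inner, symPow_symm]
  set p := Y.starProjection w with hp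
  have hpY : p ∈ Y := Submodule.starProjection_apply_mem Y w
  have hTp : B (eav U p) = t • p := by rw [hU p hpY, hY p hpY]
  have hort : ⟪p, w - p⟫_ℝ = 0 :=
    (Submodule.mem_orthogonal _ _).1 (Submodule.sub_starProjection_mem_orthogonal w) p hpY
  have e0 : w = p + (w - p) := by abel
  have e1 : ⟪w, B (eav U w)⟫_ℝ = ⟪p, B (eav U p)⟫_ℝ + ⟪w - p, B (eav U (w - p))⟫_ℝ
      + (⟪p, B (eav U (w - p))⟫_ℝ + ⟪w - p, B (eav U p)⟫_ℝ) := by
    conv_lhs => rw [e0]
    rw [map_add, map_add, inner_add_left, inner_add_right, inner_add_right]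
    ring
  have e2 : ⟪p, B (eav U (w - p))⟫_ℝ = 0 := by
    rw [hsym, hTp, real_inner_smul_left, hort, mul_zero]
  have e3 : ⟪w - p, B (eav U p)⟫_ℝ = 0 := by
    rw [hTp, real_inner_smul_right, real_inner_comm, hort, mul_zero]
  have e4 : ⟪p, B (eav U p)⟫_ℝ = t * ‖p‖ ^ 2 := by
    rw [hTp, real_inner_smul_right, real_inner_self_eq_norm_sq]
  rw [e1, e2, e3, e4]
  have := hpos (w - p)
  linarith only [this]

end Ops

end Vale.Agent.P162.Lin
end
end
end

section

section

section

/-!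
# Norm of `A` on the exact levels (multiplicity of the eigenvalues)
-/

namespace Vale.Agent.P162.Lin

open Equiv Finset
open scoped InnerProductSpace

section Indep

variable {ι : Type*} [Fintype ι] [DecidableEq ι]

/-- a nonzero function of the positions of `k` cards has a nonzero average -/
theorem exists_eav_ne (k : ℕ) (hk : k ≤ Fintype.card ι) (e : EuclideanSpace ℝ (Perm ι))
    (heM : e ∈ (levSub ι (k + 1))ᗮ) (he0 : e ≠ 0) :
    ∃ S : Finset ι, S.card = k ∧ eav S e ≠ 0 := by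
  by_contra hcon
  push Not at hcon
  have he1 : e ∈ levSub ι (k + 1) := by
    rw [mem_levSub_iff]
    intro S hS
    obtain ⟨U, hSU, _, hU⟩ := Finset.exists_subsuperset_card_eq (subset_univ S)
      (by omega : S.card ≤ k) (by rwa [card_univ])
    rw [← eav_eav' hSU, hcon U hU, map_zero]
  have h1 : ⟪e, e⟫_ℝ = 0 := (Submodule.mem_orthogonal _ _).1 heM e he1
  exact he0 (inner_self_eq_zero.1 h1)

/-- Abstract diagonal dominance: a family of vectors of equal norm with small averages is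
linearly independent. -/
theorem indep_of_dominant {Φ : Type*} [Fintype Φ] [DecidableEq Φ]
    {E : Type*} [NormedAddCommGroup E] [InnerProductSpace ℝ E]
    (P : Φ → E →ₗ[ℝ] E) (v : Φ → E) (a : Φ → Φ → ℝ) (N : ℝ) (hN : 0 < N)
    (hv : ∀ φ, P φ (v φ) = v φ) (hn : ∀ φ, ‖v φ‖ = N)
    (ha : ∀ φ₀ φ, φ ≠ φ₀ → ‖P φ₀ (v φ)‖ ≤ a φ₀ φ * N)
    (hs : ∀ φ₀, ∑ φ ∈ univ.erase φ₀, a φ₀ φ < 1) : LinearIndependent ℝ v := by
  rw [Fintype.linearIndependent_iff]
  intro c hc
  by_contra hcon
  push Not at hcon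
  obtain ⟨i, hi⟩ := hcon
  have : Nonempty Φ := ⟨i⟩
  obtain ⟨φ₀, hφ₀⟩ := Finite.exists_max (fun φ => |c φ|)
  have hpos : 0 < |c φ₀| := lt_of_lt_of_le (abs_pos.2 hi) (hφ₀ i)
  have h1 := congrArg (P φ₀) hc
  rw [map_sum, map_zero, ← Finset.add_sum_erase _ _ (mem_univ φ₀)] at h1
  simp only [map_smul] at h1
  rw [hv] at h1
  have h2 : c φ₀ • v φ₀ = - ∑ φ ∈ univ.erase φ₀, c φ • P φ₀ (v φ) :=
    eq_neg_of_add_eq_zero_left h1
  have h3 := congrArg norm h2
  rw [norm_smul, norm_neg, hn, Real.norm_eq_abs] at h3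
  have h4 : ‖∑ φ ∈ univ.erase φ₀, c φ • P φ₀ (v φ)‖
      ≤ ∑ φ ∈ univ.erase φ₀, |c φ₀| * (a φ₀ φ * N) := by
    refine (norm_sum_le _ _).trans (Finset.sum_le_sum fun φ hφ => ?_)
    rw [norm_smul, Real.norm_eq_abs]
    exact mul_le_mul (hφ₀ φ) (ha φ₀ φ (mem_erase.1 hφ).1) (norm_nonneg _) (abs_nonneg _)
  rw [← Finset.mul_sum, ← Finset.sum_mul] at h4
  have h5 := hs φ₀
  rw [← h3] at h4
  have h6 : |c φ₀| * N * (1 - ∑ φ ∈ univ.erase φ₀, a φ₀ φ) ≤ 0 := by linarith only [h4]
  have h7 : 0 < |c φ₀| * N * (1 - ∑ φ ∈ univ.erase φ₀, a φ₀ φ) :=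
    mul_pos (mul_pos hpos hN) (by linarith)
  linarith

end Indep

section Main

variable {ι : Type} [Fintype ι] [DecidableEq ι]

/-- an eigenvalue on the exact level `k` has large multiplicity on `g * k` cards -/
theorem eigen_mult (μ : Perm ι → ℝ) (m k g : ℕ) (hg : 1 ≤ g)
    (hgk : 3 * (g * k) + k ≤ Fintype.card ι) (e : EuclideanSpace ℝ (Perm ι))
    (he : e ∈ exLev ι k) (he0 : e ≠ 0) (θ : ℝ)
    (hθ : adjOp (symLaw μ) (regRep (Perm ι)) e = θ • e) :
    (g : ℝ) ^ k * θ ^ m ≤ trk (convPow (symLaw μ) m) (g * k) := by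
  obtain ⟨S, hSk, hS⟩ := exists_eav_ne k (by omega) e he.2 he0
  set h := eav S e with hh
  have hhlev : h ∈ levSub ι k := eav_mem _ (fun g v hv => levSub_rt k g hv) S _ he.1
  have hhB : adjOp (symLaw μ) (regRep (Perm ι)) h = θ • h := by
    rw [hh, adjOp_eav, hθ, map_smul]
  have hSh : eav S h = h := eav_idem S e
  -- enumeration of `S` and a grid of cards
  let s : Fin k ↪ ι := (S.equivFinOfCardEq hSk).symm.toEmbedding.trans
    (Function.Embedding.subtype _)
  have hs : univ.map s = S := by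
    ext x
    simp only [mem_map, mem_univ, true_and]
    constructor
    · rintro ⟨i, rfl⟩
      exact ((S.equivFinOfCardEq hSk).symm i).2
    · intro hx
      refine ⟨S.equivFinOfCardEq hSk ⟨x, hx⟩, ?_⟩
      simp [s]
  obtain ⟨j⟩ : Nonempty (Fin k × Fin g ↪ ι) := by
    apply Function.Embedding.nonempty_of_card_le
    rw [Fintype.card_prod, Fintype.card_fin, Fintype.card_fin, mul_comm]
    omega
  set U : Finset ι := univ.map j with hUdef
  have hUcard : U.card = g * k := by
    rw [hUdef, card_map, card_univ, Fintype.card_prod, Fintype.card_fin, Fintype.card_fin, mul_comm]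
  have hinj : ∀ φ : Fin k → Fin g, Function.Injective (fun i => j (i, φ i)) := by
    intro φ i i' hii
    exact congrArg Prod.fst (j.injective hii)
  have hπ : ∀ φ : Fin k → Fin g, ∃ π : Perm ι, ∀ i, π (s i) = j (i, φ i) := fun φ =>
    Equiv.Perm.exists_extending_pair s (fun i => j (i, φ i)) s.injective (hinj φ)
  choose π hπ using hπ
  have hSφ : ∀ φ, S.map (π φ).toEmbedding = univ.image (fun i => j (i, φ i)) := by
    intro φ
    rw [← hs, Finset.map_map]
    ext x
    simp only [mem_map, mem_univ, Function.Embedding.trans_apply, Function.Embedding.coeFn_mk, hπ, true_and, mem_image]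
  let v : (Fin k → Fin g) → EuclideanSpace ℝ (Perm ι) := fun φ => rt (π φ) h
  let P : (Fin k → Fin g) → EuclideanSpace ℝ (Perm ι) →ₗ[ℝ] EuclideanSpace ℝ (Perm ι) :=
    fun φ => eav (S.map (π φ).toEmbedding)
  have hPv : ∀ φ, P φ (v φ) = v φ := by
    intro φ
    simp only [P, v]
    rw [← rt_eav_map, hSh]
  have hnorm : ∀ φ, ‖v φ‖ = ‖h‖ := fun φ => rt_norm _ _
  have hhpos : 0 < ‖h‖ := norm_pos_iff.2 hS
  have hsdiff : ∀ φ₀ φ : Fin k → Fin g,
      (S.map (π φ₀).toEmbedding \ S.map (π φ).toEmbedding).card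
        = (univ.filter (fun i => φ i ≠ φ₀ i)).card := by
    intro φ₀ φ
    rw [hSφ, hSφ, ← Finset.card_image_of_injective _ (hinj φ₀)]
    congr 1
    ext x
    simp only [mem_sdiff, mem_image, mem_univ, true_and, mem_filter, not_exists]
    constructor
    · rintro ⟨⟨i, rfl⟩, hx⟩
      refine ⟨i, fun hi => hx i (by rw [hi]), rfl⟩
    · rintro ⟨i, hi, rfl⟩
      refine ⟨⟨i, rfl⟩, fun i' hi' => ?_⟩
      have := j.injective hi'
      have h1 : i' = i := congrArg Prod.fst this
      subst h1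
      exact hi (congrArg Prod.snd this)
  have hcardS : ∀ φ, (S.map (π φ).toEmbedding).card = k := fun φ => by rw [card_map, hSk]
  have hk1 : k ≤ Fintype.card ι - k := by
    have : k ≤ g * k := Nat.le_mul_of_pos_left k hg
    omega
  have ha : ∀ φ₀ φ : Fin k → Fin g, φ ≠ φ₀ → ‖P φ₀ (v φ)‖ ≤
      (((Fintype.card ι - k).choose (univ.filter (fun i => φ i ≠ φ₀ i)).card : ℕ) : ℝ)⁻¹ * ‖h‖ := by
    intro φ₀ φ _
    have h1 := gram_bound k _ (v φ) (levSub_rt k _ hhlev) (S.map (π φ).toEmbedding) (hcardS φ)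
      (hPv φ) (S.map (π φ₀).toEmbedding) (hcardS φ₀) (hsdiff φ₀ φ)
    rw [hnorm] at h1
    have h2 : (univ.filter (fun i => φ i ≠ φ₀ i)).card ≤ k := by
      refine (card_filter_le _ _).trans ?_
      simp only [card_univ, Fintype.card_fin, Std.le_refl]
    have h3 : (0 : ℝ) < (((Fintype.card ι - k).choose
        (univ.filter (fun i => φ i ≠ φ₀ i)).card : ℕ) : ℝ) := by
      have : 0 < (Fintype.card ι - k).choose (univ.filter (fun i => φ i ≠ φ₀ i)).card :=
        Nat.choose_pos (by omega)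
      exact_mod_cast this
    rw [inv_mul_eq_div, le_div_iff₀ h3, mul_comm]
    exact h1
  have hsum : ∀ φ₀ : Fin k → Fin g, ∑ φ ∈ univ.erase φ₀,
      (((Fintype.card ι - k).choose (univ.filter (fun i => φ i ≠ φ₀ i)).card : ℕ) : ℝ)⁻¹ < 1 := by
    intro φ₀
    have h1 := sum_inv_choose_lt (N := Fintype.card ι - k) hk1 (g := g) (by
      have : (g - 1) * k ≤ g * k := Nat.mul_le_mul_right k (Nat.sub_le g 1)
      omega) φ₀
    rw [← Finset.add_sum_erase _ _ (mem_univ φ₀)] at h1
    have h2 : (univ.filter (fun i => φ₀ i ≠ φ₀ i)).card = 0 := by simp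
    rw [h2, Nat.choose_zero_right, Nat.cast_one, inv_one] at h1
    linarith only [h1]
  have hind := indep_of_dominant P v _ ‖h‖ hhpos hPv hnorm ha hsum
  have hrank : Module.finrank ℝ (Submodule.span ℝ (Set.range v)) = g ^ k := by
    rw [finrank_span_eq_card hind]
    simp only [Fintype.card_pi, Fintype.card_fin, prod_const, card_univ]
  have hvU : ∀ φ, eav U (v φ) = v φ := by
    intro φ
    rw [← hPv φ]
    apply eav_eav
    rw [hSφ, hUdef]
    intro x hx
    rw [mem_image] at hx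
    obtain ⟨i, _, rfl⟩ := hx
    exact mem_map_of_mem j (mem_univ _)
  have hvB : ∀ φ, ((adjOp (symLaw μ) (regRep (Perm ι))) ^ m) (v φ) = θ ^ m • v φ := by
    intro φ
    have h1 : adjOp (symLaw μ) (regRep (Perm ι)) (v φ) = θ • v φ := by
      simp only [v]
      rw [adjOp_rt, hhB, map_smul]
    clear_value v
    induction m with
    | zero => simp only [pow_zero, one_apply_eq_self, one_smul]
    | succ m ih =>
      have e1 : ((adjOp (symLaw μ) (regRep (Perm ι))) ^ (m + 1)) (v φ)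
          = ((adjOp (symLaw μ) (regRep (Perm ι))) ^ m)
            (adjOp (symLaw μ) (regRep (Perm ι)) (v φ)) := by
        rw [pow_succ]; rfl
      rw [e1, h1, map_smul, ih, smul_smul, pow_succ, mul_comm]
  have hmain := trace_ge μ m U (Submodule.span ℝ (Set.range v)) (θ ^ m)
    (by
      intro y hy
      induction hy using Submodule.span_induction with
      | mem x hx => obtain ⟨φ, rfl⟩ := hx; exact hvU φ
      | zero => rw [map_zero]
      | add x y _ _ hx hy => rw [map_add, hx, hy]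
      | smul a x _ hx => rw [map_smul, hx])
    (by
      intro y hy
      induction hy using Submodule.span_induction with
      | mem x hx => obtain ⟨φ, rfl⟩ := hx; exact hvB φ
      | zero => rw [map_zero, smul_zero]
      | add x y _ _ hx hy => rw [map_add, hx, hy, smul_add]
      | smul a x _ hx => rw [map_smul, hx, smul_comm])
  rw [hrank, hUcard] at hmain
  calc (g : ℝ) ^ k * θ ^ m = θ ^ m * ((g ^ k : ℕ) : ℝ) := by push_cast; ring
    _ ≤ _ := hmain

/-- N9E (multiplicity trick): operator norm on the exact level `k`. -/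
theorem norm_level (μ : Perm ι → ℝ) (hμ : ∀ g, 0 ≤ μ g) (i k g : ℕ) (hk : 1 ≤ k) (hg : 1 ≤ g)
    (hgk : 3 * (g * k) + k ≤ Fintype.card ι) (v : EuclideanSpace ℝ (Perm ι))
    (hv : v ∈ exLev ι k) :
    (g : ℝ) ^ k * ‖adjOp μ (regRep (Perm ι)) v‖ ^ (2 * 2 ^ i) ≤
      trk (convPow (symLaw μ) (2 ^ i)) (g * k) * ‖v‖ ^ (2 * 2 ^ i) := by
  have hpow : 2 * 2 ^ i ≠ 0 := by positivity
  by_cases hv0 : v = 0
  · subst hv0
    rw [map_zero, norm_zero, zero_pow hpow]
    simp
  let T : EuclideanSpace ℝ (Perm ι) →ₗ[ℝ] EuclideanSpace ℝ (Perm ι) :=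
    -((adjOp (symLaw μ) (regRep (Perm ι)) : _ →L[ℝ] _) : _ →ₗ[ℝ] _)
  have hT : ∀ w, T w = - adjOp (symLaw μ) (regRep (Perm ι)) w := fun w => rfl
  obtain ⟨e, heM, he0, c, hTe, hc⟩ := exists_eigen_min_sub T
    (by intro u w; rw [hT, hT, inner_neg_left, inner_neg_right, adjOp_symLaw_symm])
    (exLev ι k)
    (by
      intro w hw
      rw [hT]
      exact Submodule.neg_mem _ (adjOp_mem _ _ (fun g w hw => exLev_invF k g hw) w hw))
    hv hv0
  rw [hT] at hTe
  rw [hT, inner_neg_right, adjOp_symLaw_inner, real_inner_self_eq_norm_sq] at hc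
  have hθe : adjOp (symLaw μ) (regRep (Perm ι)) e = (-c) • e := by
    rw [neg_smul, ← hTe, neg_neg]
  have h1 : ‖adjOp μ (regRep (Perm ι)) v‖ ^ 2 ≤ (-c) * ‖v‖ ^ 2 := by linarith only [hc]
  have h2 := eigen_mult μ (2 ^ i) k g hg hgk e heM he0 (-c) hθe
  have h3 : (‖adjOp μ (regRep (Perm ι)) v‖ ^ 2) ^ 2 ^ i ≤ ((-c) * ‖v‖ ^ 2) ^ 2 ^ i :=
    pow_le_pow_left₀ (sq_nonneg _) h1 _
  rw [mul_pow] at h3
  have h4 : (0 : ℝ) ≤ (g : ℝ) ^ k := by positivity
  have h5 : (0 : ℝ) ≤ (‖v‖ ^ 2) ^ 2 ^ i := by positivity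
  calc (g : ℝ) ^ k * ‖adjOp μ (regRep (Perm ι)) v‖ ^ (2 * 2 ^ i)
      = (g : ℝ) ^ k * (‖adjOp μ (regRep (Perm ι)) v‖ ^ 2) ^ 2 ^ i := by rw [← pow_mul]
    _ ≤ (g : ℝ) ^ k * ((-c) ^ 2 ^ i * (‖v‖ ^ 2) ^ 2 ^ i) := mul_le_mul_of_nonneg_left h3 h4
    _ = ((g : ℝ) ^ k * (-c) ^ 2 ^ i) * (‖v‖ ^ 2) ^ 2 ^ i := by ring
    _ ≤ trk (convPow (symLaw μ) (2 ^ i)) (g * k) * (‖v‖ ^ 2) ^ 2 ^ i :=
        mul_le_mul_of_nonneg_right h2 h5
    _ = _ := by rw [← pow_mul]

end Main

end Vale.Agent.P162.Lin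
end
end
end

section

section

section

/-!
# Assembly: `t_mix(n)` is of order `log n` for every even `n`, from the moment bound of the kernel
-/

namespace Vale.Agent.P162.Lin

open Equiv NormedSpace

/-- The moment bound needed from the network analysis. -/
def MomentBound : Prop :=
  ∃ C : ℝ, 0 < C ∧ ∃ q : ℕ, 0 < q ∧ ∃ i A B m0 : ℕ, ∀ m : ℕ, m0 ≤ m → ∃ D : ℕ,
    Nat.log 2 (2 * m) ≤ D ∧ D ≤ A * Nat.log 2 (2 * m) + B ∧
    ∀ k h : ℕ, k * 2 ^ h ≤ 2 * m → ∀ s : Tup (Fin (2 * m)) k,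
      ∑ z, matLaw k (symLaw (convPow (thorpLaw m) D)) s z *
        (((2 * m : ℕ) : ℝ) ^ k * matLaw k (symLaw (convPow (thorpLaw m) D)) s z) ^
          ((1 : ℝ) / 2 ^ i) ≤ Real.exp (C * k * (2 : ℝ) ^ (-((h : ℝ) / q)))

theorem regRep_iso {G : Type*} [Group G] [Fintype G] (g : G) (f : EuclideanSpace ℝ G) :
    ‖regRep G g f‖ = ‖f‖ := by
  rw [EuclideanSpace.norm_eq, EuclideanSpace.norm_eq]
  congr 1
  exact Equiv.sum_comp (Equiv.mulLeft g⁻¹) (fun σ => ‖f σ‖ ^ 2)

theorem upper_all_of (hTB : MomentBound) : ∃ (C : ℝ) (m1 : ℕ), ∀ m : ℕ, m1 ≤ m →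
    (tmix m : ℝ) ≤ C * Real.log ((2 * m : ℕ) : ℝ) := by
  obtain ⟨C, hC, q, hq, i, A, B, m0, hTB⟩ := hTB
  set c : ℝ := c1 / 16 with hc
  have hc0 : 0 < c := by have := c1_pos; rw [hc]; linarith only [this]
  set r : ℕ := ⌈1 / (40 * c)⌉₊ with hr
  have hrc : 1 / 40 ≤ (r : ℝ) * c := by
    have h1 : 1 / (40 * c) ≤ (r : ℝ) := Nat.le_ceil _
    rw [div_le_iff₀ (by (clear * - hc0; positivity))] at h1
    linarith only [h1]
  obtain ⟨M, n0, hmain⟩ := tv_of_trace_gen (i + 1) (6 * r)
    (fun _ _ _ μ hμ i k g hk hg hgk v hv => norm_level μ hμ i k g hk hg hgk v hv)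
    (fun _ _ _ μ hμ i k hk => weight_level μ hμ i k hk)
    (fun _ _ _ μ hμ i => weight_total μ hμ i) (2 ^ (i + 1) * C) (by positivity) q hq
  refine ⟨((A + B) * M) / Real.log 2, m0 + n0 + 1024, fun m hm => ?_⟩
  obtain ⟨D, hD1, hD2, hmom⟩ := hTB m (by omega)
  set μ := convPow (thorpLaw m) D with hμ
  have hcard : Fintype.card (Fin (2 * m)) = 2 * m := Fintype.card_fin _
  have hμ0 : ∀ g, 0 ≤ μ g := convPow_nonneg' _ (thorpLaw_nonneg _) _
  have hμ1 : ∑ g, μ g = 1 := convPow_sum' _ (thorpLaw_sum _) _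
  have hlog1 : 1 ≤ Nat.log 2 (2 * m) := by
    apply Nat.le_log_of_pow_le (by norm_num)
    omega
  have htv : tvUnif (convPow μ M) ≤ 1 / 4 := by
    refine hmain (Fin (2 * m)) μ hμ0 hμ1 (by rw [hcard]; omega) ?_ ?_
    · intro v
      set R := adjOp (thorpLaw m) (regRep (Perm (Fin (2 * m)))) with hR
      have e1 : adjOp μ (regRep (Perm (Fin (2 * m)))) ^ (6 * r) = R ^ (D * (6 * r)) := by
        rw [hμ, adjOp_convPow_rep, ← pow_mul]
      rw [e1]
      set D1 := Nat.log 2 (2 * m) + 5 with hD1'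
      have hle : D1 * r ≤ D * (6 * r) := by
        calc D1 * r ≤ (6 * D) * r := Nat.mul_le_mul_right _ (by omega)
          _ = D * (6 * r) := by ring
      have e2 : D * (6 * r) = (D * (6 * r) - D1 * r) + D1 * r := by omega
      rw [e2]
      refine (pow_add_norm_le (thorpLaw m) (thorpLaw_nonneg _) (thorpLaw_sum _) _ _ v).trans ?_
      refine (iterate_pass m c D1 (fun v => thorp_pass (by omega) _ regRep_iso v) r v).trans ?_
      exact norm_exp_mono (gen (regRep (Perm (Fin (2 * m)))))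
        (gen_symm _ regRep_iso) (inner_gen_nonneg _ regRep_iso) _ _ hrc v
    · intro k h hkh
      rw [hcard] at hkh
      have hk : k ≤ Fintype.card (Fin (2 * m)) := by
        rw [hcard]
        exact (Nat.le_mul_of_pos_right k (by positivity)).trans hkh
      set E : ℝ := (2 : ℝ) ^ (-((h : ℝ) / q)) with hE
      have hE0 : 0 < E := Real.rpow_pos_of_pos (by norm_num) _
      have h1 := trk_le_of_moment k i (symLaw μ) (symLaw_nonneg μ hμ0) (symLaw_sum μ hμ1)
        (symLaw_inv μ) hk (Real.exp (C * k * E)) (Real.one_le_exp (by (clear * - hC; positivity))) (by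
          rw [hcard]
          exact hmom k h hkh)
      refine h1.trans (le_of_eq ?_)
      rw [← Real.exp_nat_mul]
      congr 1
      push_cast
      ring
  have h1 : tmix m ≤ D * M := by
    refine Nat.sInf_le ?_
    rw [Set.mem_setOf_eq, ← convPow_mul']
    exact htv
  have h2 : (tmix m : ℝ) ≤ (D : ℝ) * M := by exact_mod_cast h1
  have hlog2 : 0 < Real.log 2 := Real.log_pos (by norm_num)
  have h3 : (Nat.log 2 (2 * m) : ℝ) * Real.log 2 ≤ Real.log ((2 * m : ℕ) : ℝ) := by
    have h5 : 2 ^ Nat.log 2 (2 * m) ≤ 2 * m := Nat.pow_log_le_self 2 (by omega)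
    have h6 : ((2 : ℝ) ^ Nat.log 2 (2 * m)) ≤ ((2 * m : ℕ) : ℝ) := by exact_mod_cast h5
    have h7 := Real.log_le_log (by positivity) h6
    rw [Real.log_pow] at h7
    exact h7
  have h4 : (D : ℝ) ≤ (A + B) * (Nat.log 2 (2 * m) : ℝ) := by
    have h5 : D ≤ (A + B) * Nat.log 2 (2 * m) := by
      calc D ≤ A * Nat.log 2 (2 * m) + B := hD2
        _ ≤ A * Nat.log 2 (2 * m) + B * Nat.log 2 (2 * m) :=
            Nat.add_le_add_left (Nat.le_mul_of_pos_right _ (by omega)) _
        _ = (A + B) * Nat.log 2 (2 * m) := by ring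
    exact_mod_cast h5
  calc (tmix m : ℝ) ≤ (D : ℝ) * M := h2
    _ ≤ ((A + B) * (Nat.log 2 (2 * m) : ℝ)) * M :=
        mul_le_mul_of_nonneg_right h4 (Nat.cast_nonneg _)
    _ = ((A + B) * M) * (Nat.log 2 (2 * m) : ℝ) := by ring
    _ ≤ ((A + B) * M) * (Real.log ((2 * m : ℕ) : ℝ) / Real.log 2) := by
        apply mul_le_mul_of_nonneg_left _ (by (clear * -; positivity))
        rw [le_div_iff₀ hlog2]
        exact h3
    _ = _ := by ring

/-- The mixing time of the Thorp shuffle is of order `log n` for every even `n`, from the moment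
bound. -/
theorem final_all_even_of (hTB : MomentBound) : ∃ c C : ℝ, 0 < c ∧ ∀ m : ℕ, 1 ≤ m →
    c * Real.log ((2 * m : ℕ) : ℝ) ≤ (tmix m : ℝ) ∧
    (tmix m : ℝ) ≤ C * Real.log ((2 * m : ℕ) : ℝ) ∧
    ∀ t : ℕ, tmix m ≤ t → tvUnif (convPow (thorpLaw m) t) ≤ 1 / 4 := by
  obtain ⟨C₀, m1, hup⟩ := upper_all_of hTB
  obtain ⟨C₁, hC₁⟩ := all_even_log_sq
  have hlog2 : 0 < Real.log 2 := Real.log_pos (by norm_num)
  set C2 : ℝ := (∑ m ∈ Finset.range m1, (tmix m : ℝ)) / Real.log 2 with hC2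
  have hC2' : 0 ≤ C2 := by (clear * -; positivity)
  refine ⟨1 / 2, |C₀| + C2, by norm_num, fun m hm => ⟨(hC₁ m hm).1, ?_, (hC₁ m hm).2.2⟩⟩
  have hL : Real.log 2 ≤ Real.log ((2 * m : ℕ) : ℝ) := by
    apply Real.log_le_log (by norm_num)
    have : 2 ≤ 2 * m := by omega
    exact_mod_cast this
  set L := Real.log ((2 * m : ℕ) : ℝ) with hLdef
  have hL0 : 0 < L := hlog2.trans_le hL
  rcases lt_or_ge m m1 with hlt | hge
  · have h1 : (tmix m : ℝ) ≤ ∑ m ∈ Finset.range m1, (tmix m : ℝ) :=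
      Finset.single_le_sum (f := fun m => (tmix m : ℝ)) (fun i _ => Nat.cast_nonneg _)
        (Finset.mem_range.2 hlt)
    have h2 : (∑ m ∈ Finset.range m1, (tmix m : ℝ)) ≤ C2 * L := by
      rw [hC2, div_mul_eq_mul_div, le_div_iff₀ (by positivity)]
      exact mul_le_mul_of_nonneg_left hL (by (clear * -; positivity))
    have h3 : 0 ≤ |C₀| * L := by (clear * - hL0; (clear * - hL0; positivity))
    linarith only [h1, h2, h3]
  · have h1 := hup m hge
    have h2 : C₀ * L ≤ |C₀| * L := mul_le_mul_of_nonneg_right (le_abs_self _) hL0.le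
    have h3 : 0 ≤ C2 * L := by (clear * - hL0; positivity)
    linarith only [h1, h2, h3]

end Vale.Agent.P162.Lin
end
end
end

section

section

section

/-!
# Module M: the moment bound from Claim A and the density bounds
-/

namespace Vale.Agent.P162.Ring

open Equiv
open Vale.Agent.P162.Lin (Ex nOrb MomentBound matLaw symLaw Tup)
open Vale.Agent.P162.Lin.Main (lo al al_pos sum_al_le holder5 geom_tail Ex_mono Ex_const
  Ex_le_of_le Ex_add Ex_mul_left Ex_sum Ex_prod rt rt_nonneg rate)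

/-- Exceptional levels: the first `u` levels, and the `u` levels after `v₂(2 m)`. -/
def Xcl (m u : ℕ) : Finset ℕ :=
  Finset.range u ∪ Finset.Ico (padicValNat 2 (2 * m)) (padicValNat 2 (2 * m) + u)

/-- The kernel bound (Claim A together with the kernel). -/
def KerBound : Prop :=
  ∀ m D u : ℕ, 1 ≤ m → Nat.log 2 (2 * m) + u + 1 ≤ D →
    ∀ (S : Finset (Fin (2 * m))) (z : Fin (2 * m) → Fin (2 * m)),
    Ex (fun ab : Cn m D × Cn m D => if ∀ p ∈ S, net ab.1 ab.2 D p = z p
      then ((1 : ℝ) / 2) ^ cost (Xcl m u) ab.1 ab.2 S else 0) ≤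
      ((1 + 16 * ((1 : ℝ) / 2) ^ u) / ((2 * m : ℕ) : ℝ)) ^ S.card

/-- The density bounds. -/
def DensBound : Prop :=
  ∃ c : ℝ, 0 ≤ c ∧ ∀ m D t j : ℕ, 1 ≤ m → 2 * m ≤ 2 ^ t → j + t ≤ D →
    ∀ (S : Finset (Fin (2 * m))) (x : ℝ), 0 ≤ x →
    Ex (fun a : Cn m D => (1 + x) ^ prL a S j) ≤ Real.exp (c * x * (S.card : ℝ) ^ 2 / m) ∧
    Ex (fun ab : Cn m D × Cn m D => (1 + x) ^ prR ab.1 ab.2 S j) ≤
      Real.exp (c * x * (S.card : ℝ) ^ 2 / m)

/-! ### Counting -/

theorem card_Xcl (m u : ℕ) : (Xcl m u).card ≤ 2 * u := by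
  unfold Xcl
  refine (Finset.card_union_le _ _).trans ?_
  rw [Finset.card_range, Nat.card_Ico]
  omega

theorem inv_app {P : Type*} (N : Perm P) (p : P) : N⁻¹ (N p) = p := N.symm_apply_apply p

/-- A loop contains a touched wire. -/
theorem loops_le_tc {m D : ℕ} (a b : Cn m D) (S : Finset (Fin (2 * m))) (j : ℕ) :
    loops a b S j ≤ tc a b S j := by
  classical
  unfold loops nOrb tc
  set H := Subgroup.closure {opp m, kap (net a b j)} with hH
  set T := (occ a j S).filter (fun p => opp m p ∈ occ a j S ∨ kap (net a b j) p ∈ occ a j S)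
    with hT
  have hsub : {O : Set (Fin (2 * m)) | (∃ p, O = MulAction.orbit H p) ∧
      O ⊆ (occ a j S : Set (Fin (2 * m)))} ⊆
      ((T.image (fun p => MulAction.orbit H p) : Finset (Set (Fin (2 * m)))) :
        Set (Set (Fin (2 * m)))) := by
    rintro O ⟨⟨p, rfl⟩, hO⟩
    rw [Finset.mem_coe, Finset.mem_image]
    refine ⟨p, ?_, rfl⟩
    rw [hT, Finset.mem_filter]
    refine ⟨hO (MulAction.mem_orbit_self p), Or.inl (hO ?_)⟩
    exact ⟨⟨opp m, Subgroup.subset_closure (by simp)⟩, rfl⟩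
  refine (Set.ncard_le_ncard hsub (Finset.finite_toSet _)).trans ?_
  rw [Set.ncard_coe_finset]
  exact Finset.card_image_le

/-- Touched wires are covered by the pairs of the two sides. -/
theorem tc_le_pairs {m D : ℕ} (a b : Cn m D) (S : Finset (Fin (2 * m))) (j : ℕ) :
    tc a b S j ≤ 2 * (prL a S j + prR a b S j) := by
  classical
  set N := net a b j with hN
  set A := Finset.univ.filter (fun l : Fin m => wl l ∈ occ a j S ∧ wh l ∈ occ a j S) with hA
  set B := Finset.univ.filter (fun l : Fin m => N⁻¹ (wl l) ∈ occ a j S ∧ N⁻¹ (wh l) ∈ occ a j S)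
    with hB
  have hsub : (occ a j S).filter (fun p => opp m p ∈ occ a j S ∨ kap N p ∈ occ a j S) ⊆
      (A.image wl ∪ A.image wh) ∪ (B.image (fun l => N⁻¹ (wl l)) ∪ B.image (fun l => N⁻¹ (wh l)))
      := by
    intro p hp
    rw [Finset.mem_filter] at hp
    obtain ⟨hp, h | h⟩ := hp
    · rw [Finset.mem_union]
      left
      rw [Finset.mem_union]
      obtain ⟨l, rfl | rfl⟩ := exists_wire p
      · rw [opp_wl] at h
        exact Or.inl (Finset.mem_image_of_mem _ (by rw [hA, Finset.mem_filter]; exact ⟨Finset.mem_univ _, hp, h⟩))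
      · rw [opp_wh] at h
        exact Or.inr (Finset.mem_image_of_mem _ (by rw [hA, Finset.mem_filter]; exact ⟨Finset.mem_univ _, h, hp⟩))
    · rw [Finset.mem_union]
      right
      rw [Finset.mem_union]
      have e0 : p = N⁻¹ (N p) := (inv_app N p).symm
      have e1 : kap N p = N⁻¹ (opp m (N p)) := rfl
      rw [e1] at h
      obtain ⟨l, hl | hl⟩ := exists_wire (N p)
      · rw [hl, opp_wl] at h
        rw [hl] at e0
        left
        rw [e0]
        refine Finset.mem_image_of_mem (fun l => N⁻¹ (wl l)) ?_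
        rw [hB, Finset.mem_filter]
        exact ⟨Finset.mem_univ _, e0 ▸ hp, h⟩
      · rw [hl, opp_wh] at h
        rw [hl] at e0
        right
        rw [e0]
        refine Finset.mem_image_of_mem (fun l => N⁻¹ (wh l)) ?_
        rw [hB, Finset.mem_filter]
        exact ⟨Finset.mem_univ _, h, e0 ▸ hp⟩
  have h1 := Finset.card_le_card hsub
  have h2 := Finset.card_union_le (A.image wl ∪ A.image wh)
    (B.image (fun l => N⁻¹ (wl l)) ∪ B.image (fun l => N⁻¹ (wh l)))
  have h3 := Finset.card_union_le (A.image wl) (A.image wh)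
  have h4 := Finset.card_union_le (B.image (fun l => N⁻¹ (wl l))) (B.image (fun l => N⁻¹ (wh l)))
  have h5 : (A.image (wl (m := m))).card ≤ A.card := Finset.card_image_le
  have h6 : (A.image (wh (m := m))).card ≤ A.card := Finset.card_image_le
  have h7 : (B.image (fun l => N⁻¹ (wl l))).card ≤ B.card := Finset.card_image_le
  have h8 : (B.image (fun l => N⁻¹ (wh l))).card ≤ B.card := Finset.card_image_le
  unfold tc prL prR
  rw [← hN, ← hA, ← hB]
  omega

/-- The cost is at most the loops of the levels `≥ u` and the pairs of the exceptional levels. -/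
theorem cost_le {m D : ℕ} (u : ℕ) (a b : Cn m D) (S : Finset (Fin (2 * m))) :
    cost (Xcl m u) a b S ≤ ∑ j ∈ (Finset.range D).filter (fun j => u ≤ j), loops a b S j +
      4 * ∑ j ∈ Xcl m u, (prL a S j + prR a b S j) := by
  unfold cost totLoops
  have e1 : ∑ j : Fin D, loops a b S j = ∑ j ∈ Finset.range D, loops a b S j :=
    Fin.sum_univ_eq_sum_range (fun j => loops a b S j) D
  rw [e1, ← Finset.sum_filter_add_sum_filter_not (Finset.range D) (fun j => u ≤ j), add_assoc]
  refine Nat.add_le_add_left ?_ _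
  have h1 : ∑ j ∈ (Finset.range D).filter (fun j => ¬ u ≤ j), loops a b S j ≤
      ∑ j ∈ Xcl m u, tc a b S j := by
    refine (Finset.sum_le_sum (fun j _ => loops_le_tc a b S j)).trans ?_
    refine Finset.sum_le_sum_of_subset ?_
    intro j hj
    rw [Finset.mem_filter, not_le] at hj
    unfold Xcl
    rw [Finset.mem_union]
    exact Or.inl (Finset.mem_range.2 hj.2)
  have h2 : ∑ j ∈ Xcl m u, tc a b S j ≤ 2 * ∑ j ∈ Xcl m u, (prL a S j + prR a b S j) := by
    rw [Finset.mul_sum]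
    exact Finset.sum_le_sum fun j _ => tc_le_pairs a b S j
  omega

/-! ### Window levels -/

/-- The bound of one level in the form used. -/
theorem level_ring {m D : ℕ} (hm : 1 ≤ m) (hD : D ≤ 3 * Nat.log 2 (2 * m) + 4) (a b : Cn m D)
    (S : Finset (Fin (2 * m))) (j : ℕ) (hj : j < D) (x : ℝ) (hx : 0 ≤ x) :
    Ex (fun c : Cn m D => (1 + x) ^ loops a (fun i => if (i : ℕ) < lo j then b i else c i) S j)
      ≤ Real.exp (x * rt j * S.card) := by
  have hlo : j - lo j = j / 16 := by unfold lo; (clear * -; omega)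
  have hlog : 1 ≤ Nat.log 2 (2 * m) := Nat.le_log_of_pow_le (by norm_num) (by (clear * - hm; omega))
  have hw : 2 ^ (j - lo j + j / 80) < 2 * m := by
    rw [hlo]
    refine lt_of_lt_of_le ?_ (Nat.pow_log_le_self 2 (by omega : 2 * m ≠ 0))
    exact Nat.pow_lt_pow_right (by norm_num) (by omega)
  have h := Win.ring_level_bound a b S j (lo j) (j / 80) (Nat.sub_le _ _) hj.le hw x hx
  refine h.trans ?_
  rw [hlo]
  have h1 : (1 + x) ^ (S.card / 2 ^ (j / 80)) ≤
      Real.exp (x * (((2 : ℝ) ^ (j / 80))⁻¹ * S.card)) := by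
    calc (1 + x) ^ (S.card / 2 ^ (j / 80)) ≤ (Real.exp x) ^ (S.card / 2 ^ (j / 80)) := by
          apply pow_le_pow_left₀ (by linarith only [hx])
          linarith only [Real.add_one_le_exp x]
      _ = Real.exp (x * ((S.card / 2 ^ (j / 80) : ℕ) : ℝ)) := by
          rw [← Real.exp_nat_mul, mul_comm]
      _ ≤ _ := by
          refine Real.exp_le_exp.2 (mul_le_mul_of_nonneg_left ?_ hx)
          rw [inv_mul_eq_div]
          have := @Nat.cast_div_le ℝ _ _ _ S.card (2 ^ (j / 80))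
          simpa only [ge_iff_le, Nat.cast_pow, Nat.cast_ofNat] using this
  calc (1 + x) ^ (S.card / 2 ^ (j / 80)) * Real.exp (S.card * (x * 2 ^ (j / 80) /
        (2 : ℝ) ^ ((((j / 16 : ℕ) : ℝ) - (j / 80 : ℕ)) / 2)))
      ≤ Real.exp (x * (((2 : ℝ) ^ (j / 80))⁻¹ * S.card)) * Real.exp (S.card * (x * 2 ^ (j / 80) /
        (2 : ℝ) ^ ((((j / 16 : ℕ) : ℝ) - (j / 80 : ℕ)) / 2))) :=
        mul_le_mul_of_nonneg_right h1 (Real.exp_pos _).le
    _ = Real.exp (x * rt j * S.card) := by
        rw [← Real.exp_add]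
        congr 1
        unfold rt
        ring

/-- Base of the geometric series of the rates. -/
noncomputable def th0 : ℝ := (2 : ℝ) ^ (-(1 / (1680 : ℝ)))

theorem th0_pos : 0 < th0 := Real.rpow_pos_of_pos (by norm_num) _

theorem th0_lt : th0 < 1 := by
  unfold th0
  apply Real.rpow_lt_one_of_one_lt_of_neg (by norm_num)
  norm_num

theorem th0_pow (j : ℕ) : th0 ^ j = (2 : ℝ) ^ (-((j : ℝ) / ((1680 : ℕ) : ℝ))) := by
  unfold th0
  rw [← Real.rpow_natCast, ← Real.rpow_mul (by norm_num)]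
  congr 1
  push_cast
  ring

/-- The window levels. -/
theorem large_ring {m D : ℕ} (hm : 1 ≤ m) (hD : D ≤ 3 * Nat.log 2 (2 * m) + 4) (a : Cn m D)
    (S : Finset (Fin (2 * m))) (u : ℕ) (δ : ℝ) (hδ : δ ≤ 5 / 28) :
    Ex (fun b : Cn m D => (2 : ℝ) ^ (δ *
      ∑ j ∈ (Finset.range D).filter (fun j => u ≤ j), (loops a b S j : ℝ))) ≤
      Real.exp (S.card * (120 / (1 - th0) * th0 ^ u)) := by
  set J := (Finset.range D).filter (fun j => u ≤ j) with hJ
  have hJD : ∀ j ∈ J, j < D := fun j hj => Finset.mem_range.1 (Finset.mem_filter.1 hj).1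
  refine (window_part a S J (fun j hj => (hJD j hj).le) δ
    (fun j => ((2 : ℝ) ^ (((j : ℝ) + 1) / 84) - 1) * rt j * S.card) ?_).trans ?_
  · intro j hj b
    have hx0 : 0 ≤ (2 : ℝ) ^ (((j : ℝ) + 1) / 84) - 1 := by
      have := Real.one_le_rpow (x := 2) (z := ((j : ℝ) + 1) / 84) (by norm_num) (by (clear * -; positivity))
      linarith only [this]
    refine le_trans (Ex_mono fun c => ?_) (level_ring hm hD a b S j (hJD j hj) _ hx0)
    have e3 : 1 + ((2 : ℝ) ^ (((j : ℝ) + 1) / 84) - 1) = (2 : ℝ) ^ (((j : ℝ) + 1) / 84) := by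
      ring
    rw [e3, ← Real.rpow_natCast, ← Real.rpow_mul (by norm_num)]
    apply Real.rpow_le_rpow_of_exponent_le (by norm_num)
    refine mul_le_mul_of_nonneg_right ?_ (Nat.cast_nonneg _)
    unfold al
    rw [div_div_eq_mul_div]
    have hj0 : (0 : ℝ) ≤ j := Nat.cast_nonneg _
    rw [div_le_div_iff₀ (by norm_num) (by norm_num)]
    nlinarith only [hδ]
  · refine Real.exp_le_exp.2 ?_
    have hterm : ∀ j ∈ J, al j * (((2 : ℝ) ^ (((j : ℝ) + 1) / 84) - 1) * rt j * S.card) ≤
        120 * S.card * th0 ^ j := by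
      intro j _
      have ha : al j ≤ 15 := by
        unfold al
        rw [div_le_iff₀ (by positivity)]
        have : (0 : ℝ) ≤ j := Nat.cast_nonneg _
        linarith only []
      have hx0 : 0 ≤ (2 : ℝ) ^ (((j : ℝ) + 1) / 84) - 1 := by
        have := Real.one_le_rpow (x := 2) (z := ((j : ℝ) + 1) / 84) (by norm_num) (by positivity)
        linarith only [this]
      have h1 : ((2 : ℝ) ^ (((j : ℝ) + 1) / 84) - 1) * rt j ≤ 8 * th0 ^ j := by
        rw [th0_pow]
        refine le_trans ?_ (rate j)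
        exact mul_le_mul_of_nonneg_right (by linarith only []) (rt_nonneg j)
      have h2 : 0 ≤ ((2 : ℝ) ^ (((j : ℝ) + 1) / 84) - 1) * rt j := mul_nonneg hx0 (rt_nonneg j)
      calc al j * (((2 : ℝ) ^ (((j : ℝ) + 1) / 84) - 1) * rt j * S.card)
          ≤ 15 * ((8 * th0 ^ j) * S.card) := by
            refine mul_le_mul ha (mul_le_mul_of_nonneg_right h1 (Nat.cast_nonneg _))
              (mul_nonneg h2 (Nat.cast_nonneg _)) (by norm_num)
        _ = 120 * S.card * th0 ^ j := by ring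
    refine (Finset.sum_le_sum hterm).trans ?_
    rw [← Finset.mul_sum]
    refine (mul_le_mul_of_nonneg_left (geom_tail th0 th0_pos.le th0_lt D u)
      (by (clear * -; (clear * -; positivity)))).trans (le_of_eq ?_)
    ring

end Vale.Agent.P162.Ring
end
end
end

section

section

section

/-!
# Module M: the moment bound from Claim A and the density bounds (end)
-/

namespace Vale.Agent.P162.Ring

open Equiv
open Vale.Agent.P162.Lin (Ex nOrb MomentBound matLaw symLaw Tup)
open Vale.Agent.P162.Lin.Main (lo al al_pos sum_al_le holder5 geom_tail Ex_mono Ex_const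
  Ex_le_of_le Ex_add Ex_mul_left Ex_sum Ex_prod rt rt_nonneg rate)

/-- The exceptional levels. -/
theorem small_ring {c : ℝ} (hc : 0 ≤ c)
    (hC : ∀ m D t j : ℕ, 1 ≤ m → 2 * m ≤ 2 ^ t → j + t ≤ D →
      ∀ (S : Finset (Fin (2 * m))) (x : ℝ), 0 ≤ x →
      Ex (fun a : Cn m D => (1 + x) ^ prL a S j) ≤ Real.exp (c * x * (S.card : ℝ) ^ 2 / m) ∧
      Ex (fun ab : Cn m D × Cn m D => (1 + x) ^ prR ab.1 ab.2 S j) ≤
        Real.exp (c * x * (S.card : ℝ) ^ 2 / m))
    {m D h : ℕ} (hm : 1 ≤ m) (hD : D = 3 * Nat.log 2 (2 * m) + 4) (hh : h ≤ Nat.log 2 (2 * m))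
    (S : Finset (Fin (2 * m))) (hS : S.card * 2 ^ h ≤ 2 * m) :
    Ex (fun ab : Cn m D × Cn m D => (2 : ℝ) ^ ((5 / 8 : ℝ) *
      ∑ j ∈ Xcl m (h / 8 + 1), ((prL ab.1 S j + prR ab.1 ab.2 S j : ℕ) : ℝ))) ≤
      Real.exp (12 * c * (S.card * (2 : ℝ) ^ (-((h : ℝ) / 2)))) := by
  set u := h / 8 + 1 with hu
  set N : ℝ := (h : ℝ) / 4 + 2 with hN
  have hh0 : (0 : ℝ) ≤ h := Nat.cast_nonneg _
  have hN0 : 0 ≤ N := by (clear * -; (clear * -; positivity))
  have hm' : (0 : ℝ) < m := by exact_mod_cast hm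
  have hcard : ((Xcl m u).card : ℝ) ≤ N := by
    have h1 : ((Xcl m u).card : ℝ) ≤ ((2 * u : ℕ) : ℝ) := by exact_mod_cast card_Xcl m u
    have h2 : 4 * (2 * u) ≤ h + 8 := by (clear * -; omega)
    have h3 : (4 : ℝ) * ((2 * u : ℕ) : ℝ) ≤ h + 8 := by exact_mod_cast h2
    rw [hN]
    linarith only [h1, h3]
  have hlog : 2 ^ Nat.log 2 (2 * m) ≤ 2 * m := Nat.pow_log_le_self 2 (by omega)
  have ha : padicValNat 2 (2 * m) ≤ Nat.log 2 (2 * m) := padicValNat_le_nat_log _
  have hk0 : (0 : ℝ) ≤ S.card := Nat.cast_nonneg _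
  refine avg_part (Xcl m u) N hcard
    (fun j (ab : Cn m D × Cn m D) => ((prL ab.1 S j + prR ab.1 ab.2 S j : ℕ) : ℝ))
    (fun j _ ab => Nat.cast_nonneg _) (5 / 8) (by norm_num) _ (by (clear * - hc; (clear * - hc; positivity))) ?_
  intro j hj
  have hjt : j + (Nat.log 2 (2 * m) + 1) ≤ D := by
    unfold Xcl at hj
    rw [Finset.mem_union, Finset.mem_range, Finset.mem_Ico] at hj
    omega
  have hpow : 2 * m ≤ 2 ^ (Nat.log 2 (2 * m) + 1) :=
    (Nat.lt_pow_succ_log_self (by norm_num) _).le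
  set y : ℝ := (2 : ℝ) ^ (2 * (5 / 8 * N)) with hy
  have hy1 : 1 ≤ y := Real.one_le_rpow (by norm_num) (by (clear * -; (clear * -; positivity)))
  obtain ⟨hL, hR⟩ := hC m D _ j hm hpow hjt S (y - 1) (by linarith only [hy1])
  have e1 : 1 + (y - 1) = y := by ring
  simp only [e1] at hL hR
  have hpt : ∀ ab : Cn m D × Cn m D,
      (2 : ℝ) ^ (5 / 8 * N * ((prL ab.1 S j + prR ab.1 ab.2 S j : ℕ) : ℝ)) ≤
      (1 / 2) * y ^ prL ab.1 S j + (1 / 2) * y ^ prR ab.1 ab.2 S j := by
    intro ab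
    have e2 : ∀ v : ℕ, y ^ v = ((2 : ℝ) ^ (5 / 8 * N * (v : ℝ))) ^ 2 := by
      intro v
      rw [hy, ← Real.rpow_natCast, ← Real.rpow_mul (by norm_num), ← Real.rpow_natCast,
        ← Real.rpow_mul (by norm_num)]
      congr 1
      push_cast
      ring
    rw [e2, e2, Nat.cast_add, mul_add, Real.rpow_add (by norm_num)]
    nlinarith only [sq_nonneg ((2 : ℝ) ^ (5 / 8 * N * ((prL ab.1 S j : ℕ) : ℝ)) -       (2 : ℝ) ^ (5 / 8 * N * ((prR ab.1 ab.2 S j : ℕ) : ℝ)))]
  refine (Ex_mono hpt).trans ?_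
  rw [Ex_add, Ex_mul_left, Ex_mul_left]
  have hL' : Ex (fun ab : Cn m D × Cn m D => y ^ prL ab.1 S j) ≤
      Real.exp (c * (y - 1) * (S.card : ℝ) ^ 2 / m) := by
    rw [Ex_prod]
    refine le_trans (le_of_eq ?_) hL
    congr 1
    funext a
    change Ex (fun _ : Cn m D => y ^ prL a S j) = _
    exact Ex_const _
  have hfin : c * (y - 1) * (S.card : ℝ) ^ 2 / m ≤
      12 * c * (S.card * (2 : ℝ) ^ (-((h : ℝ) / 2))) := by
    have h1 : (S.card : ℝ) / (2 * m) ≤ (2 : ℝ) ^ (-(h : ℝ)) := by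
      rw [div_le_iff₀ (by positivity), Real.rpow_neg (by norm_num), Real.rpow_natCast,
        inv_mul_eq_div, le_div_iff₀ (by positivity)]
      exact_mod_cast hS
    have h2 : y * (2 * (2 : ℝ) ^ (-(h : ℝ))) ≤ 12 * (2 : ℝ) ^ (-((h : ℝ) / 2)) := by
      have h3 : y * (2 : ℝ) ^ (-(h : ℝ)) = (2 : ℝ) ^ ((5 : ℝ) / 2) * (2 : ℝ) ^ (-(11 / 16 * (h : ℝ))) := by
        rw [hy, hN, ← Real.rpow_add (by norm_num), ← Real.rpow_add (by norm_num)]
        congr 1
        ring
      have h4 : (2 : ℝ) ^ ((5 : ℝ) / 2) ≤ 6 := by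
        have h5 : (2 : ℝ) ^ ((5 : ℝ) / 2) = 4 * (2 : ℝ) ^ ((1 : ℝ) / 2) := by
          have : (5 : ℝ) / 2 = 2 + 1 / 2 := by norm_num
          rw [this, Real.rpow_add (by norm_num)]
          norm_num
        have h6 : (2 : ℝ) ^ ((1 : ℝ) / 2) ≤ 3 / 2 := by
          rw [← Real.sqrt_eq_rpow]
          rw [Real.sqrt_le_left (by norm_num)]
          norm_num
        rw [h5]
        linarith only [h6]
      have h7 : (2 : ℝ) ^ (-(11 / 16 * (h : ℝ))) ≤ (2 : ℝ) ^ (-((h : ℝ) / 2)) := by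
        apply Real.rpow_le_rpow_of_exponent_le (by norm_num)
        linarith only []
      have h8 : (0 : ℝ) < (2 : ℝ) ^ (-(11 / 16 * (h : ℝ))) := Real.rpow_pos_of_pos (by norm_num) _
      calc y * (2 * (2 : ℝ) ^ (-(h : ℝ))) = 2 * (y * (2 : ℝ) ^ (-(h : ℝ))) := by ring
        _ = 2 * ((2 : ℝ) ^ ((5 : ℝ) / 2) * (2 : ℝ) ^ (-(11 / 16 * (h : ℝ)))) := by rw [h3]
        _ ≤ 2 * (6 * (2 : ℝ) ^ (-((h : ℝ) / 2))) := by
            refine mul_le_mul_of_nonneg_left ?_ (by norm_num)
            exact mul_le_mul h4 h7 h8.le (by norm_num)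
        _ = _ := by ring
    calc c * (y - 1) * (S.card : ℝ) ^ 2 / m
        = c * S.card * ((y - 1) * (2 * ((S.card : ℝ) / (2 * m)))) := by
          (clear * - hm; field_simp)
      _ ≤ c * S.card * (y * (2 * (2 : ℝ) ^ (-(h : ℝ)))) := by
          refine mul_le_mul_of_nonneg_left ?_ (by (clear * - hc; positivity))
          refine mul_le_mul (by linarith only []) ?_ (by (clear * - hm; positivity)) (by linarith only [hy1])
          linarith only [h1]
      _ ≤ c * S.card * (12 * (2 : ℝ) ^ (-((h : ℝ) / 2))) :=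
          mul_le_mul_of_nonneg_left h2 (by (clear * - hc; positivity))
      _ = _ := by ring
  have h1 := hL'.trans (Real.exp_le_exp.2 hfin)
  have h2 := hR.trans (Real.exp_le_exp.2 hfin)
  linarith only [h1, h2]

/-- The exponential moment of the cost. -/
theorem cost_moment (hC : DensBound) : ∃ C : ℝ, 0 < C ∧ ∀ m D k h : ℕ, 1 ≤ m →
    D = 3 * Nat.log 2 (2 * m) + 4 → h ≤ Nat.log 2 (2 * m) →
    ∀ S : Finset (Fin (2 * m)), S.card = k → k * 2 ^ h ≤ 2 * m →
    Ex (fun ab : Cn m D × Cn m D =>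
      (2 : ℝ) ^ ((1 / 32 : ℝ) * (cost (Xcl m (h / 8 + 1)) ab.1 ab.2 S : ℝ))) ≤
      Real.exp (C * k * (2 : ℝ) ^ (-((h : ℝ) / ((13440 : ℕ) : ℝ)))) := by
  obtain ⟨c, hc, hC⟩ := hC
  set K' : ℝ := 120 / (1 - th0) with hK'
  have hK'0 : 0 ≤ K' := div_nonneg (by norm_num) (by linarith only [th0_lt])
  refine ⟨1 + 12 * c + K', by (clear * - hc hK'0; positivity), ?_⟩
  intro m D k h hm hD hh S hS hk
  subst hS
  set u := h / 8 + 1 with hu
  have hsmall := small_ring hc hC hm hD hh S hk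
  rw [← hu] at hsmall
  have hlarge : Ex (fun ab : Cn m D × Cn m D => (2 : ℝ) ^ ((5 / 128 : ℝ) *
      ∑ j ∈ (Finset.range D).filter (fun j => u ≤ j), (loops ab.1 ab.2 S j : ℝ))) ≤
      Real.exp (S.card * (K' * th0 ^ u)) := by
    rw [Ex_prod]
    refine Ex_le_of_le fun a => ?_
    exact large_ring hm hD.le a S u (5 / 128) (by norm_num)
  have hcomb := holder5 (Ω := Cn m D × Cn m D)
    (fun ab => 1 / 8 * ∑ j ∈ Xcl m u, ((prL ab.1 S j + prR ab.1 ab.2 S j : ℕ) : ℝ))
    (fun ab => 1 / 32 * ∑ j ∈ (Finset.range D).filter (fun j => u ≤ j),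
      (loops ab.1 ab.2 S j : ℝ))
    (12 * c * (S.card * (2 : ℝ) ^ (-((h : ℝ) / 2)))) (S.card * (K' * th0 ^ u))
    (by
      refine le_trans (le_of_eq ?_) hsmall
      congr 1
      funext ab
      congr 1
      ring)
    (by
      refine le_trans (le_of_eq ?_) hlarge
      congr 1
      funext ab
      congr 1
      ring)
  have hpt : ∀ ab : Cn m D × Cn m D,
      (2 : ℝ) ^ ((1 / 32 : ℝ) * (cost (Xcl m u) ab.1 ab.2 S : ℝ)) ≤
      (2 : ℝ) ^ (1 / 8 * (∑ j ∈ Xcl m u, ((prL ab.1 S j + prR ab.1 ab.2 S j : ℕ) : ℝ)) +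
        1 / 32 * (∑ j ∈ (Finset.range D).filter (fun j => u ≤ j),
          (loops ab.1 ab.2 S j : ℝ))) := by
    intro ab
    apply Real.rpow_le_rpow_of_exponent_le (by norm_num)
    have h1 : (cost (Xcl m u) ab.1 ab.2 S : ℝ) ≤
        (∑ j ∈ (Finset.range D).filter (fun j => u ≤ j), (loops ab.1 ab.2 S j : ℝ)) +
        4 * ∑ j ∈ Xcl m u, ((prL ab.1 S j + prR ab.1 ab.2 S j : ℕ) : ℝ) := by
      exact_mod_cast cost_le u ab.1 ab.2 S
    linarith only [h1]
  refine (Ex_mono hpt).trans (hcomb.trans (Real.exp_le_exp.2 ?_))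
  have hk0 : (0 : ℝ) ≤ S.card := Nat.cast_nonneg _
  have hh0 : (0 : ℝ) ≤ h := Nat.cast_nonneg _
  set E : ℝ := (2 : ℝ) ^ (-((h : ℝ) / ((13440 : ℕ) : ℝ))) with hE
  have hE0 : 0 < E := Real.rpow_pos_of_pos (by norm_num) _
  have e1 : (2 : ℝ) ^ (-((h : ℝ) / 2)) ≤ E := by
    apply Real.rpow_le_rpow_of_exponent_le (by norm_num)
    push_cast
    linarith
  have e2 : th0 ^ u ≤ E := by
    rw [th0_pow]
    apply Real.rpow_le_rpow_of_exponent_le (by norm_num)
    have h5 : (h : ℝ) ≤ 8 * (u : ℝ) := by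
      have : h ≤ 8 * u := by omega
      exact_mod_cast this
    push_cast
    linarith only [h5]
  have e3 : 12 * c * (S.card * (2 : ℝ) ^ (-((h : ℝ) / 2))) ≤ 12 * c * (S.card * E) :=
    mul_le_mul_of_nonneg_left (mul_le_mul_of_nonneg_left e1 hk0) (by (clear * - hc; positivity))
  have e4 : (S.card : ℝ) * (K' * th0 ^ u) ≤ S.card * (K' * E) :=
    mul_le_mul_of_nonneg_left (mul_le_mul_of_nonneg_left e2 hK'0) hk0
  have e5 : 0 ≤ (S.card : ℝ) * E := mul_nonneg hk0 hE0.le
  have e6 : 0 ≤ 12 * c * ((S.card : ℝ) * E) := by (clear * - hc; positivity)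
  have e7 : 0 ≤ (S.card : ℝ) * (K' * E) := by (clear * - hK'0; positivity)
  calc 12 * c * (S.card * (2 : ℝ) ^ (-((h : ℝ) / 2))) / 5 + 4 * (S.card * (K' * th0 ^ u)) / 5
      ≤ 12 * c * (S.card * E) + S.card * (K' * E) := by linarith only [e3, e4, e6, e7]
    _ ≤ (1 + 12 * c + K') * S.card * E := by nlinarith only [e5]

/-- The moment bound. -/
theorem moment_bound (hA : KerBound) (hC : DensBound) : MomentBound := by
  obtain ⟨C, hC0, hcost⟩ := cost_moment hC
  refine ⟨C + 1, by positivity, 13440, by norm_num, 5, 3, 4, 1, fun m hm =>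
    ⟨3 * Nat.log 2 (2 * m) + 4, by omega, le_rfl, fun k h hk s => ?_⟩⟩
  set D := 3 * Nat.log 2 (2 * m) + 4 with hD
  set E : ℝ := (2 : ℝ) ^ (-((h : ℝ) / ((13440 : ℕ) : ℝ))) with hE
  have hE0 : 0 < E := Real.rpow_pos_of_pos (by norm_num) _
  rcases Nat.eq_zero_or_pos k with rfl | hkpos
  · -- the empty tuple
    have h1 : ∀ z : Tup (Fin (2 * m)) 0,
        matLaw 0 (symLaw (convPow (thorpLaw m) D)) s z = 1 := by
      intro z
      rw [matLaw_ring]
      have e : (fun ab : Cn m D × Cn m D => if ∀ i : Fin 0, net ab.1 ab.2 D (s.1 i) = z.1 i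
          then (1 : ℝ) else 0) = fun _ => (1 : ℝ) := by
        funext ab
        rw [if_pos]
        intro i
        exact i.elim0
      rw [e, Ex_const]
    have hcardz : Fintype.card (Tup (Fin (2 * m)) 0) ≤ 1 := by
      rw [Fintype.card_le_one_iff_subsingleton]
      constructor
      intro z z'
      apply Subtype.ext
      funext i
      exact i.elim0
    have h2 : ∑ z, matLaw 0 (symLaw (convPow (thorpLaw m) D)) s z *
        (((2 * m : ℕ) : ℝ) ^ 0 * matLaw 0 (symLaw (convPow (thorpLaw m) D)) s z) ^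
          ((1 : ℝ) / 2 ^ 5) ≤ 1 := by
      calc ∑ z, matLaw 0 (symLaw (convPow (thorpLaw m) D)) s z *
            (((2 * m : ℕ) : ℝ) ^ 0 * matLaw 0 (symLaw (convPow (thorpLaw m) D)) s z) ^
            ((1 : ℝ) / 2 ^ 5) = ∑ _z : Tup (Fin (2 * m)) 0, (1 : ℝ) := by
            refine Finset.sum_congr rfl fun z _ => ?_
            rw [h1, pow_zero, one_mul, one_mul, Real.one_rpow]
        _ ≤ 1 := by
            rw [Finset.sum_const, nsmul_eq_mul, mul_one, Finset.card_univ]
            exact_mod_cast hcardz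
    refine h2.trans ?_
    rw [Nat.cast_zero, mul_zero, zero_mul, Real.exp_zero]
  -- nonempty tuples
  have hhl : h ≤ Nat.log 2 (2 * m) := by
    apply Nat.le_log_of_pow_le (by norm_num)
    calc 2 ^ h = 1 * 2 ^ h := (one_mul _).symm
      _ ≤ k * 2 ^ h := Nat.mul_le_mul_right _ hkpos
      _ ≤ 2 * m := hk
  classical
  set S : Finset (Fin (2 * m)) := Finset.univ.image s.1 with hS
  have hScard : S.card = k := by
    rw [hS, Finset.card_image_of_injective _ s.2]; simp only [Finset.card_univ, Fintype.card_fin]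
  set u := h / 8 + 1 with hu
  set κ : ℝ := ((1 + 16 * ((1 : ℝ) / 2) ^ u) / ((2 * m : ℕ) : ℝ)) with hκ
  have hm' : (0 : ℝ) < ((2 * m : ℕ) : ℝ) := by exact_mod_cast (by omega : 0 < 2 * m)
  have hκ0 : 0 ≤ κ := by (clear * - hm; positivity)
  have hker := hA m D u hm (by omega)
  have hAz : ∀ z : Tup (Fin (2 * m)) k,
      Ex (fun ab : Cn m D × Cn m D => if ∀ i, net ab.1 ab.2 D (s.1 i) = z.1 i
        then ((2 : ℝ) ^ cost (Xcl m u) ab.1 ab.2 S)⁻¹ else 0) ≤ κ ^ k := by
    intro z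
    set z' : Fin (2 * m) → Fin (2 * m) :=
      fun p => if h : ∃ i, s.1 i = p then z.1 h.choose else p with hz'
    have hz's : ∀ i, z' (s.1 i) = z.1 i := by
      intro i
      have h : ∃ i', s.1 i' = s.1 i := ⟨i, rfl⟩
      rw [hz']
      simp only [h, dif_pos]
      exact congrArg z.1 (s.2 h.choose_spec)
    have hev : ∀ ab : Cn m D × Cn m D, (∀ p ∈ S, net ab.1 ab.2 D p = z' p) ↔
        ∀ i, net ab.1 ab.2 D (s.1 i) = z.1 i := by
      intro ab
      constructor
      · intro h i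
        rw [h (s.1 i) (by simp only [hS, Finset.mem_image, Finset.mem_univ, true_and, exists_apply_eq_apply]), hz's]
      · intro h p hp
        simp only [hS, Finset.mem_image, Finset.mem_univ, true_and] at hp
        obtain ⟨i, rfl⟩ := hp
        rw [h, hz's]
    have h1 := hker S z'
    simp only [hev] at h1
    rw [hScard] at h1
    refine le_trans (le_of_eq ?_) h1
    congr 1
    funext ab
    congr 1
    rw [one_div, inv_pow]
  have hB := claimB_gen k (fun ab : Cn m D × Cn m D => net ab.1 ab.2 D)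
    (fun ab => (2 : ℝ) ^ cost (Xcl m u) ab.1 ab.2 S) (fun ab => by positivity)
    ((1 : ℝ) / 2 ^ 5) (by positivity) s (((2 * m : ℕ) : ℝ) ^ k) (κ ^ k) (by positivity)
    (by positivity) hAz
  simp only [← matLaw_ring] at hB
  refine hB.trans ?_
  have hmom := hcost m D k h hm rfl hhl S hScard hk
  have e1 : (fun ab : Cn m D × Cn m D =>
      ((2 : ℝ) ^ cost (Xcl m u) ab.1 ab.2 S) ^ ((1 : ℝ) / 2 ^ 5)) =
      fun ab => (2 : ℝ) ^ ((1 / 32 : ℝ) * (cost (Xcl m u) ab.1 ab.2 S : ℝ)) := by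
    funext ab
    rw [← Real.rpow_natCast, ← Real.rpow_mul (by norm_num)]
    congr 1
    ring
  rw [e1]
  have e2 : ((2 * m : ℕ) : ℝ) ^ k * κ ^ k = (1 + 16 * ((1 : ℝ) / 2) ^ u) ^ k := by
    rw [← mul_pow]
    congr 1
    rw [hκ]
    (clear * - hm; field_simp)
  rw [e2]
  have hk0 : (0 : ℝ) ≤ k := Nat.cast_nonneg _
  have hh0 : (0 : ℝ) ≤ h := Nat.cast_nonneg _
  have h3 : ((1 : ℝ) / 2) ^ u ≤ E := by
    have e3 : ((1 : ℝ) / 2) ^ u = (2 : ℝ) ^ (-(u : ℝ)) := by
      rw [one_div, inv_pow, Real.rpow_neg (by norm_num), Real.rpow_natCast]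
    rw [e3, hE]
    apply Real.rpow_le_rpow_of_exponent_le (by norm_num)
    have h5 : (h : ℝ) ≤ 8 * (u : ℝ) := by
      have : h ≤ 8 * u := by omega
      exact_mod_cast this
    push_cast
    linarith only [h5]
  have h4 : ((1 + 16 * ((1 : ℝ) / 2) ^ u) ^ k) ^ ((1 : ℝ) / 2 ^ 5) ≤ Real.exp (k * E) := by
    have h5 : 1 + 16 * ((1 : ℝ) / 2) ^ u ≤ Real.exp (16 * E) := by
      have := Real.add_one_le_exp (16 * E)
      linarith only [h3, this]
    have h6 : (1 + 16 * ((1 : ℝ) / 2) ^ u) ^ k ≤ Real.exp (16 * E * k) := by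
      calc (1 + 16 * ((1 : ℝ) / 2) ^ u) ^ k ≤ (Real.exp (16 * E)) ^ k :=
            pow_le_pow_left₀ (by positivity) h5 k
        _ = Real.exp (16 * E * k) := by
            rw [← Real.exp_nat_mul]
            congr 1
            ring
    calc ((1 + 16 * ((1 : ℝ) / 2) ^ u) ^ k) ^ ((1 : ℝ) / 2 ^ 5)
        ≤ (Real.exp (16 * E * k)) ^ ((1 : ℝ) / 2 ^ 5) :=
          Real.rpow_le_rpow (by positivity) h6 (by positivity)
      _ = Real.exp (16 * E * k * (1 / 2 ^ 5)) := by rw [← Real.exp_mul]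
      _ ≤ Real.exp (k * E) := by
          apply Real.exp_le_exp.2
          have : 0 ≤ E * k := mul_nonneg hE0.le hk0
          linarith only [this]
  calc ((1 + 16 * ((1 : ℝ) / 2) ^ u) ^ k) ^ ((1 : ℝ) / 2 ^ 5) *
        Ex (fun ab : Cn m D × Cn m D =>
          (2 : ℝ) ^ ((1 / 32 : ℝ) * (cost (Xcl m u) ab.1 ab.2 S : ℝ)))
      ≤ Real.exp (k * E) * Real.exp (C * k * E) :=
        mul_le_mul h4 hmom (Lin.Ex_nonneg fun ab => by positivity) (Real.exp_pos _).le
    _ = Real.exp ((C + 1) * k * E) := by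
        rw [← Real.exp_add]
        congr 1
        ring

end Vale.Agent.P162.Ring
end
end
end

section

section

section

/-!
# P162, ring network: Claim A for general kernels
-/

namespace Vale.Agent.P162.Ring

open Equiv Finset
open Vale.Agent.P162.Lin (Ex nOrb)

/-! ### signs -/

/-- Sign of a bit. -/
def sg (b : Bool) : ℝ := if b then -1 else 1

theorem sg_true : sg true = -1 := rfl

theorem sg_false : sg false = 1 := rfl

theorem abs_sg (b : Bool) : |sg b| = 1 := by cases b <;> simp [sg]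

/-- Fourier coefficient of a function of two bits. -/
noncomputable def fh (f : Bool → Bool → ℝ) (i j : Bool) : ℝ :=
  (f false false + sg i * f true false + sg j * f false true + sg i * sg j * f true true) / 4

theorem prod_sign_expand {ι : Type*} [DecidableEq ι] (S : Finset ι) (σ b a : ι → ℝ) :
    ∏ p ∈ S, (σ p * b p + a p) =
      ∑ U ∈ S.powerset, (∏ p ∈ U, σ p) * ∏ p ∈ S, (if p ∈ U then b p else a p) := by
  rw [Finset.prod_add]
  refine Finset.sum_congr rfl fun U hU => ?_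
  rw [Finset.mem_powerset] at hU
  rw [Finset.prod_mul_distrib, mul_assoc]
  congr 1
  rw [← Finset.prod_sdiff hU, mul_comm]
  congr 1
  · refine Finset.prod_congr rfl fun p hp => ?_
    rw [if_neg (Finset.mem_sdiff.mp hp).2]
  · refine Finset.prod_congr rfl fun p hp => ?_
    rw [if_pos hp]

theorem prod_expand {ι : Type*} [DecidableEq ι] (S : Finset ι) (f : ι → Bool → Bool → ℝ)
    (s s' : ι → Bool) :
    ∏ p ∈ S, f p (s p) (s' p) =
      ∑ U' ∈ S.powerset, ∑ U ∈ S.powerset, (∏ p ∈ U', sg (s' p)) * (∏ p ∈ U, sg (s p)) *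
        ∏ p ∈ S, fh (f p) (decide (p ∈ U)) (decide (p ∈ U')) := by
  have h1 : ∀ p, f p (s p) (s' p) =
      sg (s' p) * (sg (s p) * fh (f p) true true + fh (f p) false true) +
        (sg (s p) * fh (f p) true false + fh (f p) false false) := by
    intro p
    cases s p <;> cases s' p <;> simp only [fh, sg_true, sg_false] <;> ring
  rw [Finset.prod_congr rfl fun p _ => h1 p, prod_sign_expand]
  refine Finset.sum_congr rfl fun U' _ => ?_
  have h2 : ∀ p, (if p ∈ U' then (sg (s p) * fh (f p) true true + fh (f p) false true) else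
      (sg (s p) * fh (f p) true false + fh (f p) false false)) =
      sg (s p) * fh (f p) true (decide (p ∈ U')) + fh (f p) false (decide (p ∈ U')) := by
    intro p
    by_cases h : p ∈ U' <;> simp [h]
  rw [Finset.prod_congr rfl fun p _ => h2 p, prod_sign_expand, Finset.mul_sum]
  refine Finset.sum_congr rfl fun U _ => ?_
  rw [mul_assoc]
  congr 2
  refine Finset.prod_congr rfl fun p _ => ?_
  by_cases h : p ∈ U <;> simp [h]

/-! ### one layer -/

variable {m : ℕ}

/-- Bit of a position on the outer side. -/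
def bt (p : Fin (2 * m)) : Bool := ((wireEquiv m).symm p).1

/-- Switch of a position on the outer side. -/
def sw (p : Fin (2 * m)) : Fin m := ((wireEquiv m).symm p).2

/-- The partner `2 l ↔ 2 l + 1` on the outer side of a layer. -/
def par (m : ℕ) : Perm (Fin (2 * m)) :=
  Function.Involutive.toPerm
    (fun p => wireEquiv m (!((wireEquiv m).symm p).1, ((wireEquiv m).symm p).2))
    (fun p => by simp)

theorem par_par (p : Fin (2 * m)) : par m (par m p) = p := by
  exact (par m).symm_apply_apply p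

theorem bt_par (p : Fin (2 * m)) : bt (par m p) = !bt p := by
  change ((wireEquiv m).symm (wireEquiv m (!((wireEquiv m).symm p).1, _))).1 = _
  rw [Equiv.symm_apply_apply]
  rfl

theorem sw_par (p : Fin (2 * m)) : sw (par m p) = sw p := by
  change ((wireEquiv m).symm (wireEquiv m (!((wireEquiv m).symm p).1, _))).2 = _
  rw [Equiv.symm_apply_apply]
  rfl

theorem eq_of_bt_sw {p q : Fin (2 * m)} (h1 : bt p = bt q) (h2 : sw p = sw q) : p = q := by
  apply (wireEquiv m).symm.injective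
  exact Prod.ext h1 h2

theorem eq_or_par {p q : Fin (2 * m)} (h : sw q = sw p) : q = p ∨ q = par m p := by
  by_cases hb : bt q = bt p
  · exact Or.inl (eq_of_bt_sw hb h)
  · refine Or.inr (eq_of_bt_sw ?_ (by rw [sw_par, h]))
    rw [bt_par]
    cases h1 : bt q <;> cases h2 : bt p <;> simp_all

/-- Backward step of the card at `p`, arriving in the half `s`. -/
def bst (p : Fin (2 * m)) (s : Bool) : Fin (2 * m) := top m (s, sw p)

theorem bst_val (p : Fin (2 * m)) (s : Bool) : (bst p s : ℕ) = m * s.toNat + (p : ℕ) / 2 := by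
  unfold bst
  rw [top_val]
  congr 1
  obtain ⟨⟨b, l⟩, rfl⟩ := (wireEquiv m).surjective p
  unfold sw
  rw [Equiv.symm_apply_apply, wireEquiv_val]
  cases b
  · simp
  · simp only [Bool.toNat_true]
    omega

/-- The half reached by the card at `p` with the coins `c`. -/
def cb (c : Fin m → Fin 2) (p : Fin (2 * m)) : Bool := xor (bt p) (finTwoEquiv (c (sw p)))

theorem inv_thorp_apply (c : Fin m → Fin 2) (p : Fin (2 * m)) :
    (thorpPerm m c)⁻¹ p = bst p (cb c p) := by
  rw [Perm.inv_eq_iff_eq, thorpPerm_eq]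
  obtain ⟨⟨b, l⟩, rfl⟩ := (wireEquiv m).surjective p
  unfold bst cb bt sw top
  rw [Equiv.symm_apply_apply]
  rw [Perm.mul_apply]
  have h1 : (topEquiv m).symm.permCongr (colSwap fun i => finTwoEquiv (c i))
      ((topEquiv m).symm.toEmbedding ((b ^^ finTwoEquiv (c l)), l)) = (topEquiv m).symm (b, l) := by
    change (topEquiv m).symm (colSwap (fun i => finTwoEquiv (c i))
      ((topEquiv m) ((topEquiv m).symm ((b ^^ finTwoEquiv (c l)), l)))) = _
    rw [Equiv.apply_symm_apply]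
    congr 1
    change (finTwoEquiv (c l) ^^ (b ^^ finTwoEquiv (c l)), l) = (b, l)
    cases b <;> cases finTwoEquiv (c l) <;> rfl
  rw [h1]
  rfl

/-! ### averages of signs -/

theorem abs_prod_sg (U : Finset (Fin (2 * m))) (c : Fin (2 * m) → Bool) :
    |∏ p ∈ U, sg (c p)| = 1 := by
  rw [Finset.abs_prod]
  simp [abs_sg]

/-- Flip of the coin of one switch. -/
def flipc (l : Fin m) (c : Fin m → Fin 2) : Fin m → Fin 2 := Function.update c l (c l + 1)

theorem flipc_flipc (l : Fin m) (c : Fin m → Fin 2) : flipc l (flipc l c) = c := by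
  unfold flipc
  funext i
  by_cases h : i = l
  · subst h
    simp only [Function.update_self]
    generalize c i = x
    revert x
    decide
  · rw [Function.update_of_ne h, Function.update_of_ne h]

theorem cb_flipc (l : Fin m) (c : Fin m → Fin 2) (p : Fin (2 * m)) :
    cb (flipc l c) p = if sw p = l then !cb c p else cb c p := by
  unfold cb flipc
  by_cases h : sw p = l
  · rw [if_pos h, h, Function.update_self]
    generalize c l = x
    have : ∀ x : Fin 2, finTwoEquiv (x + 1) = !finTwoEquiv x := by decide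
    rw [this]
    cases bt p <;> cases finTwoEquiv x <;> rfl
  · rw [if_neg h, Function.update_of_ne h]

theorem sum_sign_zero (U : Finset (Fin (2 * m))) {p : Fin (2 * m)} (hp : p ∈ U)
    (hp' : par m p ∉ U) : ∑ c : Fin m → Fin 2, ∏ q ∈ U, sg (cb c q) = 0 := by
  have h1 : ∑ c : Fin m → Fin 2, ∏ q ∈ U, sg (cb c q) =
      ∑ c : Fin m → Fin 2, ∏ q ∈ U, sg (cb (flipc (sw p) c) q) :=
    (Equiv.sum_comp (Function.Involutive.toPerm (flipc (sw p)) (flipc_flipc (sw p)))
      (fun c => ∏ q ∈ U, sg (cb c q))).symm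
  have h2 : ∀ c : Fin m → Fin 2, ∏ q ∈ U, sg (cb (flipc (sw p) c) q) =
      -∏ q ∈ U, sg (cb c q) := by
    intro c
    rw [← Finset.mul_prod_erase U _ hp, ← Finset.mul_prod_erase U (fun q => sg (cb c q)) hp,
      cb_flipc, if_pos rfl, ← neg_mul]
    congr 1
    · cases cb c p <;> simp [sg]
    · refine Finset.prod_congr rfl fun q hq => ?_
      rw [Finset.mem_erase] at hq
      rw [cb_flipc, if_neg]
      intro h
      rcases eq_or_par h with h3 | h3
      · exact hq.1 h3
      · exact hp' (h3 ▸ hq.2)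
  rw [Finset.sum_congr rfl fun c _ => h2 c, Finset.sum_neg_distrib] at h1
  linarith only [h1]

theorem abs_sum_sign_le (U : Finset (Fin (2 * m))) :
    |∑ c : Fin m → Fin 2, ∏ q ∈ U, sg (cb c q)| ≤
      if (∀ p ∈ U, par m p ∈ U) then (Fintype.card (Fin m → Fin 2) : ℝ) else 0 := by
  by_cases h : ∀ p ∈ U, par m p ∈ U
  · rw [if_pos h]
    refine (Finset.abs_sum_le_sum_abs _ _).trans ?_
    simp only [abs_prod_sg]
    rw [Finset.sum_const, Finset.card_univ, nsmul_eq_mul, mul_one]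
  · rw [if_neg h]
    push Not at h
    obtain ⟨p, hp, hp'⟩ := h
    rw [sum_sign_zero U hp hp', abs_zero]

/-- The blue involution of the network `N`, outer side. -/
def kapO (N : Perm (Fin (2 * m))) : Perm (Fin (2 * m)) := N⁻¹ * par m * N

theorem kapO_kapO (N : Perm (Fin (2 * m))) (p : Fin (2 * m)) : kapO N (kapO N p) = p := by
  unfold kapO
  simp only [Perm.mul_apply]
  have h1 : ∀ x, N (N⁻¹ x) = x := N.apply_symm_apply
  rw [h1, par_par]
  exact N.symm_apply_apply p

theorem apply_kapO (N : Perm (Fin (2 * m))) (p : Fin (2 * m)) : N (kapO N p) = par m (N p) := by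
  unfold kapO
  simp only [Perm.mul_apply]
  exact N.apply_symm_apply _

/-- Weight of a level. -/
noncomputable def wt (ε : Fin (2 * m) → Fin (2 * m) → ℝ) (S : Finset (Fin (2 * m)))
    (N : Perm (Fin (2 * m))) : ℝ :=
  (1 / 2) ^ nOrb (Subgroup.closure {par m, kapO N}) (S : Set (Fin (2 * m))) *
    ∏ p ∈ S.filter (fun p => par m p ∈ S ∨ kapO N p ∈ S), (1 + ε p (N p))⁻¹

theorem kapO_of_agree {N N' : Perm (Fin (2 * m))} {S : Finset (Fin (2 * m))}
    (h : ∀ p ∈ S, N p = N' p) {p : Fin (2 * m)} (hp : p ∈ S) (hk : kapO N p ∈ S) :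
    kapO N' p = kapO N p := by
  have h1 : N' (kapO N p) = par m (N' p) := by
    rw [← h _ hk, apply_kapO, h p hp]
  apply N'.injective
  rw [h1, apply_kapO]

theorem wt_congr (ε : Fin (2 * m) → Fin (2 * m) → ℝ) {S : Finset (Fin (2 * m))}
    {N N' : Perm (Fin (2 * m))} (h : ∀ p ∈ S, N p = N' p) : wt ε S N = wt ε S N' := by
  have h' : ∀ p ∈ S, N' p = N p := fun p hp => (h p hp).symm
  unfold wt
  rw [Lin.ClA.nOrb_congr (e := par m) (κ := kapO N) (κ' := kapO N') par_par (kapO_kapO N)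
    (kapO_kapO N')
    (fun p hp hk => kapO_of_agree h hp hk) (fun p hp hk => kapO_of_agree h' hp hk)]
  congr 1
  have hf : S.filter (fun p => par m p ∈ S ∨ kapO N p ∈ S) =
      S.filter (fun p => par m p ∈ S ∨ kapO N' p ∈ S) := by
    refine Finset.filter_congr fun p hp => ?_
    constructor
    · rintro (h1 | h1)
      · exact Or.inl h1
      · refine Or.inr ?_
        rw [kapO_of_agree h hp h1]
        exact h1
    · rintro (h1 | h1)
      · exact Or.inl h1
      · refine Or.inr ?_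
        rw [kapO_of_agree h' hp h1]
        exact h1
  rw [hf]
  refine Finset.prod_congr rfl fun p hp => ?_
  rw [h p (Finset.mem_filter.mp hp).1]

theorem wt_pos {ε : Fin (2 * m) → Fin (2 * m) → ℝ} (hε : ∀ x z, 0 ≤ ε x z)
    (S : Finset (Fin (2 * m))) (N : Perm (Fin (2 * m))) : 0 < wt ε S N := by
  unfold wt
  refine mul_pos (by positivity) (Finset.prod_pos fun p _ => ?_)
  have := hε p (N p)
  positivity

theorem wt_mul (ε : Fin (2 * m) → Fin (2 * m) → ℝ) (hε : ∀ x z, 0 ≤ ε x z)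
    (S : Finset (Fin (2 * m))) (N : Perm (Fin (2 * m))) :
    wt ε S N * (2 ^ nOrb (Subgroup.closure {par m, kapO N}) (S : Set (Fin (2 * m))) *
        ∏ p ∈ S.filter (fun p => par m p ∈ S ∨ kapO N p ∈ S), (1 + ε p (N p))) = 1 := by
  unfold wt
  rw [mul_mul_mul_comm, ← mul_pow, ← Finset.prod_mul_distrib]
  have h1 : (1 / 2 : ℝ) * 2 = 1 := by norm_num
  rw [h1, one_pow, one_mul]
  refine Finset.prod_eq_one fun p _ => ?_
  have := hε p (N p)
  exact inv_mul_cancel₀ (by positivity)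

theorem sum_comm4 {A B C D : Type*} (a : Finset A) (b : Finset B) (c : Finset C) (d : Finset D)
    (g : A → B → C → D → ℝ) :
    ∑ x ∈ a, ∑ y ∈ b, ∑ u ∈ c, ∑ v ∈ d, g x y u v =
      ∑ u ∈ c, ∑ v ∈ d, ∑ x ∈ a, ∑ y ∈ b, g x y u v := by
  calc ∑ x ∈ a, ∑ y ∈ b, ∑ u ∈ c, ∑ v ∈ d, g x y u v
      = ∑ x ∈ a, ∑ u ∈ c, ∑ y ∈ b, ∑ v ∈ d, g x y u v :=
        Finset.sum_congr rfl fun x _ => Finset.sum_comm
    _ = ∑ u ∈ c, ∑ x ∈ a, ∑ y ∈ b, ∑ v ∈ d, g x y u v := Finset.sum_comm
    _ = ∑ u ∈ c, ∑ x ∈ a, ∑ v ∈ d, ∑ y ∈ b, g x y u v :=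
        Finset.sum_congr rfl fun u _ => Finset.sum_congr rfl fun x _ => Finset.sum_comm
    _ = ∑ u ∈ c, ∑ v ∈ d, ∑ x ∈ a, ∑ y ∈ b, g x y u v :=
        Finset.sum_congr rfl fun u _ => Finset.sum_comm

/-- Average over two independent layers. -/
theorem layer_bound (S : Finset (Fin (2 * m))) (N : Perm (Fin (2 * m)))
    (f : Fin (2 * m) → Bool → Bool → ℝ) (H : Fin (2 * m) → ℝ)
    (ε : Fin (2 * m) → Fin (2 * m) → ℝ) (hε : ∀ x z, 0 ≤ ε x z)
    (h00 : ∀ p, |fh (f p) false false| ≤ H p) (h11 : ∀ p, |fh (f p) true true| ≤ H p)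
    (h10 : ∀ p, |fh (f p) true false| ≤ ε p (N p) * H p)
    (h01 : ∀ p, |fh (f p) false true| ≤ ε p (N p) * H p) :
    wt ε S N * Ex (fun xy : (Fin m → Fin 2) × (Fin m → Fin 2) =>
      ∏ p ∈ S, f p (cb xy.1 p) (cb xy.2 (N p))) ≤ ∏ p ∈ S, H p := by
  classical
  set κ := kapO N with hκ
  set c0 : ℝ := (Fintype.card (Fin m → Fin 2) : ℝ) with hc0
  have hc0pos : 0 < c0 := by
    rw [hc0]
    exact_mod_cast Fintype.card_pos
  have hH : ∀ p, 0 ≤ H p := fun p => (abs_nonneg _).trans (h00 p)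
  -- the sum
  have hsum : ∑ xy : (Fin m → Fin 2) × (Fin m → Fin 2),
      ∏ p ∈ S, f p (cb xy.1 p) (cb xy.2 (N p)) =
      ∑ U' ∈ S.powerset, ∑ U ∈ S.powerset,
        (∑ y : Fin m → Fin 2, ∏ q ∈ U'.map N.toEmbedding, sg (cb y q)) *
        (∑ x : Fin m → Fin 2, ∏ p ∈ U, sg (cb x p)) *
        ∏ p ∈ S, fh (f p) (decide (p ∈ U)) (decide (p ∈ U')) := by
    rw [Fintype.sum_prod_type]
    have h1 : ∀ x y : Fin m → Fin 2, ∏ p ∈ S, f p (cb x p) (cb y (N p)) =
        ∑ U' ∈ S.powerset, ∑ U ∈ S.powerset,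
          (∏ q ∈ U'.map N.toEmbedding, sg (cb y q)) * (∏ p ∈ U, sg (cb x p)) *
          ∏ p ∈ S, fh (f p) (decide (p ∈ U)) (decide (p ∈ U')) := by
      intro x y
      rw [prod_expand S f (fun p => cb x p) (fun p => cb y (N p))]
      refine Finset.sum_congr rfl fun U' _ => Finset.sum_congr rfl fun U _ => ?_
      rw [Finset.prod_map]
      rfl
    simp only [h1]
    rw [sum_comm4]
    refine Finset.sum_congr rfl fun U' _ => Finset.sum_congr rfl fun U _ => ?_
    rw [Finset.sum_mul_sum, Finset.sum_mul, Finset.sum_comm]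
    refine Finset.sum_congr rfl fun y _ => ?_
    rw [Finset.sum_mul]
  have hbound : ∑ xy : (Fin m → Fin 2) × (Fin m → Fin 2),
      ∏ p ∈ S, f p (cb xy.1 p) (cb xy.2 (N p)) ≤
      (c0 * c0) * ((∏ p ∈ S, H p) * ∑ U ∈ clo (par m) S, ∑ U' ∈ clo κ S,
        ∏ p ∈ S, (if (p ∈ U ↔ p ∈ U') then 1 else ε p (N p))) := by
    rw [hsum, Finset.sum_comm]
    have hterm : ∀ U ∈ S.powerset, ∀ U' ∈ S.powerset,
        (∑ y : Fin m → Fin 2, ∏ q ∈ U'.map N.toEmbedding, sg (cb y q)) *
        (∑ x : Fin m → Fin 2, ∏ p ∈ U, sg (cb x p)) *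
        ∏ p ∈ S, fh (f p) (decide (p ∈ U)) (decide (p ∈ U')) ≤
        (if (∀ p ∈ U, par m p ∈ U) then (if (∀ p ∈ U', κ p ∈ U') then
          (c0 * c0) * ((∏ p ∈ S, H p) *
            ∏ p ∈ S, (if (p ∈ U ↔ p ∈ U') then 1 else ε p (N p))) else 0) else 0) := by
      intro U _ U' _
      have ha1 := abs_sum_sign_le (m := m) (U'.map N.toEmbedding)
      have ha2 := abs_sum_sign_le (m := m) U
      have hf : |∏ p ∈ S, fh (f p) (decide (p ∈ U)) (decide (p ∈ U'))| ≤
          (∏ p ∈ S, H p) * ∏ p ∈ S, (if (p ∈ U ↔ p ∈ U') then 1 else ε p (N p)) := by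
        rw [Finset.abs_prod, ← Finset.prod_mul_distrib]
        refine Finset.prod_le_prod (fun p _ => abs_nonneg _) fun p _ => ?_
        by_cases h1 : p ∈ U <;> by_cases h2 : p ∈ U'
        · simp only [h1, h2, decide_true, if_true, mul_one]
          exact h11 p
        · simp only [h1, h2, decide_true, decide_false, iff_false, not_true, if_false]
          rw [mul_comm]
          exact h10 p
        · simp only [h1, h2, decide_true, decide_false, iff_true, if_false]
          rw [mul_comm]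
          exact h01 p
        · simp only [h1, h2, decide_false, if_true, mul_one]
          exact h00 p
      refine (le_abs_self _).trans ?_
      rw [abs_mul, abs_mul]
      by_cases hU : ∀ p ∈ U, par m p ∈ U
      · rw [if_pos hU] at ha2 ⊢
        by_cases hU' : ∀ p ∈ U', κ p ∈ U'
        · rw [if_pos hU']
          have h3 : (if (∀ p ∈ U'.map N.toEmbedding, par m p ∈ U'.map N.toEmbedding) then
              (Fintype.card (Fin m → Fin 2) : ℝ) else 0) ≤ c0 := by
            split_ifs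
            · exact le_rfl
            · exact hc0pos.le
          refine mul_le_mul (mul_le_mul (ha1.trans h3) ha2 (abs_nonneg _) hc0pos.le) hf
            (abs_nonneg _) (by positivity)
        · rw [if_neg hU']
          have h3 : ¬ (∀ p ∈ U'.map N.toEmbedding, par m p ∈ U'.map N.toEmbedding) := by
            intro h
            apply hU'
            intro p hp
            have h4 := h (N p) (Finset.mem_map.mpr ⟨p, hp, rfl⟩)
            rw [Finset.mem_map] at h4
            obtain ⟨p', hp', h5⟩ := h4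
            have h6 : p' = κ p := by
              apply N.injective
              rw [hκ, apply_kapO]
              exact h5
            rw [← h6]
            exact hp'
          rw [if_neg h3] at ha1
          have h4 : |∑ y : Fin m → Fin 2, ∏ q ∈ U'.map N.toEmbedding, sg (cb y q)| = 0 :=
            le_antisymm ha1 (abs_nonneg _)
          rw [h4, zero_mul, zero_mul]
      · rw [if_neg hU] at ha2 ⊢
        have h4 : |∑ x : Fin m → Fin 2, ∏ q ∈ U, sg (cb x q)| = 0 :=
          le_antisymm ha2 (abs_nonneg _)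
        rw [h4, mul_zero, zero_mul]
    refine (Finset.sum_le_sum fun U hU => Finset.sum_le_sum fun U' hU' => hterm U hU U' hU').trans ?_
    unfold clo
    rw [Finset.sum_filter, Finset.mul_sum, Finset.mul_sum]
    refine Finset.sum_le_sum fun U _ => ?_
    by_cases hU : ∀ p ∈ U, par m p ∈ U
    · simp only [if_pos hU]
      rw [Finset.sum_filter, Finset.mul_sum, Finset.mul_sum]
      refine Finset.sum_le_sum fun U' _ => ?_
      split_ifs
      · exact le_rfl
      · simp
    · simp only [if_neg hU]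
      simp
  have hclosed := sum_closed_le (par m) κ par_par (kapO_kapO N) S (fun p => ε p (N p))
    (fun p => hε _ _)
  have hcard : (Fintype.card ((Fin m → Fin 2) × (Fin m → Fin 2)) : ℝ) = c0 * c0 := by
    rw [Fintype.card_prod]
    push_cast
    rfl
  have hEx : Ex (fun xy : (Fin m → Fin 2) × (Fin m → Fin 2) =>
      ∏ p ∈ S, f p (cb xy.1 p) (cb xy.2 (N p))) ≤
      (∏ p ∈ S, H p) * (2 ^ nOrb (Subgroup.closure {par m, κ}) (S : Set (Fin (2 * m))) *
        ∏ p ∈ S.filter (fun p => par m p ∈ S ∨ κ p ∈ S), (1 + ε p (N p))) := by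
    unfold Lin.Ex
    rw [hcard, div_le_iff₀ (by positivity)]
    refine hbound.trans ?_
    have h5 := mul_le_mul_of_nonneg_left hclosed (Finset.prod_nonneg fun p (_ : p ∈ S) => hH p)
    have h6 := mul_le_mul_of_nonneg_left h5 (show 0 ≤ c0 * c0 by positivity)
    linarith only [h6]
  calc wt ε S N * Ex (fun xy : (Fin m → Fin 2) × (Fin m → Fin 2) =>
      ∏ p ∈ S, f p (cb xy.1 p) (cb xy.2 (N p)))
      ≤ wt ε S N * ((∏ p ∈ S, H p) *
        (2 ^ nOrb (Subgroup.closure {par m, κ}) (S : Set (Fin (2 * m))) *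
        ∏ p ∈ S.filter (fun p => par m p ∈ S ∨ κ p ∈ S), (1 + ε p (N p)))) :=
        mul_le_mul_of_nonneg_left hEx (wt_pos hε S N).le
    _ = ∏ p ∈ S, H p := by
        rw [mul_left_comm, hκ, wt_mul ε hε S N, mul_one]

/-! ### resampling one layer -/

/-- Exchange of one coordinate. -/
def exch {X : Type*} {D : ℕ} (i : Fin D) : Perm ((X × X) × ((Fin D → X) × (Fin D → X))) :=
  Function.Involutive.toPerm
    (fun q => ((q.2.1 i, q.2.2 i), (Function.update q.2.1 i q.1.1, Function.update q.2.2 i q.1.2)))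
    (fun q => by simp)

theorem Ex_resample {X : Type*} [Fintype X] [Nonempty X] {D : ℕ} (i : Fin D)
    (F : (Fin D → X) × (Fin D → X) → ℝ) :
    Ex F = Ex (fun xy : X × X => Ex (fun ab : (Fin D → X) × (Fin D → X) =>
      F (Function.update ab.1 i xy.1, Function.update ab.2 i xy.2))) := by
  have h1 : ∑ q : (X × X) × ((Fin D → X) × (Fin D → X)), F q.2 =
      ∑ q : (X × X) × ((Fin D → X) × (Fin D → X)), F ((exch i q).2) :=
    (Equiv.sum_comp (exch i) (fun q => F q.2)).symm
  have e1 : ∑ q : (X × X) × ((Fin D → X) × (Fin D → X)), F q.2 =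
      (Fintype.card (X × X) : ℝ) * ∑ ab : (Fin D → X) × (Fin D → X), F ab := by
    rw [Fintype.sum_prod_type]
    simp only [sum_const, card_univ, nsmul_eq_mul]
  have e2 : ∑ q : (X × X) × ((Fin D → X) × (Fin D → X)), F ((exch i q).2) =
      ∑ xy : X × X, ∑ ab : (Fin D → X) × (Fin D → X),
        F (Function.update ab.1 i xy.1, Function.update ab.2 i xy.2) :=
    Fintype.sum_prod_type _
  rw [e1, e2] at h1
  have hX : (Fintype.card (X × X) : ℝ) ≠ 0 := by
    exact_mod_cast Fintype.card_ne_zero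
  have h2 : (∑ ab : (Fin D → X) × (Fin D → X), F ab) =
      (∑ xy : X × X, ∑ ab : (Fin D → X) × (Fin D → X),
        F (Function.update ab.1 i xy.1, Function.update ab.2 i xy.2)) /
        Fintype.card (X × X) := by
    rw [eq_div_iff hX, mul_comm]
    exact h1
  unfold Lin.Ex
  rw [h2, ← sum_div]
  ring

/-! ### the network -/

theorem Rg_congrA {D : ℕ} {b b' : Cn m D} {j : ℕ} (h : ∀ i : Fin D, (i : ℕ) < j → b i = b' i) :
    Rg b j = Rg b' j := by
  induction j with
  | zero => rw [Rg_nil, Rg_nil]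
  | succ j ih =>
    rw [Rg_step, Rg_step, ih (fun i hi => h i (by omega))]
    by_cases hj : j < D
    · rw [dif_pos hj, dif_pos hj, h ⟨j, hj⟩ (by simp)]
    · rw [dif_neg hj, dif_neg hj]

theorem Rg_succ {D : ℕ} (b : Cn m D) {j : ℕ} (h : j < D) :
    Rg b (j + 1) = thorpPerm m (b ⟨j, h⟩) * Rg b j := by
  rw [Rg_step, dif_pos h]

theorem Rg_update {D : ℕ} (b : Cn m D) {j : ℕ} (i : Fin D) (h : j ≤ i) (x : Fin m → Fin 2) :
    Rg (Function.update b i x) j = Rg b j := by
  refine Rg_congrA fun l hl => ?_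
  rw [Function.update_of_ne]
  rintro rfl
  omega

theorem Rg_update_succ {D : ℕ} (b : Cn m D) {j : ℕ} (h : j < D) (x : Fin m → Fin 2) :
    Rg (Function.update b ⟨j, h⟩ x) (j + 1) = thorpPerm m x * Rg b j := by
  rw [Rg_succ _ h, Function.update_self, Rg_update _ _ le_rfl]

theorem net_update_succ {D : ℕ} (a b : Cn m D) {j : ℕ} (h : j < D) (x y : Fin m → Fin 2) :
    net (Function.update a ⟨j, h⟩ x) (Function.update b ⟨j, h⟩ y) (j + 1) =
      thorpPerm m y * net a b j * (thorpPerm m x)⁻¹ := by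
  rw [net, net, Rg_update_succ, Rg_update_succ, mul_inv_rev, ← mul_assoc, ← mul_assoc]

theorem net_update {D : ℕ} (a b : Cn m D) {j : ℕ} (i : Fin D) (h : j ≤ i) (x y : Fin m → Fin 2) :
    net (Function.update a i x) (Function.update b i y) j = net a b j := by
  rw [net, net, Rg_update _ _ h, Rg_update _ _ h]

theorem map_one_emb (S : Finset (Fin (2 * m))) :
    S.map (1 : Perm (Fin (2 * m))).toEmbedding = S := Finset.map_refl

theorem map_mul_emb (S : Finset (Fin (2 * m))) (g h : Perm (Fin (2 * m))) :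
    S.map (g * h).toEmbedding = (S.map h.toEmbedding).map g.toEmbedding := by
  rw [Finset.map_map]
  rfl

/-- Weight of the levels `0, …, j - 1`; `S` is the occupied set at the input of `net a b j`. -/
noncomputable def Wt {D : ℕ} (w : ℕ → Finset (Fin (2 * m)) → Perm (Fin (2 * m)) → ℝ)
    (a b : Cn m D) (j : ℕ) (S : Finset (Fin (2 * m))) : ℝ :=
  ∏ i ∈ Finset.range j, w i (S.map (Rg a (i + 1) * (Rg a j)⁻¹).toEmbedding) (net a b (i + 1))

theorem Wt_succ {D : ℕ} (w : ℕ → Finset (Fin (2 * m)) → Perm (Fin (2 * m)) → ℝ) (a b : Cn m D)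
    {j : ℕ} (h : j < D) (x y : Fin m → Fin 2) (S : Finset (Fin (2 * m))) :
    Wt w (Function.update a ⟨j, h⟩ x) (Function.update b ⟨j, h⟩ y) (j + 1) S =
      Wt w a b j (S.map ((thorpPerm m x)⁻¹ : Perm (Fin (2 * m))).toEmbedding) *
        w j S (thorpPerm m y * net a b j * (thorpPerm m x)⁻¹) := by
  unfold Wt
  rw [Finset.prod_range_succ]
  congr 1
  · refine Finset.prod_congr rfl fun i hi => ?_
    rw [Finset.mem_range] at hi
    rw [Rg_update_succ, Rg_update a ⟨j, h⟩ (by simpa using hi),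
      net_update a b ⟨j, h⟩ (by simpa using hi), mul_inv_rev, ← mul_assoc, map_mul_emb]
  · rw [mul_inv_cancel, map_one_emb, net_update_succ]

/-- Claim A for general kernels and weights, level by level. -/
theorem claimA_aux {D : ℕ} (h : ℕ → Fin (2 * m) → Fin (2 * m) → ℝ)
    (w : ℕ → Finset (Fin (2 * m)) → Perm (Fin (2 * m)) → ℝ)
    (hh : ∀ j x z, 0 ≤ h j x z) (hw : ∀ j S N, 0 ≤ w j S N)
    (hwc : ∀ j S N N', (∀ p ∈ S, N p = N' p) → w j S N = w j S N')
    (hbase : ∀ x, 1 ≤ h 0 x x)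
    (hlayer : ∀ j, j < D → ∀ S N, w j S N * Ex (fun xy : (Fin m → Fin 2) × (Fin m → Fin 2) =>
      ∏ p ∈ S, h j ((thorpPerm m xy.1)⁻¹ p) ((thorpPerm m xy.2)⁻¹ (N p))) ≤
        ∏ p ∈ S, h (j + 1) p (N p))
    (j : ℕ) (hj : j ≤ D) : ∀ (S : Finset (Fin (2 * m))) (z : Fin (2 * m) → Fin (2 * m)),
    Ex (fun ab : Cn m D × Cn m D =>
      if ∀ p ∈ S, net ab.1 ab.2 j p = z p then Wt w ab.1 ab.2 j S else 0) ≤
      ∏ p ∈ S, h j p (z p) := by
  induction j with
  | zero =>
    intro S z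
    have hS : 0 ≤ ∏ p ∈ S, h 0 p (z p) := Finset.prod_nonneg fun p _ => hh 0 p (z p)
    refine Lin.ClA.Ex_le_const hS fun ab => ?_
    by_cases h1 : ∀ p ∈ S, net ab.1 ab.2 0 p = z p
    · rw [if_pos h1]
      have h2 : Wt w ab.1 ab.2 0 S = 1 := by unfold Wt; simp
      rw [h2]
      have h3 : ∀ p ∈ S, 1 ≤ h 0 p (z p) := by
        intro p hp
        rw [← h1 p hp, net, Rg_nil, Rg_nil, inv_one, mul_one, Perm.one_apply]
        exact hbase p
      calc (1 : ℝ) = ∏ _p ∈ S, (1 : ℝ) := by simp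
        _ ≤ ∏ p ∈ S, h 0 p (z p) := Finset.prod_le_prod (fun _ _ => zero_le_one) h3
    · rw [if_neg h1]
      exact hS
  | succ j ih =>
    intro S z
    have hjD : j < D := hj
    have ih' := ih hjD.le
    classical
    by_cases hne : ∃ ab : Cn m D × Cn m D, ∀ p ∈ S, net ab.1 ab.2 (j + 1) p = z p
    swap
    · have h0 : Ex (fun ab : Cn m D × Cn m D =>
          if ∀ p ∈ S, net ab.1 ab.2 (j + 1) p = z p then Wt w ab.1 ab.2 (j + 1) S else 0) = 0 := by
        unfold Lin.Ex
        rw [Finset.sum_eq_zero, zero_div]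
        intro ab _
        rw [if_neg fun h' => hne ⟨ab, h'⟩]
      rw [h0]
      exact Finset.prod_nonneg fun p _ => hh _ _ _
    · obtain ⟨ab0, hab0⟩ := hne
      set N := net ab0.1 ab0.2 (j + 1) with hN
      rw [Ex_resample ⟨j, hjD⟩]
      have hinner : ∀ xy : (Fin m → Fin 2) × (Fin m → Fin 2),
          Ex (fun ab : Cn m D × Cn m D =>
            if ∀ p ∈ S, net (Function.update ab.1 ⟨j, hjD⟩ xy.1)
              (Function.update ab.2 ⟨j, hjD⟩ xy.2) (j + 1) p = z p
            then Wt w (Function.update ab.1 ⟨j, hjD⟩ xy.1)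
              (Function.update ab.2 ⟨j, hjD⟩ xy.2) (j + 1) S else 0) ≤
          w j S N * ∏ p ∈ S, h j ((thorpPerm m xy.1)⁻¹ p) ((thorpPerm m xy.2)⁻¹ (N p)) := by
        intro xy
        set X := thorpPerm m xy.1 with hX
        set Y := thorpPerm m xy.2 with hY
        set S' := S.map (X⁻¹ : Perm (Fin (2 * m))).toEmbedding with hS'
        set z' : Fin (2 * m) → Fin (2 * m) := fun q => Y⁻¹ (z (X q)) with hz'
        have h1 : ∀ ab : Cn m D × Cn m D,
            (if ∀ p ∈ S, net (Function.update ab.1 ⟨j, hjD⟩ xy.1)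
              (Function.update ab.2 ⟨j, hjD⟩ xy.2) (j + 1) p = z p
            then Wt w (Function.update ab.1 ⟨j, hjD⟩ xy.1)
              (Function.update ab.2 ⟨j, hjD⟩ xy.2) (j + 1) S else 0) =
            w j S N * (if ∀ q ∈ S', net ab.1 ab.2 j q = z' q then Wt w ab.1 ab.2 j S'
              else 0) := by
          intro ab
          have hiff : (∀ p ∈ S, net (Function.update ab.1 ⟨j, hjD⟩ xy.1)
              (Function.update ab.2 ⟨j, hjD⟩ xy.2) (j + 1) p = z p) ↔
              (∀ q ∈ S', net ab.1 ab.2 j q = z' q) := by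
            rw [net_update_succ]
            constructor
            · intro h2 q hq
              rw [hS', Finset.mem_map] at hq
              obtain ⟨p, hp, rfl⟩ := hq
              have h3 := h2 p hp
              simp only [Perm.mul_apply] at h3
              simp only [hz', Equiv.toEmbedding_apply]
              have h4 : X (X⁻¹ p) = p := X.apply_symm_apply p
              rw [h4, ← h3]
              exact (Y.symm_apply_apply _).symm
            · intro h2 p hp
              have h3 := h2 (X⁻¹ p) (Finset.mem_map.mpr ⟨p, hp, rfl⟩)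
              simp only [hz'] at h3
              have h4 : X (X⁻¹ p) = p := X.apply_symm_apply p
              rw [h4] at h3
              simp only [Perm.mul_apply]
              rw [h3]
              exact Y.apply_symm_apply _
          by_cases hc : ∀ q ∈ S', net ab.1 ab.2 j q = z' q
          · rw [if_pos hc, if_pos (hiff.mpr hc), Wt_succ, mul_comm]
            congr 1
            rw [← net_update_succ ab.1 ab.2 hjD]
            refine hwc _ _ _ _ fun p hp => ?_
            rw [hiff.mpr hc p hp]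
            exact (hab0 p hp).symm
          · rw [if_neg hc, if_neg (fun h' => hc (hiff.mp h')), mul_zero]
        simp only [h1]
        rw [Lin.ClA.Ex_const_mul]
        refine mul_le_mul_of_nonneg_left ((ih' S' z').trans (le_of_eq ?_)) (hw _ _ _)
        rw [hS', Finset.prod_map]
        refine Finset.prod_congr rfl fun p hp => ?_
        simp only [hz', Equiv.toEmbedding_apply]
        have h4 : X (X⁻¹ p) = p := X.apply_symm_apply p
        rw [h4, ← hab0 p hp]
      refine (Lin.ClA.Ex_le hinner).trans ?_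
      rw [Lin.ClA.Ex_const_mul]
      refine (hlayer j hjD S N).trans (le_of_eq ?_)
      refine Finset.prod_congr rfl fun p hp => ?_
      rw [← hab0 p hp]

/-- Claim A for general kernels and weights. -/
theorem claimA_gen {D : ℕ} (h : ℕ → Fin (2 * m) → Fin (2 * m) → ℝ)
    (w : ℕ → Finset (Fin (2 * m)) → Perm (Fin (2 * m)) → ℝ)
    (hh : ∀ j x z, 0 ≤ h j x z) (hw : ∀ j S N, 0 ≤ w j S N)
    (hwc : ∀ j S N N', (∀ p ∈ S, N p = N' p) → w j S N = w j S N')
    (hbase : ∀ x, 1 ≤ h 0 x x)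
    (hlayer : ∀ j, j < D → ∀ S N, w j S N * Ex (fun xy : (Fin m → Fin 2) × (Fin m → Fin 2) =>
      ∏ p ∈ S, h j ((thorpPerm m xy.1)⁻¹ p) ((thorpPerm m xy.2)⁻¹ (N p))) ≤
        ∏ p ∈ S, h (j + 1) p (N p))
    (S : Finset (Fin (2 * m))) (z : Fin (2 * m) → Fin (2 * m)) :
    Ex (fun ab : Cn m D × Cn m D => if ∀ p ∈ S, net ab.1 ab.2 D p = z p then
      ∏ i ∈ Finset.range D, w i (occ ab.1 (i + 1) S) (net ab.1 ab.2 (i + 1)) else 0) ≤
      ∏ p ∈ S, h D p (z p) :=
  claimA_aux h w hh hw hwc hbase hlayer D le_rfl S z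

/-- Claim A with biases. -/
theorem claimA {D : ℕ} (h ε : ℕ → Fin (2 * m) → Fin (2 * m) → ℝ)
    (hh : ∀ j x z, 0 ≤ h j x z) (hε : ∀ j x z, 0 ≤ ε j x z) (hbase : ∀ x, 1 ≤ h 0 x x)
    (hstep : ∀ j, j < D → ∀ x z,
      fh (fun s s' => h j (bst x s) (bst z s')) false false ≤ h (j + 1) x z)
    (hb1 : ∀ j, j < D → ∀ x z,
      |fh (fun s s' => h j (bst x s) (bst z s')) true false| ≤ ε j x z * h (j + 1) x z)
    (hb2 : ∀ j, j < D → ∀ x z,
      |fh (fun s s' => h j (bst x s) (bst z s')) false true| ≤ ε j x z * h (j + 1) x z)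
    (S : Finset (Fin (2 * m))) (z : Fin (2 * m) → Fin (2 * m)) :
    Ex (fun ab : Cn m D × Cn m D => if ∀ p ∈ S, net ab.1 ab.2 D p = z p then
      ∏ i ∈ Finset.range D, wt (ε i) (occ ab.1 (i + 1) S) (net ab.1 ab.2 (i + 1)) else 0) ≤
      ∏ p ∈ S, h D p (z p) := by
  refine claimA_gen h (fun j => wt (ε j)) hh (fun j S N => (wt_pos (hε j) S N).le)
    (fun j S N N' hN => wt_congr _ hN) hbase ?_ S z
  intro j hjD S N
  have hkey := layer_bound S N (fun p s s' => h j (bst p s) (bst (N p) s'))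
    (fun p => h (j + 1) p (N p)) (ε j) (hε j) ?_ ?_ ?_ ?_
  · refine le_trans (le_of_eq ?_) hkey
    simp only [inv_thorp_apply]
  · intro p
    have h0 : 0 ≤ fh (fun s s' => h j (bst p s) (bst (N p) s')) false false := by
      unfold fh
      simp only [sg_false, one_mul]
      have h1 := hh j (bst p false) (bst (N p) false)
      have h2 := hh j (bst p true) (bst (N p) false)
      have h3 := hh j (bst p false) (bst (N p) true)
      have h4 := hh j (bst p true) (bst (N p) true)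
      linarith only [h1, h2, h3, h4]
    rw [abs_of_nonneg h0]
    exact hstep j hjD p (N p)
  · intro p
    refine le_trans ?_ (hstep j hjD p (N p))
    unfold fh
    simp only [sg_false, sg_true]
    have h1 := hh j (bst p false) (bst (N p) false)
    have h2 := hh j (bst p true) (bst (N p) false)
    have h3 := hh j (bst p false) (bst (N p) true)
    have h4 := hh j (bst p true) (bst (N p) true)
    rw [abs_le]
    constructor <;> linarith only [h1, h4, h2, h3]
  · exact fun p => hb1 j hjD p (N p)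
  · exact fun p => hb2 j hjD p (N p)

theorem orbit_conj_eq {P : Type*} (F : Perm P) (H : Subgroup (Perm P)) (p : P) :
    MulAction.orbit (H.map (MulAut.conj F).toMonoidHom) (F p) = F '' MulAction.orbit H p := by
  ext q
  constructor
  · rintro ⟨⟨g, hg⟩, rfl⟩
    obtain ⟨g', hg', rfl⟩ := hg
    refine ⟨g' p, ⟨⟨g', hg'⟩, rfl⟩, ?_⟩
    change F (g' p) = (F * g' * F⁻¹) (F p)
    simp only [Perm.coe_mul, Perm.coe_inv, Function.comp_apply, symm_apply_apply]
  · rintro ⟨q', ⟨⟨g, hg⟩, rfl⟩, rfl⟩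
    refine ⟨⟨F * g * F⁻¹, ⟨g, hg, rfl⟩⟩, ?_⟩
    change (F * g * F⁻¹) (F p) = F (g p)
    simp only [Perm.coe_mul, Perm.coe_inv, Function.comp_apply, symm_apply_apply]

theorem nOrb_conj_eq {P : Type*} (F : Perm P) (e κ : Perm P) (S : Set P) :
    nOrb (Subgroup.closure {F * e * F⁻¹, F * κ * F⁻¹}) (F '' S) =
      nOrb (Subgroup.closure {e, κ}) S := by
  have h1 : Subgroup.closure ({F * e * F⁻¹, F * κ * F⁻¹} : Set (Perm P)) =
      (Subgroup.closure {e, κ}).map (MulAut.conj F).toMonoidHom := by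
    rw [MonoidHom.map_closure, Set.image_pair]
    rfl
  rw [h1]
  set H := Subgroup.closure ({e, κ} : Set (Perm P)) with hH
  unfold Lin.nOrb
  have h2 : {O : Set P | (∃ p, O = MulAction.orbit (H.map (MulAut.conj F).toMonoidHom) p) ∧
      O ⊆ F '' S} = (fun O : Set P => F '' O) '' {O : Set P |
        (∃ p, O = MulAction.orbit H p) ∧ O ⊆ S} := by
    ext O
    constructor
    · rintro ⟨⟨p, rfl⟩, hO⟩
      obtain ⟨p', rfl⟩ := F.surjective p
      rw [orbit_conj_eq] at hO ⊢
      exact ⟨_, ⟨⟨p', rfl⟩, (Set.image_subset_image_iff F.injective).mp hO⟩, rfl⟩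
    · rintro ⟨O', ⟨⟨p, rfl⟩, hO⟩, rfl⟩
      exact ⟨⟨F p, (orbit_conj_eq F H p).symm⟩, Set.image_mono hO⟩
  rw [h2]
  exact Set.ncard_image_of_injective _ (Set.image_injective.mpr F.injective)

theorem par_mul_thorp (c : Fin m → Fin 2) :
    par m * thorpPerm m c = thorpPerm m c * opp m := by
  rw [thorpPerm_eq]
  ext1 x
  obtain ⟨⟨b, l⟩, rfl⟩ := (topEquiv m).symm.surjective x
  have h1 : ∀ b' : Bool, (topEquiv m).symm.permCongr (colSwap fun i => finTwoEquiv (c i))
      ((topEquiv m).symm (b', l)) = (topEquiv m).symm (xor (finTwoEquiv (c l)) b', l) := by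
    intro b'
    change (topEquiv m).symm (colSwap (fun i => finTwoEquiv (c i))
      ((topEquiv m) ((topEquiv m).symm (b', l)))) = _
    rw [Equiv.apply_symm_apply]
    rfl
  have h2 : opp m ((topEquiv m).symm (b, l)) = (topEquiv m).symm (!b, l) := by
    change topFlip m ((topEquiv m).symm (b, l)) = _
    unfold topFlip
    rw [Equiv.apply_symm_apply]
  simp only [Perm.mul_apply]
  rw [h1, h2, h1]
  have h3 : ∀ q : Bool × Fin m, thorpPerm m 0 ((topEquiv m).symm q) = wireEquiv m q := fun q => rfl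
  rw [h3, h3]
  change wireEquiv m (!((wireEquiv m).symm (wireEquiv m _)).1,
    ((wireEquiv m).symm (wireEquiv m _)).2) = _
  rw [Equiv.symm_apply_apply]
  simp

theorem conj_opp (c : Fin m → Fin 2) :
    thorpPerm m c * opp m * (thorpPerm m c)⁻¹ = par m := by
  rw [← par_mul_thorp, mul_assoc, mul_inv_cancel, mul_one]

theorem conj_kap (c c' : Fin m → Fin 2) (N : Perm (Fin (2 * m))) :
    thorpPerm m c * kap N * (thorpPerm m c)⁻¹ =
      kapO (thorpPerm m c' * N * (thorpPerm m c)⁻¹) := by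
  unfold kap kapO
  have h1 : (thorpPerm m c')⁻¹ * par m * thorpPerm m c' = opp m := by
    rw [mul_assoc, par_mul_thorp, ← mul_assoc, inv_mul_cancel, one_mul]
  rw [← h1]
  simp only [mul_inv_rev, inv_inv, mul_assoc]

theorem net_succ {D : ℕ} (a b : Cn m D) {j : ℕ} (hj : j < D) :
    net a b (j + 1) = thorpPerm m (b ⟨j, hj⟩) * net a b j * (thorpPerm m (a ⟨j, hj⟩))⁻¹ := by
  rw [net, net, Rg_succ _ hj, Rg_succ _ hj, mul_inv_rev, ← mul_assoc, ← mul_assoc]

theorem occ_succ {D : ℕ} (a : Cn m D) {j : ℕ} (hj : j < D) (S : Finset (Fin (2 * m))) :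
    occ a (j + 1) S = (occ a j S).map (thorpPerm m (a ⟨j, hj⟩)).toEmbedding := by
  unfold occ
  rw [Rg_succ _ hj, mul_assoc, map_mul_emb]

/-- The loops on the inner side of a layer. -/
theorem loops_eq {D : ℕ} (a b : Cn m D) (S : Finset (Fin (2 * m))) {j : ℕ} (hj : j < D) :
    loops a b S j = nOrb (Subgroup.closure {par m, kapO (net a b (j + 1))})
      (occ a (j + 1) S : Set (Fin (2 * m))) := by
  unfold loops
  rw [net_succ a b hj, occ_succ a hj, ← conj_kap, ← conj_opp (a ⟨j, hj⟩), Finset.coe_map]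
  exact (nOrb_conj_eq _ _ _ _).symm

end Vale.Agent.P162.Ring
end
end
end

section

section

section

/-!
# P162, ring network: Claim A with the cost (loops of all levels, touched wires of the levels in
`Xc`)
-/

namespace Vale.Agent.P162.Ring

open Equiv Finset
open Vale.Agent.P162.Lin (Ex nOrb)

variable {m : ℕ}

theorem opp_top (b : Bool) (l : Fin m) : opp m (top m (b, l)) = top m (!b, l) := by
  change topFlip m ((topEquiv m).symm (b, l)) = _
  unfold topFlip
  rw [Equiv.apply_symm_apply]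
  rfl

theorem opp_bst (p : Fin (2 * m)) (s : Bool) : opp m (bst p s) = bst p (!s) := opp_top s (sw p)

/-- The touched wires on the outer side. -/
theorem card_touched_outer {D : ℕ} (a b : Cn m D) (S : Finset (Fin (2 * m))) {j : ℕ}
    (hj : j < D) :
    ((occ a (j + 1) S).filter (fun p => par m p ∈ occ a (j + 1) S ∨
      kapO (net a b (j + 1)) p ∈ occ a (j + 1) S)).card = tc a b S j := by
  unfold tc
  set T := occ a j S with hT
  set g := thorpPerm m (a ⟨j, hj⟩) with hg
  have h1 : occ a (j + 1) S = T.map g.toEmbedding := occ_succ a hj S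
  have h2 : ∀ q, par m (g q) = g (opp m q) := by
    intro q
    have := par_mul_thorp (a ⟨j, hj⟩)
    exact congrArg (fun σ : Perm (Fin (2 * m)) => σ q) this
  have h3 : ∀ q, kapO (net a b (j + 1)) (g q) = g (kap (net a b j) q) := by
    intro q
    rw [net_succ a b hj, ← conj_kap]
    simp only [Perm.mul_apply]
    have h4 : g⁻¹ (g q) = q := g.symm_apply_apply q
    rw [← hg, h4]
  rw [h1]
  refine (congrArg Finset.card ?_).trans (Finset.card_map g.toEmbedding)
  ext x
  rw [Finset.mem_map, Finset.mem_filter, Finset.mem_map]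
  constructor
  · rintro ⟨⟨q, hq, rfl⟩, h⟩
    refine ⟨q, Finset.mem_filter.mpr ⟨hq, ?_⟩, rfl⟩
    change par m (g q) ∈ _ ∨ kapO (net a b (j + 1)) (g q) ∈ _ at h
    rw [h2, h3] at h
    exact h.imp (fun h => (Finset.mem_map' g.toEmbedding).mp h)
      (fun h => (Finset.mem_map' g.toEmbedding).mp h)
  · rintro ⟨q, hq, rfl⟩
    rw [Finset.mem_filter] at hq
    refine ⟨⟨q, hq.1, rfl⟩, ?_⟩
    change par m (g q) ∈ _ ∨ kapO (net a b (j + 1)) (g q) ∈ _
    rw [h2, h3]
    exact hq.2.imp (fun h => (Finset.mem_map' g.toEmbedding).mpr h)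
      (fun h => (Finset.mem_map' g.toEmbedding).mpr h)

/-- **Claim A** for kernels which are rotation invariant outside the levels `Xc`. -/
theorem claimA_cost {D : ℕ} (Xc : Finset ℕ) (hXc : ∀ j ∈ Xc, j < D)
    (K : ℕ → Fin (2 * m) → Fin (2 * m) → ℝ) (hK : ∀ j p q, 0 ≤ K j p q)
    (hK0 : ∀ p, 1 ≤ K 0 p p)
    (hstep : ∀ j p q, ∑ s : Bool, ∑ s' : Bool, K j (bst p s) (bst q s') ≤ 4 * K (j + 1) p q)
    (hrot : ∀ j, j ∉ Xc → ∀ p q, K j (opp m p) (opp m q) = K j p q)
    (S : Finset (Fin (2 * m))) (z : Fin (2 * m) → Fin (2 * m)) :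
    Ex (fun ab : Cn m D × Cn m D => if ∀ p ∈ S, net ab.1 ab.2 D p = z p then
      ((1 : ℝ) / 2) ^ cost Xc ab.1 ab.2 S else 0) ≤ ∏ p ∈ S, K D p (z p) := by
  classical
  have h00 : ∀ j p q, 0 ≤ fh (fun s s' => K j (bst p s) (bst q s')) false false ∧
      fh (fun s s' => K j (bst p s) (bst q s')) false false ≤ K (j + 1) p q := by
    intro j p q
    have h1 := hK j (bst p false) (bst q false)
    have h2 := hK j (bst p true) (bst q false)
    have h3 := hK j (bst p false) (bst q true)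
    have h4 := hK j (bst p true) (bst q true)
    have h5 := hstep j p q
    simp only [Fintype.sum_bool] at h5
    unfold fh
    simp only [sg_false, one_mul]
    constructor <;> linarith only [h1, h2, h3, h4, h5]
  have hall : ∀ j p q, |fh (fun s s' => K j (bst p s) (bst q s')) true false| ≤ K (j + 1) p q ∧
      |fh (fun s s' => K j (bst p s) (bst q s')) false true| ≤ K (j + 1) p q := by
    intro j p q
    have h1 := hK j (bst p false) (bst q false)
    have h2 := hK j (bst p true) (bst q false)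
    have h3 := hK j (bst p false) (bst q true)
    have h4 := hK j (bst p true) (bst q true)
    have h5 := hstep j p q
    simp only [Fintype.sum_bool] at h5
    unfold fh
    simp only [sg_false, sg_true, abs_le]
    refine ⟨⟨?_, ?_⟩, ⟨?_, ?_⟩⟩ <;> linarith only [h1, h3, h5, h2, h4]
  have hzero : ∀ j, j ∉ Xc → ∀ p q,
      fh (fun s s' => K j (bst p s) (bst q s')) true false = 0 ∧
      fh (fun s s' => K j (bst p s) (bst q s')) false true = 0 := by
    intro j hj p q
    have h1 := hrot j hj (bst p false) (bst q false)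
    have h2 := hrot j hj (bst p true) (bst q false)
    rw [opp_bst, opp_bst] at h1 h2
    simp only [Bool.not_false, Bool.not_true] at h1 h2
    unfold fh
    simp only [sg_false, sg_true]
    rw [h1, h2]
    constructor <;> ring
  have hmain := claimA (D := D) K (fun j _ _ => if j ∈ Xc then 1 else 0) hK
    (fun j _ _ => by split_ifs <;> norm_num) hK0 (fun j _ p q => (h00 j p q).2)
    (fun j _ p q => by
      by_cases h : j ∈ Xc
      · rw [if_pos h, one_mul]
        exact (hall j p q).1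
      · rw [if_neg h, zero_mul, (hzero j h p q).1, abs_zero])
    (fun j _ p q => by
      by_cases h : j ∈ Xc
      · rw [if_pos h, one_mul]
        exact (hall j p q).2
      · rw [if_neg h, zero_mul, (hzero j h p q).2, abs_zero]) S z
  refine le_trans (le_of_eq ?_) hmain
  congr 1
  funext ab
  by_cases h : ∀ p ∈ S, net ab.1 ab.2 D p = z p
  · rw [if_pos h, if_pos h]
    have hlev : ∀ i ∈ Finset.range D,
        wt (fun _ _ => if i ∈ Xc then (1 : ℝ) else 0) (occ ab.1 (i + 1) S)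
          (net ab.1 ab.2 (i + 1)) =
        (1 / 2 : ℝ) ^ loops ab.1 ab.2 S i *
          (1 / 2 : ℝ) ^ (if i ∈ Xc then tc ab.1 ab.2 S i else 0) := by
      intro i hi
      rw [Finset.mem_range] at hi
      unfold wt
      rw [← loops_eq ab.1 ab.2 S hi]
      congr 1
      rw [Finset.prod_const, card_touched_outer ab.1 ab.2 S hi]
      by_cases hx : i ∈ Xc
      · rw [if_pos hx, if_pos hx]
        norm_num
      · rw [if_neg hx, if_neg hx]
        norm_num
    rw [Finset.prod_congr rfl hlev, Finset.prod_mul_distrib, Finset.prod_pow_eq_pow_sum,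
      Finset.prod_pow_eq_pow_sum, ← pow_add]
    congr 1
    unfold cost totLoops
    congr 1
    · rw [Finset.sum_range]
    · rw [← Finset.sum_filter]
      refine Finset.sum_congr ?_ fun _ _ => rfl
      ext i
      rw [Finset.mem_filter, Finset.mem_range]
      exact ⟨fun hi => ⟨hXc i hi, hi⟩, fun hi => hi.2⟩
  · rw [if_neg h, if_neg h]

end Vale.Agent.P162.Ring
end
end
end

section

section

section

/-!
# The mixing time of the Thorp shuffle is of order `log n` for every even `n`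
-/

namespace Vale.Agent.P162.Ring

open Equiv
open Vale.Agent.P162.Lin (Ex final_all_even_of)

theorem bk_eq_bst {m : ℕ} (p : Fin (2 * m)) (s : Bool) : bst p s = bk p (finTwoEquiv.symm s) := by
  ext
  rw [bst_val]
  cases s <;> simp [bk, finTwoEquiv, add_comm]

theorem kerBound : KerBound := by
  intro m D u hm hD S z
  obtain ⟨K, hK, hK0, hstep, hrot, hend⟩ := exists_kernel m hm u
  have ha : padicValNat 2 (2 * m) ≤ Nat.log 2 (2 * m) := padicValNat_le_nat_log _
  have hXc : ∀ j ∈ Xcl m u, j < D := by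
    intro j hj
    unfold Xcl at hj
    rw [Finset.mem_union, Finset.mem_range, Finset.mem_Ico] at hj
    omega
  have h := claimA_cost (Xcl m u) hXc K hK hK0 (by
      intro j p q
      refine le_trans (le_of_eq ?_) (hstep j p q)
      rw [← Equiv.sum_comp finTwoEquiv.symm]
      refine Finset.sum_congr rfl fun s _ => ?_
      rw [← Equiv.sum_comp finTwoEquiv.symm]
      refine Finset.sum_congr rfl fun s' _ => ?_
      rw [bk_eq_bst, bk_eq_bst])
    (by
      intro j hj p q
      refine hrot j ?_ p q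
      unfold Xcl at hj
      rw [Finset.mem_union, Finset.mem_range, Finset.mem_Ico] at hj
      omega) S z
  refine h.trans (le_of_eq ?_)
  rw [Finset.prod_congr rfl (fun p _ => hend D hD p (z p)), Finset.prod_const]

theorem densBound : DensBound := by
  refine ⟨1, by norm_num, fun m D t j hm ht hj S x hx => ⟨?_, ?_⟩⟩
  · rw [one_mul]
    exact dens_L hm j t hj ht S x hx
  · rw [one_mul]
    exact dens_R hm j t hj ht S x hx

/-- The mixing time of the Thorp shuffle of `2 m` cards is of order `log (2 m)`, for all `m`. -/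
theorem all_even_log : ∃ c C : ℝ, 0 < c ∧ ∀ m : ℕ, 1 ≤ m →
    c * Real.log ((2 * m : ℕ) : ℝ) ≤ (tmix m : ℝ) ∧
    (tmix m : ℝ) ≤ C * Real.log ((2 * m : ℕ) : ℝ) ∧
    ∀ t : ℕ, tmix m ≤ t → tvUnif (convPow (thorpLaw m) t) ≤ 1 / 4 :=
  final_all_even_of (moment_bound kerBound densBound)

end Vale.Agent.P162.Ring
end
end
end
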